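import Mathlib

/-!
Definitions used by the statements for P157 (Gaussian perceptron).
-/

noncomputable section

open MeasureTheory ProbabilityTheory
open scoped ENNReal

namespace Vale.Agent.P157

/-- The law of an `M × N` array of independent standard Gaussian variables. -/
def patterns (M N : ℕ) : Measure (Fin M → Fin N → ℝ) :=
  Measure.pi fun _ => Measure.pi fun _ => gaussianReal 0 1

/-- The uniform probability measure on the cube with coordinates in `{-1, 1}`. -/
def isingLaw (N : ℕ) : Measure (Fin N → ℝ) :=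
  Measure.pi fun _ => (2 : ℝ≥0∞)⁻¹ • (Measure.dirac (1 : ℝ) + Measure.dirac (-1 : ℝ))

/-- The normalised surface measure on the sphere of radius `√N` in `ℝ^N`. -/
def sphereLaw (N : ℕ) : Measure (Fin N → ℝ) :=
  (((volume : Measure (EuclideanSpace ℝ (Fin N))).toSphere Set.univ)⁻¹ •
      (volume : Measure (EuclideanSpace ℝ (Fin N))).toSphere).map
    fun (u : Metric.sphere (0 : EuclideanSpace ℝ (Fin N)) 1) i =>
      Real.sqrt N * (u : EuclideanSpace ℝ (Fin N)) i

/-- The expected pressure `E p_N(f)` with `⌊α N⌋` patterns, for configuration laws `law`. -/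
def meanPressure (law : (N : ℕ) → Measure (Fin N → ℝ)) (α : ℝ) (f : ℝ → ℝ) (N : ℕ) : ℝ :=
  ∫ g, (1 / (N : ℝ)) * Real.log (∫ x, Real.exp (∑ a : Fin ⌊α * N⌋₊,
      f ((∑ i, g a i * x i) / Real.sqrt N)) ∂law N) ∂patterns ⌊α * N⌋₊ N

end Vale.Agent.P157
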