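import Mathlib

/-!
Generic lemmas on log-partition functions with independent random Hamiltonian terms.
-/

noncomputable section

open MeasureTheory ProbabilityTheory
open Real (exp log exp_pos exp_le_exp abs_exp le_log_iff_exp_le log_le_iff_le_exp log_div log_prod
  exp_sum measurable_log log_le_log log_le_sub_one_of_pos norm_eq_abs)

namespace Vale.Agent.P157

variable {Y : Type*} [MeasurableSpace Y]

/-- `log ∫ exp G`. -/
def lint (π : Measure Y) (G : Y → ℝ) : ℝ := Real.log (∫ y, Real.exp (G y) ∂π)

lemma integrable_of_abs_le {α : Type*} [MeasurableSpace α] {μ : Measure α} [IsFiniteMeasure μ]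
    {G : α → ℝ} {K : ℝ} (hm : Measurable G) (hb : ∀ y, |G y| ≤ K) : Integrable G μ :=
  Integrable.of_bound hm.aestronglyMeasurable K (Filter.Eventually.of_forall hb)

lemma integrable_exp_of_abs_le {π : Measure Y} [IsFiniteMeasure π] {G : Y → ℝ} {K : ℝ}
    (hm : Measurable G) (hb : ∀ y, |G y| ≤ K) : Integrable (fun y => exp (G y)) π :=
  Integrable.of_bound hm.exp.aestronglyMeasurable (exp K) (Filter.Eventually.of_forall fun y => by
    rw [norm_eq_abs, abs_exp]; exact exp_le_exp.2 ((le_abs_self _).trans (hb y)))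

lemma integral_exp_mem {π : Measure Y} [IsProbabilityMeasure π] {G : Y → ℝ} {K : ℝ}
    (hm : Measurable G) (hb : ∀ y, |G y| ≤ K) :
    exp (-K) ≤ ∫ y, exp (G y) ∂π ∧ ∫ y, exp (G y) ∂π ≤ exp K := by
  have hi := integrable_exp_of_abs_le (π := π) hm hb
  constructor
  · calc exp (-K) = ∫ _, exp (-K) ∂π := by simp
      _ ≤ _ := integral_mono (integrable_const _) hi fun y => exp_le_exp.2 (abs_le.1 (hb y)).1
  · calc _ ≤ ∫ _, exp K ∂π :=
          integral_mono hi (integrable_const _) fun y => exp_le_exp.2 (abs_le.1 (hb y)).2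
      _ = exp K := by simp

lemma abs_lint_le {π : Measure Y} [IsProbabilityMeasure π] {G : Y → ℝ} {K : ℝ}
    (hm : Measurable G) (hb : ∀ y, |G y| ≤ K) : |lint π G| ≤ K := by
  obtain ⟨h1, h2⟩ := integral_exp_mem (π := π) hm hb
  have hp := lt_of_lt_of_le (exp_pos _) h1
  rw [abs_le, lint]
  exact ⟨(le_log_iff_exp_le hp).2 h1, (log_le_iff_le_exp hp).2 h2⟩

lemma isProb_tilted {π : Measure Y} [IsProbabilityMeasure π] {G : Y → ℝ} {K : ℝ}
    (hm : Measurable G) (hb : ∀ y, |G y| ≤ K) : IsProbabilityMeasure (π.tilted G) :=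
  isProbabilityMeasure_tilted (integrable_exp_of_abs_le hm hb)

lemma lint_add {π : Measure Y} [IsProbabilityMeasure π] {G H : Y → ℝ} {K L : ℝ}
    (hm : Measurable G) (hb : ∀ y, |G y| ≤ K) (hm' : Measurable H) (hb' : ∀ y, |H y| ≤ L) :
    lint π (fun y => G y + H y) = lint π G + lint (π.tilted G) H := by
  have h1 := lt_of_lt_of_le (exp_pos _) (integral_exp_mem (π := π) hm hb).1
  have h2 := lt_of_lt_of_le (exp_pos _) (integral_exp_mem (π := π)
    (G := fun y => G y + H y) (K := K + L) (hm.add hm')
    (fun y => (abs_add_le _ _).trans (add_le_add (hb y) (hb' y)))).1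
  simp only [lint, integral_exp_tilted]
  rw [log_div (by simpa using h2.ne') h1.ne']
  simp [Pi.add_apply]

lemma measurable_lint {Ω : Type*} [MeasurableSpace Ω] (π : Measure Y) [SFinite π]
    {G : Ω → Y → ℝ} (hG : Measurable (Function.uncurry G)) :
    Measurable fun ω => lint π (G ω) :=
  measurable_log.comp
    (hG.exp.stronglyMeasurable.integral_prod_right' (ν := π)).measurable

lemma lint_map {Z : Type*} [MeasurableSpace Z] {π : Measure Y} {T : Y → Z} (hT : Measurable T)
    {G : Z → ℝ} (hG : Measurable G) : lint (π.map T) G = lint π (fun y => G (T y)) := by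
  rw [lint, lint, integral_map hT.aemeasurable hG.exp.aestronglyMeasurable]

lemma integral_log_le_log_integral {π : Measure Y} [IsProbabilityMeasure π] {h : Y → ℝ}
    {a b : ℝ} (ha : 0 < a) (hm : Measurable h) (hb : ∀ y, a ≤ h y ∧ h y ≤ b) :
    ∫ y, log (h y) ∂π ≤ log (∫ y, h y ∂π) := by
  have hi : Integrable h π := Integrable.of_bound hm.aestronglyMeasurable b
    (Filter.Eventually.of_forall fun y => by
      rw [norm_eq_abs, abs_of_pos (ha.trans_le (hb y).1)]; exact (hb y).2)
  have hl : Integrable (fun y => log (h y)) π := by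
    refine integrable_of_abs_le (K := |log a| + |log b|) (measurable_log.comp hm) fun y => ?_
    have h0 := ha.trans_le (hb y).1
    have h1 := log_le_log ha (hb y).1
    have h2 := log_le_log h0 (hb y).2
    rw [abs_le]
    constructor <;> nlinarith [le_abs_self (log a), neg_abs_le (log a), le_abs_self (log b),
      neg_abs_le (log b), abs_nonneg (log a), abs_nonneg (log b)]
  set A := ∫ y, h y ∂π with hA
  have hApos : 0 < A := ha.trans_le <| by
    calc a = ∫ _, a ∂π := by simp
      _ ≤ A := integral_mono (integrable_const _) hi fun y => (hb y).1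
  calc ∫ y, log (h y) ∂π ≤ ∫ y, (log A - 1 + h y / A) ∂π := by
        refine integral_mono hl ((integrable_const _).add (hi.div_const _)) fun y => ?_
        have h0 := ha.trans_le (hb y).1
        have := log_le_sub_one_of_pos (div_pos h0 hApos)
        rw [log_div h0.ne' hApos.ne'] at this
        linarith
    _ = log A := by
        rw [integral_add (integrable_const _) (hi.div_const _), integral_div, ← hA,
          div_self hApos.ne']
        simp

lemma lint_prod_ge {X : Type*} [MeasurableSpace X] {μ : Measure X} [IsProbabilityMeasure μ]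
    {π : Measure Y} [IsProbabilityMeasure π] {G : X → Y → ℝ} {K : ℝ}
    (hm : Measurable (Function.uncurry G)) (hb : ∀ x y, |G x y| ≤ K) :
    ∫ x, lint π (G x) ∂μ ≤ lint (μ.prod π) (Function.uncurry G) := by
  have hi : Integrable (fun z => exp (Function.uncurry G z)) (μ.prod π) :=
    integrable_exp_of_abs_le hm fun z => hb z.1 z.2
  rw [lint, integral_prod _ hi]
  exact integral_log_le_log_integral (exp_pos (-K))
    (hm.exp.stronglyMeasurable.integral_prod_right' (ν := π)).measurable
    fun x => integral_exp_mem hm.of_uncurry_left (hb x)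

lemma lint_pi {B : Type*} [Fintype B] {E : B → Type*} [∀ b, MeasurableSpace (E b)]
    (μ : ∀ b, Measure (E b)) [∀ b, IsProbabilityMeasure (μ b)] {G : ∀ b, E b → ℝ} {K : ℝ}
    (hm : ∀ b, Measurable (G b)) (hb : ∀ b y, |G b y| ≤ K) :
    lint (Measure.pi μ) (fun y => ∑ b, G b (y b)) = ∑ b, lint (μ b) (G b) := by
  simp only [lint, exp_sum]
  rw [integral_fintype_prod_eq_prod (fun b y => exp (G b y)), log_prod]
  intro b _
  exact (lt_of_lt_of_le (exp_pos _) (integral_exp_mem (hm b) (hb b)).1).ne'

variable {Ω Ω' : Type*} [MeasurableSpace Ω] [MeasurableSpace Ω']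

/-- A bounded jointly measurable family of Hamiltonian terms. -/
structure Nice (K : ℝ) (F : Ω → Y → ℝ) : Prop where
  meas : Measurable (Function.uncurry F)
  bound : ∀ ω y, |F ω y| ≤ K

/-- The expected log-partition function with `M` independent terms. -/
def Phi (P : Measure Ω) (F : Ω → Y → ℝ) (π : Measure Y) (M : ℕ) : ℝ :=
  ∫ ω : Fin M → Ω, lint π (fun y => ∑ a, F (ω a) y) ∂Measure.pi fun _ => P

namespace Nice

variable {K : ℝ} {F : Ω → Y → ℝ}

lemma meas_left (h : Nice K F) (ω : Ω) : Measurable (F ω) := h.meas.of_uncurry_left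

lemma sum_meas (h : Nice K F) (M : ℕ) :
    Measurable (Function.uncurry fun (ω : Fin M → Ω) y => ∑ a, F (ω a) y) :=
  Finset.measurable_sum _ fun a _ =>
    h.meas.comp (f := fun z : (Fin M → Ω) × Y => (z.1 a, z.2))
      (((measurable_pi_apply a).comp measurable_fst).prodMk measurable_snd)

lemma sum_bound (h : Nice K F) {M : ℕ} (ω : Fin M → Ω) (y : Y) :
    |∑ a, F (ω a) y| ≤ M * K := by
  refine (Finset.abs_sum_le_sum_abs _ _).trans ?_
  calc ∑ a, |F (ω a) y| ≤ ∑ _a : Fin M, K := Finset.sum_le_sum fun a _ => h.bound _ _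
    _ = M * K := by simp

lemma sum (h : Nice K F) (M : ℕ) :
    Nice (M * K) (fun (ω : Fin M → Ω) y => ∑ a, F (ω a) y) :=
  ⟨h.sum_meas M, fun ω y => h.sum_bound ω y⟩

lemma integrable_lint (h : Nice K F) (P : Measure Ω) [IsFiniteMeasure P] (π : Measure Y)
    [IsProbabilityMeasure π] : Integrable (fun ω => lint π (F ω)) P :=
  integrable_of_abs_le (measurable_lint π h.meas) fun ω => abs_lint_le (h.meas_left ω) (h.bound ω)

lemma add {F' : Ω' → Y → ℝ} {K' : ℝ} (h : Nice K F) (h' : Nice K' F') :
    Nice (K + K') (fun (p : Ω × Ω') y => F p.1 y + F' p.2 y) where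
  meas := (h.meas.comp ((measurable_fst.comp measurable_fst).prodMk measurable_snd)).add
    (h'.meas.comp ((measurable_snd.comp measurable_fst).prodMk measurable_snd))
  bound p y := (abs_add_le _ _).trans (add_le_add (h.bound _ _) (h'.bound _ _))

lemma comp (h : Nice K F) {g : Ω' → Ω} (hg : Measurable g) : Nice K (fun ω => F (g ω)) :=
  ⟨h.meas.comp ((hg.comp measurable_fst).prodMk measurable_snd), fun ω y => h.bound _ _⟩

end Nice

variable {P : Measure Ω} [IsProbabilityMeasure P] {π : Measure Y} [IsProbabilityMeasure π]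
  {K : ℝ} {F : Ω → Y → ℝ}

lemma Phi_zero : Phi P F π 0 = 0 := by simp [Phi, lint]

lemma abs_Phi_le (h : Nice K F) (M : ℕ) : |Phi P F π M| ≤ M * K := by
  have := norm_integral_le_of_norm_le_const (μ := Measure.pi fun _ : Fin M => P)
    (f := fun ω => lint π (fun y => ∑ a, F (ω a) y)) (C := M * K)
    (Filter.Eventually.of_forall fun ω =>
      abs_lint_le ((h.sum M).meas_left ω) ((h.sum M).bound ω))
  simpa [Phi] using this

lemma integral_lint_succ (h : Nice K F) (M : ℕ) :
    Phi P F π (M + 1) =
      ∫ p : Ω × (Fin M → Ω), lint π (fun y => F p.1 y + ∑ a, F (p.2 a) y)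
        ∂P.prod (Measure.pi fun _ => P) := by
  have e := measurePreserving_piFinSuccAbove (fun _ : Fin (M + 1) => P) 0
  rw [← e.integral_comp' (g := fun p : Ω × (Fin M → Ω) =>
    lint π (fun y => F p.1 y + ∑ a, F (p.2 a) y))]
  unfold Phi
  congr 1
  ext ω
  congr 1
  ext y
  rw [Fin.sum_univ_succ]
  rfl

lemma Phi_succ (h : Nice K F) (M : ℕ) :
    Phi P F π (M + 1) = ∫ ω, (lint π (F ω) + Phi P F (π.tilted (F ω)) M) ∂P := by
  rw [integral_lint_succ h, integral_prod _ ((h.add (h.sum M)).integrable_lint _ _)]
  congr 1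
  ext ω
  have := isProb_tilted (π := π) (h.meas_left ω) (h.bound ω)
  simp only [lint_add (h.meas_left ω) (h.bound ω) ((h.sum M).meas_left _) ((h.sum M).bound _)]
  rw [integral_add (integrable_const _) ((h.sum M).integrable_lint _ _)]
  simp [Phi]

lemma integrable_tilted_Phi {F' : Ω' → Y → ℝ} {K' : ℝ} (P' : Measure Ω') [IsProbabilityMeasure P']
    (h' : Nice K' F') (h : Nice K F) (M : ℕ) :
    Integrable (fun ω => lint π (F' ω) + Phi P F (π.tilted (F' ω)) M) P' := by
  have hi := ((h'.add (h.sum M)).integrable_lint (P'.prod (Measure.pi fun _ => P)) π).integral_prod_left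
  refine hi.congr (Filter.Eventually.of_forall fun ω => ?_)
  have := isProb_tilted (π := π) (h'.meas_left ω) (h'.bound ω)
  simp only [lint_add (h'.meas_left ω) (h'.bound ω) ((h.sum M).meas_left _) ((h.sum M).bound _)]
  rw [integral_add (integrable_const _) ((h.sum M).integrable_lint _ _)]
  simp [Phi]

/-- Pattern-by-pattern interpolation. -/
theorem Phi_swap_of_ae {P' : Measure Ω'} [IsProbabilityMeasure P'] {F' : Ω' → Y → ℝ} {K' e : ℝ}
    (Q : Y → Prop) (h : Nice K F) (h' : Nice K' F')
    (hyp : ∀ (ρ : Measure Y), IsProbabilityMeasure ρ → (∀ᵐ y ∂ρ, Q y) →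
      ∫ ω, lint ρ (F' ω) ∂P' - e ≤ ∫ ω, lint ρ (F ω) ∂P) (M : ℕ) :
    ∀ (π : Measure Y), IsProbabilityMeasure π → (∀ᵐ y ∂π, Q y) →
      Phi P' F' π M - M * e ≤ Phi P F π M := by
  induction M with
  | zero => intro π _ _; simp [Phi_zero]
  | succ M ih =>
    intro π hπ hQ
    have hint := (h.add (h.sum M)).integrable_lint (P.prod (Measure.pi fun _ => P)) π
    have hint' := (h'.add (h.sum M)).integrable_lint (P'.prod (Measure.pi fun _ => P)) π
    have step : ∫ p : Ω' × (Fin M → Ω), lint π (fun y => F' p.1 y + ∑ a, F (p.2 a) y)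
        ∂P'.prod (Measure.pi fun _ => P) - e ≤ Phi P F π (M + 1) := by
      rw [integral_lint_succ h, integral_prod_symm _ hint, integral_prod_symm _ hint']
      have hc : (∫ r : Fin M → Ω, (∫ ω, lint π (fun y => F' ω y + ∑ a, F (r a) y) ∂P')
          ∂Measure.pi fun _ => P) - e =
          ∫ r : Fin M → Ω, ((∫ ω, lint π (fun y => F' ω y + ∑ a, F (r a) y) ∂P') - e)
          ∂Measure.pi fun _ => P := by
        rw [integral_sub hint'.integral_prod_right (integrable_const _)]
        simp
      rw [hc]
      refine integral_mono (hint'.integral_prod_right.sub (integrable_const _))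
        hint.integral_prod_right fun r => ?_
      have hS := isProb_tilted (π := π) ((h.sum M).meas_left r) ((h.sum M).bound r)
      have e1 : ∀ ω, lint π (fun y => F ω y + ∑ a, F (r a) y) =
          lint π (fun y => ∑ a, F (r a) y) + lint (π.tilted fun y => ∑ a, F (r a) y) (F ω) := by
        intro ω
        rw [← lint_add ((h.sum M).meas_left r) ((h.sum M).bound r) (h.meas_left ω) (h.bound ω)]
        simp only [add_comm]
      have e2 : ∀ ω, lint π (fun y => F' ω y + ∑ a, F (r a) y) =
          lint π (fun y => ∑ a, F (r a) y) + lint (π.tilted fun y => ∑ a, F (r a) y) (F' ω) := by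
        intro ω
        rw [← lint_add ((h.sum M).meas_left r) ((h.sum M).bound r) (h'.meas_left ω) (h'.bound ω)]
        simp only [add_comm]
      have hy := hyp _ hS ((tilted_absolutelyContinuous _ _).ae_le hQ)
      simp only [e1, e2]
      rw [integral_add (integrable_const _) (h.integrable_lint _ _),
        integral_add (integrable_const _) (h'.integrable_lint _ _)]
      simp only [integral_const, probReal_univ, smul_eq_mul, one_mul]
      linarith
    have rec' : Phi P' F' π (M + 1) - (M : ℝ) * e ≤
        ∫ p : Ω' × (Fin M → Ω), lint π (fun y => F' p.1 y + ∑ a, F (p.2 a) y)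
          ∂P'.prod (Measure.pi fun _ => P) := by
      rw [Phi_succ h', integral_prod _ hint']
      have hi2 := integrable_tilted_Phi (π := π) (P := P') P' h' h' M
      have : ∫ ω, (lint π (F' ω) + Phi P' F' (π.tilted (F' ω)) M) ∂P' - (M : ℝ) * e =
          ∫ ω, (lint π (F' ω) + Phi P' F' (π.tilted (F' ω)) M - (M : ℝ) * e) ∂P' := by
        rw [integral_sub hi2 (integrable_const _)]
        simp
      rw [this]
      refine integral_mono (hi2.sub (integrable_const _)) hint'.integral_prod_left fun ω => ?_
      have hT := isProb_tilted (π := π) (h'.meas_left ω) (h'.bound ω)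
      have := ih _ hT ((tilted_absolutelyContinuous _ _).ae_le hQ)
      simp only [lint_add (h'.meas_left ω) (h'.bound ω) ((h.sum M).meas_left _)
        ((h.sum M).bound _)]
      rw [integral_add (integrable_const _) ((h.sum M).integrable_lint _ _)]
      simp only [integral_const, probReal_univ, smul_eq_mul, one_mul]
      change _ ≤ _ + Phi P F (π.tilted (F' ω)) M
      linarith
    push_cast
    linarith

theorem Phi_swap {P' : Measure Ω'} [IsProbabilityMeasure P'] {F' : Ω' → Y → ℝ} {K' e : ℝ}
    (h : Nice K F) (h' : Nice K' F')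
    (hyp : ∀ (ρ : Measure Y), IsProbabilityMeasure ρ →
      ∫ ω, lint ρ (F' ω) ∂P' - e ≤ ∫ ω, lint ρ (F ω) ∂P) (M : ℕ)
    (π : Measure Y) (hπ : IsProbabilityMeasure π) :
    Phi P' F' π M - M * e ≤ Phi P F π M :=
  Phi_swap_of_ae (fun _ => True) h h' (fun ρ hρ _ => hyp ρ hρ) M π hπ
    (Filter.Eventually.of_forall fun _ => trivial)

lemma abs_Phi_succ_sub_le (h : Nice K F) (M : ℕ) :
    ∀ (π : Measure Y), IsProbabilityMeasure π → |Phi P F π (M + 1) - Phi P F π M| ≤ K := by
  induction M with
  | zero =>
    intro π _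
    simpa [Phi_zero] using abs_Phi_le (P := P) (π := π) h 1
  | succ M ih =>
    intro π _
    rw [Phi_succ h (M + 1), Phi_succ h M, ← integral_sub
      (integrable_tilted_Phi P h h (M + 1)) (integrable_tilted_Phi P h h M)]
    have := norm_integral_le_of_norm_le_const (μ := P) (C := K)
      (f := fun ω => (lint π (F ω) + Phi P F (π.tilted (F ω)) (M + 1)) -
        (lint π (F ω) + Phi P F (π.tilted (F ω)) M))
      (Filter.Eventually.of_forall fun ω => by
        have hT := isProb_tilted (π := π) (h.meas_left ω) (h.bound ω)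
        simpa using ih _ hT)
    simpa using this

lemma abs_Phi_sub_le (h : Nice K F) (π : Measure Y) [IsProbabilityMeasure π] (m n : ℕ) :
    |Phi P F π m - Phi P F π n| ≤ K * |(m : ℝ) - n| := by
  wlog hmn : n ≤ m generalizing m n
  · rw [abs_sub_comm, abs_sub_comm (m : ℝ)]; exact this n m (le_of_not_ge hmn)
  induction m, hmn using Nat.le_induction with
  | base => simp
  | succ m hm ih =>
    have h1 := abs_Phi_succ_sub_le (P := P) h m π inferInstance
    have h2 : (n : ℝ) ≤ m := by exact_mod_cast hm
    rw [abs_of_nonneg (show (0 : ℝ) ≤ (m : ℝ) - n by linarith)] at ih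
    rw [abs_of_nonneg (show (0 : ℝ) ≤ ((m + 1 : ℕ) : ℝ) - n by push_cast; linarith)]
    calc |Phi P F π (m + 1) - Phi P F π n|
        ≤ |Phi P F π (m + 1) - Phi P F π m| + |Phi P F π m - Phi P F π n| := abs_sub_le _ _ _
      _ ≤ K + K * ((m : ℝ) - n) := add_le_add h1 ih
      _ = K * (((m + 1 : ℕ) : ℝ) - n) := by push_cast; ring

/-- Terms switched off by a mask do not matter. -/
lemma Phi_mask (h : Nice K F) (M : ℕ) :
    ∀ (π : Measure Y), IsProbabilityMeasure π → ∀ τ : Fin M → Bool,
      ∫ ω : Fin M → Ω, lint π (fun y => ∑ a, if τ a then F (ω a) y else 0)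
          ∂Measure.pi (fun _ => P) =
        Phi P F π (∑ a, if τ a then 1 else 0) := by
  induction M with
  | zero => intro π _ τ; rw [Fin.sum_univ_zero]; simp [Phi, lint]
  | succ M ih =>
    intro π hπ τ
    have hR : Nice (M * K) (fun (r : Fin M → Ω) y =>
        ∑ a, if τ a.succ then F (r a) y else 0) := by
      constructor
      · refine Finset.measurable_sum _ fun a _ => ?_
        split_ifs
        · exact h.meas.comp (f := fun z : (Fin M → Ω) × Y => (z.1 a, z.2))
            (((measurable_pi_apply a).comp measurable_fst).prodMk measurable_snd)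
        · exact measurable_const
      · intro r y
        refine (Finset.abs_sum_le_sum_abs _ _).trans ?_
        calc _ ≤ ∑ _a : Fin M, K := Finset.sum_le_sum fun a _ => by
                split_ifs
                · exact h.bound _ _
                · simpa using (abs_nonneg _).trans (h.bound (r a) y)
          _ = M * K := by simp
    have e := measurePreserving_piFinSuccAbove (fun _ : Fin (M + 1) => P) 0
    have key : ∫ ω : Fin (M + 1) → Ω, lint π (fun y => ∑ a, if τ a then F (ω a) y else 0)
          ∂Measure.pi (fun _ => P) =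
        ∫ p : Ω × (Fin M → Ω), lint π (fun y => (if τ 0 then F p.1 y else 0) +
          ∑ a : Fin M, if τ a.succ then F (p.2 a) y else 0) ∂P.prod (Measure.pi fun _ => P) := by
      rw [← e.integral_comp' (g := fun p : Ω × (Fin M → Ω) =>
        lint π (fun y => (if τ 0 then F p.1 y else 0) +
          ∑ a : Fin M, if τ a.succ then F (p.2 a) y else 0))]
      congr 1
      ext ω
      congr 1
      ext y
      rw [Fin.sum_univ_succ]
      rfl
    rw [key, Fin.sum_univ_succ (f := fun a => if τ a then 1 else 0)]
    cases h0 : τ 0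
    · simp only [Bool.false_eq_true, if_false, zero_add]
      rw [integral_fun_snd (fun r : Fin M → Ω => lint π (fun y =>
        ∑ a : Fin M, if τ a.succ then F (r a) y else 0))]
      simp [ih π hπ (fun a => τ a.succ)]
    · simp only [if_true]
      rw [add_comm 1, integral_prod _ ((h.add hR).integrable_lint _ _), Phi_succ h]
      congr 1
      ext ω
      have := isProb_tilted (π := π) (h.meas_left ω) (h.bound ω)
      simp only [lint_add (h.meas_left ω) (h.bound ω) (hR.meas_left _) (hR.bound _)]
      rw [integral_add (integrable_const _) (hR.integrable_lint _ _)]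
      simp [ih _ this (fun a => τ a.succ)]

lemma Phi_map_left {g : Ω' → Ω} (P' : Measure Ω') [IsProbabilityMeasure P']
    (hg : MeasurePreserving g P' P) (h : Nice K F) (π : Measure Y) [IsProbabilityMeasure π]
    (M : ℕ) : Phi P' (fun ω => F (g ω)) π M = Phi P F π M := by
  have e := measurePreserving_pi (fun _ : Fin M => P') (fun _ => P) (fun _ => hg)
  unfold Phi
  rw [← e.map_eq, integral_map e.measurable.aemeasurable
    (measurable_lint π (h.sum M).meas).aestronglyMeasurable]

end Vale.Agent.P157
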