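import Mathlib
import Vale.Agent.P157.Core

/-!
Trigonometric log-potentials: moments of the Gibbs average, the sign criterion for concavity in
the overlap array, and continuity in the feature map.
-/

noncomputable section

open MeasureTheory ProbabilityTheory
open scoped ENNReal

namespace Vale.Agent.P157

variable {ι : Type*} [Fintype ι]

/-- Standard Gaussian law on `ι → ℝ`. -/
abbrev gam (ι : Type*) [Fintype ι] : Measure (ι → ℝ) := Measure.pi fun _ : ι => gaussianReal 0 1

/-- Euclidean pairing. -/
def dot (g u : ι → ℝ) : ℝ := ∑ i, g i * u i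

/-- `∫ cos (t z + φ) μ(dt, dφ)`. -/
def cosT (ν : Measure (ℝ × ℝ)) (z : ℝ) : ℝ := ∫ p, Real.cos (p.1 * z + p.2) ∂ν

/-- The log-potential `c + log (1 - cosT ν z)`. -/
def pot (ν : Measure (ℝ × ℝ)) (c z : ℝ) : ℝ := c + Real.log (1 - cosT ν z)

/-- A bound for `|pot|`. -/
def potBound (ν : Measure (ℝ × ℝ)) (c : ℝ) : ℝ :=
  |c| + |Real.log (1 - ν.real Set.univ)| + Real.log 2

variable {ν : Measure (ℝ × ℝ)} [IsFiniteMeasure ν] {c : ℝ}

lemma abs_cosT_le (z : ℝ) : |cosT ν z| ≤ ν.real Set.univ := by
  have := norm_integral_le_of_norm_le_const (μ := ν) (f := fun p => Real.cos (p.1 * z + p.2)) (C := 1)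
    (Filter.Eventually.of_forall fun p => by simpa using Real.abs_cos_le_one (p.1 * z + p.2))
  simpa [cosT] using this

lemma continuous_cosT : Continuous (cosT ν) :=
  continuous_of_dominated (bound := fun _ => 1)
    (fun z => (by fun_prop : Continuous fun p : ℝ × ℝ =>
      Real.cos (p.1 * z + p.2)).aestronglyMeasurable)
    (fun z => Filter.Eventually.of_forall fun p => by
      simpa using Real.abs_cos_le_one (p.1 * z + p.2))
    (integrable_const _) (Filter.Eventually.of_forall fun t => by fun_prop)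

lemma measurable_dot : Measurable fun p : (ι → ℝ) × (ι → ℝ) => dot p.1 p.2 := by
  unfold dot; fun_prop

lemma measurable_pot : Measurable (pot ν c) :=
  measurable_const.add (Real.measurable_log.comp (measurable_const.sub continuous_cosT.measurable))

lemma one_sub_mem (z : ℝ) :
    1 - ν.real Set.univ ≤ 1 - cosT ν z ∧ 1 - cosT ν z ≤ 1 + ν.real Set.univ := by
  have := abs_le.1 (abs_cosT_le (ν := ν) z)
  constructor <;> linarith

lemma one_sub_pos (hν : ν.real Set.univ < 1) (z : ℝ) : 0 < 1 - cosT ν z := by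
  have := (one_sub_mem (ν := ν) z).1
  linarith

lemma abs_pot_le (hν : ν.real Set.univ < 1) (z : ℝ) : |pot ν c z| ≤ potBound ν c := by
  obtain ⟨h1, h2⟩ := one_sub_mem (ν := ν) z
  have hp := one_sub_pos hν z
  have l1 := Real.log_le_log (by linarith) h1
  have l2 := Real.log_le_log hp (h2.trans (by linarith : (1 : ℝ) + ν.real Set.univ ≤ 2))
  have h0 : 0 ≤ Real.log 2 := Real.log_nonneg (by norm_num)
  unfold pot potBound
  rw [abs_le]
  constructor <;> nlinarith [le_abs_self c, neg_abs_le c,
    le_abs_self (Real.log (1 - ν.real Set.univ)), neg_abs_le (Real.log (1 - ν.real Set.univ))]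

lemma exp_pot (hν : ν.real Set.univ < 1) (z : ℝ) :
    Real.exp (pot ν c z) = Real.exp c * (1 - cosT ν z) := by
  rw [pot, Real.exp_add, Real.exp_log (one_sub_pos hν z)]

variable {Y : Type*} [MeasurableSpace Y]

/-- The Hamiltonian term of a pattern seen through a feature map. -/
def term (f : ℝ → ℝ) (v : Y → ι → ℝ) (g : ι → ℝ) (y : Y) : ℝ := f (dot g (v y))

lemma measurable_dot_comp {v : Y → ι → ℝ} (hv : Measurable v) :
    Measurable fun p : (ι → ℝ) × Y => dot p.1 (v p.2) :=
  measurable_dot.comp (measurable_fst.prodMk (hv.comp measurable_snd))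

lemma nice_term {f : ℝ → ℝ} {K : ℝ} (hf : Measurable f) (hb : ∀ z, |f z| ≤ K)
    {v : Y → ι → ℝ} (hv : Measurable v) : Nice K (term f v) :=
  ⟨hf.comp (measurable_dot_comp hv), fun _ _ => hb _⟩

lemma nice_pot (hν : ν.real Set.univ < 1) {v : Y → ι → ℝ} (hv : Measurable v) :
    Nice (potBound ν c) (term (pot ν c) v) :=
  nice_term measurable_pot (abs_pot_le hν) hv

/-- The average of `cosT` seen through a feature map. -/
def avgCos (ν : Measure (ℝ × ℝ)) (π' : Measure Y) (v : Y → ι → ℝ) (g : ι → ℝ) : ℝ :=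
  ∫ y, cosT ν (dot g (v y)) ∂π'

variable {π' : Measure Y} [IsProbabilityMeasure π'] {v w : Y → ι → ℝ}

lemma abs_avgCos_le (g : ι → ℝ) : |avgCos ν π' v g| ≤ ν.real Set.univ := by
  have := norm_integral_le_of_norm_le_const (μ := π') (f := fun y => cosT ν (dot g (v y)))
    (C := ν.real Set.univ) (Filter.Eventually.of_forall fun y => by
      simpa using abs_cosT_le (ν := ν) _)
  simpa [avgCos] using this

lemma measurable_avgCos (hv : Measurable v) : Measurable (avgCos ν π' v) :=
  ((continuous_cosT.measurable.comp (measurable_dot_comp hv)).stronglyMeasurable.integral_prod_right'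
    (ν := π')).measurable

lemma integrable_cosT_dot (hv : Measurable v) (g : ι → ℝ) :
    Integrable (fun y => cosT ν (dot g (v y))) π' :=
  integrable_of_abs_le (K := ν.real Set.univ)
    (continuous_cosT.measurable.comp ((measurable_dot_comp hv).comp measurable_prodMk_left))
    fun _ => abs_cosT_le _

lemma lint_term_pot (hν : ν.real Set.univ < 1) (hv : Measurable v) (g : ι → ℝ) :
    lint π' (term (pot ν c) v g) = c + Real.log (1 - avgCos ν π' v g) := by
  have hp : 0 < 1 - avgCos ν π' v g := by
    have := abs_le.1 (abs_avgCos_le (ν := ν) (π' := π') (v := v) g)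
    linarith
  simp only [lint, term, exp_pot hν]
  rw [integral_const_mul, integral_sub (integrable_const _) (integrable_cosT_dot hv g)]
  simp only [integral_const, probReal_univ, smul_eq_mul, one_mul]
  change Real.log (Real.exp c * (1 - avgCos ν π' v g)) = _
  rw [Real.log_mul (Real.exp_pos c).ne' hp.ne', Real.log_exp]

lemma integral_cexp_dot (u : ι → ℝ) :
    ∫ g, Complex.exp ((dot g u : ℝ) * Complex.I) ∂gam ι =
      ((Real.exp (-(∑ i, u i ^ 2) / 2) : ℝ) : ℂ) := by
  simp only [dot, Complex.ofReal_sum, Finset.sum_mul, Complex.exp_sum]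
  rw [integral_fintype_prod_eq_prod
    (fun i (x : ℝ) => Complex.exp (((x * u i : ℝ) : ℂ) * Complex.I))]
  have h : ∀ i, ∫ x, Complex.exp (((x * u i : ℝ) : ℂ) * Complex.I) ∂gaussianReal 0 1 =
      ((Real.exp (-(u i) ^ 2 / 2) : ℝ) : ℂ) := by
    intro i
    have := charFun_gaussianReal (μ := 0) (v := 1) (u i)
    rw [charFun_apply_real] at this
    push_cast
    convert this using 2
    · ext x; congr 1; ring
    · simp; ring
  simp only [h, ← Complex.ofReal_prod, ← Real.exp_sum]
  rw [← Finset.sum_div, Finset.sum_neg_distrib]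

/-- The symmetrisation of a measure on frequency-phase pairs. -/
def symm (ν : Measure (ℝ × ℝ)) : Measure (ℝ × ℝ) := (2 : ℝ≥0∞)⁻¹ • (ν + ν.map Neg.neg)

instance : IsFiniteMeasure (symm ν) := by
  constructor
  simp [symm, ENNReal.mul_lt_top, ENNReal.add_lt_top, measure_lt_top]

lemma cosT_eq_integral_cexp (z : ℝ) :
    ((cosT ν z : ℝ) : ℂ) = ∫ p, Complex.exp (((p.1 * z + p.2 : ℝ) : ℂ) * Complex.I) ∂symm ν := by
  have hi : ∀ (μ : Measure (ℝ × ℝ)) [IsFiniteMeasure μ],
      Integrable (fun p => Complex.exp (((p.1 * z + p.2 : ℝ) : ℂ) * Complex.I)) μ := fun μ _ =>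
    Integrable.of_bound (by fun_prop : Continuous fun p : ℝ × ℝ =>
      Complex.exp (((p.1 * z + p.2 : ℝ) : ℂ) * Complex.I)).aestronglyMeasurable 1
      (Filter.Eventually.of_forall fun p => (Complex.norm_exp_ofReal_mul_I _).le)
  rw [symm, integral_smul_measure, integral_add_measure (hi ν) (hi _),
    integral_map (by fun_prop) (by fun_prop), cosT, ← integral_complex_ofReal]
  rw [← integral_add (hi ν) (by
    refine Integrable.of_bound (by fun_prop : Continuous fun p : ℝ × ℝ =>
      Complex.exp ((((-p).1 * z + (-p).2 : ℝ) : ℂ) * Complex.I)).aestronglyMeasurable 1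
      (Filter.Eventually.of_forall fun p => (Complex.norm_exp_ofReal_mul_I _).le))]
  rw [← integral_smul]
  congr 1
  ext p
  simp only [ENNReal.toReal_inv, ENNReal.toReal_ofNat, Complex.ofReal_cos, Complex.real_smul,
    Complex.cos, Prod.fst_neg, Prod.snd_neg]
  push_cast
  ring_nf

lemma avgCos_eq_integral_cexp (hv : Measurable v) (g : ι → ℝ) :
    ((avgCos ν π' v g : ℝ) : ℂ) =
      ∫ q : (ℝ × ℝ) × Y, Complex.exp (((q.1.1 * dot g (v q.2) + q.1.2 : ℝ) : ℂ) * Complex.I)
        ∂(symm ν).prod π' := by
  rw [avgCos, ← integral_complex_ofReal]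
  simp only [cosT_eq_integral_cexp]
  rw [integral_prod_symm]
  refine Integrable.of_bound (Measurable.aestronglyMeasurable ?_) 1
    (Filter.Eventually.of_forall fun p => (Complex.norm_exp_ofReal_mul_I _).le)
  have hd : Measurable fun q : (ℝ × ℝ) × Y => dot g (v q.2) :=
    (measurable_dot_comp hv).comp (f := fun q : (ℝ × ℝ) × Y => (g, q.2))
      (measurable_const.prodMk measurable_snd)
  exact Complex.continuous_exp.measurable.comp ((Complex.continuous_ofReal.measurable.comp
    (((measurable_fst.comp measurable_fst).mul hd).add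
      (measurable_snd.comp measurable_fst))).mul_const _)

/-- Replicated feature. -/
def mixVec {k : ℕ} (v : Y → ι → ℝ) (s : Fin k → (ℝ × ℝ) × Y) : ι → ℝ :=
  fun i => ∑ l, (s l).1.1 * v (s l).2 i

/-- Total phase of replicas. -/
def phase {k : ℕ} (s : Fin k → (ℝ × ℝ) × Y) : ℝ := ∑ l, (s l).1.2

/-- The Gaussian factor of replicas. -/
def gauss {k : ℕ} (v : Y → ι → ℝ) (s : Fin k → (ℝ × ℝ) × Y) : ℝ :=
  Real.exp (-(∑ i, mixVec v s i ^ 2) / 2)

lemma measurable_mixVec {k : ℕ} (hv : Measurable v) : Measurable (mixVec (k := k) v) := by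
  unfold mixVec
  refine measurable_pi_lambda _ fun i => Finset.measurable_sum _ fun l _ => ?_
  exact ((measurable_fst.comp measurable_fst).comp (measurable_pi_apply l)).mul
    ((measurable_pi_apply i).comp (hv.comp (measurable_snd.comp (measurable_pi_apply l))))

lemma measurable_gauss {k : ℕ} (hv : Measurable v) : Measurable (gauss (k := k) v) :=
  (((Finset.measurable_sum _ fun i _ =>
    ((measurable_pi_apply i).comp (measurable_mixVec hv)).pow_const 2)).neg.div_const 2).exp

omit [MeasurableSpace Y] in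
lemma gauss_mem {k : ℕ} (s : Fin k → (ℝ × ℝ) × Y) : 0 ≤ gauss v s ∧ gauss v s ≤ 1 := by
  refine ⟨(Real.exp_pos _).le, Real.exp_le_one_iff.2 ?_⟩
  have : 0 ≤ ∑ i, mixVec v s i ^ 2 := Finset.sum_nonneg fun i _ => sq_nonneg _
  linarith

lemma measurable_phase {k : ℕ} : Measurable (phase (k := k) (Y := Y)) := by
  unfold phase; fun_prop

lemma integrable_cos_gauss {k : ℕ} (hv : Measurable v) :
    Integrable (fun s => Real.cos (phase s) * gauss v s)
      (Measure.pi fun _ : Fin k => (symm ν).prod π') :=
  integrable_of_abs_le (K := 1) ((Real.measurable_cos.comp measurable_phase).mul (measurable_gauss hv))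
    fun s => by
      rw [abs_mul, abs_of_nonneg (gauss_mem s).1]
      exact mul_le_one₀ (Real.abs_cos_le_one _) (gauss_mem s).1 (gauss_mem s).2

lemma integral_avgCos_pow (hv : Measurable v) (k : ℕ) :
    ∫ g, avgCos ν π' v g ^ k ∂gam ι =
      ∫ s : Fin k → (ℝ × ℝ) × Y, Real.cos (phase s) * gauss v s
        ∂Measure.pi fun _ => (symm ν).prod π' := by
  have hc : ((∫ g, avgCos ν π' v g ^ k ∂gam ι : ℝ) : ℂ) =
      ∫ s : Fin k → (ℝ × ℝ) × Y, Complex.exp (((phase s : ℝ) : ℂ) * Complex.I) * (gauss v s : ℂ)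
        ∂Measure.pi fun _ => (symm ν).prod π' := by
    rw [← integral_complex_ofReal]
    simp only [Complex.ofReal_pow, avgCos_eq_integral_cexp hv]
    have h1 : ∀ g : ι → ℝ, (∫ q : (ℝ × ℝ) × Y,
        Complex.exp (((q.1.1 * dot g (v q.2) + q.1.2 : ℝ) : ℂ) * Complex.I) ∂(symm ν).prod π') ^ k =
        ∫ s : Fin k → (ℝ × ℝ) × Y, Complex.exp (((phase s : ℝ) : ℂ) * Complex.I) *
          Complex.exp (((dot g (mixVec v s) : ℝ) : ℂ) * Complex.I)
          ∂Measure.pi fun _ => (symm ν).prod π' := by
      intro g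
      have hp := integral_fintype_prod_eq_pow (ι := Fin k) (μ := (symm ν).prod π')
        (fun q : (ℝ × ℝ) × Y =>
          Complex.exp (((q.1.1 * dot g (v q.2) + q.1.2 : ℝ) : ℂ) * Complex.I))
      rw [Fintype.card_fin] at hp
      rw [← hp]
      congr 1
      ext s
      rw [← Complex.exp_sum, ← Finset.sum_mul, ← Complex.ofReal_sum, ← Complex.exp_add,
        ← add_mul, ← Complex.ofReal_add]
      congr 3
      rw [Finset.sum_add_distrib, phase, add_comm]
      congr 1
      simp only [dot, mixVec, Finset.mul_sum]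
      rw [Finset.sum_comm]
      exact Finset.sum_congr rfl fun i _ => Finset.sum_congr rfl fun l _ => by ring
    simp only [h1]
    rw [integral_integral_swap]
    · simp only [integral_const_mul, integral_cexp_dot]
      rfl
    · refine Integrable.of_bound (Measurable.aestronglyMeasurable ?_) 1
        (Filter.Eventually.of_forall fun p => by
          simp only [Function.uncurry, norm_mul, Complex.norm_exp_ofReal_mul_I, mul_one, le_refl])
      refine (Complex.continuous_exp.measurable.comp ((Complex.continuous_ofReal.measurable.comp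
        (measurable_phase.comp measurable_snd)).mul_const _)).mul
          (Complex.continuous_exp.measurable.comp ((Complex.continuous_ofReal.measurable.comp
            (measurable_dot_comp (measurable_mixVec (k := k) hv))).mul_const _))
  have hre := congrArg Complex.re hc
  rw [Complex.ofReal_re] at hre
  rw [hre, ← Complex.reCLM_apply, ← ContinuousLinearMap.integral_comp_comm]
  · congr 1
    ext s
    simp [Complex.exp_ofReal_mul_I_re]
  · refine Integrable.of_bound (Measurable.aestronglyMeasurable ?_) 1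
      (Filter.Eventually.of_forall fun s => ?_)
    · exact (Complex.continuous_exp.measurable.comp ((Complex.continuous_ofReal.measurable.comp
        measurable_phase).mul_const _)).mul
          (Complex.continuous_ofReal.measurable.comp (measurable_gauss hv))
    · rw [norm_mul, Complex.norm_exp_ofReal_mul_I, one_mul, Complex.norm_real, Real.norm_eq_abs,
        abs_of_nonneg (gauss_mem s).1]
      exact (gauss_mem s).2

/-- The Jensen gap of the Gaussian factor. -/
def gap {B : Type*} [Fintype B] (θ : B → ℝ) {k : ℕ} (v : Y → ι → ℝ) (vb : B → Y → ι → ℝ)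
    (s : Fin k → (ℝ × ℝ) × Y) : ℝ :=
  ∑ b, θ b * gauss (vb b) s - gauss v s

/-- The `k`-th replica gap. -/
def gapMoment (ν : Measure (ℝ × ℝ)) (π' : Measure Y) {B : Type*} [Fintype B] (θ : B → ℝ)
    (v : Y → ι → ℝ) (vb : B → Y → ι → ℝ) (k : ℕ) : ℝ :=
  ∫ s : Fin k → (ℝ × ℝ) × Y, Real.cos (phase s) * gap θ v vb s
    ∂Measure.pi fun _ => (symm ν).prod π'

lemma gapMoment_eq {B : Type*} [Fintype B] {θ : B → ℝ} {vb : B → Y → ι → ℝ}
    (hv : Measurable v) (hvb : ∀ b, Measurable (vb b)) (k : ℕ) :
    gapMoment ν π' θ v vb k =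
      ∑ b, θ b * ∫ g, avgCos ν π' (vb b) g ^ k ∂gam ι - ∫ g, avgCos ν π' v g ^ k ∂gam ι := by
  simp only [integral_avgCos_pow hv, integral_avgCos_pow (hvb _), gapMoment, gap, mul_sub,
    Finset.mul_sum, ← integral_const_mul]
  rw [← integral_finsetSum _ fun b _ => (integrable_cos_gauss (hvb b)).const_mul _,
    ← integral_sub (integrable_finsetSum _ fun b _ => (integrable_cos_gauss (hvb b)).const_mul _)
      (integrable_cos_gauss hv)]
  congr 1
  ext s
  congr 1
  exact Finset.sum_congr rfl fun b _ => by ring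

/-- If the partial sums of the replica gaps are nonnegative, mixing lowers the free energy. -/
theorem concave_of_gapMoment (hν : ν.real Set.univ < 1) {B : Type*} [Fintype B] {θ : B → ℝ}
    (hθ : ∀ b, 0 ≤ θ b) (hθ1 : ∑ b, θ b = 1) {v : Y → ι → ℝ} {vb : B → Y → ι → ℝ}
    (hv : Measurable v) (hvb : ∀ b, Measurable (vb b))
    (hgap : ∀ n : ℕ, 0 ≤ ∑ k ∈ Finset.range n, gapMoment ν π' θ v vb (k + 1) / (k + 1)) :
    ∑ b, θ b * ∫ g, lint π' (term (pot ν c) (vb b) g) ∂gam ι ≤
      ∫ g, lint π' (term (pot ν c) v g) ∂gam ι := by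
  set q := ν.real Set.univ with hq
  have hq0 : 0 ≤ q := measureReal_nonneg
  have approx : ∀ {u : Y → ι → ℝ}, Measurable u → ∀ n : ℕ,
      |(∫ g, lint π' (term (pot ν c) u g) ∂gam ι) -
        (c - ∑ k ∈ Finset.range n, (∫ g, avgCos ν π' u g ^ (k + 1) ∂gam ι) / (k + 1))| ≤
        q ^ (n + 1) / (1 - q) := by
    intro u hu n
    have hP : ∀ k, Integrable (fun g => avgCos ν π' u g ^ (k + 1)) (gam ι) := fun k =>
      integrable_of_abs_le (K := q ^ (k + 1)) ((measurable_avgCos hu).pow_const _) fun g => by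
        rw [abs_pow]; exact pow_le_pow_left₀ (abs_nonneg _) (abs_avgCos_le g) _
    have hS : Integrable
        (fun g => c - ∑ k ∈ Finset.range n, avgCos ν π' u g ^ (k + 1) / (k + 1)) (gam ι) :=
      (integrable_const c).sub (integrable_finsetSum _ fun k _ => (hP k).div_const _)
    have hL := (nice_pot (c := c) hν hu).integrable_lint (gam ι) π'
    have e : c - ∑ k ∈ Finset.range n, (∫ g, avgCos ν π' u g ^ (k + 1) ∂gam ι) / (k + 1) =
        ∫ g, (c - ∑ k ∈ Finset.range n, avgCos ν π' u g ^ (k + 1) / (k + 1)) ∂gam ι := by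
      rw [integral_sub (integrable_const _) (integrable_finsetSum _ fun k _ => (hP k).div_const _),
        integral_finsetSum _ fun k _ => (hP k).div_const _]
      simp [integral_div]
    rw [e, ← integral_sub hL hS]
    have hb : ∀ g, ‖lint π' (term (pot ν c) u g) -
        (c - ∑ k ∈ Finset.range n, avgCos ν π' u g ^ (k + 1) / (k + 1))‖ ≤
        q ^ (n + 1) / (1 - q) := by
      intro g
      have hm := abs_avgCos_le (ν := ν) (π' := π') (v := u) g
      rw [lint_term_pot hν hu, Real.norm_eq_abs]
      have := Real.abs_log_sub_add_sum_range_le (hm.trans_lt hν) n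
      refine le_trans (le_of_eq ?_) (this.trans ?_)
      · congr 1; ring
      · apply div_le_div₀ (pow_nonneg hq0 _) (pow_le_pow_left₀ (abs_nonneg _) hm _)
          (by linarith) (by linarith)
    have := norm_integral_le_of_norm_le_const (μ := gam ι) (Filter.Eventually.of_forall hb)
    simpa using this
  have hlim : Filter.Tendsto (fun n : ℕ => (∫ g, lint π' (term (pot ν c) v g) ∂gam ι) +
      2 * (q ^ (n + 1) / (1 - q))) Filter.atTop
      (nhds ((∫ g, lint π' (term (pot ν c) v g) ∂gam ι) + 2 * (0 / (1 - q)))) :=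
    tendsto_const_nhds.add ((((tendsto_pow_atTop_nhds_zero_of_lt_one hq0 hν).comp
      (Filter.tendsto_add_atTop_nat 1)).div_const _).const_mul 2)
  simp only [zero_div, mul_zero, add_zero] at hlim
  refine ge_of_tendsto' hlim fun n => ?_
  have h1 := abs_le.1 (approx hv n)
  have h2 : ∑ b, θ b * ∫ g, lint π' (term (pot ν c) (vb b) g) ∂gam ι ≤ ∑ b, θ b *
      (c - (∑ k ∈ Finset.range n, (∫ g, avgCos ν π' (vb b) g ^ (k + 1) ∂gam ι) / (k + 1))
        + q ^ (n + 1) / (1 - q)) :=
    Finset.sum_le_sum fun b _ => mul_le_mul_of_nonneg_left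
      (by have := abs_le.1 (approx (hvb b) n); linarith) (hθ b)
  simp only [mul_add, mul_sub, Finset.sum_add_distrib, Finset.sum_sub_distrib, Finset.mul_sum,
    ← Finset.sum_mul, hθ1, one_mul] at h2
  rw [Finset.sum_comm] at h2
  have h3 := hgap n
  simp only [gapMoment_eq hv hvb, sub_div, Finset.sum_div, mul_div_assoc,
    Finset.sum_sub_distrib] at h3
  linarith

lemma integral_abs_dot_le (d : ι → ℝ) :
    ∫ g, |dot g d| ∂gam ι ≤ Real.sqrt (∑ i, d i ^ 2) := by
  have hmem : ∀ i : ι, MemLp (fun x : ℝ => x * d i) 2 (gaussianReal 0 1) := fun i =>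
    (IsGaussian.memLp_two_id.mul_const (d i))
  have hL : MemLp (fun g => dot g d) 2 (gam ι) := by
    unfold dot
    exact memLp_finsetSum _ fun i _ =>
      (hmem i).comp_measurePreserving (measurePreserving_eval _ i)
  have hv := variance_sum_pi (μ := fun _ : ι => gaussianReal 0 1) hmem
  have e : (∑ i, fun g : ι → ℝ => g i * d i) = fun g => dot g d := by
    ext g; simp [dot]
  rw [e] at hv
  have hmean : ∫ g, dot g d ∂gam ι = 0 := by
    unfold dot
    have hi : ∀ i ∈ Finset.univ, Integrable (fun g : ι → ℝ => g i * d i) (gam ι) := fun i _ =>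
      (((hmem i).comp_measurePreserving (measurePreserving_eval _ i)).integrable one_le_two)
    rw [integral_finsetSum _ hi]
    simp [integral_mul_const, integral_eval]
  rw [variance_eq_sub hL, hmean] at hv
  have hsq : ∫ g, dot g d ^ 2 ∂gam ι = ∑ i, d i ^ 2 := by
    have : ∀ i, variance (fun x : ℝ => x * d i) (gaussianReal 0 1) = d i ^ 2 := by
      intro i
      rw [variance_mul_const]
      simp [variance_id_gaussianReal]
    simp only [this] at hv
    simpa using hv
  have h2 := variance_nonneg (fun g => |dot g d|) (gam ι)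
  rw [variance_eq_sub (show MemLp (fun g => |dot g d|) 2 (gam ι) from hL.norm)] at h2
  simp only [Pi.pow_apply, sq_abs] at h2
  rw [hsq] at h2
  exact Real.le_sqrt_of_sq_le (by linarith)

/-- Modulus of continuity of `cosT`. -/
lemma abs_cosT_sub_le (hν : ν.real Set.univ < 1) {T : ℝ} (hT : 0 ≤ T) :
    ∀ a b : ℝ, |cosT ν a - cosT ν b| ≤ 2 * ν.real {p : ℝ × ℝ | T < |p.1|} + T * |a - b| := by
  set q := ν.real Set.univ with hq
  set S := {p : ℝ × ℝ | T < |p.1|}
  have hS : MeasurableSet S := measurableSet_lt measurable_const (by fun_prop)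
  intro a b
  have hi : ∀ z : ℝ, Integrable (fun p : ℝ × ℝ => Real.cos (p.1 * z + p.2)) ν := fun z =>
    integrable_of_abs_le (K := 1) (by fun_prop) fun t => Real.abs_cos_le_one _
  have hiS : Integrable (fun t => (2 : ℝ) * S.indicator 1 t) ν :=
    ((integrable_const (1 : ℝ)).indicator hS).const_mul 2
  unfold cosT
  rw [← integral_sub (hi a) (hi b)]
  refine (abs_integral_le_integral_abs).trans ?_
  calc ∫ t, |Real.cos (t.1 * a + t.2) - Real.cos (t.1 * b + t.2)| ∂ν
      ≤ ∫ t, ((2 : ℝ) * S.indicator 1 t + T * |a - b|) ∂ν := by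
        refine integral_mono ((hi a).sub (hi b)).abs (hiS.add (integrable_const _)) fun t => ?_
        by_cases ht : t ∈ S
        · simp only [Set.indicator_of_mem ht, Pi.one_apply, mul_one]
          have := abs_sub (Real.cos (t.1 * a + t.2)) (Real.cos (t.1 * b + t.2))
          have := Real.abs_cos_le_one (t.1 * a + t.2)
          have := Real.abs_cos_le_one (t.1 * b + t.2)
          have := mul_nonneg hT (abs_nonneg (a - b))
          linarith
        · simp only [Set.indicator_of_notMem ht, mul_zero, zero_add]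
          have := Real.lipschitzWith_cos.dist_le_mul (t.1 * a + t.2) (t.1 * b + t.2)
          simp only [NNReal.coe_one, one_mul, Real.dist_eq] at this
          refine this.trans ?_
          rw [add_sub_add_right_eq_sub, ← mul_sub, abs_mul]
          exact mul_le_mul_of_nonneg_right (by simpa [S] using ht) (abs_nonneg _)
    _ = 2 * ν.real S + q * (T * |a - b|) := by
        rw [integral_add hiS (integrable_const _), integral_const_mul,
          integral_indicator_one hS]
        simp [hq]
    _ ≤ _ := by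
        have h1 : q * (T * |a - b|) ≤ 1 * (T * |a - b|) :=
          mul_le_mul_of_nonneg_right hν.le (mul_nonneg hT (abs_nonneg _))
        linarith

/-- A log-potential is usable: measurable, bounded, and uniformly continuous. -/
structure Usable (f : ℝ → ℝ) (K : ℝ) : Prop where
  meas : Measurable f
  bound : ∀ z, |f z| ≤ K
  modulus : ∀ ε : ℝ, 0 < ε → ∃ L, 0 ≤ L ∧ ∀ a b, |f a - f b| ≤ ε + L * |a - b|

lemma Usable.nonneg {f : ℝ → ℝ} {K : ℝ} (h : Usable f K) : 0 ≤ K := (abs_nonneg _).trans (h.bound 0)

lemma tendsto_tail_mass : Filter.Tendsto (fun n : ℕ => ν.real {p : ℝ × ℝ | (n : ℝ) < |p.1|})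
    Filter.atTop (nhds 0) := by
  have hanti : Antitone fun n : ℕ => {p : ℝ × ℝ | (n : ℝ) < |p.1|} := fun m n hmn t ht =>
    (lt_of_le_of_lt (Nat.cast_le.2 hmn) ht : (m : ℝ) < |t.1|)
  have hI : ⋂ n : ℕ, {p : ℝ × ℝ | (n : ℝ) < |p.1|} = ∅ := by
    ext t
    simp only [Set.mem_iInter, Set.mem_empty_iff_false, iff_false, not_forall]
    obtain ⟨n, hn⟩ := exists_nat_ge |t.1|
    exact ⟨n, fun h => (not_lt.2 hn) h⟩
  have := tendsto_measure_iInter_atTop (μ := ν)
    (fun n : ℕ => (measurableSet_lt (measurable_const (a := (n : ℝ)))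
      (by fun_prop : Measurable fun p : ℝ × ℝ => |p.1|)).nullMeasurableSet) hanti
    ⟨0, measure_ne_top _ _⟩
  rw [hI, measure_empty] at this
  exact (ENNReal.tendsto_toReal ENNReal.zero_ne_top).comp this

lemma usable_pot (hν : ν.real Set.univ < 1) : Usable (pot ν c) (potBound ν c) := by
  refine ⟨measurable_pot, abs_pot_le hν, fun ε hε => ?_⟩
  set q := ν.real Set.univ with hq
  have hq1 : 0 < 1 - q := by linarith
  obtain ⟨n, hn⟩ := ((tendsto_tail_mass (ν := ν)).eventually
    (ge_mem_nhds (show 0 < ε * (1 - q) / 2 by positivity))).exists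
  refine ⟨(n : ℝ) / (1 - q), div_nonneg (Nat.cast_nonneg _) hq1.le, fun a b => ?_⟩
  have h := abs_cosT_sub_le hν (Nat.cast_nonneg n) a b
  set A := 1 - cosT ν a with hA'
  set B := 1 - cosT ν b with hB'
  have hA : 1 - q ≤ A := (one_sub_mem (ν := ν) a).1
  have hB : 1 - q ≤ B := (one_sub_mem (ν := ν) b).1
  have hAp := hq1.trans_le hA
  have hBp := hq1.trans_le hB
  have hAB : |A - B| = |cosT ν a - cosT ν b| := by
    rw [hA', hB', ← abs_neg, show -(1 - cosT ν a - (1 - cosT ν b)) = cosT ν a - cosT ν b by ring]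
  have lA := Real.log_le_sub_one_of_pos (div_pos hAp hBp)
  have lB := Real.log_le_sub_one_of_pos (div_pos hBp hAp)
  rw [Real.log_div hAp.ne' hBp.ne', div_sub_one hBp.ne'] at lA
  rw [Real.log_div hBp.ne' hAp.ne', div_sub_one hAp.ne'] at lB
  have eA : (A - B) / B ≤ |A - B| / (1 - q) :=
    (div_le_div_of_nonneg_right (le_abs_self _) hBp.le).trans
      (div_le_div_of_nonneg_left (abs_nonneg _) hq1 hB)
  have eB : (B - A) / A ≤ |A - B| / (1 - q) :=
    (div_le_div_of_nonneg_right ((le_abs_self _).trans_eq (abs_sub_comm _ _)) hAp.le).trans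
      (div_le_div_of_nonneg_left (abs_nonneg _) hq1 hA)
  have e3 : |A - B| / (1 - q) ≤ ε + (n : ℝ) / (1 - q) * |a - b| := by
    rw [hAB, div_le_iff₀ hq1, add_mul,
      show (n : ℝ) / (1 - q) * |a - b| * (1 - q) = (n : ℝ) * |a - b| by field_simp]
    linarith
  simp only [pot, add_sub_add_left_eq_sub]
  rw [abs_le]
  constructor <;> linarith

/-- Continuity in the feature map. -/
theorem abs_lint_sub_le {f : ℝ → ℝ} {K : ℝ} (hf : Measurable f) (hb : ∀ z, |f z| ≤ K)
    {ε L η : ℝ} (hL : 0 ≤ L) (hmod : ∀ a b, |f a - f b| ≤ ε + L * |a - b|)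
    (hv : Measurable v) (hw : Measurable w)
    (hd : ∀ y, Real.sqrt (∑ i, (v y i - w y i) ^ 2) ≤ η) :
    |(∫ g, lint π' (term f v g) ∂gam ι) - ∫ g, lint π' (term f w g) ∂gam ι| ≤
      Real.exp (2 * K) * (ε + L * η) := by
  set D : (ι → ℝ) × Y → ℝ := fun z => |f (dot z.1 (v z.2)) - f (dot z.1 (w z.2))| with hDdef
  have hDm : Measurable D :=
    ((hf.comp (measurable_dot_comp hv)).sub (hf.comp (measurable_dot_comp hw))).abs
  have hDb : ∀ z, |D z| ≤ 2 * K := fun z => by
    rw [hDdef, abs_abs]
    refine (abs_sub _ _).trans ?_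
    linarith [hb (dot z.1 (v z.2)), hb (dot z.1 (w z.2))]
  have hDi : Integrable D ((gam ι).prod π') := integrable_of_abs_le hDm hDb
  have hD : ∀ y, Integrable (fun g => dot g (fun i => v y i - w y i)) (gam ι) := by
    intro y
    unfold dot
    exact integrable_finsetSum _ fun i _ =>
      (((IsGaussian.memLp_two_id (μ := gaussianReal 0 1)).comp_measurePreserving
        (measurePreserving_eval _ i)).integrable one_le_two).mul_const _
  have hn : ∀ {u : Y → ι → ℝ}, Measurable u → Nice K (term f u) := fun hu => nice_term hf hb hu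
  have hexp : ∀ a b : ℝ, |a| ≤ K → |b| ≤ K → |Real.exp a - Real.exp b| ≤ Real.exp K * |a - b| := by
    have one : ∀ a b : ℝ, b ≤ a → a ≤ K →
        |Real.exp a - Real.exp b| ≤ Real.exp K * |a - b| := fun a b hab ha => by
      have h := Real.add_one_le_exp (b - a)
      rw [Real.exp_sub, le_div_iff₀ (Real.exp_pos a)] at h
      have he := Real.exp_le_exp.2 hab
      rw [abs_of_nonneg (by linarith : 0 ≤ Real.exp a - Real.exp b), abs_of_nonneg (by linarith)]
      have := mul_le_mul_of_nonneg_right (Real.exp_le_exp.2 ha) (sub_nonneg.2 hab)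
      linarith
    intro a b ha hb'
    rcases le_total b a with h | h
    · exact one a b h ((le_abs_self _).trans ha)
    · rw [abs_sub_comm, abs_sub_comm a]; exact one b a h ((le_abs_self _).trans hb')
  have hpt : ∀ g, |lint π' (term f v g) - lint π' (term f w g)| ≤
      Real.exp (2 * K) * ∫ y, D (g, y) ∂π' := by
    intro g
    set A := ∫ y, Real.exp (term f v g y) ∂π' with hA'
    set B := ∫ y, Real.exp (term f w g y) ∂π' with hB'
    obtain ⟨a1, -⟩ := integral_exp_mem (π := π') ((hn hv).meas_left g) ((hn hv).bound g)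
    obtain ⟨b1, -⟩ := integral_exp_mem (π := π') ((hn hw).meas_left g) ((hn hw).bound g)
    rw [← hA'] at a1
    rw [← hB'] at b1
    have hAp := (Real.exp_pos (-K)).trans_le a1
    have hBp := (Real.exp_pos (-K)).trans_le b1
    have iv := integrable_exp_of_abs_le (π := π') ((hn hv).meas_left g) ((hn hv).bound g)
    have iw := integrable_exp_of_abs_le (π := π') ((hn hw).meas_left g) ((hn hw).bound g)
    have hg : Integrable (fun y => D (g, y)) π' :=
      integrable_of_abs_le (hDm.comp measurable_prodMk_left) fun y => hDb (g, y)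
    have hAB : |A - B| ≤ Real.exp K * ∫ y, D (g, y) ∂π' := by
      rw [hA', hB', ← integral_sub iv iw, ← integral_const_mul]
      exact abs_integral_le_integral_abs.trans (integral_mono (iv.sub iw).abs (hg.const_mul _)
        fun y => hexp _ _ ((hn hv).bound g y) ((hn hw).bound g y))
    have lA := Real.log_le_sub_one_of_pos (div_pos hAp hBp)
    have lB := Real.log_le_sub_one_of_pos (div_pos hBp hAp)
    rw [Real.log_div hAp.ne' hBp.ne', div_sub_one hBp.ne'] at lA
    rw [Real.log_div hBp.ne' hAp.ne', div_sub_one hAp.ne'] at lB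
    have eA : (A - B) / B ≤ |A - B| / Real.exp (-K) :=
      (div_le_div_of_nonneg_right (le_abs_self _) hBp.le).trans
        (div_le_div_of_nonneg_left (abs_nonneg _) (Real.exp_pos _) b1)
    have eB : (B - A) / A ≤ |A - B| / Real.exp (-K) :=
      (div_le_div_of_nonneg_right ((le_abs_self _).trans_eq (abs_sub_comm _ _)) hAp.le).trans
        (div_le_div_of_nonneg_left (abs_nonneg _) (Real.exp_pos _) a1)
    have e3 : |A - B| / Real.exp (-K) ≤ Real.exp (2 * K) * ∫ y, D (g, y) ∂π' := by
      rw [div_le_iff₀ (Real.exp_pos _), mul_right_comm, ← Real.exp_add,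
        show 2 * K + -K = K by ring]
      exact hAB
    change |Real.log A - Real.log B| ≤ _
    rw [abs_le]
    constructor <;> linarith
  rw [← integral_sub ((hn hv).integrable_lint _ _) ((hn hw).integrable_lint _ _)]
  refine abs_integral_le_integral_abs.trans ?_
  refine (integral_mono (((hn hv).integrable_lint _ _).sub ((hn hw).integrable_lint _ _)).abs
    (hDi.integral_prod_left.const_mul _) hpt).trans ?_
  rw [integral_const_mul]
  refine mul_le_mul_of_nonneg_left ?_ (Real.exp_pos _).le
  rw [integral_integral_swap hDi]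
  refine (integral_mono hDi.integral_prod_right (integrable_const (ε + L * η)) fun y => ?_).trans
    (le_of_eq (by simp))
  calc ∫ g, D (g, y) ∂gam ι ≤ ∫ g, (ε + L * |dot g (fun i => v y i - w y i)|) ∂gam ι := by
        refine integral_mono (integrable_of_abs_le (hDm.comp measurable_prodMk_right)
          fun g => hDb (g, y)) ((integrable_const _).add ((hD y).abs.const_mul L)) fun g => ?_
        have e : dot g (fun i => v y i - w y i) = dot g (v y) - dot g (w y) := by
          simp [dot, mul_sub, Finset.sum_sub_distrib]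
        rw [e]
        exact hmod _ _
    _ ≤ ε + L * η := by
        rw [integral_add (integrable_const _) ((hD y).abs.const_mul L)]
        simp only [integral_const, probReal_univ, smul_eq_mul, one_mul, integral_const_mul]
        have := mul_le_mul_of_nonneg_left
          ((integral_abs_dot_le (fun i => v y i - w y i)).trans (hd y)) hL
        linarith

end Vale.Agent.P157
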