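import Mathlib
import Vale.Agent.P157.Potential

/-!
Signs of the replica gaps: the positive-definite case and the quantitative criterion.
-/

noncomputable section

open MeasureTheory ProbabilityTheory
open scoped ENNReal

namespace Vale.Agent.P157

section jensen

variable {B : Type*} [Fintype B] {θ x : B → ℝ}

/-- Weighted variance. -/
def wvar (θ x : B → ℝ) : ℝ := ∑ b, θ b * (x b - ∑ d, θ d * x d) ^ 2

lemma wvar_eq (hθ1 : ∑ b, θ b = 1) :
    wvar θ x = ∑ b, θ b * x b ^ 2 - (∑ b, θ b * x b) ^ 2 := by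
  unfold wvar
  set m := ∑ d, θ d * x d with hm
  have : ∀ b, θ b * (x b - m) ^ 2 = θ b * x b ^ 2 - 2 * m * (θ b * x b) + m ^ 2 * θ b :=
    fun b => by ring
  simp only [this, Finset.sum_add_distrib, Finset.sum_sub_distrib, ← Finset.mul_sum, hθ1, ← hm]
  ring

lemma wvar_nonneg (hθ : ∀ b, 0 ≤ θ b) : 0 ≤ wvar θ x :=
  Finset.sum_nonneg fun b _ => mul_nonneg (hθ b) (sq_nonneg _)

lemma exp_gap_nonneg (hθ : ∀ b, 0 ≤ θ b) (hθ1 : ∑ b, θ b = 1) :
    0 ≤ ∑ b, θ b * Real.exp (-(x b) / 2) - Real.exp (-(∑ b, θ b * x b) / 2) := by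
  have h := convexOn_exp.map_sum_le (t := Finset.univ) (w := θ) (p := fun b => -(x b) / 2)
    (fun b _ => hθ b) hθ1 (fun b _ => Set.mem_univ _)
  simp only [smul_eq_mul] at h
  have e : ∑ b, θ b * (-(x b) / 2) = -(∑ b, θ b * x b) / 2 := by
    rw [← Finset.sum_neg_distrib, Finset.sum_div]
    exact Finset.sum_congr rfl fun b _ => by ring
  rw [e] at h
  linarith

lemma convexOn_sq_sub_exp : ConvexOn ℝ (Set.Iic (0 : ℝ)) fun y => y ^ 2 / 2 - Real.exp y := by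
  refine convexOn_of_hasDerivWithinAt2_nonneg (convex_Iic 0) (by fun_prop)
    (f' := fun y => y - Real.exp y) (f'' := fun y => 1 - Real.exp y) ?_ ?_ ?_
  · intro y _
    have h := ((hasDerivAt_pow 2 y).div_const 2).sub (Real.hasDerivAt_exp y)
    simp only [Nat.cast_ofNat, Nat.add_one_sub_one, pow_one] at h
    refine (h.congr_deriv ?_).hasDerivWithinAt
    ring
  · intro y _
    exact ((hasDerivAt_id y).sub (Real.hasDerivAt_exp y)).hasDerivWithinAt
  · intro y hy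
    rw [interior_Iic] at hy
    have := Real.exp_lt_one_iff.2 hy
    linarith

lemma exp_gap_le (hθ : ∀ b, 0 ≤ θ b) (hθ1 : ∑ b, θ b = 1) (hx : ∀ b, 0 ≤ x b) :
    ∑ b, θ b * Real.exp (-(x b) / 2) - Real.exp (-(∑ b, θ b * x b) / 2) ≤ wvar θ x / 8 := by
  have h := convexOn_sq_sub_exp.map_sum_le (t := Finset.univ) (w := θ) (p := fun b => -(x b) / 2)
    (fun b _ => hθ b) hθ1 (fun b _ => by
      simp only [Set.mem_Iic]; linarith [hx b])
  simp only [smul_eq_mul] at h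
  have e : ∑ b, θ b * (-(x b) / 2) = -(∑ b, θ b * x b) / 2 := by
    rw [← Finset.sum_neg_distrib, Finset.sum_div]
    exact Finset.sum_congr rfl fun b _ => by ring
  rw [e] at h
  simp only [mul_sub, Finset.sum_sub_distrib] at h
  have e2 : ∑ b, θ b * ((-(x b) / 2) ^ 2 / 2) = (∑ b, θ b * x b ^ 2) / 8 := by
    rw [Finset.sum_div]
    exact Finset.sum_congr rfl fun b _ => by ring
  rw [e2] at h
  rw [wvar_eq hθ1]
  linarith

lemma convex_gap_ge {ψ : ℝ → ℝ} {c : ℝ} (hθ : ∀ b, 0 ≤ θ b) (hθ1 : ∑ b, θ b = 1)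
    (hψ : ConvexOn ℝ (Set.Icc (-1 : ℝ) 1) fun ρ => ψ ρ - c / 2 * ρ ^ 2)
    (hx : ∀ b, x b ∈ Set.Icc (-1 : ℝ) 1) :
    c / 2 * wvar θ x ≤ ∑ b, θ b * ψ (x b) - ψ (∑ b, θ b * x b) := by
  have h := hψ.map_sum_le (t := Finset.univ) (w := θ) (p := x) (fun b _ => hθ b) hθ1
    (fun b _ => hx b)
  simp only [smul_eq_mul, mul_sub, Finset.sum_sub_distrib] at h
  have e : ∑ b, θ b * (c / 2 * x b ^ 2) = c / 2 * ∑ b, θ b * x b ^ 2 := by
    rw [Finset.mul_sum]
    exact Finset.sum_congr rfl fun b _ => by ring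
  rw [e] at h
  rw [wvar_eq hθ1]
  linarith

end jensen

variable {ι : Type*} [Fintype ι] {Y : Type*} [MeasurableSpace Y]
  {ν : Measure (ℝ × ℝ)} [IsFiniteMeasure ν]
  {B : Type*} [Fintype B] {θ : B → ℝ} {v : Y → ι → ℝ} {vb : B → Y → ι → ℝ}
  {π' : Measure Y} [IsProbabilityMeasure π']

/-- Squared norms split along the blocks. -/
def Splits (θ : B → ℝ) (v : Y → ι → ℝ) (vb : B → Y → ι → ℝ) : Prop :=
  ∀ (k : ℕ) (s : Fin k → (ℝ × ℝ) × Y),
    ∑ i, mixVec v s i ^ 2 = ∑ b, θ b * ∑ i, mixVec (vb b) s i ^ 2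

/-- Frequencies with zero phase. -/
def zeroPhase : Set (ℝ × ℝ) := {p | p.2 = 0}

lemma measurableSet_zeroPhase : MeasurableSet zeroPhase :=
  measurableSet_eq_fun measurable_snd measurable_const

omit [MeasurableSpace Y] in
lemma gap_eq (hsq : Splits θ v vb) {k : ℕ} (s : Fin k → (ℝ × ℝ) × Y) :
    gap θ v vb s = ∑ b, θ b * Real.exp (-(∑ i, mixVec (vb b) s i ^ 2) / 2) -
      Real.exp (-(∑ b, θ b * ∑ i, mixVec (vb b) s i ^ 2) / 2) := by
  rw [gap, ← hsq k s]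
  rfl

omit [MeasurableSpace Y] in
lemma gap_mem (hθ : ∀ b, 0 ≤ θ b) (hθ1 : ∑ b, θ b = 1) (hsq : Splits θ v vb) {k : ℕ}
    (s : Fin k → (ℝ × ℝ) × Y) :
    0 ≤ gap θ v vb s ∧ gap θ v vb s ≤ wvar θ (fun b => ∑ i, mixVec (vb b) s i ^ 2) / 8 := by
  rw [gap_eq hsq]
  exact ⟨exp_gap_nonneg hθ hθ1, exp_gap_le hθ hθ1 fun b => Finset.sum_nonneg fun i _ => sq_nonneg _⟩

lemma symm_compl_zeroPhase (h : ν zeroPhaseᶜ = 0) : symm ν zeroPhaseᶜ = 0 := by
  have hn : Neg.neg ⁻¹' zeroPhaseᶜ = zeroPhaseᶜ := by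
    ext p; simp [zeroPhase]
  simp only [symm, Measure.smul_apply, Measure.add_apply]
  rw [Measure.map_apply measurable_neg measurableSet_zeroPhase.compl, hn, h]
  simp

/-- In the positive-definite case every gap is nonnegative. -/
theorem gapMoment_nonneg_of_zeroPhase (h : ν zeroPhaseᶜ = 0) (hθ : ∀ b, 0 ≤ θ b)
    (hθ1 : ∑ b, θ b = 1) (hsq : Splits θ v vb) (k : ℕ) : 0 ≤ gapMoment ν π' θ v vb k := by
  refine integral_nonneg_of_ae ?_
  have h0 : ∀ᵐ q ∂(symm ν).prod π', q.1 ∈ zeroPhase := by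
    have : ∀ᵐ p ∂symm ν, p ∈ zeroPhase := by
      rw [ae_iff]; exact symm_compl_zeroPhase h
    exact (Measure.quasiMeasurePreserving_fst (μ := symm ν) (ν := π')).ae this
  have hall : ∀ᵐ s ∂(Measure.pi fun _ : Fin k => (symm ν).prod π'), ∀ l, (s l).1.2 = 0 := by
    rw [ae_all_iff]
    intro l
    exact (Measure.tendsto_eval_ae_ae (μ := fun _ : Fin k => (symm ν).prod π') (i := l)).eventually h0
  filter_upwards [hall] with s hs
  have : phase s = 0 := Finset.sum_eq_zero fun l _ => hs l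
  simp only [this, Real.cos_zero, one_mul, Pi.zero_apply]
  exact (gap_mem hθ hθ1 hsq s).1

/-- A first moment bound for replica gaps. -/
lemma gapMoment_one (hθ1 : ∑ b, θ b = 1) (hsq : Splits θ v vb)
    (hunit : ∀ᵐ y ∂π', ∀ b, θ b ≠ 0 → ∑ i, vb b y i ^ 2 = 1) :
    gapMoment ν π' θ v vb 1 = 0 := by
  refine integral_eq_zero_of_ae ?_
  have h : ∀ᵐ s ∂(Measure.pi fun _ : Fin 1 => (symm ν).prod π'),
      ∀ b, θ b ≠ 0 → ∑ i, vb b (s 0).2 i ^ 2 = 1 :=
    (Measure.tendsto_eval_ae_ae (μ := fun _ : Fin 1 => (symm ν).prod π') (i := 0)).eventually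
      ((Measure.quasiMeasurePreserving_snd (μ := symm ν) (ν := π')).ae hunit)
  filter_upwards [h] with s hs
  have e : ∀ b, θ b ≠ 0 → ∑ i, mixVec (vb b) s i ^ 2 = (s 0).1.1 ^ 2 := by
    intro b hb
    simp only [mixVec, Fin.sum_univ_one, mul_pow, ← Finset.mul_sum, hs b hb, mul_one]
  have e1 : ∑ b, θ b * ∑ i, mixVec (vb b) s i ^ 2 = (s 0).1.1 ^ 2 := by
    calc _ = ∑ b, θ b * (s 0).1.1 ^ 2 := Finset.sum_congr rfl fun b _ => by
          by_cases hb : θ b = 0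
          · simp [hb]
          · rw [e b hb]
      _ = _ := by rw [← Finset.sum_mul, hθ1, one_mul]
  have e2 : ∑ b, θ b * Real.exp (-(∑ i, mixVec (vb b) s i ^ 2) / 2) =
      Real.exp (-((s 0).1.1 ^ 2) / 2) := by
    calc _ = ∑ b, θ b * Real.exp (-((s 0).1.1 ^ 2) / 2) := Finset.sum_congr rfl fun b _ => by
          by_cases hb : θ b = 0
          · simp [hb]
          · rw [e b hb]
      _ = _ := by rw [← Finset.sum_mul, hθ1, one_mul]
  simp only [gap_eq hsq, e1, e2, sub_self, mul_zero, Pi.zero_apply]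

end Vale.Agent.P157
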