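import Mathlib
import Vale.Agent.P157.Potential
import Vale.Agent.P157.Concave

/-!
The quantitative criterion: strict convexity at second order dominates the higher replica terms.
-/

noncomputable section

open MeasureTheory ProbabilityTheory
open scoped ENNReal

namespace Vale.Agent.P157

variable {ν : Measure (ℝ × ℝ)} [IsFiniteMeasure ν]

/-- The second moment of the frequency. -/
def freqSq (ν : Measure (ℝ × ℝ)) : ℝ := ∫ p, p.1 ^ 2 ∂ν

/-- The mass `A₀` and the second frequency moment `A₂` against their zero-phase parts `B₀, B₂`. -/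
def mixedSize (ν : Measure (ℝ × ℝ)) : ℝ :=
  (freqSq ν ^ 2 - freqSq (ν.restrict zeroPhase) ^ 2) * ν.real Set.univ +
    freqSq (ν.restrict zeroPhase) ^ 2 * (ν.real Set.univ - ν.real zeroPhase)

/-- `∑_{k ≥ 3} k^4 q^(k-3)`. -/
def tailSum (q : ℝ) : ℝ := ∑' j : ℕ, ((j : ℝ) + 3) ^ 4 * q ^ j

/-- The two-replica function of the overlap. -/
def psi (ν : Measure (ℝ × ℝ)) (ρ : ℝ) : ℝ :=
  ∫ t : Fin 2 → ℝ × ℝ, Real.cos ((t 0).2 + (t 1).2) *
    Real.exp (-((t 0).1 ^ 2 + (t 1).1 ^ 2 + 2 * ρ * ((t 0).1 * (t 1).1)) / 2)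
    ∂Measure.pi fun _ => symm ν

/-- Its second derivative. -/
def psi2 (ν : Measure (ℝ × ℝ)) (ρ : ℝ) : ℝ :=
  ∫ t : Fin 2 → ℝ × ℝ, Real.cos ((t 0).2 + (t 1).2) * ((t 0).1 * (t 1).1) ^ 2 *
    Real.exp (-((t 0).1 ^ 2 + (t 1).1 ^ 2 + 2 * ρ * ((t 0).1 * (t 1).1)) / 2)
    ∂Measure.pi fun _ => symm ν

/-- Its first derivative. -/
def psi1 (ν : Measure (ℝ × ℝ)) (ρ : ℝ) : ℝ :=
  ∫ t : Fin 2 → ℝ × ℝ, Real.cos ((t 0).2 + (t 1).2) * -((t 0).1 * (t 1).1) *
    Real.exp (-((t 0).1 ^ 2 + (t 1).1 ^ 2 + 2 * ρ * ((t 0).1 * (t 1).1)) / 2)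
    ∂Measure.pi fun _ => symm ν

lemma integral_symm_of_even {φ : ℝ × ℝ → ℝ} (hφ : Measurable φ) (he : ∀ p, φ (-p) = φ p)
    (hi : Integrable φ ν) : ∫ p, φ p ∂symm ν = ∫ p, φ p ∂ν := by
  have hi' : Integrable φ (ν.map Neg.neg) := by
    rw [integrable_map_measure hφ.aestronglyMeasurable (by fun_prop)]
    exact hi.congr (Filter.Eventually.of_forall fun p => (he p).symm)
  rw [symm, integral_smul_measure, integral_add_measure hi hi',
    integral_map (by fun_prop) hφ.aestronglyMeasurable]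
  simp only [he, ENNReal.toReal_inv, ENNReal.toReal_ofNat, smul_eq_mul]
  ring

lemma integrable_symm_of_even {φ : ℝ × ℝ → ℝ} (hφ : Measurable φ) (he : ∀ p, φ (-p) = φ p)
    (hi : Integrable φ ν) : Integrable φ (symm ν) := by
  have hi' : Integrable φ (ν.map Neg.neg) := by
    rw [integrable_map_measure hφ.aestronglyMeasurable (by fun_prop)]
    exact hi.congr (Filter.Eventually.of_forall fun p => (he p).symm)
  exact (hi.add_measure hi').smul_measure (by simp)

lemma integrable_freqSq_symm (hm : Integrable (fun p => p.1 ^ 2) ν) :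
    Integrable (fun p : ℝ × ℝ => p.1 ^ 2) (symm ν) :=
  integrable_symm_of_even (by fun_prop) (fun p => by simp) hm

lemma quad_nonneg {ρ a b : ℝ} (h : ρ ∈ Set.Icc (-1 : ℝ) 1) :
    0 ≤ a ^ 2 + b ^ 2 + 2 * ρ * (a * b) := by
  have h2 : ρ ^ 2 ≤ 1 := by nlinarith [h.1, h.2]
  nlinarith [sq_nonneg (a + ρ * b), sq_nonneg b]

lemma abs_kernel_le {ρ : ℝ} (h : ρ ∈ Set.Icc (-1 : ℝ) 1) (t : Fin 2 → ℝ × ℝ) (w : ℝ) :
    |Real.cos ((t 0).2 + (t 1).2) * w *
      Real.exp (-((t 0).1 ^ 2 + (t 1).1 ^ 2 + 2 * ρ * ((t 0).1 * (t 1).1)) / 2)| ≤ |w| := by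
  rw [abs_mul, abs_mul, Real.abs_exp]
  refine mul_le_of_le_one_right (by positivity) (Real.exp_le_one_iff.2 ?_) |>.trans ?_
  · linarith [quad_nonneg (a := (t 0).1) (b := (t 1).1) h]
  · exact mul_le_of_le_one_left (abs_nonneg _) (Real.abs_cos_le_one _)

lemma integrable_sq_mul_sq (hm : Integrable (fun p => p.1 ^ 2) ν) :
    Integrable (fun t : Fin 2 → ℝ × ℝ => ((t 0).1 * (t 1).1) ^ 2)
      (Measure.pi fun _ => symm ν) := by
  have h := Integrable.fintype_prod (μ := fun _ : Fin 2 => symm ν)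
    (f := fun _ (p : ℝ × ℝ) => p.1 ^ 2) (fun _ => integrable_freqSq_symm hm)
  refine h.congr (Filter.Eventually.of_forall fun t => ?_)
  simp [Fin.prod_univ_two, mul_pow]

lemma hasDerivAt_psi (hm : Integrable (fun p => p.1 ^ 2) ν) {ρ : ℝ}
    (hρ : ρ ∈ Set.Ioo (-1 : ℝ) 1) :
    HasDerivAt (psi ν) (psi1 ν ρ) ρ ∧ HasDerivAt (psi1 ν) (psi2 ν ρ) ρ := by
  have hnb : Set.Ioo (-1 : ℝ) 1 ∈ nhds ρ := isOpen_Ioo.mem_nhds hρ
  have hd : ∀ (t : Fin 2 → ℝ × ℝ) (r : ℝ), HasDerivAt
      (fun r => Real.exp (-((t 0).1 ^ 2 + (t 1).1 ^ 2 + 2 * r * ((t 0).1 * (t 1).1)) / 2))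
      (-((t 0).1 * (t 1).1) *
        Real.exp (-((t 0).1 ^ 2 + (t 1).1 ^ 2 + 2 * r * ((t 0).1 * (t 1).1)) / 2)) r := by
    intro t r
    have := ((((((hasDerivAt_id r).const_mul (2 : ℝ)).mul_const ((t 0).1 * (t 1).1)).const_add
      ((t 0).1 ^ 2 + (t 1).1 ^ 2))).neg.div_const 2).exp
    refine this.congr_deriv ?_
    simp only [id, Pi.neg_apply]
    ring
  have hsm := integrable_sq_mul_sq hm
  have hab : Integrable (fun t : Fin 2 → ℝ × ℝ => 1 + ((t 0).1 * (t 1).1) ^ 2)
      (Measure.pi fun _ => symm ν) := (integrable_const _).add hsm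
  have hbound1 : ∀ (t : Fin 2 → ℝ × ℝ), |-((t 0).1 * (t 1).1)| ≤
      1 + ((t 0).1 * (t 1).1) ^ 2 := fun t => by
    rw [abs_neg]
    nlinarith [sq_abs ((t 0).1 * (t 1).1), sq_nonneg (|(t 0).1 * (t 1).1| - 1),
      abs_nonneg ((t 0).1 * (t 1).1)]
  constructor
  · refine (hasDerivAt_integral_of_dominated_loc_of_deriv_le
      (F' := fun r t => Real.cos ((t 0).2 + (t 1).2) * -((t 0).1 * (t 1).1) *
        Real.exp (-((t 0).1 ^ 2 + (t 1).1 ^ 2 + 2 * r * ((t 0).1 * (t 1).1)) / 2))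
      (bound := fun t : Fin 2 → ℝ × ℝ => 1 + ((t 0).1 * (t 1).1) ^ 2) hnb
      (Filter.Eventually.of_forall fun r => by fun_prop) ?_ (by fun_prop) ?_ hab ?_).2
    · refine Integrable.of_bound (by fun_prop) 1 (Filter.Eventually.of_forall fun t => ?_)
      have := abs_kernel_le (Set.Ioo_subset_Icc_self hρ) t 1
      simpa using this
    · exact Filter.Eventually.of_forall fun t r hr =>
        (abs_kernel_le (Set.Ioo_subset_Icc_self hr) t _).trans (hbound1 t)
    · refine Filter.Eventually.of_forall fun t r _ => ?_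
      exact ((hd t r).const_mul _).congr_deriv (by ring)
  · refine (hasDerivAt_integral_of_dominated_loc_of_deriv_le
      (F' := fun r t => Real.cos ((t 0).2 + (t 1).2) * ((t 0).1 * (t 1).1) ^ 2 *
        Real.exp (-((t 0).1 ^ 2 + (t 1).1 ^ 2 + 2 * r * ((t 0).1 * (t 1).1)) / 2))
      (bound := fun t : Fin 2 → ℝ × ℝ => ((t 0).1 * (t 1).1) ^ 2) hnb
      (Filter.Eventually.of_forall fun r => by fun_prop) ?_ (by fun_prop) ?_ hsm ?_).2
    · exact hab.mono' (by fun_prop) (Filter.Eventually.of_forall fun t =>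
        (abs_kernel_le (Set.Ioo_subset_Icc_self hρ) t _).trans (hbound1 t))
    · exact Filter.Eventually.of_forall fun t r hr =>
        (abs_kernel_le (Set.Ioo_subset_Icc_self hr) t _).trans_eq (abs_of_nonneg (sq_nonneg _))
    · refine Filter.Eventually.of_forall fun t r _ => ?_
      exact ((hd t r).const_mul _).congr_deriv (by ring)

lemma convexOn_psi (hm : Integrable (fun p => p.1 ^ 2) ν) {c : ℝ}
    (hc : ∀ ρ ∈ Set.Icc (-1 : ℝ) 1, c ≤ psi2 ν ρ) :
    ConvexOn ℝ (Set.Icc (-1 : ℝ) 1) fun ρ => psi ν ρ - c / 2 * ρ ^ 2 := by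
  refine convexOn_of_hasDerivWithinAt2_nonneg (convex_Icc _ _) ?_
    (f' := fun ρ => psi1 ν ρ - c * ρ) (f'' := fun ρ => psi2 ν ρ - c) ?_ ?_ ?_
  · refine ContinuousOn.sub ?_ (by fun_prop)
    refine continuousOn_of_dominated (bound := fun _ => 1) (fun r _ => by fun_prop) (fun r hr => ?_)
      (integrable_const _) (Filter.Eventually.of_forall fun t => by fun_prop)
    refine Filter.Eventually.of_forall fun t => ?_
    simpa using abs_kernel_le hr t 1
  · intro r hr
    rw [interior_Icc] at hr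
    refine (((hasDerivAt_psi hm hr).1.sub ((hasDerivAt_pow 2 r).const_mul (c / 2))).congr_deriv
      ?_).hasDerivWithinAt
    simp; ring
  · intro r hr
    rw [interior_Icc] at hr
    exact (((hasDerivAt_psi hm hr).2.sub ((hasDerivAt_id r).const_mul c)).congr_deriv
      (by simp)).hasDerivWithinAt
  · intro r hr
    exact sub_nonneg.2 (hc r (interior_subset hr))

variable {ι : Type*} [Fintype ι] {Y : Type*} [MeasurableSpace Y]
  {B : Type*} [Fintype B] {θ : B → ℝ} {v : Y → ι → ℝ} {vb : B → Y → ι → ℝ}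
  {π' : Measure Y} [IsProbabilityMeasure π']

/-- Overlaps, block by block. -/
def overlap (θ : B → ℝ) (vb : B → Y → ι → ℝ) (y z : Y) (b : B) : ℝ :=
  if θ b = 0 then 0 else dot (vb b y) (vb b z)

/-- Averaged variance of the block overlaps of two replicas. -/
def overlapVar (π' : Measure Y) (θ : B → ℝ) (vb : B → Y → ι → ℝ) : ℝ :=
  ∫ q : Y × Y, wvar θ (overlap θ vb q.1 q.2) ∂π'.prod π'

/-- All blocks of positive weight are unit vectors. -/
def IsUnit' (θ : B → ℝ) (vb : B → Y → ι → ℝ) (y : Y) : Prop :=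
  ∀ b, θ b ≠ 0 → ∑ i, vb b y i ^ 2 = 1

lemma measurable_overlap (hvb : ∀ b, Measurable (vb b)) (b : B) :
    Measurable fun q : Y × Y => overlap θ vb q.1 q.2 b := by
  unfold overlap
  split_ifs
  · exact measurable_const
  · exact measurable_dot.comp
      (((hvb b).comp measurable_fst).prodMk ((hvb b).comp measurable_snd))

lemma measurable_wvar_overlap (hvb : ∀ b, Measurable (vb b)) :
    Measurable fun q : Y × Y => wvar θ (overlap θ vb q.1 q.2) := by
  unfold wvar
  exact Finset.measurable_sum _ fun b _ => (((measurable_overlap hvb b).sub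
    (Finset.measurable_sum _ fun d _ => (measurable_overlap hvb d).const_mul _)).pow_const 2).const_mul _

omit [MeasurableSpace Y] in
lemma abs_overlap_le {y z : Y} (hy : IsUnit' θ vb y) (hz : IsUnit' θ vb z) (b : B) :
    overlap θ vb y z b ∈ Set.Icc (-1 : ℝ) 1 := by
  unfold overlap
  split_ifs with h
  · simp
  have h1 := hy b h
  have h2 := hz b h
  have hp : 0 ≤ ∑ i, (vb b y i + vb b z i) ^ 2 := Finset.sum_nonneg fun i _ => sq_nonneg _
  have hn : 0 ≤ ∑ i, (vb b y i - vb b z i) ^ 2 := Finset.sum_nonneg fun i _ => sq_nonneg _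
  simp only [add_sq, sub_sq, Finset.sum_add_distrib, Finset.sum_sub_distrib, h1, h2, mul_assoc,
    ← Finset.mul_sum] at hp hn
  constructor <;> simp only [dot] <;> linarith

lemma integrable_wvar_overlap (hθ : ∀ b, 0 ≤ θ b) (hθ1 : ∑ b, θ b = 1)
    (hvb : ∀ b, Measurable (vb b)) (hunit : ∀ᵐ y ∂π', IsUnit' θ vb y) :
    Integrable (fun q : Y × Y => wvar θ (overlap θ vb q.1 q.2)) (π'.prod π') := by
  refine Integrable.of_bound (measurable_wvar_overlap hvb).aestronglyMeasurable 1 ?_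
  filter_upwards [(Measure.quasiMeasurePreserving_fst (μ := π') (ν := π')).ae hunit,
    (Measure.quasiMeasurePreserving_snd (μ := π') (ν := π')).ae hunit] with q h1 h2
  rw [Real.norm_eq_abs, abs_of_nonneg (wvar_nonneg hθ), wvar_eq hθ1]
  refine (sub_le_self _ (sq_nonneg _)).trans ?_
  calc ∑ b, θ b * overlap θ vb q.1 q.2 b ^ 2 ≤ ∑ b, θ b * 1 := Finset.sum_le_sum fun b _ => by
        refine mul_le_mul_of_nonneg_left ?_ (hθ b)
        obtain ⟨a1, a2⟩ := abs_overlap_le h1 h2 b
        nlinarith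
    _ = 1 := by simp [hθ1]

omit [MeasurableSpace Y] in
lemma sq_mixVec_eq {k : ℕ} {s : Fin k → (ℝ × ℝ) × Y} (h : ∀ l, IsUnit' θ vb (s l).2) {b : B}
    (hb : θ b ≠ 0) :
    ∑ i, mixVec (vb b) s i ^ 2 = ∑ l, (s l).1.1 ^ 2 +
      ∑ p ∈ (Finset.univ : Finset (Fin k)).offDiag,
        (s p.1).1.1 * (s p.2).1.1 * overlap θ vb (s p.1).2 (s p.2).2 b := by
  have e : ∑ i, mixVec (vb b) s i ^ 2 = ∑ p ∈ (Finset.univ : Finset (Fin k × Fin k)),
      (s p.1).1.1 * (s p.2).1.1 * dot (vb b (s p.1).2) (vb b (s p.2).2) := by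
    simp only [Fintype.sum_prod_type, mixVec, dot, sq, Finset.mul_sum, Finset.sum_mul]
    rw [Finset.sum_comm]
    refine Finset.sum_congr rfl fun l _ => ?_
    rw [Finset.sum_comm]
    exact Finset.sum_congr rfl fun m _ => Finset.sum_congr rfl fun i _ => by ring
  rw [e, ← Finset.univ_product_univ, ← Finset.diag_union_offDiag,
    Finset.sum_union (Finset.disjoint_diag_offDiag _), Finset.sum_diag]
  congr 1
  · refine Finset.sum_congr rfl fun l _ => ?_
    have : dot (vb b (s l).2) (vb b (s l).2) = 1 := by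
      rw [← h l b hb]; simp [dot, sq]
    rw [this]; ring
  · exact Finset.sum_congr rfl fun p _ => by simp [overlap, hb]

/-- Second order: strict convexity. -/
theorem gapMoment_two_ge (hm : Integrable (fun p => p.1 ^ 2) ν) {c : ℝ}
    (hc : ∀ ρ ∈ Set.Icc (-1 : ℝ) 1, c ≤ psi2 ν ρ) (hθ : ∀ b, 0 ≤ θ b) (hθ1 : ∑ b, θ b = 1)
    (hv : Measurable v) (hvb : ∀ b, Measurable (vb b)) (hsq : Splits θ v vb)
    (hunit : ∀ᵐ y ∂π', IsUnit' θ vb y) :
    c / 2 * overlapVar π' θ vb ≤ gapMoment ν π' θ v vb 2 := by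
  have hsplit := measurePreserving_arrowProdEquivProdArrow (ℝ × ℝ) Y (Fin 2)
    (fun _ => symm ν) (fun _ => π')
  let G : (Fin 2 → ℝ × ℝ) × (Fin 2 → Y) → ℝ := fun r =>
    Real.cos (phase fun l => (r.1 l, r.2 l)) * gap θ v vb fun l => (r.1 l, r.2 l)
  have hG : gapMoment ν π' θ v vb 2 =
      ∫ r, G r ∂(Measure.pi fun _ : Fin 2 => symm ν).prod (Measure.pi fun _ => π') := by
    rw [← hsplit.integral_comp' (g := G)]
    rfl
  have hpair : MeasurePreserving (fun y : Fin 2 → Y => (y 0, y 1))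
      (Measure.pi fun _ : Fin 2 => π') (π'.prod π') := measurePreserving_finTwoArrow π'
  have hF : Measurable fun r : (Fin 2 → ℝ × ℝ) × (Fin 2 → Y) =>
      (fun l => (r.1 l, r.2 l) : Fin 2 → (ℝ × ℝ) × Y) := by fun_prop
  have hGi : Integrable G ((Measure.pi fun _ : Fin 2 => symm ν).prod (Measure.pi fun _ => π')) := by
    refine integrable_of_abs_le (K := ∑ b, θ b + 1)
      (((Real.measurable_cos.comp measurable_phase).mul ((Finset.measurable_sum _ fun b _ =>
        (measurable_gauss (hvb b)).const_mul _).sub (measurable_gauss hv))).comp hF) fun r => ?_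
    rw [abs_mul]
    refine (mul_le_of_le_one_left (abs_nonneg _) (Real.abs_cos_le_one _)).trans ?_
    rw [abs_of_nonneg (gap_mem hθ hθ1 hsq _).1, gap]
    have := (gauss_mem (v := v) fun l => (r.1 l, r.2 l)).1
    have : ∀ b, θ b * gauss (vb b) (fun l => (r.1 l, r.2 l)) ≤ θ b := fun b =>
      mul_le_of_le_one_right (hθ b) (gauss_mem (v := vb b) _).2
    have := Finset.sum_le_sum (s := Finset.univ) fun b _ => this b
    linarith
  rw [hG, integral_prod_symm _ hGi, overlapVar, ← hpair.map_eq,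
    integral_map hpair.measurable.aemeasurable
      (measurable_wvar_overlap hvb).aestronglyMeasurable, ← integral_const_mul]
  have hwi : Integrable (fun y : Fin 2 → Y => c / 2 * wvar θ (overlap θ vb (y 0) (y 1)))
      (Measure.pi fun _ : Fin 2 => π') :=
    (hpair.integrable_comp_of_integrable (integrable_wvar_overlap hθ hθ1 hvb hunit)).const_mul _
  refine integral_mono_ae hwi hGi.integral_prod_right ?_
  have hall : ∀ᵐ y ∂(Measure.pi fun _ : Fin 2 => π'), ∀ l, IsUnit' θ vb (y l) := by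
    rw [ae_all_iff]
    exact fun l => (Measure.tendsto_eval_ae_ae (μ := fun _ : Fin 2 => π') (i := l)).eventually hunit
  filter_upwards [hall] with y hy
  set x := overlap θ vb (y 0) (y 1)
  have hx : ∀ b, x b ∈ Set.Icc (-1 : ℝ) 1 := abs_overlap_le (hy 0) (hy 1)
  refine (convex_gap_ge hθ hθ1 (convexOn_psi hm hc) hx).trans (le_of_eq ?_)
  have hint : ∀ ρ ∈ Set.Icc (-1 : ℝ) 1, Integrable (fun t : Fin 2 → ℝ × ℝ =>
      Real.cos ((t 0).2 + (t 1).2) *
        Real.exp (-((t 0).1 ^ 2 + (t 1).1 ^ 2 + 2 * ρ * ((t 0).1 * (t 1).1)) / 2))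
      (Measure.pi fun _ => symm ν) := fun ρ hρ =>
    Integrable.of_bound (by fun_prop) 1 (Filter.Eventually.of_forall fun t => by
      simpa using abs_kernel_le hρ t 1)
  have hmem : ∑ b, θ b * x b ∈ Set.Icc (-1 : ℝ) 1 := by
    simpa [smul_eq_mul] using (convex_Icc (-1 : ℝ) 1).sum_mem (t := Finset.univ) (w := θ)
      (fun b _ => hθ b) hθ1 (fun b _ => hx b)
  simp only [psi, ← integral_const_mul]
  rw [← integral_finsetSum _ fun b _ => (hint _ (hx b)).const_mul _,
    ← integral_sub (integrable_finsetSum _ fun b _ => (hint _ (hx b)).const_mul _) (hint _ hmem)]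
  congr 1
  ext t
  have hquad : ∀ b, θ b ≠ 0 → ∑ i, mixVec (vb b) (fun l => (t l, y l)) i ^ 2 =
      (t 0).1 ^ 2 + (t 1).1 ^ 2 + 2 * x b * ((t 0).1 * (t 1).1) := by
    intro b hb
    simp only [mixVec, Fin.sum_univ_two, add_sq, mul_pow, Finset.sum_add_distrib, x, overlap,
      if_neg hb, dot]
    rw [← Finset.mul_sum, ← Finset.mul_sum, hy 0 b hb, hy 1 b hb,
      show ∑ i, 2 * ((t 0).1 * vb b (y 0) i) * ((t 1).1 * vb b (y 1) i) =
        2 * (∑ i, vb b (y 0) i * vb b (y 1) i) * ((t 0).1 * (t 1).1) by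
        rw [Finset.mul_sum, Finset.sum_mul]
        exact Finset.sum_congr rfl fun i _ => by ring]
    ring
  have e1 : ∑ b, θ b * ∑ i, mixVec (vb b) (fun l => (t l, y l)) i ^ 2 =
      (t 0).1 ^ 2 + (t 1).1 ^ 2 + 2 * (∑ b, θ b * x b) * ((t 0).1 * (t 1).1) := by
    calc _ = ∑ b, θ b * ((t 0).1 ^ 2 + (t 1).1 ^ 2 + 2 * x b * ((t 0).1 * (t 1).1)) :=
          Finset.sum_congr rfl fun b _ => by
            by_cases hb : θ b = 0
            · simp [hb]
            · rw [hquad b hb]
      _ = _ := by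
          simp only [mul_add, Finset.sum_add_distrib, ← Finset.sum_mul, hθ1, one_mul]
          rw [Finset.mul_sum, Finset.sum_mul]
          congr 1
          exact Finset.sum_congr rfl fun b _ => by ring
  have e2 : ∑ b, θ b * Real.exp (-(∑ i, mixVec (vb b) (fun l => (t l, y l)) i ^ 2) / 2) =
      ∑ b, θ b * Real.exp (-((t 0).1 ^ 2 + (t 1).1 ^ 2 + 2 * x b * ((t 0).1 * (t 1).1)) / 2) :=
    Finset.sum_congr rfl fun b _ => by
      by_cases hb : θ b = 0
      · simp [hb]
      · rw [hquad b hb]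
  simp only [G]
  rw [gap_eq hsq, e1, e2, phase, Fin.sum_univ_two]
  dsimp only
  generalize (2 * ∑ b, θ b * x b) = S
  rw [mul_sub, Finset.mul_sum]
  exact congrArg (fun z => z - _) (Finset.sum_congr rfl fun b _ => by ring)

/-- Indicator that all replica frequencies have zero phase. -/
def allZero {k : ℕ} (t : Fin k → ℝ × ℝ) : ℝ := ∏ l, zeroPhase.indicator (fun _ => (1 : ℝ)) (t l)

/-- The higher-order weight of a pair of replicas. -/
def pairWeight {k : ℕ} (p : Fin k × Fin k) (t : Fin k → ℝ × ℝ) : ℝ :=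
  (1 - allZero t) * ((t p.1).1 * (t p.2).1) ^ 2

lemma indicator_zeroPhase_mem (q : ℝ × ℝ) :
    0 ≤ zeroPhase.indicator (fun _ => (1 : ℝ)) q ∧ zeroPhase.indicator (fun _ => (1 : ℝ)) q ≤ 1 := by
  by_cases h : q ∈ zeroPhase <;> simp [h]

lemma allZero_mem {k : ℕ} (t : Fin k → ℝ × ℝ) : 0 ≤ allZero t ∧ allZero t ≤ 1 :=
  ⟨Finset.prod_nonneg fun l _ => (indicator_zeroPhase_mem _).1,
    Finset.prod_le_one (fun l _ => (indicator_zeroPhase_mem _).1)
      fun l _ => (indicator_zeroPhase_mem _).2⟩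

lemma neg_le_cos_mul {k : ℕ} {t : Fin k → ℝ × ℝ} {g : ℝ} (hg : 0 ≤ g) :
    -((1 - allZero t) * g) ≤ Real.cos (∑ l, (t l).2) * g := by
  by_cases h : ∀ l, t l ∈ zeroPhase
  · have h1 : allZero t = 1 := Finset.prod_eq_one fun l _ => by simp [h l]
    have h2 : ∑ l, (t l).2 = 0 := Finset.sum_eq_zero fun l _ => h l
    simp [h1, h2, hg]
  · push Not at h
    obtain ⟨l, hl⟩ := h
    have h1 : allZero t = 0 := Finset.prod_eq_zero (Finset.mem_univ l) (by simp [hl])
    rw [h1]
    have := mul_le_mul_of_nonneg_right (Real.neg_one_le_cos (∑ l, (t l).2)) hg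
    linarith

omit [MeasurableSpace Y] in
lemma wvar_mixVec_le (hθ : ∀ b, 0 ≤ θ b) (hθ1 : ∑ b, θ b = 1) {k : ℕ}
    {s : Fin k → (ℝ × ℝ) × Y} (h : ∀ l, IsUnit' θ vb (s l).2) :
    wvar θ (fun b => ∑ i, mixVec (vb b) s i ^ 2) ≤
      (k : ℝ) ^ 2 * ∑ p ∈ (Finset.univ : Finset (Fin k)).offDiag,
        ((s p.1).1.1 * (s p.2).1.1) ^ 2 * wvar θ (overlap θ vb (s p.1).2 (s p.2).2) := by
  set P := (Finset.univ : Finset (Fin k)).offDiag
  set w : Fin k × Fin k → ℝ := fun p => (s p.1).1.1 * (s p.2).1.1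
  set r : Fin k × Fin k → B → ℝ := fun p => overlap θ vb (s p.1).2 (s p.2).2
  set C := ∑ l, (s l).1.1 ^ 2
  have hmean : ∑ b, θ b * ∑ i, mixVec (vb b) s i ^ 2 =
      C + ∑ p ∈ P, w p * ∑ d, θ d * r p d := by
    calc _ = ∑ b, θ b * (C + ∑ p ∈ P, w p * r p b) := Finset.sum_congr rfl fun b _ => by
          by_cases hb : θ b = 0
          · simp [hb]
          · rw [sq_mixVec_eq h hb]
      _ = _ := by
          simp only [mul_add, Finset.sum_add_distrib, ← Finset.sum_mul, hθ1, one_mul,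
            Finset.mul_sum]
          rw [Finset.sum_comm]
          congr 1
          exact Finset.sum_congr rfl fun p _ => Finset.sum_congr rfl fun b _ => by ring
  have hcard : (P.card : ℝ) ≤ (k : ℝ) ^ 2 := by
    have : P.card ≤ k ^ 2 := by
      simp only [P, Finset.offDiag_card, Finset.card_univ, Fintype.card_fin, sq]
      exact Nat.sub_le _ _
    exact_mod_cast this
  calc wvar θ (fun b => ∑ i, mixVec (vb b) s i ^ 2)
      ≤ ∑ b, θ b * ((k : ℝ) ^ 2 * ∑ p ∈ P, (w p * (r p b - ∑ d, θ d * r p d)) ^ 2) := by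
        refine Finset.sum_le_sum fun b _ => ?_
        by_cases hb : θ b = 0
        · simp [hb]
        refine mul_le_mul_of_nonneg_left ?_ (hθ b)
        simp only
        rw [hmean, sq_mixVec_eq h hb]
        have e : ∑ l, (s l).1.1 ^ 2 + ∑ p ∈ P, (s p.1).1.1 * (s p.2).1.1 *
            overlap θ vb (s p.1).2 (s p.2).2 b - (C + ∑ p ∈ P, w p * ∑ d, θ d * r p d) =
            ∑ p ∈ P, w p * (r p b - ∑ d, θ d * r p d) := by
          simp only [mul_sub, Finset.sum_sub_distrib]
          simp only [w, r, C]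
          ring
        rw [e]
        exact sq_sum_le_card_mul_sum_sq.trans (mul_le_mul_of_nonneg_right hcard
          (Finset.sum_nonneg fun p _ => sq_nonneg _))
    _ = _ := by
        simp only [wvar, Finset.mul_sum]
        rw [Finset.sum_comm]
        exact Finset.sum_congr rfl fun p _ => Finset.sum_congr rfl fun b _ => by
          simp only [w, r]; ring

lemma symm_zeroPhase : (symm ν).restrict zeroPhase = symm (ν.restrict zeroPhase) := by
  have hn : Neg.neg ⁻¹' zeroPhase = zeroPhase := by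
    ext p; simp [zeroPhase]
  rw [symm, symm, Measure.restrict_smul, Measure.restrict_add,
    Measure.restrict_map measurable_neg measurableSet_zeroPhase, hn]

lemma mass_symm : (symm ν).real Set.univ = ν.real Set.univ := by
  have := integral_symm_of_even (ν := ν) (φ := fun _ => (1 : ℝ)) measurable_const (fun _ => rfl)
    (integrable_const _)
  simpa using this

lemma freqSq_symm (hm : Integrable (fun p => p.1 ^ 2) ν) : freqSq (symm ν) = freqSq ν :=
  integral_symm_of_even (by fun_prop) (fun p => by simp) hm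

/-- The two factors of a pair of replicas. -/
def pairFactor {k : ℕ} (p : Fin k × Fin k) (l : Fin k) (q : ℝ × ℝ) : ℝ :=
  if l = p.1 ∨ l = p.2 then q.1 ^ 2 else 1

lemma prod_pairFactor {k : ℕ} {p : Fin k × Fin k} (hp : p.1 ≠ p.2) (t : Fin k → ℝ × ℝ) :
    ∏ l, pairFactor p l (t l) = ((t p.1).1 * (t p.2).1) ^ 2 := by
  simp only [pairFactor]
  rw [← Finset.prod_filter]
  have : Finset.univ.filter (fun l => l = p.1 ∨ l = p.2) = {p.1, p.2} := by
    ext l; simp
  rw [this, Finset.prod_pair hp, mul_pow]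

lemma integral_prod_pairFactor {k : ℕ} (μ : Measure (ℝ × ℝ)) [IsFiniteMeasure μ]
    {p : Fin k × Fin k} (hp : p.1 ≠ p.2) :
    ∫ t : Fin k → ℝ × ℝ, ∏ l, pairFactor p l (t l) ∂Measure.pi (fun _ => μ) =
      freqSq μ ^ 2 * μ.real Set.univ ^ (k - 2) := by
  rw [integral_fintype_prod_eq_prod]
  have e : ∀ l, ∫ q, pairFactor p l q ∂μ =
      if l = p.1 ∨ l = p.2 then freqSq μ else μ.real Set.univ := by
    intro l
    by_cases h : l = p.1 ∨ l = p.2
    · simp [pairFactor, h, freqSq]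
    · simp [pairFactor, h]
  simp only [e, Finset.prod_ite, Finset.prod_const]
  have h1 : (Finset.univ.filter (fun l => l = p.1 ∨ l = p.2)).card = 2 := by
    have : Finset.univ.filter (fun l => l = p.1 ∨ l = p.2) = {p.1, p.2} := by
      ext l; simp
    rw [this, Finset.card_pair hp]
  have h2 : (Finset.univ.filter (fun l => ¬(l = p.1 ∨ l = p.2))).card = k - 2 := by
    rw [Finset.filter_not, Finset.card_sdiff, Finset.inter_univ, h1]
    simp
  rw [h1, h2]

lemma integrable_prod_pairFactor {k : ℕ} {μ : Measure (ℝ × ℝ)} [IsFiniteMeasure μ]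
    (hm : Integrable (fun p => p.1 ^ 2) μ) (p : Fin k × Fin k) :
    Integrable (fun t : Fin k → ℝ × ℝ => ∏ l, pairFactor p l (t l)) (Measure.pi fun _ => μ) := by
  refine Integrable.fintype_prod fun l => ?_
  by_cases h : l = p.1 ∨ l = p.2
  · exact hm.congr (Filter.Eventually.of_forall fun q => by simp [pairFactor, h])
  · exact (integrable_const (1 : ℝ)).congr
      (Filter.Eventually.of_forall fun q => by simp [pairFactor, h])

lemma pairWeight_eq {k : ℕ} {p : Fin k × Fin k} (hp : p.1 ≠ p.2) :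
    pairWeight p = fun t : Fin k → ℝ × ℝ => (∏ l, pairFactor p l (t l)) -
      ∏ l, zeroPhase.indicator (pairFactor p l) (t l) := by
  ext t
  rw [pairWeight, sub_mul, one_mul, prod_pairFactor hp]
  congr 1
  rw [allZero, ← prod_pairFactor hp, ← Finset.prod_mul_distrib]
  exact Finset.prod_congr rfl fun l _ => by
    by_cases h : t l ∈ zeroPhase <;> simp [h]

lemma integral_pairWeight (hm : Integrable (fun p => p.1 ^ 2) ν) {k : ℕ} {p : Fin k × Fin k}
    (hp : p.1 ≠ p.2) :
    Integrable (pairWeight p) (Measure.pi fun _ => symm ν) ∧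
      ∫ t, pairWeight p t ∂(Measure.pi fun _ => symm ν) =
        freqSq ν ^ 2 * ν.real Set.univ ^ (k - 2) -
          freqSq (ν.restrict zeroPhase) ^ 2 * ν.real zeroPhase ^ (k - 2) := by
  have hms := integrable_freqSq_symm hm
  have hi2 : Integrable (fun t : Fin k → ℝ × ℝ =>
      ∏ l, zeroPhase.indicator (pairFactor p l) (t l)) (Measure.pi fun _ => symm ν) := by
    refine Integrable.fintype_prod fun l => Integrable.indicator ?_ measurableSet_zeroPhase
    by_cases h : l = p.1 ∨ l = p.2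
    · exact hms.congr (Filter.Eventually.of_forall fun q => by simp [pairFactor, h])
    · exact (integrable_const (1 : ℝ)).congr
        (Filter.Eventually.of_forall fun q => by simp [pairFactor, h])
  rw [pairWeight_eq hp]
  refine ⟨(integrable_prod_pairFactor hms p).sub hi2, ?_⟩
  rw [integral_sub (integrable_prod_pairFactor hms p) hi2, integral_prod_pairFactor _ hp,
    freqSq_symm hm, mass_symm, integral_fintype_prod_eq_prod]
  congr 1
  have hmr : Integrable (fun p => p.1 ^ 2) (ν.restrict zeroPhase) := hm.restrict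
  simp only [integral_indicator measurableSet_zeroPhase, symm_zeroPhase]
  rw [← integral_fintype_prod_eq_prod (fun l q => pairFactor p l q), integral_prod_pairFactor _ hp,
    freqSq_symm hmr, mass_symm, measureReal_restrict_apply_univ]

lemma measurePreserving_pair {k : ℕ} {p : Fin k × Fin k} (hp : p.1 ≠ p.2) :
    MeasurePreserving (fun y : Fin k → Y => (y p.1, y p.2))
      (Measure.pi fun _ : Fin k => π') (π'.prod π') := by
  have hm : Measurable fun y : Fin k → Y => (y p.1, y p.2) := by fun_prop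
  refine ⟨hm, (Measure.prod_eq fun S T hS hT => ?_).symm⟩
  rw [Measure.map_apply hm (hS.prod hT)]
  have : (fun y : Fin k → Y => (y p.1, y p.2)) ⁻¹' S ×ˢ T =
      Set.univ.pi fun l => if l = p.1 then S else if l = p.2 then T else Set.univ := by
    ext y
    simp only [Set.mem_preimage, Set.mem_prod, Set.mem_pi, Set.mem_univ, forall_true_left]
    constructor
    · rintro ⟨h1, h2⟩ l
      split_ifs with a b
      · exact a ▸ h1
      · exact b ▸ h2
      · trivial
    · intro h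
      exact ⟨by simpa using h p.1, by simpa [hp.symm] using h p.2⟩
  rw [this, Measure.pi_pi,
    ← Finset.prod_subset (Finset.subset_univ ({p.1, p.2} : Finset (Fin k))), Finset.prod_pair hp]
  · simp [hp.symm]
  · intro l _ hl
    simp only [Finset.mem_insert, Finset.mem_singleton, not_or] at hl
    simp [hl.1, hl.2]

/-- Higher orders are controlled by the averaged overlap variance. -/
theorem gapMoment_ge (hm : Integrable (fun p => p.1 ^ 2) ν) (hθ : ∀ b, 0 ≤ θ b)
    (hθ1 : ∑ b, θ b = 1) (hv : Measurable v) (hvb : ∀ b, Measurable (vb b))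
    (hsq : Splits θ v vb) (hunit : ∀ᵐ y ∂π', IsUnit' θ vb y) (k : ℕ) :
    -((k : ℝ) ^ 4 / 8 * overlapVar π' θ vb *
      (freqSq ν ^ 2 * ν.real Set.univ ^ (k - 2) -
        freqSq (ν.restrict zeroPhase) ^ 2 * ν.real zeroPhase ^ (k - 2))) ≤
      gapMoment ν π' θ v vb k := by
  have hsplit := measurePreserving_arrowProdEquivProdArrow (ℝ × ℝ) Y (Fin k)
    (fun _ => symm ν) (fun _ => π')
  set μT := Measure.pi fun _ : Fin k => symm ν
  set μY := Measure.pi fun _ : Fin k => π'
  let G : (Fin k → ℝ × ℝ) × (Fin k → Y) → ℝ := fun r =>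
    Real.cos (phase fun l => (r.1 l, r.2 l)) * gap θ v vb fun l => (r.1 l, r.2 l)
  have hG : gapMoment ν π' θ v vb k = ∫ r, G r ∂μT.prod μY := by
    rw [← hsplit.integral_comp' (g := G)]
    rfl
  set P := (Finset.univ : Finset (Fin k)).offDiag
  let L : (Fin k → ℝ × ℝ) × (Fin k → Y) → ℝ := fun r => ∑ p ∈ P,
    pairWeight p r.1 * wvar θ (overlap θ vb (r.2 p.1) (r.2 p.2))
  have hw : ∀ p : Fin k × Fin k, p.1 ≠ p.2 →
      Integrable (fun y : Fin k → Y => wvar θ (overlap θ vb (y p.1) (y p.2))) μY ∧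
      ∫ y, wvar θ (overlap θ vb (y p.1) (y p.2)) ∂μY = overlapVar π' θ vb := by
    intro p hp
    have h := measurePreserving_pair (π' := π') hp
    refine ⟨h.integrable_comp_of_integrable (integrable_wvar_overlap hθ hθ1 hvb hunit), ?_⟩
    rw [overlapVar, ← h.map_eq, integral_map h.measurable.aemeasurable
      (measurable_wvar_overlap hvb).aestronglyMeasurable]
  have hne : ∀ p ∈ P, p.1 ≠ p.2 := fun p hp => (Finset.mem_offDiag.1 hp).2.2
  have hLi : Integrable L (μT.prod μY) := integrable_finsetSum _ fun p hp =>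
    (integral_pairWeight hm (hne p hp)).1.mul_prod (hw p (hne p hp)).1
  have hF : Measurable fun r : (Fin k → ℝ × ℝ) × (Fin k → Y) =>
      (fun l => (r.1 l, r.2 l) : Fin k → (ℝ × ℝ) × Y) := by fun_prop
  have hGi : Integrable G (μT.prod μY) := by
    refine integrable_of_abs_le (K := ∑ b, θ b + 1)
      (((Real.measurable_cos.comp measurable_phase).mul ((Finset.measurable_sum _ fun b _ =>
        (measurable_gauss (hvb b)).const_mul _).sub (measurable_gauss hv))).comp hF) fun r => ?_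
    rw [abs_mul]
    refine (mul_le_of_le_one_left (abs_nonneg _) (Real.abs_cos_le_one _)).trans ?_
    rw [abs_of_nonneg (gap_mem hθ hθ1 hsq _).1, gap]
    have := (gauss_mem (v := v) fun l => (r.1 l, r.2 l)).1
    have : ∀ b, θ b * gauss (vb b) (fun l => (r.1 l, r.2 l)) ≤ θ b := fun b =>
      mul_le_of_le_one_right (hθ b) (gauss_mem (v := vb b) _).2
    have := Finset.sum_le_sum (s := Finset.univ) fun b _ => this b
    linarith
  have hae : ∀ᵐ r ∂μT.prod μY, -((k : ℝ) ^ 2 / 8 * L r) ≤ G r := by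
    have hall : ∀ᵐ y ∂μY, ∀ l, IsUnit' θ vb (y l) := by
      rw [ae_all_iff]
      exact fun l =>
        (Measure.tendsto_eval_ae_ae (μ := fun _ : Fin k => π') (i := l)).eventually hunit
    filter_upwards [(Measure.quasiMeasurePreserving_snd (μ := μT) (ν := μY)).ae hall] with r hr
    set s : Fin k → (ℝ × ℝ) × Y := fun l => (r.1 l, r.2 l)
    obtain ⟨hg0, hg1⟩ := gap_mem hθ hθ1 hsq s
    have h1 := neg_le_cos_mul (t := r.1) hg0
    have h2 := mul_le_mul_of_nonneg_left (hg1.trans (div_le_div_of_nonneg_right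
      (wvar_mixVec_le (s := s) hθ hθ1 hr) (by norm_num : (0 : ℝ) ≤ 8)))
      (sub_nonneg.2 (allZero_mem r.1).2)
    have e : (1 - allZero r.1) * ((k : ℝ) ^ 2 * (∑ p ∈ P, ((s p.1).1.1 * (s p.2).1.1) ^ 2 *
        wvar θ (overlap θ vb (s p.1).2 (s p.2).2)) / 8) = (k : ℝ) ^ 2 / 8 * L r := by
      simp only [L, pairWeight, Finset.mul_sum, Finset.sum_div]
      exact Finset.sum_congr rfl fun p _ => by simp only [s]; ring
    rw [e] at h2
    change _ ≤ Real.cos (∑ l, (r.1 l).2) * gap θ v vb s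
    linarith
  rw [hG]
  refine le_trans ?_ (integral_mono_ae ((hLi.const_mul _).neg) hGi hae)
  simp only [Pi.neg_apply]
  rw [integral_neg, integral_const_mul, neg_le_neg_iff]
  simp only [L]
  rw [integral_finsetSum _ fun p hp =>
    (integral_pairWeight hm (hne p hp)).1.mul_prod (hw p (hne p hp)).1]
  set D := freqSq ν ^ 2 * ν.real Set.univ ^ (k - 2) -
    freqSq (ν.restrict zeroPhase) ^ 2 * ν.real zeroPhase ^ (k - 2) with hD
  have hterm : ∀ p ∈ P, ∫ r : (Fin k → ℝ × ℝ) × (Fin k → Y),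
      pairWeight p r.1 * wvar θ (overlap θ vb (r.2 p.1) (r.2 p.2)) ∂μT.prod μY =
      D * overlapVar π' θ vb := fun p hp => by
    rw [integral_prod_mul (fun t => pairWeight p t)
      (fun y : Fin k → Y => wvar θ (overlap θ vb (y p.1) (y p.2))),
      (integral_pairWeight hm (hne p hp)).2, (hw p (hne p hp)).2]
  rw [Finset.sum_congr rfl hterm, Finset.sum_const, nsmul_eq_mul]
  have hD0 : 0 ≤ D := by
    rw [hD, sub_nonneg]
    have h1 : freqSq (ν.restrict zeroPhase) ≤ freqSq ν :=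
      integral_mono_measure Measure.restrict_le_self
        (Filter.Eventually.of_forall fun q => sq_nonneg _) hm
    exact mul_le_mul (pow_le_pow_left₀ (integral_nonneg fun q => sq_nonneg _) h1 _)
      (pow_le_pow_left₀ measureReal_nonneg (measureReal_mono (Set.subset_univ _)) _)
      (pow_nonneg measureReal_nonneg _) (sq_nonneg _)
  have hV : 0 ≤ overlapVar π' θ vb := integral_nonneg fun q => wvar_nonneg hθ
  have hcard : (P.card : ℝ) ≤ (k : ℝ) ^ 2 := by
    have : P.card ≤ k ^ 2 := by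
      simp only [P, Finset.offDiag_card, Finset.card_univ, Fintype.card_fin, sq]
      exact Nat.sub_le _ _
    exact_mod_cast this
  have := mul_le_mul_of_nonneg_left
    (mul_le_mul_of_nonneg_right hcard (mul_nonneg hD0 hV))
    (show (0 : ℝ) ≤ (k : ℝ) ^ 2 / 8 by positivity)
  linarith

lemma summable_tailSum {q : ℝ} (hq0 : 0 ≤ q) (hq : q < 1) :
    Summable fun j : ℕ => ((j : ℝ) + 3) ^ 4 * q ^ j := by
  have hn : ‖q‖ < 1 := by rwa [Real.norm_eq_abs, abs_of_nonneg hq0]
  have h : ∀ m : ℕ, Summable fun j : ℕ => (j : ℝ) ^ m * q ^ j := fun m =>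
    summable_pow_mul_geometric_of_norm_lt_one m hn
  have := ((((h 4).add ((h 3).mul_left 12)).add ((h 2).mul_left 54)).add
    ((h 1).mul_left 108)).add ((h 0).mul_left 81)
  refine this.congr fun j => ?_
  ring

lemma pow_succ_diff_le {x y : ℝ} (hy : 0 ≤ y) (hyx : y ≤ x) (j : ℕ) :
    x ^ (j + 1) - y ^ (j + 1) ≤ ((j : ℝ) + 1) * x ^ j * (x - y) := by
  induction j with
  | zero => simp
  | succ j ih =>
    have h1 : y ^ (j + 1) ≤ x ^ (j + 1) := pow_le_pow_left₀ hy hyx _
    have h2 := mul_le_mul_of_nonneg_left ih (hy.trans hyx)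
    have h3 := mul_le_mul_of_nonneg_right h1 (sub_nonneg.2 hyx)
    have e : x ^ (j + 1 + 1) - y ^ (j + 1 + 1) =
        x * (x ^ (j + 1) - y ^ (j + 1)) + y ^ (j + 1) * (x - y) := by ring
    have e2 : x * (((j : ℝ) + 1) * x ^ j * (x - y)) + x ^ (j + 1) * (x - y) =
        (((j + 1 : ℕ) : ℝ) + 1) * x ^ (j + 1) * (x - y) := by push_cast; ring
    linarith

/-- The quantitative condition. -/
def Dominated (ν : Measure (ℝ × ℝ)) : Prop :=
  Integrable (fun p => p.1 ^ 2) ν ∧ ∃ c, (∀ ρ ∈ Set.Icc (-1 : ℝ) 1, c ≤ psi2 ν ρ) ∧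
    tailSum (ν.real Set.univ) * mixedSize ν ≤ 2 * c

theorem gap_sum_nonneg_of_dominated (hν : ν.real Set.univ < 1) (hd : Dominated ν)
    (hθ : ∀ b, 0 ≤ θ b) (hθ1 : ∑ b, θ b = 1) (hv : Measurable v) (hvb : ∀ b, Measurable (vb b))
    (hsq : Splits θ v vb) (hunit : ∀ᵐ y ∂π', IsUnit' θ vb y) (n : ℕ) :
    0 ≤ ∑ k ∈ Finset.range n, gapMoment ν π' θ v vb (k + 1) / (k + 1) := by
  obtain ⟨hm, c, hc, hcond⟩ := hd
  have h1 := gapMoment_one (ν := ν) hθ1 hsq hunit
  match n with
  | 0 => simp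
  | 1 => simp [h1]
  | m + 2 =>
    rw [Finset.sum_range_succ', Finset.sum_range_succ']
    simp only [Nat.cast_add, Nat.cast_one, Nat.cast_zero, zero_add, h1, zero_div, add_zero]
    set V := overlapVar π' θ vb
    set a := freqSq ν ^ 2
    set b := freqSq (ν.restrict zeroPhase) ^ 2
    set x := ν.real Set.univ with hx
    set y := ν.real zeroPhase
    set E := mixedSize ν with hE
    have hV : 0 ≤ V := integral_nonneg fun q => wvar_nonneg hθ
    have hy : 0 ≤ y := measureReal_nonneg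
    have hx0 : 0 ≤ x := measureReal_nonneg
    have hyx : y ≤ x := measureReal_mono (Set.subset_univ _)
    have hb : 0 ≤ b := sq_nonneg _
    have hba : b ≤ a := pow_le_pow_left₀ (integral_nonneg fun q => sq_nonneg _)
      (integral_mono_measure Measure.restrict_le_self
        (Filter.Eventually.of_forall fun q => sq_nonneg _) hm) _
    have hE0 : 0 ≤ E := by
      simp only [hE, mixedSize]
      exact add_nonneg (mul_nonneg (sub_nonneg.2 hba) hx0) (mul_nonneg hb (sub_nonneg.2 hyx))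
    have hterm : ∀ j : ℕ, -(V / 8 * E * (((j : ℝ) + 3) ^ 4 * x ^ j)) ≤
        gapMoment ν π' θ v vb (j + 1 + 1 + 1) / ((j : ℝ) + 1 + 1 + 1) := by
      intro j
      have hg := gapMoment_ge hm hθ hθ1 hv hvb hsq hunit (π' := π') (j + 1 + 1 + 1)
      simp only [show j + 1 + 1 + 1 - 2 = j + 1 by omega] at hg
      push_cast at hg
      rw [le_div_iff₀ (by positivity)]
      refine le_trans ?_ hg
      have hD : a * x ^ (j + 1) - b * y ^ (j + 1) ≤ ((j : ℝ) + 1 + 1 + 1) * (E * x ^ j) := by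
        have h2 := mul_le_mul_of_nonneg_left (pow_succ_diff_le hy hyx j) hb
        have e : a * x ^ (j + 1) - b * y ^ (j + 1) =
            (a - b) * x * x ^ j + b * (x ^ (j + 1) - y ^ (j + 1)) := by ring
        have e3 : E * x ^ j = (a - b) * x * x ^ j + b * x ^ j * (x - y) := by
          simp only [hE, mixedSize]; ring
        have p1 : 0 ≤ (a - b) * x * x ^ j :=
          mul_nonneg (mul_nonneg (sub_nonneg.2 hba) hx0) (pow_nonneg hx0 _)
        have p2 : 0 ≤ b * x ^ j * (x - y) :=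
          mul_nonneg (mul_nonneg hb (pow_nonneg hx0 _)) (sub_nonneg.2 hyx)
        have q1 := mul_nonneg (show (0 : ℝ) ≤ (j : ℝ) + 1 + 1 by positivity) p1
        have q2 := mul_nonneg (show (0 : ℝ) ≤ 2 by norm_num) p2
        have e4 : ((j : ℝ) + 1 + 1 + 1) * (E * x ^ j) = ((a - b) * x * x ^ j +
            b * (((j : ℝ) + 1) * x ^ j * (x - y))) + ((j : ℝ) + 1 + 1) * ((a - b) * x * x ^ j) +
            2 * (b * x ^ j * (x - y)) := by rw [e3]; ring
        linarith
      have := mul_le_mul_of_nonneg_left hD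
        (show 0 ≤ ((j : ℝ) + 1 + 1 + 1) ^ 4 / 8 * V by positivity)
      have e5 : ((j : ℝ) + 1 + 1 + 1) ^ 4 / 8 * V * (((j : ℝ) + 1 + 1 + 1) * (E * x ^ j)) =
          V / 8 * E * (((j : ℝ) + 3) ^ 4 * x ^ j) * ((j : ℝ) + 1 + 1 + 1) := by ring
      linarith
    have hsum : -(V / 8 * E * tailSum x) ≤ ∑ j ∈ Finset.range m,
        gapMoment ν π' θ v vb (j + 1 + 1 + 1) / ((j : ℝ) + 1 + 1 + 1) := by
      refine le_trans ?_ (Finset.sum_le_sum fun j _ => hterm j)
      rw [Finset.sum_neg_distrib, ← Finset.mul_sum, neg_le_neg_iff]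
      exact mul_le_mul_of_nonneg_left ((summable_tailSum hx0 hν).sum_le_tsum _
        fun j _ => by positivity) (mul_nonneg (div_nonneg hV (by norm_num)) hE0)
    have h2 := gapMoment_two_ge hm hc hθ hθ1 hv hvb hsq hunit (π' := π')
    have h3 := mul_le_mul_of_nonneg_left hcond (div_nonneg hV (show (0:ℝ) ≤ 8 by norm_num))
    have h4 : gapMoment ν π' θ v vb (1 + 1) / (1 + 1) = gapMoment ν π' θ v vb 2 / 2 := by
      norm_num
    have h5 : c / 2 * V / 2 ≤ gapMoment ν π' θ v vb 2 / 2 :=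
      div_le_div_of_nonneg_right h2 (by norm_num)
    have e6 : V / 8 * (tailSum x * E) = V / 8 * E * tailSum x := by ring
    linarith

end Vale.Agent.P157
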