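import Mathlib
import Vale.Agent.P157.Defs
import Vale.Agent.P157.Potential

/-!
Rotation invariant laws: radius/direction independence of the Gaussian vector, and the
Gaussian representation of the uniform law on the sphere.
-/

noncomputable section

open MeasureTheory ProbabilityTheory
open scoped ENNReal RealInnerProductSpace Pointwise

namespace Vale.Agent.P157

variable {ι : Type*} [Fintype ι]

/-- Euclidean norm on `ι → ℝ`. -/
def nrm (y : ι → ℝ) : ℝ := Real.sqrt (∑ i, y i ^ 2)

/-- Direction of a vector (zero for the zero vector). -/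
def dir (y : ι → ℝ) : ι → ℝ := fun i => y i / nrm y

/-- Radius of the first vector times the direction of the second. -/
def recombine (p : (ι → ℝ) × (ι → ℝ)) : ι → ℝ := fun i => nrm p.1 * dir p.2 i

lemma measurable_nrm : Measurable (nrm (ι := ι)) := by unfold nrm; fun_prop

lemma measurable_dir : Measurable (dir (ι := ι)) :=
  measurable_pi_lambda _ fun i => (measurable_pi_apply i).div measurable_nrm

lemma measurable_recombine : Measurable (recombine (ι := ι)) :=
  measurable_pi_lambda _ fun i => (measurable_nrm.comp measurable_fst).mul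
    ((measurable_pi_apply i).comp (measurable_dir.comp measurable_snd))

lemma nrm_eq_norm (x : EuclideanSpace ℝ ι) : nrm (fun i => x i) = ‖x‖ := by
  simp [nrm, EuclideanSpace.norm_eq]

lemma stdGaussian_singleton_zero [Nonempty ι] :
    stdGaussian (EuclideanSpace ℝ ι) {0} = 0 := by
  rw [← map_pi_eq_stdGaussian, Measure.map_apply (by fun_prop) (measurableSet_singleton _)]
  have : (WithLp.toLp 2 : (ι → ℝ) → EuclideanSpace ℝ ι) ⁻¹' {0} = {0} := by
    ext y; simp
  rw [this]
  have : ({0} : Set (ι → ℝ)) = Set.univ.pi fun _ => {0} := by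
    ext y; simp [funext_iff]
  have hat : NullSingletonClass (gaussianReal 0 1) := nullSingletonClass_gaussianReal one_ne_zero
  rw [this, Measure.pi_pi]
  exact Finset.prod_eq_zero (Finset.mem_univ (Classical.arbitrary ι)) (measure_singleton _)

/-- Invariance under all linear isometries. -/
def RotInv (m : Measure (EuclideanSpace ℝ ι)) : Prop :=
  ∀ e : EuclideanSpace ℝ ι ≃ₗᵢ[ℝ] EuclideanSpace ℝ ι, m.map e = m

lemma rotInv_stdGaussian : RotInv (stdGaussian (EuclideanSpace ℝ ι)) := fun e => stdGaussian_map e

lemma exists_isometry_eq {E : Type*} [NormedAddCommGroup E] [InnerProductSpace ℝ E]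
    [FiniteDimensional ℝ E] {v w : E} (h : ‖v‖ = ‖w‖) : ∃ e : E ≃ₗᵢ[ℝ] E, e v = w :=
  ⟨(ℝ ∙ (v - w))ᗮ.reflection, Submodule.reflection_sub h⟩

theorem eq_of_rotInv {m₁ m₂ : Measure (EuclideanSpace ℝ ι)} [IsProbabilityMeasure m₁]
    [IsProbabilityMeasure m₂] (h₁ : RotInv m₁) (h₂ : RotInv m₂)
    (hn : m₁.map (fun x => ‖x‖) = m₂.map (fun x => ‖x‖)) : m₁ = m₂ := by
  apply Measure.ext_of_charFun
  ext ξ
  by_cases hξ : ξ = 0
  · simp [hξ]
  have hne : Nonempty ι := by
    by_contra h
    rw [not_nonempty_iff] at h
    exact hξ (by ext i; exact h.elim i)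
  set γ := stdGaussian (EuclideanSpace ℝ ι) with hγ
  set d : EuclideanSpace ℝ ι → EuclideanSpace ℝ ι :=
    fun z => if z = 0 then ξ else (‖ξ‖ / ‖z‖) • z with hd
  have hdm : Measurable d := Measurable.ite (measurableSet_singleton _) measurable_const
    ((measurable_const.div measurable_norm).smul measurable_id)
  have hdn : ∀ z, ‖d z‖ = ‖ξ‖ := by
    intro z
    rw [hd]
    by_cases hz : z = 0
    · simp [hz]
    · simp [hz, norm_smul]
  set G : EuclideanSpace ℝ ι → EuclideanSpace ℝ ι → ℂ :=
    fun z x => Complex.exp (((⟪x, d z⟫ : ℝ) : ℂ) * Complex.I) with hG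
  set H : EuclideanSpace ℝ ι → ℂ := fun x => ∫ z, G z x ∂γ with hH
  have hGm : Measurable (Function.uncurry G) := by
    refine Complex.continuous_exp.measurable.comp
      ((Complex.continuous_ofReal.measurable.comp ?_).mul_const _)
    exact measurable_snd.inner (hdm.comp measurable_fst)
  have hGb : ∀ z x, ‖G z x‖ ≤ 1 := fun z x => (Complex.norm_exp_ofReal_mul_I _).le
  have hHinv : ∀ x x' : EuclideanSpace ℝ ι, ‖x‖ = ‖x'‖ → H x = H x' := by
    intro x x' h
    obtain ⟨e, rfl⟩ := exists_isometry_eq h
    have hae : ∀ᵐ z ∂γ, z ≠ 0 := by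
      rw [ae_iff]
      simpa using stdGaussian_singleton_zero
    calc H x = ∫ z, G (e z) (e x) ∂γ := by
          refine integral_congr_ae ?_
          filter_upwards [hae] with z hz
          have : d (e z) = e (d z) := by
            simp [hd, hz]
          simp only [hG, this, LinearIsometryEquiv.inner_map_map]
      _ = H (e x) := by
          conv_rhs => rw [hH]; simp only; rw [hγ, ← rotInv_stdGaussian e]
          rw [integral_map e.continuous.measurable.aemeasurable]
          exact (hGm.comp (measurable_prodMk_right)).aestronglyMeasurable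
  have hHm : Measurable H := by
    have := (hGm.comp measurable_swap).stronglyMeasurable.integral_prod_right' (ν := γ)
    exact this.measurable
  set e₀ : EuclideanSpace ℝ ι := ‖ξ‖⁻¹ • ξ with he
  have he0 : ‖e₀‖ = 1 := by simp [he, norm_smul, hξ]
  have hh : ∀ x, H x = H (‖x‖ • e₀) := fun x => hHinv _ _ (by simp [norm_smul, he0])
  have key : ∀ (m : Measure (EuclideanSpace ℝ ι)) [IsProbabilityMeasure m], RotInv m →
      charFun m ξ = ∫ r, H (r • e₀) ∂m.map (fun x => ‖x‖) := by
    intro m _ hm
    have hc : ∀ η, ‖η‖ = ‖ξ‖ → charFun m η = charFun m ξ := by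
      intro η hη
      obtain ⟨e, rfl⟩ := exists_isometry_eq hη.symm
      rw [charFun_apply, charFun_apply]
      conv_lhs => rw [← hm e]
      rw [integral_map e.continuous.measurable.aemeasurable
        (by fun_prop : Continuous fun x : EuclideanSpace ℝ ι =>
          Complex.exp (((⟪x, e ξ⟫ : ℝ) : ℂ) * Complex.I)).aestronglyMeasurable]
      simp only [LinearIsometryEquiv.inner_map_map]
    rw [integral_map (φ := fun x : EuclideanSpace ℝ ι => ‖x‖) (f := fun r : ℝ => H (r • e₀))
      measurable_norm.aemeasurable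
      (hHm.comp (measurable_id.smul_const e₀)).aestronglyMeasurable]
    simp only [← hh]
    calc charFun m ξ = ∫ z, charFun m (d z) ∂γ := by simp [hc _ (hdn _)]
      _ = ∫ x, H x ∂m := by
          simp only [charFun_apply]
          exact integral_integral_swap (f := G) (Integrable.of_bound hGm.aestronglyMeasurable 1
            (Filter.Eventually.of_forall fun p => hGb p.1 p.2))
  rw [key m₁ h₁, key m₂ h₂, hn]

/-- For a Gaussian vector radius and direction are independent. -/
theorem map_recombine_gaussian :
    (((gam ι).prod (gam ι))).map recombine = gam ι := by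
  cases isEmpty_or_nonempty ι
  · have : IsProbabilityMeasure (((gam ι).prod (gam ι)).map recombine) :=
      Measure.isProbabilityMeasure_map measurable_recombine.aemeasurable
    ext s _
    rcases s.eq_empty_or_nonempty with h | h
    · simp [h]
    · simp [Subsingleton.eq_univ_of_nonempty h]
  set γ := stdGaussian (EuclideanSpace ℝ ι)
  set F : EuclideanSpace ℝ ι × EuclideanSpace ℝ ι → EuclideanSpace ℝ ι :=
    fun p => (‖p.1‖ / ‖p.2‖) • p.2
  have hF : Measurable F :=
    ((measurable_norm.comp measurable_fst).div (measurable_norm.comp measurable_snd)).smul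
      measurable_snd
  have : IsProbabilityMeasure ((γ.prod γ).map F) :=
    Measure.isProbabilityMeasure_map hF.aemeasurable
  have h1 : RotInv ((γ.prod γ).map F) := by
    intro e
    rw [Measure.map_map e.continuous.measurable hF]
    have : (⇑e ∘ F) = F ∘ Prod.map id e := by
      ext p : 1; simp [F, Prod.map]
    rw [this, ← Measure.map_map hF (measurable_id.prodMap e.continuous.measurable),
      ← Measure.map_prod_map _ _ measurable_id e.continuous.measurable, Measure.map_id,
      rotInv_stdGaussian e]
  have h2 : ((γ.prod γ).map F).map (fun x => ‖x‖) = γ.map (fun x => ‖x‖) := by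
    rw [Measure.map_map measurable_norm hF]
    have hae : ∀ᵐ p ∂γ.prod γ, p.2 ≠ 0 := by
      have hz : ∀ᵐ z ∂γ, z ≠ 0 := by
        rw [ae_iff]
        simpa using stdGaussian_singleton_zero
      exact (Measure.quasiMeasurePreserving_snd (μ := γ) (ν := γ)).ae hz
    have : ((fun x => ‖x‖) ∘ F) =ᵐ[γ.prod γ] ((fun x => ‖x‖) ∘ Prod.fst) := by
      filter_upwards [hae] with p hp
      have := norm_ne_zero_iff.2 hp
      simp [F, norm_smul]
      field_simp
    rw [Measure.map_congr this, ← Measure.map_map measurable_norm measurable_fst,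
      Measure.map_fst_prod]
    simp
  have h := eq_of_rotInv h1 rotInv_stdGaussian h2
  have hT : Measurable (WithLp.toLp 2 : (ι → ℝ) → EuclideanSpace ℝ ι) := by fun_prop
  have hO : Measurable (WithLp.ofLp : EuclideanSpace ℝ ι → ι → ℝ) := by fun_prop
  have hγ : γ.map WithLp.ofLp = gam ι := by
    rw [show γ = (gam ι).map (WithLp.toLp 2) from map_pi_eq_stdGaussian.symm,
      Measure.map_map hO hT]
    exact Measure.map_id
  have h3 := congrArg (Measure.map WithLp.ofLp) h
  rw [Measure.map_map hO hF, hγ] at h3
  have hc : WithLp.ofLp ∘ F = recombine ∘ Prod.map WithLp.ofLp WithLp.ofLp := by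
    ext p i
    simp [F, recombine, dir, Prod.map, nrm, EuclideanSpace.norm_eq]
    ring
  rw [hc, ← Measure.map_map measurable_recombine (hO.prodMap hO),
    ← Measure.map_prod_map _ _ hO hO, hγ] at h3
  exact h3

lemma volume_toSphere_rotInv :
    RotInv (((volume : Measure (EuclideanSpace ℝ ι)).toSphere).map Subtype.val) := by
  intro e
  have hv : Measurable (Subtype.val :
      Metric.sphere (0 : EuclideanSpace ℝ ι) 1 → EuclideanSpace ℝ ι) := measurable_subtype_coe
  ext s hs
  rw [Measure.map_apply e.continuous.measurable hs,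
    Measure.map_apply hv (e.continuous.measurable hs), Measure.map_apply hv hs,
    Measure.toSphere_apply' _ (hv (e.continuous.measurable hs)), Measure.toSphere_apply' _ (hv hs)]
  congr 1
  have hset : Set.Ioo (0 : ℝ) 1 • (Subtype.val '' (Subtype.val ⁻¹' (⇑e ⁻¹' s) :
      Set (Metric.sphere (0 : EuclideanSpace ℝ ι) 1))) =
      ⇑e ⁻¹' (Set.Ioo (0 : ℝ) 1 • (Subtype.val '' (Subtype.val ⁻¹' s :
      Set (Metric.sphere (0 : EuclideanSpace ℝ ι) 1)))) := by
    ext x
    simp only [Subtype.image_preimage_coe, Set.mem_preimage, Set.mem_smul, Set.mem_inter_iff,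
      mem_sphere_zero_iff_norm]
    constructor
    · rintro ⟨r, hr, y, ⟨hy1, hy2⟩, rfl⟩
      exact ⟨r, hr, e y, ⟨by simpa using hy1, hy2⟩, by simp⟩
    · rintro ⟨r, hr, y, ⟨hy1, hy2⟩, hx⟩
      refine ⟨r, hr, e.symm y, ⟨by simpa using hy1, by simpa using hy2⟩, ?_⟩
      apply e.injective
      simp [hx]
  rw [hset]
  exact e.measurePreserving.measure_preimage_emb e.toHomeomorph.measurableEmbedding _

/-- The normalised surface measure is the law of the direction of a Gaussian vector. -/
theorem toSphere_eq_dir_gaussian [Nonempty ι] :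
    (((volume : Measure (EuclideanSpace ℝ ι)).toSphere Set.univ)⁻¹ •
      (volume : Measure (EuclideanSpace ℝ ι)).toSphere).map Subtype.val =
      (stdGaussian (EuclideanSpace ℝ ι)).map (fun z => ‖z‖⁻¹ • z) := by
  set σ := (volume : Measure (EuclideanSpace ℝ ι)).toSphere
  have hσ : σ Set.univ ≠ 0 := by
    simp only [ne_eq, Measure.measure_univ_eq_zero]
    exact Measure.toSphere_ne_zero _
  have : IsProbabilityMeasure ((σ Set.univ)⁻¹ • σ) := by
    constructor
    simp [ENNReal.inv_mul_cancel hσ (measure_ne_top _ _)]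
  have : IsProbabilityMeasure (((σ Set.univ)⁻¹ • σ).map Subtype.val) :=
    Measure.isProbabilityMeasure_map measurable_subtype_coe.aemeasurable
  have hd : Measurable (fun z : EuclideanSpace ℝ ι => ‖z‖⁻¹ • z) :=
    measurable_norm.inv.smul measurable_id
  have : IsProbabilityMeasure
      ((stdGaussian (EuclideanSpace ℝ ι)).map fun z => ‖z‖⁻¹ • z) :=
    Measure.isProbabilityMeasure_map hd.aemeasurable
  apply eq_of_rotInv
  · intro e
    rw [Measure.map_smul, Measure.map_smul, volume_toSphere_rotInv e]
  · intro e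
    rw [Measure.map_map e.continuous.measurable hd]
    have : (⇑e ∘ fun z : EuclideanSpace ℝ ι => ‖z‖⁻¹ • z) = (fun z => ‖z‖⁻¹ • z) ∘ ⇑e := by
      ext z : 1; simp
    rw [this, ← Measure.map_map hd e.continuous.measurable, rotInv_stdGaussian e]
  · rw [Measure.map_map measurable_norm measurable_subtype_coe,
      Measure.map_map measurable_norm hd]
    have hae : ∀ᵐ z ∂stdGaussian (EuclideanSpace ℝ ι), z ≠ 0 := by
      rw [ae_iff]
      simpa using stdGaussian_singleton_zero
    have e1 : ((fun x => ‖x‖) ∘ fun z : EuclideanSpace ℝ ι => ‖z‖⁻¹ • z)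
        =ᵐ[stdGaussian (EuclideanSpace ℝ ι)] fun _ => (1 : ℝ) := by
      filter_upwards [hae] with z hz
      simp [norm_smul, hz]
    have e2 : ((fun x : EuclideanSpace ℝ ι => ‖x‖) ∘ (Subtype.val :
        Metric.sphere (0 : EuclideanSpace ℝ ι) 1 → EuclideanSpace ℝ ι)) = fun _ => (1 : ℝ) := by
      ext u; simp
    rw [Measure.map_congr e1, e2, Measure.map_const, Measure.map_const]
    simp [ENNReal.inv_mul_cancel hσ (measure_ne_top _ _)]

/-- The sphere law is the law of `√N` times the direction of a Gaussian vector. -/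
theorem sphereLaw_eq {N : ℕ} (hN : 0 < N) :
    sphereLaw N = (gam (Fin N)).map fun y i => Real.sqrt N * dir y i := by
  have : Nonempty (Fin N) := ⟨⟨0, hN⟩⟩
  have hs : Measurable (fun x : EuclideanSpace ℝ (Fin N) => fun i => Real.sqrt N * x i) := by
    fun_prop
  have hd : Measurable (fun z : EuclideanSpace ℝ (Fin N) => ‖z‖⁻¹ • z) :=
    measurable_norm.inv.smul measurable_id
  have h := congrArg (Measure.map fun x : EuclideanSpace ℝ (Fin N) => fun i => Real.sqrt N * x i)
    (toSphere_eq_dir_gaussian (ι := Fin N))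
  rw [Measure.map_map hs measurable_subtype_coe, Measure.map_map hs hd] at h
  rw [sphereLaw]
  refine h.trans ?_
  rw [← map_pi_eq_stdGaussian, Measure.map_map (hs.comp hd) (by fun_prop)]
  congr 1
  ext y i
  simp [dir, nrm, EuclideanSpace.norm_eq]
  left
  ring

end Vale.Agent.P157
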