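import Mathlib
import Vale.Agent.P157.Core
import Vale.Agent.P157.Potential
import Vale.Agent.P157.Criterion
import Vale.Agent.P157.Polar

/-!
The block (super-additivity) inequality for the expected log-partition function.
-/

noncomputable section

open MeasureTheory ProbabilityTheory
open scoped ENNReal

namespace Vale.Agent.P157

/-- `m` patterns, configurations `dir y` with `y` of law `ρ^ι`. -/
def logPart (ρ : Measure ℝ) (f : ℝ → ℝ) (ι : Type*) [Fintype ι] (m : ℕ) : ℝ :=
  Phi (gam ι) (term f dir) (Measure.pi fun _ : ι => ρ) m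

/-- What is used about the one-coordinate law. -/
structure Admissible (ρ : Measure ℝ) (C : ℝ) : Prop where
  prob : IsProbabilityMeasure ρ
  zero : ρ {0} = 0
  polar : ∀ n : ℕ, ((Measure.pi fun _ : Fin n => ρ).prod (Measure.pi fun _ => ρ)).map recombine =
    Measure.pi fun _ => ρ
  sq_integrable : ∀ n : ℕ,
    Integrable (fun y : Fin n → ℝ => |(∑ i : Fin n, y i ^ 2) - (n : ℝ)|) (Measure.pi fun _ => ρ)
  moment : ∀ n : ℕ, ∫ y : Fin n → ℝ, |(∑ i : Fin n, y i ^ 2) - (n : ℝ)| ∂(Measure.pi fun _ => ρ) ≤ C * Real.sqrt n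

lemma Phi_map_right {Y Z Ω : Type*} [MeasurableSpace Y] [MeasurableSpace Z] [MeasurableSpace Ω]
    {P : Measure Ω} {F : Ω → Z → ℝ} {K : ℝ} (h : Nice K F) {T : Y → Z} (hT : Measurable T)
    (π' : Measure Y) (M : ℕ) :
    Phi P F (π'.map T) M = Phi P (fun ω y => F ω (T y)) π' M := by
  unfold Phi
  congr 1
  ext ω
  exact lint_map hT ((h.sum M).meas_left ω)

lemma measurePreserving_reindex {ι κ : Type*} [Fintype ι] [Fintype κ] (μ : Measure ℝ)
    [SigmaFinite μ] (e : ι ≃ κ) :
    MeasurePreserving (fun (y : κ → ℝ) (i : ι) => y (e i))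
      (Measure.pi fun _ : κ => μ) (Measure.pi fun _ : ι => μ) := by
  have h := measurePreserving_piCongrLeft (fun _ : ι => μ) e.symm
  have hc : ⇑(MeasurableEquiv.piCongrLeft (fun _ : ι => ℝ) e.symm) =
      fun (y : κ → ℝ) (i : ι) => y (e i) := by
    ext y i
    obtain ⟨j, rfl⟩ := e.symm.surjective i
    simp [MeasurableEquiv.piCongrLeft_apply_apply]
  rwa [hc] at h

lemma logPart_congr {ι κ : Type*} [Fintype ι] [Fintype κ] {ρ : Measure ℝ}
    [IsProbabilityMeasure ρ] {f : ℝ → ℝ} {K : ℝ} (hf : Measurable f) (hb : ∀ z, |f z| ≤ K)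
    (e : ι ≃ κ) (m : ℕ) : logPart ρ f ι m = logPart ρ f κ m := by
  have hg := measurePreserving_reindex (gaussianReal 0 1) e
  have hy := measurePreserving_reindex ρ e
  have hn : Nice K (term f (dir (ι := ι))) := nice_term hf hb measurable_dir
  unfold logPart
  rw [← hy.map_eq, Phi_map_right hn hy.measurable]
  have hn' : Nice K (fun (g : ι → ℝ) (y : κ → ℝ) => term f dir g fun i => y (e i)) :=
    ⟨hn.meas.comp (f := fun z : (ι → ℝ) × (κ → ℝ) => (z.1, fun i => z.2 (e i)))
      (measurable_fst.prodMk (hy.measurable.comp measurable_snd)), fun _ _ => hb _⟩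
  rw [← Phi_map_left (gam κ) hg hn']
  congr 1
  ext g y
  unfold term dot dir nrm
  congr 1
  rw [e.sum_comp (fun j => y j ^ 2), e.sum_comp (fun j => g j * (y j / Real.sqrt (∑ k, y k ^ 2)))]

section blocks

variable {B : Type} [Fintype B] (sz : B → ℕ)

/-- Coordinates grouped into blocks. -/
abbrev BI : Type := (b : B) × Fin (sz b)

/-- A block of a vector. -/
def blk (b : B) (y : BI sz → ℝ) : Fin (sz b) → ℝ := fun j => y ⟨b, j⟩

/-- Feature with prescribed block weights. -/
def feat (w : B → ℝ) (y : BI sz → ℝ) : BI sz → ℝ := fun i => w i.1 * dir (blk sz i.1 y) i.2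

variable [DecidableEq B]

/-- Feature of a single block. -/
def featb (b : B) (y : BI sz → ℝ) : BI sz → ℝ :=
  feat sz (fun c => if c = b then 1 else 0) y

variable {sz}

lemma measurable_blk (b : B) : Measurable (blk sz b) :=
  measurable_pi_lambda _ fun j => measurable_pi_apply _

omit [DecidableEq B] in
lemma measurable_feat_uncurry :
    Measurable fun p : (B → ℝ) × (BI sz → ℝ) => feat sz p.1 p.2 :=
  measurable_pi_lambda _ fun i => ((measurable_pi_apply i.1).comp measurable_fst).mul
    ((measurable_pi_apply i.2).comp (measurable_dir.comp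
      ((measurable_pi_lambda _ fun j => measurable_pi_apply _).comp measurable_snd)))

omit [DecidableEq B] in
lemma measurable_feat (w : B → ℝ) : Measurable (feat sz w) :=
  measurable_feat_uncurry.comp (f := fun y => (w, y)) (measurable_const.prodMk measurable_id)

omit [DecidableEq B] in
lemma sum_dir_sq_le {κ : Type*} [Fintype κ] (y : κ → ℝ) : ∑ i, dir y i ^ 2 ≤ 1 := by
  simp only [dir, div_pow, ← Finset.sum_div]
  rw [nrm, Real.sq_sqrt (Finset.sum_nonneg fun i _ => sq_nonneg _)]
  exact div_self_le_one _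

lemma measurePreserving_uncurry (ρ : Measure ℝ) [IsProbabilityMeasure ρ] :
    MeasurePreserving (fun (x : ∀ b, Fin (sz b) → ℝ) (i : BI sz) => x i.1 i.2)
      (Measure.pi fun b : B => Measure.pi fun _ : Fin (sz b) => ρ)
      (Measure.pi fun _ : BI sz => ρ) := by
  have hm : Measurable (fun (x : ∀ b, Fin (sz b) → ℝ) (i : BI sz) => x i.1 i.2) :=
    measurable_pi_lambda _ fun i => (measurable_pi_apply i.2).comp (measurable_pi_apply i.1)
  refine ⟨hm, (Measure.pi_eq fun s hs => ?_).symm⟩
  rw [Measure.map_apply hm (MeasurableSet.univ_pi hs)]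
  have : (fun (x : ∀ b, Fin (sz b) → ℝ) (i : BI sz) => x i.1 i.2) ⁻¹' Set.univ.pi s =
      Set.univ.pi fun b => Set.univ.pi fun j => s ⟨b, j⟩ := by
    ext x; simp [Sigma.forall]
  rw [this]
  simp only [Measure.pi_pi]
  rw [Fintype.prod_sigma]

lemma measurePreserving_blk (ρ : Measure ℝ) [IsProbabilityMeasure ρ] (b : B) :
    MeasurePreserving (blk sz b) (Measure.pi fun _ : BI sz => ρ)
      (Measure.pi fun _ : Fin (sz b) => ρ) := by
  have h := measurePreserving_uncurry (sz := sz) ρ
  refine ⟨measurable_blk b, ?_⟩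
  rw [← h.map_eq, Measure.map_map (measurable_blk b) h.measurable]
  exact (measurePreserving_eval (fun b : B => Measure.pi fun _ : Fin (sz b) => ρ) b).map_eq

lemma sq_dist_le {S : B → ℝ} (hS : ∀ b, 0 ≤ S b) (hsz : 0 < ∑ b, (sz b : ℝ)) :
    ∑ b, (Real.sqrt (S b / ∑ c, S c) - Real.sqrt ((sz b : ℝ) / ∑ c, (sz c : ℝ))) ^ 2 ≤
      4 * (∑ b, |S b - sz b|) / ∑ c, (sz c : ℝ) := by
  set T := ∑ c, S c
  set N := ∑ c, (sz c : ℝ)
  set D := ∑ b, |S b - sz b| with hD
  have hT : 0 ≤ T := Finset.sum_nonneg fun b _ => hS b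
  have hD0 : 0 ≤ D := Finset.sum_nonneg fun b _ => abs_nonneg _
  have hTN : |T - N| ≤ D := by
    rw [← Finset.sum_sub_distrib]
    exact Finset.abs_sum_le_sum_abs _ _
  have hsq : ∀ a b : ℝ, 0 ≤ a → 0 ≤ b → (Real.sqrt a - Real.sqrt b) ^ 2 ≤ |a - b| := by
    intro a b ha hb
    have ha' := Real.sq_sqrt ha
    have hb' := Real.sq_sqrt hb
    have sa := Real.sqrt_nonneg a
    have sb := Real.sqrt_nonneg b
    rcases le_total (Real.sqrt a) (Real.sqrt b) with h | h
    · have := neg_abs_le (a - b); nlinarith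
    · have := le_abs_self (a - b); nlinarith
  refine (Finset.sum_le_sum fun b _ => hsq _ _ (div_nonneg (hS b) hT)
    (div_nonneg (Nat.cast_nonneg _) hsz.le)).trans ?_
  by_cases h : T ≤ N / 2
  · have h1 : ∑ b, |S b / T - (sz b : ℝ) / N| ≤ 2 := by
      refine (Finset.sum_le_sum fun b _ => abs_sub _ _).trans ?_
      rw [Finset.sum_add_distrib]
      simp only [abs_div, Nat.abs_cast, abs_of_nonneg hT, abs_of_pos hsz, abs_of_nonneg (hS _),
        ← Finset.sum_div]
      have := div_self_le_one T
      have : N / N = 1 := div_self hsz.ne'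
      linarith
    refine h1.trans ?_
    rw [le_div_iff₀ hsz]
    have := neg_abs_le (T - N)
    linarith
  · push Not at h
    have hTp : 0 < T := lt_trans (by linarith) h
    calc ∑ b, |S b / T - (sz b : ℝ) / N|
        ≤ ∑ b, (|S b - sz b| / T + (sz b : ℝ) / N * (|T - N| / T)) := by
          refine Finset.sum_le_sum fun b _ => ?_
          have e : S b / T - (sz b : ℝ) / N = (S b - sz b) / T + (sz b : ℝ) / N * ((N - T) / T) := by
            field_simp
            ring
          rw [e]
          refine (abs_add_le _ _).trans (le_of_eq ?_)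
          rw [abs_div, abs_mul, abs_div, abs_div, abs_of_pos hTp, abs_of_pos hsz, Nat.abs_cast,
            abs_sub_comm N T]
      _ = D / T + |T - N| / T := by
          rw [Finset.sum_add_distrib, ← Finset.sum_div, ← Finset.sum_mul, ← Finset.sum_div,
            div_self hsz.ne', one_mul]
      _ ≤ 2 * D / T := by rw [mul_div_assoc, two_mul]; gcongr
      _ ≤ 4 * D / N := by
          rw [div_le_div_iff₀ hTp hsz]
          have h2 := mul_le_mul_of_nonneg_left h.le (show (0 : ℝ) ≤ 4 * D by linarith)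
          linarith

variable {ρ : Measure ℝ} {C : ℝ} {f : ℝ → ℝ} {K : ℝ}

/-- Radial step: compare the true model with the constant-weight feature. -/
theorem radial_step (hρ : Admissible ρ C) (hf : Usable f K) (hsz : 0 < ∑ b, sz b)
    (M : ℕ) {ε L : ℝ} (hL : 0 ≤ L)
    (hmod : ∀ a b, |f a - f b| ≤ ε + L * |a - b|) :
    Phi (gam (BI sz)) (term (f) (feat sz fun b => Real.sqrt ((sz b : ℝ) / ∑ d, (sz d : ℝ))))
        (Measure.pi fun _ : BI sz => ρ) M -
      M * (Real.exp (2 * K) * (ε + L * Real.sqrt (4 * (∑ b, C * Real.sqrt (sz b)) /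
        ∑ d, (sz d : ℝ)))) ≤
      logPart ρ (f) (BI sz) M := by
  have := hρ.prob
  set π₀ := Measure.pi fun _ : BI sz => ρ with hπ
  set N := ∑ d, (sz d : ℝ) with hNdef
  have hN : 0 < N := by
    rw [hNdef]; exact_mod_cast hsz
  -- recombination
  set U : (BI sz → ℝ) × (BI sz → ℝ) → BI sz → ℝ :=
    fun p i => recombine (blk sz i.1 p.1, blk sz i.1 p.2) i.2 with hU
  have hUm : Measurable U := measurable_pi_lambda _ fun i =>
    ((measurable_pi_apply i.2).comp (measurable_recombine.comp
      (((measurable_blk i.1).comp measurable_fst).prodMk ((measurable_blk i.1).comp measurable_snd))))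
  have hUmap : (π₀.prod π₀).map U = π₀ := by
    have h1 := measurePreserving_uncurry (sz := sz) ρ
    have h2 := measurePreserving_pi
      (fun b : B => (Measure.pi fun _ : Fin (sz b) => ρ).prod (Measure.pi fun _ => ρ))
      (fun b : B => Measure.pi fun _ : Fin (sz b) => ρ)
      (f := fun _ => recombine) (fun b => ⟨measurable_recombine, hρ.polar (sz b)⟩)
    have h3 : MeasurePreserving
        (fun (q : ∀ b : B, (Fin (sz b) → ℝ) × (Fin (sz b) → ℝ)) => ((fun b => (q b).1), fun b => (q b).2))
        (Measure.pi fun b : B => (Measure.pi fun _ : Fin (sz b) => ρ).prod (Measure.pi fun _ => ρ))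
        ((Measure.pi fun b : B => Measure.pi fun _ : Fin (sz b) => ρ).prod
          (Measure.pi fun b : B => Measure.pi fun _ : Fin (sz b) => ρ)) := by
      refine ⟨by fun_prop, (Measure.prod_eq_generateFrom generateFrom_pi generateFrom_pi
        isPiSystem_pi isPiSystem_pi ((Measure.FiniteSpanningSetsIn.pi fun b =>
          (Measure.pi fun _ : Fin (sz b) => ρ).toFiniteSpanningSetsIn))
        ((Measure.FiniteSpanningSetsIn.pi fun b =>
          (Measure.pi fun _ : Fin (sz b) => ρ).toFiniteSpanningSetsIn)) ?_).symm⟩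
      rintro _ ⟨s, hs, rfl⟩ _ ⟨t, ht, rfl⟩
      simp only [Set.mem_univ_pi, Set.mem_setOf_eq] at hs ht
      rw [Measure.map_apply (by fun_prop) ((MeasurableSet.univ_pi hs).prod (MeasurableSet.univ_pi ht))]
      have : (fun (q : ∀ b : B, (Fin (sz b) → ℝ) × (Fin (sz b) → ℝ)) =>
          ((fun b => (q b).1), fun b => (q b).2)) ⁻¹' (Set.univ.pi s ×ˢ Set.univ.pi t) =
          Set.univ.pi fun b => s b ×ˢ t b := by
        ext q; simp [forall_and]
      rw [this]
      simp [Measure.pi_pi, Measure.prod_prod, Finset.prod_mul_distrib]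
    have hz := (h1.prod h1).comp h3
    rw [hπ, ← hz.map_eq, Measure.map_map hUm hz.measurable]
    exact (h1.comp h2).map_eq
  set w : (BI sz → ℝ) → B → ℝ := fun y' b =>
    Real.sqrt ((∑ j, blk sz b y' j ^ 2) / ∑ d, ∑ j, blk sz d y' j ^ 2) with hw
  have hwm : Measurable w := by
    rw [hw]; unfold blk; fun_prop
  have hdir : (fun p => dir (U p)) =ᵐ[π₀.prod π₀] fun p => feat sz (w p.1) p.2 := by
    have hne : ∀ᵐ y ∂π₀, ∀ i : BI sz, y i ≠ 0 := by
      rw [ae_all_iff]
      intro i
      have h := (measurePreserving_eval (fun _ : BI sz => ρ) i).quasiMeasurePreserving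
      have h0 : ∀ᵐ x ∂ρ, x ≠ 0 := by rw [ae_iff]; simpa using hρ.zero
      exact h.ae h0
    filter_upwards [(Measure.quasiMeasurePreserving_snd (μ := π₀) (ν := π₀)).ae hne] with p hp
    have hblock : ∀ b, ∑ j, (recombine (blk sz b p.1, blk sz b p.2) j) ^ 2 =
        ∑ j, blk sz b p.1 j ^ 2 := by
      intro b
      rcases Nat.eq_zero_or_pos (sz b) with h | h
      · have : IsEmpty (Fin (sz b)) := by rw [h]; infer_instance
        simp
      simp only [recombine, mul_pow, ← Finset.mul_sum, dir, div_pow, ← Finset.sum_div, nrm]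
      rw [Real.sq_sqrt (Finset.sum_nonneg fun i _ => sq_nonneg _),
        Real.sq_sqrt (Finset.sum_nonneg fun i _ => sq_nonneg _), div_self, mul_one]
      refine ne_of_gt (Finset.sum_pos' (fun i _ => sq_nonneg _)
        ⟨⟨0, h⟩, Finset.mem_univ _, ?_⟩)
      have := hp ⟨b, ⟨0, h⟩⟩
      exact lt_of_le_of_ne (sq_nonneg _) (Ne.symm (pow_ne_zero 2 this))
    ext i
    have hs : ∑ k, U p k ^ 2 = ∑ d, ∑ j, blk sz d p.1 j ^ 2 := by
      rw [Fintype.sum_sigma]
      exact Finset.sum_congr rfl fun b _ => hblock b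
    simp only [dir, nrm, hs]
    simp only [hU, recombine, feat, hw, dir, nrm]
    rw [Real.sqrt_div (Finset.sum_nonneg fun j _ => sq_nonneg _)]
    ring
  set fw : (BI sz → ℝ) × (BI sz → ℝ) → BI sz → ℝ := fun p => feat sz (w p.1) p.2
  have hfwm : Measurable fw :=
    measurable_feat_uncurry.comp ((hwm.comp measurable_fst).prodMk measurable_snd)
  have hnid : Nice (K) (term (f) (id : (BI sz → ℝ) → BI sz → ℝ)) :=
    nice_term hf.meas hf.bound measurable_id
  have eq1 : logPart ρ (f) (BI sz) M =
      Phi (gam (BI sz)) (term (f) fw) (π₀.prod π₀) M := by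
    have e1 : Phi (gam (BI sz)) (term (f) fw) (π₀.prod π₀) M =
        Phi (gam (BI sz)) (term (f) id) ((π₀.prod π₀).map fw) M :=
      (Phi_map_right hnid hfwm _ M).symm
    rw [e1, ← Measure.map_congr hdir,
      show (fun p => dir (U p)) = dir ∘ U from rfl, ← Measure.map_map measurable_dir hUm, hUmap,
      Phi_map_right hnid measurable_dir]
    rfl
  rw [eq1]
  set s : B → ℝ := fun b => Real.sqrt ((sz b : ℝ) / N) with hs
  set η : (BI sz → ℝ) → ℝ := fun y' => Real.sqrt (∑ b, (w y' b - s b) ^ 2) with hη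
  set e : (BI sz → ℝ) → ℝ := fun y' => Real.exp (2 * K) * (ε + L * η y') with he
  have hG : Nice (M * K) (fun (r : ((Fin M → BI sz → ℝ) × (BI sz → ℝ))) y =>
      ∑ a, term (f) (feat sz (w r.2)) (r.1 a) y) := by
    constructor
    · refine Finset.measurable_sum _ fun a _ => ?_
      exact hf.meas.comp (measurable_dot.comp
        (f := fun z : ((Fin M → BI sz → ℝ) × (BI sz → ℝ)) × (BI sz → ℝ) =>
          (z.1.1 a, feat sz (w z.1.2) z.2))
        ((((measurable_pi_apply a).comp measurable_fst).comp measurable_fst).prodMk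
          (measurable_feat_uncurry.comp
            (((hwm.comp measurable_snd).comp measurable_fst).prodMk measurable_snd))))
    · intro r y
      exact (nice_term hf.meas hf.bound (measurable_feat (w r.2))).sum_bound r.1 y
  have hGi := hG.integrable_lint ((Measure.pi fun _ : Fin M => gam (BI sz)).prod π₀) π₀
  have hjen : ∫ y', Phi (gam (BI sz)) (term (f) (feat sz (w y'))) π₀ M ∂π₀ ≤
      Phi (gam (BI sz)) (term (f) fw) (π₀.prod π₀) M := by
    unfold Phi
    rw [← integral_integral_swap hGi]
    refine integral_mono hGi.integral_prod_left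
      (((nice_term hf.meas hf.bound hfwm).sum M).integrable_lint _ _) fun g => ?_
    have hm : Measurable (Function.uncurry fun y' y =>
        ∑ a, term (f) (feat sz (w y')) (g a) y) :=
      hG.meas.comp (f := fun z : (BI sz → ℝ) × (BI sz → ℝ) => ((g, z.1), z.2))
        ((measurable_const.prodMk measurable_fst).prodMk measurable_snd)
    exact lint_prod_ge (μ := π₀) (π := π₀) hm fun y' y => hG.bound (g, y') y
  refine le_trans ?_ hjen
  have hpt : ∀ y', Phi (gam (BI sz)) (term (f) (feat sz s)) π₀ M - M * e y' ≤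
      Phi (gam (BI sz)) (term (f) (feat sz (w y'))) π₀ M := by
    intro y'
    refine Phi_swap (nice_term hf.meas hf.bound (measurable_feat _)) (nice_term hf.meas hf.bound (measurable_feat _))
      (fun μ _ => ?_) M π₀ inferInstance
    have := abs_le.1 (abs_lint_sub_le (π' := μ) hf.meas hf.bound hL hmod (measurable_feat (w y'))
      (measurable_feat s) (η := η y') fun y => by
        refine Real.sqrt_le_sqrt ?_
        rw [Fintype.sum_sigma]
        refine Finset.sum_le_sum fun b _ => ?_
        simp only [feat, ← sub_mul, mul_pow, ← Finset.mul_sum]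
        exact mul_le_of_le_one_right (sq_nonneg _) (sum_dir_sq_le _))
    simp only [he]
    linarith
  have hηm : Measurable η := by
    rw [hη]; fun_prop
  have hDi : ∀ b, Integrable (fun y' : BI sz → ℝ => |(∑ j, blk sz b y' j ^ 2) - sz b|) π₀ :=
    fun b => (measurePreserving_blk (sz := sz) ρ b).integrable_comp_of_integrable
      (hρ.sq_integrable (sz b))
  have hη2 : ∀ y', η y' ^ 2 ≤ 4 * (∑ b, |(∑ j, blk sz b y' j ^ 2) - sz b|) / N := by
    intro y'
    rw [hη, Real.sq_sqrt (Finset.sum_nonneg fun b _ => sq_nonneg _)]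
    exact sq_dist_le (fun b => Finset.sum_nonneg fun j _ => sq_nonneg _) hN
  have hDsum : Integrable (fun y' : BI sz → ℝ =>
      4 * (∑ b, |(∑ j, blk sz b y' j ^ 2) - sz b|) / N) π₀ :=
    ((integrable_finsetSum _ fun b _ => hDi b).const_mul 4).div_const N
  have hη2i : Integrable (fun y' => η y' ^ 2) π₀ :=
    hDsum.mono' (hηm.pow_const 2).aestronglyMeasurable (Filter.Eventually.of_forall fun y' => by
      rw [Real.norm_eq_abs, abs_of_nonneg (sq_nonneg _)]; exact hη2 y')
  have hηL : MemLp η 2 π₀ := (memLp_two_iff_integrable_sq hηm.aestronglyMeasurable).2 hη2i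
  have hηint : ∫ y', η y' ∂π₀ ≤ Real.sqrt (4 * (∑ b, C * Real.sqrt (sz b)) / N) := by
    apply Real.le_sqrt_of_sq_le
    have h := variance_nonneg η π₀
    rw [variance_eq_sub hηL] at h
    simp only [Pi.pow_apply] at h
    refine (sub_nonneg.1 h).trans ((integral_mono hη2i hDsum hη2).trans ?_)
    rw [integral_div, integral_const_mul, integral_finsetSum _ fun b _ => hDi b]
    refine div_le_div_of_nonneg_right (mul_le_mul_of_nonneg_left
      (Finset.sum_le_sum fun b _ => ?_) (by norm_num)) hN.le
    have hb := measurePreserving_blk (sz := sz) ρ b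
    refine le_trans (le_of_eq ?_) (hρ.moment (sz b))
    rw [← hb.map_eq, integral_map hb.measurable.aemeasurable]
    exact (hρ.sq_integrable (sz b)).aestronglyMeasurable.congr
      (Filter.Eventually.of_forall fun _ => rfl) |> fun h => by rw [hb.map_eq]; exact h
  have hei : Integrable e π₀ :=
    ((integrable_const _).add ((hηL.integrable one_le_two).const_mul L)).const_mul _
  have hPi : Integrable (fun y' => Phi (gam (BI sz)) (term (f) (feat sz (w y'))) π₀ M) π₀ :=
    hGi.integral_prod_right
  refine le_trans ?_ (integral_mono ((integrable_const _).sub (hei.const_mul _)) hPi hpt)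
  simp only [Pi.sub_apply]
  rw [integral_sub (integrable_const _) (hei.const_mul _), integral_const_mul]
  simp only [integral_const, probReal_univ, smul_eq_mul, one_mul, he]
  rw [integral_const_mul, integral_add (integrable_const _) ((hηL.integrable one_le_two).const_mul L)]
  simp only [integral_const, probReal_univ, smul_eq_mul, one_mul, integral_const_mul]
  gcongr

/-- Log-partition function for a fixed assignment of patterns to blocks. -/
lemma fixed_assignment (hρ : Admissible ρ C) (hf : Usable f K) {M : ℕ} (τ : Fin M → B) :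
    ∫ g : Fin M → BI sz → ℝ, lint (Measure.pi fun _ : BI sz => ρ)
        (fun y => ∑ a, term (f) (featb sz (τ a)) (g a) y)
        ∂(Measure.pi fun _ : Fin M => gam (BI sz)) =
      ∑ b, logPart ρ (f) (Fin (sz b)) (∑ a, if decide (τ a = b) = true then 1 else 0) := by
  have := hρ.prob
  have hsum : ∀ g : Fin M → BI sz → ℝ,
      Measurable fun y : BI sz → ℝ => ∑ a, term (f) (featb sz (τ a)) (g a) y := fun g =>
    Finset.measurable_sum _ fun a _ => (nice_term hf.meas hf.bound (measurable_feat _)).meas_left (g a)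
  set Fb : ∀ b : B, (BI sz → ℝ) → (Fin (sz b) → ℝ) → ℝ :=
    fun b g z => term (f) dir (blk sz b g) z with hFb
  have hFbn : ∀ b, Nice K (Fb b) := fun b =>
    (nice_term hf.meas hf.bound measurable_dir).comp (measurable_blk b)
  have hHn : ∀ b, Nice (M * K) (fun (g : Fin M → BI sz → ℝ) z =>
      ∑ a, if decide (τ a = b) = true then Fb b (g a) z else 0) := by
    intro b
    refine ⟨?_, fun g z => ?_⟩
    · refine Finset.measurable_sum _ fun a _ => ?_
      split_ifs
      · exact (hFbn b).meas.comp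
          (f := fun z : (Fin M → BI sz → ℝ) × (Fin (sz b) → ℝ) => (z.1 a, z.2))
          (((measurable_pi_apply a).comp measurable_fst).prodMk measurable_snd)
      · exact measurable_const
    · refine (Finset.abs_sum_le_sum_abs _ _).trans ?_
      calc _ ≤ ∑ _a : Fin M, K := Finset.sum_le_sum fun a _ => by
              split_ifs
              · exact (hFbn b).bound _ _
              · simpa using (abs_nonneg _).trans ((hFbn b).bound (g a) z)
        _ = M * K := by simp
  have hdot : ∀ (g y : BI sz → ℝ) (b : B),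
      dot g (featb sz b y) = dot (blk sz b g) (dir (blk sz b y)) := by
    intro g y b
    simp only [dot, featb, feat, Fintype.sum_sigma]
    rw [Finset.sum_eq_single b]
    · simp [blk]
    · intro d _ hd
      simp [hd]
    · simp
  have hG : ∀ g : Fin M → BI sz → ℝ, lint (Measure.pi fun _ : BI sz => ρ)
      (fun y => ∑ a, term (f) (featb sz (τ a)) (g a) y) = ∑ b, lint (Measure.pi fun _ : Fin (sz b) => ρ)
      (fun z => ∑ a, if decide (τ a = b) = true then Fb b (g a) z else 0) := by
    intro g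
    have hu := measurePreserving_uncurry (sz := sz) ρ
    rw [← lint_pi (fun b : B => Measure.pi fun _ : Fin (sz b) => ρ)
      (fun b => (hHn b).meas_left g) (fun b => (hHn b).bound g)]
    rw [show (Measure.pi fun _ : BI sz => ρ) = (Measure.pi fun b : B => Measure.pi fun _ : Fin (sz b) => ρ).map _
      from hu.map_eq.symm, lint_map hu.measurable (hsum g)]
    congr 1
    ext x
    rw [Finset.sum_comm]
    refine Finset.sum_congr rfl fun a _ => ?_
    rw [Finset.sum_eq_single (τ a)]
    · simp only [decide_true, if_true, hFb, term, hdot]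
      rfl
    · intro b _ hb
      simp [Ne.symm hb]
    · simp
  simp only [hG]
  rw [integral_finsetSum _ fun b _ => (hHn b).integrable_lint _ _]
  refine Finset.sum_congr rfl fun b _ => ?_
  rw [Phi_mask (hFbn b) M _ inferInstance (fun a => decide (τ a = b))]
  exact Phi_map_left (gam (BI sz)) (measurePreserving_blk (gaussianReal 0 1) b)
    (nice_term hf.meas hf.bound measurable_dir) _ _

/-- The block features split squared norms. -/
lemma splits_featb {θ : B → ℝ} (hθ0 : ∀ b, 0 ≤ θ b) :
    Splits θ (feat sz fun b => Real.sqrt (θ b)) (featb sz) := by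
  intro k r
  set s : B → ℝ := fun b => Real.sqrt (θ b) with hs
  have hmix : ∀ (u : B → ℝ) (i : BI sz),
      mixVec (feat sz u) r i = u i.1 * mixVec (feat sz fun _ => 1) r i := by
    intro u i
    simp only [mixVec, feat, Finset.mul_sum]
    exact Finset.sum_congr rfl fun l _ => by ring
  simp only [Fintype.sum_sigma]
  refine Finset.sum_congr rfl fun b _ => ?_
  rw [Finset.sum_eq_single b]
  · have e1 : ∀ j : Fin (sz b), mixVec (featb sz b) r ⟨b, j⟩ =
        mixVec (feat sz fun _ => 1) r ⟨b, j⟩ := by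
      intro j
      change mixVec (feat sz fun c => if c = b then 1 else 0) r ⟨b, j⟩ = _
      rw [hmix]; simp
    rw [Finset.mul_sum]
    refine Finset.sum_congr rfl fun j _ => ?_
    rw [e1 j, hmix s ⟨b, j⟩, mul_pow, hs, Real.sq_sqrt (hθ0 b)]
  · intro d _ hd
    refine Finset.sum_eq_zero fun j _ => ?_
    change mixVec (feat sz fun c => if c = b then 1 else 0) r ⟨d, j⟩ ^ 2 = 0
    rw [hmix]; simp [hd]
  · simp

/-- Mixing lowers the free energy for block features. -/
def BlockConcave (f : ℝ → ℝ) : Prop :=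
  ∀ (B : Type) [Fintype B] [DecidableEq B] (sz : B → ℕ) (θ : B → ℝ),
    (∀ b, 0 ≤ θ b) → ∑ b, θ b = 1 → (∀ b, θ b ≠ 0 → 0 < sz b) →
    ∀ (ρ' : Measure (BI sz → ℝ)), IsProbabilityMeasure ρ' → (∀ᵐ y ∂ρ', ∀ i, y i ≠ 0) →
    ∑ b, θ b * ∫ g, lint ρ' (term (f) (featb sz b) g) ∂gam (BI sz) ≤
      ∫ g, lint ρ' (term (f) (feat sz fun b => Real.sqrt (θ b)) g) ∂gam (BI sz)

/-- The number of patterns falling in a block concentrates. -/
lemma count_deviation [MeasurableSpace B] [DiscreteMeasurableSpace B] {θ : B → ℝ} (μ : Measure B)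
    [IsProbabilityMeasure μ] (hμi : ∀ φ : B → ℝ, ∫ b, φ b ∂μ = ∑ b, θ b * φ b) (b : B) (M : ℕ) :
    ∫ τ : Fin M → B, |((∑ a, if decide (τ a = b) = true then 1 else 0 : ℕ) : ℝ) - M * θ b|
      ∂(Measure.pi fun _ : Fin M => μ) ≤ Real.sqrt (M * θ b) := by
  set X : B → ℝ := fun d => if d = b then 1 else 0 with hX
  have hXL : ∀ a : Fin M, MemLp X 2 μ := fun _ => MemLp.of_discrete
  have hcast : ∀ τ : Fin M → B, ((∑ a, if decide (τ a = b) = true then 1 else 0 : ℕ) : ℝ) = ∑ a, X (τ a) := by
    intro τ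
    simp [hX]
  have hXe : ∀ φ : ℝ → ℝ, φ 0 = 0 → φ 1 = 1 → ∫ d, φ (X d) ∂μ = θ b := by
    intro φ h0 h1
    rw [hμi, Finset.sum_eq_single b]
    · simp [hX, h1]
    · intro d _ hd; simp [hX, hd, h0]
    · simp
  have hmean : ∫ τ : Fin M → B, ((∑ a, if decide (τ a = b) = true then 1 else 0 : ℕ) : ℝ) ∂(Measure.pi fun _ : Fin M => μ) = M * θ b := by
    simp only [hcast]
    rw [integral_finsetSum _ fun a _ => (Integrable.of_finite)]
    have hev : ∀ a, ∫ τ : Fin M → B, X (τ a) ∂(Measure.pi fun _ : Fin M => μ) = θ b := fun a => by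
      rw [← hXe id rfl rfl]
      exact integral_comp_eval (hXL a).aestronglyMeasurable
    simp [hev]
  have hvar : variance (fun τ : Fin M → B => ((∑ a, if decide (τ a = b) = true then 1 else 0 : ℕ) : ℝ)) (Measure.pi fun _ : Fin M => μ) ≤ M * θ b := by
    have e : (fun τ : Fin M → B => ((∑ a, if decide (τ a = b) = true then 1 else 0 : ℕ) : ℝ)) = ∑ a, fun τ : Fin M → B => X (τ a) := by
      ext τ; rw [Finset.sum_apply]; exact hcast τ
    rw [e, variance_sum_pi (μ := fun _ : Fin M => μ) hXL]
    calc ∑ a : Fin M, variance X μ ≤ ∑ _a : Fin M, θ b := Finset.sum_le_sum fun a _ => by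
          refine (variance_le_expectation_sq (hXL a).aestronglyMeasurable).trans (le_of_eq ?_)
          exact hXe (fun x => x ^ 2) (by norm_num) (by norm_num)
      _ = M * θ b := by simp
  apply Real.le_sqrt_of_sq_le
  have h := variance_nonneg (fun τ : Fin M → B => |((∑ a, if decide (τ a = b) = true then 1 else 0 : ℕ) : ℝ) - M * θ b|) (Measure.pi fun _ : Fin M => μ)
  rw [variance_eq_sub (show MemLp _ 2 _ from MemLp.of_discrete)] at h
  rw [variance_eq_integral (show MemLp _ 2 _ from MemLp.of_discrete).aemeasurable, hmean] at hvar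
  simp only [Pi.pow_apply, sq_abs] at h
  linarith

/-- Convexity step: pattern-wise mixture of the single-block models. -/
lemma mixture_le (hρ : Admissible ρ C) (hf : Usable f K) (hcv : BlockConcave f)
    [MeasurableSpace B] [DiscreteMeasurableSpace B] {θ : B → ℝ} (hpos : ∀ b, θ b ≠ 0 → 0 < sz b) (hθ0 : ∀ b, 0 ≤ θ b) (hθ1 : ∑ b, θ b = 1)
    (μ : Measure B) [IsProbabilityMeasure μ]
    (hμi : ∀ φ : B → ℝ, ∫ b, φ b ∂μ = ∑ b, θ b * φ b) (M : ℕ) :
    Phi ((gam (BI sz)).prod μ) (fun z => term (f) (featb sz z.2) z.1)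
        (Measure.pi fun _ : BI sz => ρ) M ≤
      Phi (gam (BI sz)) (term (f) (feat sz fun b => Real.sqrt (θ b)))
        (Measure.pi fun _ : BI sz => ρ) M := by
  have := hρ.prob
  have hF' : Nice (K)
      (fun (z : (BI sz → ℝ) × B) => term (f) (featb sz z.2) z.1) := by
    refine ⟨?_, fun _ _ => hf.bound _⟩
    have h : Measurable fun z : ((BI sz → ℝ) × B) × (BI sz → ℝ) => featb sz z.1.2 z.2 :=
      (measurable_from_prod_countable_left (f := fun p : (BI sz → ℝ) × B => featb sz p.2 p.1)
        fun b => measurable_feat (sz := sz) fun c => if c = b then 1 else 0).comp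
          (measurable_snd.prodMk (measurable_snd.comp measurable_fst))
    exact hf.meas.comp (measurable_dot.comp
      ((measurable_fst.comp measurable_fst).prodMk h))
  have hne : ∀ᵐ y ∂(Measure.pi fun _ : BI sz => ρ), ∀ i, y i ≠ 0 := by
    rw [ae_all_iff]
    intro i
    have h0 : ∀ᵐ x ∂ρ, x ≠ 0 := by rw [ae_iff]; simpa using hρ.zero
    exact (measurePreserving_eval (fun _ : BI sz => ρ) i).quasiMeasurePreserving.ae h0
  have h := Phi_swap_of_ae (P' := (gam (BI sz)).prod μ) (e := 0) (P := gam (BI sz))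
    (fun y => ∀ i, y i ≠ 0)
    (nice_term hf.meas hf.bound (measurable_feat (sz := sz) fun b => Real.sqrt (θ b))) hF'
    (fun ρ' hρ' hne' => by
      rw [sub_zero, integral_prod_symm _ (hF'.integrable_lint _ _), hμi]
      exact hcv B sz θ hθ0 hθ1 hpos ρ' hρ' hne') M (Measure.pi fun _ : BI sz => ρ) inferInstance
    hne
  simpa using h

/-- The mixture as an average over assignments. -/
lemma mixture_eq (hρ : Admissible ρ C) (hf : Usable f K) [MeasurableSpace B]
    [DiscreteMeasurableSpace B] (μ : Measure B) [IsProbabilityMeasure μ] (M : ℕ) :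
    Phi ((gam (BI sz)).prod μ) (fun z => term (f) (featb sz z.2) z.1)
        (Measure.pi fun _ : BI sz => ρ) M =
      ∫ τ : Fin M → B, ∑ b, logPart ρ (f) (Fin (sz b))
        (∑ a, if decide (τ a = b) = true then 1 else 0) ∂(Measure.pi fun _ : Fin M => μ) := by
  have := hρ.prob
  have hsplit := measurePreserving_arrowProdEquivProdArrow (BI sz → ℝ) B (Fin M)
    (fun _ => gam (BI sz)) (fun _ => μ)
  let G : (Fin M → BI sz → ℝ) × (Fin M → B) → ℝ := fun r =>
    lint (Measure.pi fun _ : BI sz => ρ) fun y =>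
      ∑ a, term (f) (featb sz (r.2 a)) (r.1 a) y
  have hGn : Nice (M * K)
      (fun (r : (Fin M → BI sz → ℝ) × (Fin M → B)) y =>
        ∑ a, term (f) (featb sz (r.2 a)) (r.1 a) y) := by
    refine ⟨?_, fun r y => ?_⟩
    · refine Finset.measurable_sum _ fun a _ => ?_
      have h : Measurable fun z : ((Fin M → BI sz → ℝ) × (Fin M → B)) × (BI sz → ℝ) =>
          featb sz (z.1.2 a) z.2 :=
        (measurable_from_prod_countable_left (f := fun p : (BI sz → ℝ) × B => featb sz p.2 p.1)
          fun b => measurable_feat (sz := sz) fun c => if c = b then 1 else 0).comp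
            (measurable_snd.prodMk ((measurable_pi_apply a).comp
              (measurable_snd.comp measurable_fst)))
      exact hf.meas.comp (measurable_dot.comp
        (((measurable_pi_apply a).comp (measurable_fst.comp measurable_fst)).prodMk h))
    · refine (Finset.abs_sum_le_sum_abs _ _).trans ?_
      calc _ ≤ ∑ _a : Fin M, K := Finset.sum_le_sum fun a _ => hf.bound _
        _ = M * K := by simp
  have hPhi : Phi ((gam (BI sz)).prod μ) (fun z => term (f) (featb sz z.2) z.1)
      (Measure.pi fun _ : BI sz => ρ) M =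
      ∫ r, G r ∂(Measure.pi fun _ : Fin M => gam (BI sz)).prod (Measure.pi fun _ => μ) := by
    rw [← hsplit.integral_comp' (g := G)]
    rfl
  rw [hPhi, integral_prod_symm _ (hGn.integrable_lint _ _)]
  exact integral_congr_ae (Filter.Eventually.of_forall fun τ => fixed_assignment hρ hf τ)

/-- Convexity step and factorisation. -/
theorem block_step (hρ : Admissible ρ C) (hf : Usable f K) (hcv : BlockConcave f) (hsz : 0 < ∑ b, sz b)
    (m : B → ℕ) (M : ℕ) :
    ∑ b, (logPart ρ (f) (Fin (sz b)) (m b) - K *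
        (Real.sqrt (M * ((sz b : ℝ) / ∑ d, (sz d : ℝ))) +
          |(M : ℝ) * ((sz b : ℝ) / ∑ d, (sz d : ℝ)) - m b|)) ≤
      Phi (gam (BI sz)) (term (f) (feat sz fun b => Real.sqrt ((sz b : ℝ) / ∑ d, (sz d : ℝ))))
        (Measure.pi fun _ : BI sz => ρ) M := by
  have := hρ.prob
  let _ : MeasurableSpace B := ⊤
  have : DiscreteMeasurableSpace B := ⟨fun _ => trivial⟩
  have hN : 0 < ∑ d, (sz d : ℝ) := by exact_mod_cast hsz
  let θ : B → ℝ := fun b => (sz b : ℝ) / ∑ d, (sz d : ℝ)
  have hθ0 : ∀ b, 0 ≤ θ b := fun b => div_nonneg (Nat.cast_nonneg _) hN.le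
  have hθ1 : ∑ b, θ b = 1 := by simp only [θ, ← Finset.sum_div, div_self hN.ne']
  let μ : Measure B := ∑ b, ENNReal.ofReal (θ b) • Measure.dirac b
  have hμp : IsProbabilityMeasure μ := by
    constructor
    simp [μ, ← ENNReal.ofReal_sum_of_nonneg (fun b _ => hθ0 b), hθ1]
  have hμi : ∀ φ : B → ℝ, ∫ b, φ b ∂μ = ∑ b, θ b * φ b := by
    intro φ
    rw [show μ = ∑ b, ENNReal.ofReal (θ b) • Measure.dirac b from rfl,
      integral_finsetSum_measure fun b _ => Integrable.of_finite.smul_measure ENNReal.ofReal_ne_top]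
    simp [integral_smul_measure, ENNReal.toReal_ofReal (hθ0 _)]
  have hpos' : ∀ b, θ b ≠ 0 → 0 < sz b := fun b hb => Nat.pos_of_ne_zero fun h => hb (by simp [θ, h])
  refine le_trans ?_ (mixture_le hρ hf hcv hpos' hθ0 hθ1 μ hμi M)
  rw [mixture_eq hρ hf μ M]
  have hint : ∀ φ : (Fin M → B) → ℝ, Integrable φ (Measure.pi fun _ : Fin M => μ) :=
    fun φ => Integrable.of_finite
  rw [integral_finsetSum _ fun b _ => hint _]
  refine Finset.sum_le_sum fun b _ => ?_
  let cnt : (Fin M → B) → ℕ := fun τ => ∑ a, if decide (τ a = b) = true then 1 else 0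
  have hdev : ∫ τ, |(cnt τ : ℝ) - M * θ b| ∂(Measure.pi fun _ : Fin M => μ) ≤
      Real.sqrt (M * θ b) := count_deviation μ hμi b M
  have hK : 0 ≤ K := hf.nonneg
  change logPart ρ (f) (Fin (sz b)) (m b) -
      K * (Real.sqrt (M * θ b) + |(M : ℝ) * θ b - m b|) ≤
    ∫ τ, logPart ρ (f) (Fin (sz b)) (cnt τ) ∂(Measure.pi fun _ : Fin M => μ)
  calc logPart ρ (f) (Fin (sz b)) (m b) -
        K * (Real.sqrt (M * θ b) + |(M : ℝ) * θ b - m b|)
      ≤ ∫ τ, (logPart ρ (f) (Fin (sz b)) (m b) -
          K * (|(cnt τ : ℝ) - M * θ b| + |(M : ℝ) * θ b - m b|))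
            ∂(Measure.pi fun _ : Fin M => μ) := by
        rw [integral_sub (hint _) (hint _), integral_const_mul, integral_add (hint _) (hint _)]
        simp only [integral_const, probReal_univ, smul_eq_mul, one_mul]
        gcongr
    _ ≤ _ := by
        refine integral_mono (hint _) (hint _) fun τ => ?_
        have h1 := abs_le.1 (abs_Phi_sub_le (P := gam (Fin (sz b)))
          (nice_term hf.meas hf.bound (measurable_dir (ι := Fin (sz b))))
          (Measure.pi fun _ : Fin (sz b) => ρ) (m b) (cnt τ))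
        have h2 : |(m b : ℝ) - cnt τ| ≤ |(cnt τ : ℝ) - M * θ b| + |(M : ℝ) * θ b - m b| :=
          (abs_sub_comm _ _).trans_le (abs_sub_le _ _ _)
        have h3 := mul_le_mul_of_nonneg_left h2 hK
        simp only [logPart]
        linarith

end blocks

/-- Cosine transforms of positive measures. -/
theorem blockConcave_of_zeroPhase {ν : Measure (ℝ × ℝ)} [IsFiniteMeasure ν]
    (hν : ν.real Set.univ < 1) (h : ν zeroPhaseᶜ = 0) (c : ℝ) : BlockConcave (pot ν c) := by
  intro B _ _ sz θ hθ0 hθ1 _ ρ' _ _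
  exact concave_of_gapMoment hν hθ0 hθ1 (measurable_feat _) (fun b => measurable_feat _) fun n =>
    Finset.sum_nonneg fun k _ => div_nonneg
      (gapMoment_nonneg_of_zeroPhase h hθ0 hθ1 (splits_featb hθ0) _) (by positivity)

/-- The quantitative criterion. -/
theorem blockConcave_of_dominated {ν : Measure (ℝ × ℝ)} [IsFiniteMeasure ν]
    (hν : ν.real Set.univ < 1) (h : Dominated ν) (c : ℝ) : BlockConcave (pot ν c) := by
  intro B _ _ sz θ hθ0 hθ1 hpos ρ' _ hne
  have hu : ∀ᵐ y ∂ρ', IsUnit' θ (featb sz) y := by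
    filter_upwards [hne] with y hy b hb
    rw [Fintype.sum_sigma, Finset.sum_eq_single b]
    · simp only [featb, feat, if_true, one_mul, dir, div_pow]
      refine (Finset.sum_div Finset.univ (fun x : Fin (sz b) => blk sz b y x ^ 2)
        (nrm (blk sz b y) ^ 2)).symm.trans ?_
      rw [nrm, Real.sq_sqrt (Finset.sum_nonneg fun i _ => sq_nonneg _), div_self]
      refine ne_of_gt (Finset.sum_pos' (fun i _ => sq_nonneg _)
        ⟨⟨0, hpos b hb⟩, Finset.mem_univ _, ?_⟩)
      exact lt_of_le_of_ne (sq_nonneg _) (Ne.symm (pow_ne_zero 2 (hy _)))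
    · intro d _ hd
      simp [featb, feat, hd]
    · simp
  exact concave_of_gapMoment hν hθ0 hθ1 (measurable_feat _) (fun b => measurable_feat _)
    (gap_sum_nonneg_of_dominated hν h hθ0 hθ1 (measurable_feat _) (fun b => measurable_feat _)
      (splits_featb hθ0) hu)

end Vale.Agent.P157
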