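import Mathlib
import Vale.Agent.P157.Defs

/-!
Definitions of the replica-symmetric functionals used by the statements for P157.
-/

noncomputable section

open MeasureTheory ProbabilityTheory Filter
open scoped Topology

namespace Vale.Agent.P157

/-- `E log E exp f (√q z + √(1-q) ξ)`. -/
def gardnerG (f : ℝ → ℝ) (q : ℝ) : ℝ :=
  ∫ z, Real.log (∫ ξ, Real.exp (f (Real.sqrt q * z + Real.sqrt (1 - q) * ξ)) ∂gaussianReal 0 1)
    ∂gaussianReal 0 1

/-- The conjugate overlap `E (∂ log E exp f (√q z + √(1-q) ξ)) ^ 2`. -/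
def gardnerA (f : ℝ → ℝ) (q : ℝ) : ℝ :=
  (∫ z, ((∫ ξ, ξ * Real.exp (f (Real.sqrt q * z + Real.sqrt (1 - q) * ξ)) ∂gaussianReal 0 1) /
    ∫ ξ, Real.exp (f (Real.sqrt q * z + Real.sqrt (1 - q) * ξ)) ∂gaussianReal 0 1) ^ 2
      ∂gaussianReal 0 1) / (1 - q)

/-- The Gardner functional on the cube. -/
def gardnerIsing (f : ℝ → ℝ) (α q : ℝ) : ℝ :=
  α * gardnerG f q - α * gardnerA f q * (1 - q) / 2 +
    ∫ z, Real.log (Real.cosh (Real.sqrt (α * gardnerA f q) * z)) ∂gaussianReal 0 1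

/-- The Gardner functional on the sphere. -/
def gardnerSphere (f : ℝ → ℝ) (α q : ℝ) : ℝ :=
  α * gardnerG f q + (q / (1 - q) + Real.log (1 - q)) / 2

/-- Both pressures converge, to limits below the Gardner functional. -/
def HasLimitsBelow (α : ℝ) (f : ℝ → ℝ) : Prop :=
  (∃ L, Tendsto (meanPressure isingLaw α f) atTop (𝓝 L) ∧
      ∀ q ∈ Set.Ico (0 : ℝ) 1, L ≤ gardnerIsing f α q) ∧
    ∃ L, Tendsto (meanPressure sphereLaw α f) atTop (𝓝 L) ∧
      ∀ q ∈ Set.Ico (0 : ℝ) 1, L ≤ gardnerSphere f α q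

/-- Second derivative of `z ↦ ∫ cos (t z + φ) τ(dt, dφ)`. -/
def secondDeriv (τ : Measure (ℝ × ℝ)) (z : ℝ) : ℝ :=
  -∫ p, p.1 ^ 2 * Real.cos (p.1 * z + p.2) ∂τ

end Vale.Agent.P157
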