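import Mathlib
import Vale.Agent.P157.Defs
import Vale.Agent.P157.Blocks

/-!
The Ising and spherical configuration laws are admissible.
-/

noncomputable section

open MeasureTheory ProbabilityTheory
open scoped ENNReal

namespace Vale.Agent.P157

/-- Fair signs. -/
abbrev rad : Measure ℝ := (2 : ℝ≥0∞)⁻¹ • (Measure.dirac (1 : ℝ) + Measure.dirac (-1 : ℝ))

instance : IsProbabilityMeasure rad := by
  constructor
  simp only [rad, Measure.smul_apply, Measure.add_apply, measure_univ, smul_eq_mul]
  rw [show (1 : ℝ≥0∞) + 1 = 2 by norm_num]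
  exact ENNReal.inv_mul_cancel two_ne_zero ENNReal.ofNat_ne_top

lemma ae_rad_sq {ι : Type*} [Fintype ι] :
    ∀ᵐ y ∂(Measure.pi fun _ : ι => rad), ∀ i, y i ^ 2 = 1 := by
  rw [ae_all_iff]
  intro i
  have h : ∀ᵐ x ∂rad, x ^ 2 = (1 : ℝ) := by
    rw [ae_iff]
    simp [rad]
  exact (measurePreserving_eval (fun _ : ι => rad) i).quasiMeasurePreserving.ae h

lemma nrm_of_sq_one {ι : Type*} [Fintype ι] {y : ι → ℝ} (h : ∀ i, y i ^ 2 = 1) :
    nrm y = Real.sqrt (Fintype.card ι) := by
  simp [nrm, h]

theorem admissible_rad : Admissible rad 0 where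
  prob := inferInstance
  zero := by simp [rad]
  polar n := by
    set π₁ := Measure.pi fun _ : Fin n => rad
    have h : recombine =ᵐ[π₁.prod π₁] Prod.snd := by
      filter_upwards [(Measure.quasiMeasurePreserving_fst (μ := π₁) (ν := π₁)).ae ae_rad_sq,
        (Measure.quasiMeasurePreserving_snd (μ := π₁) (ν := π₁)).ae ae_rad_sq] with p h1 h2
      ext i
      have hn : (0 : ℝ) < n := by exact_mod_cast i.pos
      simp only [recombine, dir, nrm_of_sq_one h1, nrm_of_sq_one h2, Fintype.card_fin]
      field_simp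
    rw [Measure.map_congr h, Measure.map_snd_prod]
    simp
  sq_integrable n := by
    refine (integrable_zero (Fin n → ℝ) ℝ _).congr ?_
    filter_upwards [ae_rad_sq] with y hy
    simp [hy]
  moment n := by
    rw [integral_eq_zero_of_ae]
    · simp
    · filter_upwards [ae_rad_sq] with y hy
      simp [hy]

/-- The variance of the square of a standard Gaussian variable. -/
def gaussC : ℝ := Real.sqrt (variance (fun x : ℝ => x ^ 2) (gaussianReal 0 1))

lemma gaussC_nonneg : 0 ≤ gaussC := Real.sqrt_nonneg _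

theorem admissible_gaussian : Admissible (gaussianReal 0 1) gaussC := by
  have hp : NullSingletonClass (gaussianReal 0 1) := nullSingletonClass_gaussianReal one_ne_zero
  have hsq : MemLp (fun x : ℝ => x ^ 2) 2 (gaussianReal 0 1) := by
    rw [memLp_two_iff_integrable_sq (by fun_prop)]
    have h := (IsGaussian.memLp_id (gaussianReal 0 1) (p := 4) (by norm_num)).integrable_norm_pow
      (p := 4) (by norm_num)
    refine h.congr (Filter.Eventually.of_forall fun x => ?_)
    simp only [id, Real.norm_eq_abs]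
    rw [← pow_mul]
    exact (Even.pow_abs (by decide : Even 4) x)
  have hmean : ∫ x, x ^ 2 ∂gaussianReal 0 1 = 1 := by
    have h := variance_eq_sub (μ := gaussianReal 0 1) (X := id) IsGaussian.memLp_two_id
    rw [variance_id_gaussianReal] at h
    simpa using h.symm
  have hS : ∀ n : ℕ, MemLp (fun y : Fin n → ℝ => ∑ i, y i ^ 2) 2 (gam (Fin n)) := fun n =>
    memLp_finsetSum _ fun i _ => hsq.comp_measurePreserving (measurePreserving_eval _ i)
  have hd : ∀ n : ℕ, MemLp (fun y : Fin n → ℝ => (∑ i, y i ^ 2) - (n : ℝ)) 2 (gam (Fin n)) :=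
    fun n => (hS n).sub (memLp_const _)
  refine ⟨inferInstance, measure_singleton _, fun n => map_recombine_gaussian,
    fun n => ((hd n).integrable one_le_two).abs, fun n => ?_⟩
  have h := variance_nonneg (fun y : Fin n → ℝ => |(∑ i, y i ^ 2) - (n : ℝ)|) (gam (Fin n))
  rw [variance_eq_sub (show MemLp (fun y : Fin n → ℝ => |(∑ i, y i ^ 2) - (n : ℝ)|) 2 _ from
    (hd n).norm)] at h
  simp only [Pi.pow_apply, sq_abs] at h
  have hv := variance_sum_pi (μ := fun _ : Fin n => gaussianReal 0 1)
    (X := fun _ x => x ^ 2) (fun _ => hsq)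
  have e : (∑ i, fun y : Fin n → ℝ => y i ^ 2) = fun y => ∑ i, y i ^ 2 := by
    ext y; simp
  rw [e, variance_eq_integral (hS n).aemeasurable] at hv
  have hm : ∫ y : Fin n → ℝ, ∑ i, y i ^ 2 ∂gam (Fin n) = n := by
    have hi : ∀ i ∈ Finset.univ, Integrable (fun y : Fin n → ℝ => y i ^ 2) (gam (Fin n)) :=
      fun i _ => (hsq.comp_measurePreserving (measurePreserving_eval _ i)).integrable one_le_two
    rw [integral_finsetSum _ hi]
    have : ∀ i, ∫ y : Fin n → ℝ, y i ^ 2 ∂gam (Fin n) = 1 := fun i =>
      (integral_comp_eval (μ := fun _ : Fin n => gaussianReal 0 1) (i := i)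
        hsq.aestronglyMeasurable).trans hmean
    simp [this]
  rw [hm] at hv
  simp only [Finset.sum_const, Finset.card_univ, Fintype.card_fin, nsmul_eq_mul] at hv
  refine (Real.le_sqrt_of_sq_le (sub_nonneg.1 h)).trans (le_of_eq ?_)
  rw [hv, mul_comm, Real.sqrt_mul (variance_nonneg _ _), gaussC]

lemma isingLaw_eq {N : ℕ} (hN : 0 < N) :
    isingLaw N = (Measure.pi fun _ : Fin N => rad).map fun y i => Real.sqrt N * dir y i := by
  have h : (fun (y : Fin N → ℝ) i => Real.sqrt N * dir y i) =ᵐ[Measure.pi fun _ : Fin N => rad]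
      id := by
    filter_upwards [ae_rad_sq] with y hy
    ext i
    have : (0 : ℝ) < N := by exact_mod_cast hN
    simp only [dir, nrm_of_sq_one hy, Fintype.card_fin, id]
    field_simp
  rw [Measure.map_congr h, Measure.map_id]
  rfl

lemma meanPressure_eq {law : (N : ℕ) → Measure (Fin N → ℝ)} {ρ : Measure ℝ}
    [IsProbabilityMeasure ρ] {f : ℝ → ℝ} (hf : Measurable f) {N : ℕ} (hN : 0 < N) (α : ℝ)
    (hlaw : law N = (Measure.pi fun _ : Fin N => ρ).map fun y i => Real.sqrt N * dir y i) :
    meanPressure law α f N = logPart ρ f (Fin N) ⌊α * N⌋₊ / N := by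
  unfold meanPressure patterns
  rw [integral_const_mul, div_eq_inv_mul, div_eq_inv_mul, mul_one, hlaw]
  congr 1
  unfold logPart Phi
  congr 1
  ext g
  have hs : Real.sqrt (N : ℝ) ≠ 0 := by positivity
  have hsc : Measurable fun (y : Fin N → ℝ) i => Real.sqrt N * dir y i :=
    measurable_pi_lambda _ fun i => ((measurable_pi_apply i).comp measurable_dir).const_mul _
  rw [integral_map hsc.aemeasurable (Measurable.aestronglyMeasurable (by fun_prop))]
  unfold lint term dot
  congr 2
  ext y
  congr 1
  refine Finset.sum_congr rfl fun a _ => ?_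
  congr 1
  rw [Finset.sum_div]
  exact Finset.sum_congr rfl fun i _ => by field_simp

end Vale.Agent.P157
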