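import Mathlib
import Vale.Agent.P157.Potential

/-!
Gaussian smoothing of a bounded weight: expansion in a shift, without differentiating the weight.
-/

noncomputable section

open MeasureTheory ProbabilityTheory Filter
open scoped Topology NNReal

namespace Vale.Agent.P157

/-- Standard Gaussian law on the line. -/
abbrev gam1 : Measure ℝ := gaussianReal 0 1

/-- `E w (x + s ξ)`. -/
def sm0 (w : ℝ → ℝ) (s x : ℝ) : ℝ := ∫ ξ, w (x + s * ξ) ∂gam1

/-- `E ξ w (x + s ξ)`. -/
def sm1 (w : ℝ → ℝ) (s x : ℝ) : ℝ := ∫ ξ, ξ * w (x + s * ξ) ∂gam1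

/-- `E (ξ ^ 2 - 1) w (x + s ξ)`. -/
def sm2 (w : ℝ → ℝ) (s x : ℝ) : ℝ := ∫ ξ, (ξ ^ 2 - 1) * w (x + s * ξ) ∂gam1

/-- The density of a shifted standard Gaussian. -/
def dens (a ξ : ℝ) : ℝ := Real.exp (a * ξ - a ^ 2 / 2)

lemma gaussianPDFReal_mul_dens (a ξ : ℝ) :
    gaussianPDFReal 0 1 ξ * dens a ξ = gaussianPDFReal 0 1 (ξ - a) := by
  simp only [gaussianPDFReal, dens, NNReal.coe_one, mul_one, sub_zero, mul_assoc, ← Real.exp_add]
  congr 2
  ring

lemma integral_gam1 (φ : ℝ → ℝ) : ∫ ξ, φ ξ ∂gam1 = ∫ ξ, gaussianPDFReal 0 1 ξ * φ ξ := by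
  rw [integral_gaussianReal_eq_integral_smul one_ne_zero]; rfl

lemma integral_shift (φ : ℝ → ℝ) (a : ℝ) :
    ∫ ξ, φ (ξ + a) ∂gam1 = ∫ ξ, φ ξ * dens a ξ ∂gam1 := by
  rw [integral_gam1, integral_gam1,
    ← integral_add_right_eq_self (fun ξ => gaussianPDFReal 0 1 ξ * (φ ξ * dens a ξ)) a]
  congr 1
  ext ξ
  rw [show gaussianPDFReal 0 1 (ξ + a) * (φ (ξ + a) * dens a (ξ + a)) =
    gaussianPDFReal 0 1 (ξ + a) * dens a (ξ + a) * φ (ξ + a) by ring, gaussianPDFReal_mul_dens,
    add_sub_cancel_right]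

lemma map_combine (a b : ℝ) :
    (gam1.prod gam1).map (fun p => a * p.1 + b * p.2) =
      gam1.map (fun z => Real.sqrt (a ^ 2 + b ^ 2) * z) := by
  have h : (gam1.prod gam1).map (fun p => a * p.1 + b * p.2) =
      (gam1.map (a * ·)) ∗ (gam1.map (b * ·)) := by
    rw [Measure.conv, Measure.map_prod_map gam1 gam1 (measurable_const_mul a) (measurable_const_mul b),
      Measure.map_map (by fun_prop) (by fun_prop)]
    rfl
  rw [h, gam1, gaussianReal_map_const_mul, gaussianReal_map_const_mul, gaussianReal_map_const_mul,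
    gaussianReal_conv_gaussianReal]
  simp only [mul_zero, add_zero, mul_one]
  congr 1
  apply NNReal.eq
  push_cast
  rw [Real.sq_sqrt (by positivity)]

lemma integral_combine {φ : ℝ → ℝ} (hφ : Measurable φ) (a b : ℝ) :
    ∫ p, φ (a * p.1 + b * p.2) ∂gam1.prod gam1 =
      ∫ z, φ (Real.sqrt (a ^ 2 + b ^ 2) * z) ∂gam1 := by
  rw [← integral_map (φ := fun p : ℝ × ℝ => a * p.1 + b * p.2) (by fun_prop)
      hφ.aestronglyMeasurable, map_combine, integral_map (by fun_prop) hφ.aestronglyMeasurable]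

/-- An integrable envelope. -/
def env (ξ : ℝ) : ℝ := (|ξ| + 1) ^ 4 * Real.exp (|ξ| + 1)

lemma env_nonneg (ξ : ℝ) : 0 ≤ env ξ := by unfold env; positivity

lemma one_le_env (ξ : ℝ) : 1 ≤ env ξ :=
  one_le_mul_of_one_le_of_one_le (one_le_pow₀ (by linarith [abs_nonneg ξ]))
    (Real.one_le_exp (by positivity))

lemma measurable_env : Measurable env := by unfold env; fun_prop

lemma integrable_env : Integrable env gam1 := by
  have h := (((integrable_exp_mul_gaussianReal (μ := 0) (v := 1) 2).add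
    (integrable_exp_mul_gaussianReal (-2))).const_mul (24 * Real.exp 2))
  refine h.mono' measurable_env.aestronglyMeasurable (Eventually.of_forall fun ξ => ?_)
  rw [Real.norm_eq_abs, abs_of_nonneg (env_nonneg ξ)]
  have h4 := Real.pow_div_factorial_le_exp (x := |ξ| + 1) (by positivity) 4
  rw [show ((Nat.factorial 4 : ℕ) : ℝ) = 24 by norm_num [Nat.factorial], div_le_iff₀ (by norm_num)] at h4
  refine (mul_le_mul_of_nonneg_right h4 (Real.exp_pos _).le).trans ?_
  rw [mul_right_comm, ← Real.exp_add, show |ξ| + 1 + (|ξ| + 1) = 2 + 2 * |ξ| by ring, Real.exp_add]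
  simp only [Pi.add_apply]
  have hle : Real.exp (2 * |ξ|) ≤ Real.exp (2 * ξ) + Real.exp (-2 * ξ) := by
    rcases abs_choice ξ with h | h <;> rw [h]
    · linarith [Real.exp_pos (-2 * ξ)]
    · rw [show 2 * -ξ = -2 * ξ by ring]; linarith [Real.exp_pos (2 * ξ)]
  calc Real.exp 2 * Real.exp (2 * |ξ|) * 24 = 24 * Real.exp 2 * Real.exp (2 * |ξ|) := by ring
    _ ≤ _ := mul_le_mul_of_nonneg_left hle (by positivity)

lemma abs_exp_third (b : ℝ) :
    |Real.exp b - 1 - b - b ^ 2 / 2| ≤ 4 * |b| ^ 3 * Real.exp |b| := by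
  have he : 1 ≤ Real.exp |b| := Real.one_le_exp (abs_nonneg b)
  rcases le_or_gt |b| 1 with h | h
  · have h3 := Real.exp_bound h (n := 3) (by norm_num)
    have e : ∑ m ∈ Finset.range 3, b ^ m / (m.factorial : ℝ) = 1 + b + b ^ 2 / 2 := by
      simp [Finset.sum_range_succ]
    rw [e] at h3
    calc |Real.exp b - 1 - b - b ^ 2 / 2| = |Real.exp b - (1 + b + b ^ 2 / 2)| := by congr 1; ring
      _ ≤ |b| ^ 3 * ((Nat.succ 3 : ℕ) / ((Nat.factorial 3 : ℕ) * (3 : ℕ) : ℝ)) := h3
      _ ≤ |b| ^ 3 * (4 * Real.exp |b|) := by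
          refine mul_le_mul_of_nonneg_left ?_ (by positivity)
          norm_num [Nat.factorial]; linarith
      _ = _ := by ring
  · have h1 : 1 ≤ |b| ^ 3 := one_le_pow₀ h.le
    have h2 : b ^ 2 ≤ |b| ^ 3 := by rw [← sq_abs]; exact pow_le_pow_right₀ h.le (by norm_num)
    have hb : |b| ≤ |b| ^ 3 := le_self_pow₀ h.le (by norm_num)
    have hexp := Real.exp_le_exp.2 (le_abs_self b)
    have t := mul_le_mul_of_nonneg_right h1 (Real.exp_pos |b|).le
    have t2 := mul_le_mul_of_nonneg_left he (show 0 ≤ |b| ^ 3 by positivity)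
    rw [abs_le]
    constructor <;> linarith [Real.exp_pos b, le_abs_self b, neg_abs_le b, sq_nonneg b]

/-- Third-order remainder of the density. -/
lemma abs_dens_rem {a : ℝ} (ha : |a| ≤ 1) (ξ : ℝ) :
    |dens a ξ - 1 - a * ξ - a ^ 2 / 2 * (ξ ^ 2 - 1)| ≤ 5 * |a| ^ 3 * env ξ := by
  set b := a * ξ - a ^ 2 / 2 with hb
  have hab : |b| ≤ |a| * (|ξ| + 1) := by
    refine (abs_sub _ _).trans ?_
    rw [abs_mul, abs_of_nonneg (show 0 ≤ a ^ 2 / 2 by positivity), ← sq_abs a]
    nlinarith [abs_nonneg a]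
  have hb1 : |b| ≤ |ξ| + 1 := hab.trans (mul_le_of_le_one_left (by positivity) ha)
  have h3 : |b| ^ 3 * Real.exp |b| ≤ |a| ^ 3 * env ξ := by
    calc |b| ^ 3 * Real.exp |b| ≤ (|a| * (|ξ| + 1)) ^ 3 * Real.exp (|ξ| + 1) :=
          mul_le_mul (pow_le_pow_left₀ (abs_nonneg _) hab 3) (Real.exp_le_exp.2 hb1)
            (Real.exp_pos _).le (by positivity)
      _ ≤ |a| ^ 3 * env ξ := by
          rw [mul_pow, env, mul_assoc]
          gcongr <;> linarith [abs_nonneg ξ]
  have h4 : |-(a ^ 3 * ξ) / 2 + a ^ 4 / 8| ≤ |a| ^ 3 * env ξ := by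
    refine (abs_add_le _ _).trans ?_
    rw [abs_div, abs_neg, abs_mul, abs_pow, abs_div, abs_pow, abs_two,
      abs_of_pos (show (0 : ℝ) < 8 by norm_num)]
    have e : |a| ^ 4 ≤ |a| ^ 3 := pow_le_pow_of_le_one (abs_nonneg _) ha (by norm_num)
    have e2 : |ξ| + 1 ≤ env ξ := by
      refine le_trans ?_ (le_mul_of_one_le_right (by positivity) (Real.one_le_exp (by positivity)))
      exact le_self_pow₀ (by linarith [abs_nonneg ξ]) (by norm_num)
    have e3 := mul_le_mul_of_nonneg_left e2 (show 0 ≤ |a| ^ 3 by positivity)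
    linarith [mul_nonneg (show 0 ≤ |a| ^ 3 by positivity) (abs_nonneg ξ), show 0 ≤ |a| ^ 3 by positivity]
  calc |dens a ξ - 1 - a * ξ - a ^ 2 / 2 * (ξ ^ 2 - 1)|
      = |(Real.exp b - 1 - b - b ^ 2 / 2) + (-(a ^ 3 * ξ) / 2 + a ^ 4 / 8)| := by
        congr 1; simp only [dens, hb]; ring
    _ ≤ 4 * |b| ^ 3 * Real.exp |b| + |a| ^ 3 * env ξ :=
        (abs_add_le _ _).trans (add_le_add (abs_exp_third b) h4)
    _ ≤ _ := by linarith

/-- The constant of the shift expansions. -/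
def shiftC : ℝ := 12 * ∫ ξ, env ξ ∂gam1

lemma one_le_integral_env : 1 ≤ ∫ ξ, env ξ ∂gam1 := by
  calc (1 : ℝ) = ∫ _, (1 : ℝ) ∂gam1 := by simp
    _ ≤ _ := integral_mono (integrable_const _) integrable_env one_le_env

lemma shiftC_nonneg : 0 ≤ shiftC := by
  unfold shiftC; linarith [one_le_integral_env]

lemma integrable_of_env {φ : ℝ → ℝ} (hm : Measurable φ) {C : ℝ} (hb : ∀ ξ, |φ ξ| ≤ C * env ξ) :
    Integrable φ gam1 :=
  (integrable_env.const_mul C).mono' hm.aestronglyMeasurable (Eventually.of_forall hb)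

lemma abs_id_le_env (ξ : ℝ) : |ξ| + 1 ≤ env ξ := by
  refine le_trans ?_ (le_mul_of_one_le_right (by positivity) (Real.one_le_exp (by positivity)))
  exact le_self_pow₀ (by linarith [abs_nonneg ξ]) (by norm_num)

lemma sq_le_env (ξ : ℝ) : ξ ^ 2 + 1 ≤ env ξ := by
  refine le_trans ?_ (le_mul_of_one_le_right (by positivity) (Real.one_le_exp (by positivity)))
  calc ξ ^ 2 + 1 ≤ (|ξ| + 1) ^ 2 := by nlinarith [sq_abs ξ, abs_nonneg ξ]
    _ ≤ _ := pow_le_pow_right₀ (by linarith [abs_nonneg ξ]) (by norm_num)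

variable {w : ℝ → ℝ} {W : ℝ}

section
variable (hw : Measurable w) (hb : ∀ z, |w z| ≤ W)
include hw hb

lemma integrable_sm {p : ℝ → ℝ} (hp : Measurable p) (hpe : ∀ ξ, |p ξ| ≤ env ξ) (s x : ℝ) :
    Integrable (fun ξ => p ξ * w (x + s * ξ)) gam1 :=
  integrable_of_env (hp.mul (hw.comp (by fun_prop))) (C := W) fun ξ => by
    rw [abs_mul, mul_comm W]; exact mul_le_mul (hpe ξ) (hb _) (abs_nonneg _) (env_nonneg ξ)

lemma abs_sm_le {p : ℝ → ℝ} (hp : Measurable p) (hpe : ∀ ξ, |p ξ| ≤ env ξ) (s x : ℝ) :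
    |∫ ξ, p ξ * w (x + s * ξ) ∂gam1| ≤ W * ∫ ξ, env ξ ∂gam1 := by
  rw [← integral_const_mul]
  refine abs_integral_le_integral_abs.trans (integral_mono (integrable_sm hw hb hp hpe s x).abs
    (integrable_env.const_mul _) fun ξ => ?_)
  rw [abs_mul, mul_comm W]; exact mul_le_mul (hpe ξ) (hb _) (abs_nonneg _) (env_nonneg ξ)

omit hw in
lemma abs_sm0_le (s x : ℝ) : |sm0 w s x| ≤ W := by
  have := norm_integral_le_of_norm_le_const (μ := gam1) (f := fun ξ => w (x + s * ξ)) (C := W)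
    (Eventually.of_forall fun ξ => hb _)
  simpa [sm0] using this

lemma abs_sm1_le (s x : ℝ) : |sm1 w s x| ≤ W * shiftC := by
  have hW : 0 ≤ W := (abs_nonneg _).trans (hb 0)
  refine (abs_sm_le hw hb measurable_id (fun ξ => ?_) s x).trans ?_
  · simpa using le_trans (by linarith) (abs_id_le_env ξ)
  · exact mul_le_mul_of_nonneg_left (by unfold shiftC; linarith [one_le_integral_env]) hW

lemma abs_sm2_le (s x : ℝ) : |sm2 w s x| ≤ W * shiftC := by
  have hW : 0 ≤ W := (abs_nonneg _).trans (hb 0)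
  refine (abs_sm_le hw hb (by fun_prop) (fun ξ => ?_) s x).trans ?_
  · exact le_trans (by rw [abs_le]; constructor <;> nlinarith [sq_nonneg ξ]) (sq_le_env ξ)
  · exact mul_le_mul_of_nonneg_left (by unfold shiftC; linarith [one_le_integral_env]) hW

/-- Second-order expansion of the smoothed weight. -/
theorem sm0_expansion {s : ℝ} (hs : s ≠ 0) (x h : ℝ) :
    |sm0 w s (x + h) - sm0 w s x - h / s * sm1 w s x - (h / s) ^ 2 / 2 * sm2 w s x| ≤
      W * shiftC * |h / s| ^ 3 := by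
  obtain ⟨a, ha⟩ : ∃ a, a = h / s := ⟨_, rfl⟩
  rw [← ha]
  have hW : 0 ≤ W := (abs_nonneg _).trans (hb 0)
  rcases le_or_gt |a| 1 with h1 | h1
  · have e : sm0 w s (x + h) = ∫ ξ, w (x + s * ξ) * dens a ξ ∂gam1 := by
      rw [← integral_shift (fun ξ => w (x + s * ξ))]
      unfold sm0
      congr 1; ext ξ; congr 1
      rw [ha]; field_simp; ring
    have i0 : Integrable (fun ξ => w (x + s * ξ)) gam1 :=
      integrable_of_abs_le (hw.comp (by fun_prop)) fun _ => hb _
    have i1 : Integrable (fun ξ => ξ * w (x + s * ξ)) gam1 :=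
      integrable_sm hw hb measurable_id (fun ξ => le_trans (le_add_of_nonneg_right zero_le_one) (abs_id_le_env ξ)) s x
    have i2 : Integrable (fun ξ => (ξ ^ 2 - 1) * w (x + s * ξ)) gam1 :=
      integrable_sm hw hb (by fun_prop)
        (fun ξ => le_trans (by rw [abs_le]; constructor <;> nlinarith [sq_nonneg ξ]) (sq_le_env ξ)) s x
    have ir : Integrable (fun ξ => w (x + s * ξ) * (dens a ξ - 1 - a * ξ - a ^ 2 / 2 * (ξ ^ 2 - 1)))
        gam1 := by
      refine integrable_of_env ((hw.comp (by fun_prop)).mul (by unfold dens; fun_prop))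
        (C := W * (5 * |a| ^ 3)) fun ξ => ?_
      rw [abs_mul, mul_assoc]
      exact mul_le_mul (hb _) (abs_dens_rem h1 ξ) (abs_nonneg _) hW
    have key : sm0 w s (x + h) - sm0 w s x - a * sm1 w s x - a ^ 2 / 2 * sm2 w s x =
        ∫ ξ, w (x + s * ξ) * (dens a ξ - 1 - a * ξ - a ^ 2 / 2 * (ξ ^ 2 - 1)) ∂gam1 := by
      have e2 : (fun ξ => w (x + s * ξ) * dens a ξ) = fun ξ =>
          w (x + s * ξ) * (dens a ξ - 1 - a * ξ - a ^ 2 / 2 * (ξ ^ 2 - 1)) + w (x + s * ξ) +
          a * (ξ * w (x + s * ξ)) + a ^ 2 / 2 * ((ξ ^ 2 - 1) * w (x + s * ξ)) := by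
        funext ξ; ring
      rw [e, e2, integral_add ((ir.fun_add i0).fun_add (i1.const_mul a)) (i2.const_mul _),
        integral_add (ir.fun_add i0) (i1.const_mul a), integral_add ir i0, integral_const_mul,
        integral_const_mul]
      unfold sm0 sm1 sm2
      ring
    rw [key]
    calc |∫ ξ, w (x + s * ξ) * (dens a ξ - 1 - a * ξ - a ^ 2 / 2 * (ξ ^ 2 - 1)) ∂gam1|
        ≤ ∫ ξ, W * (5 * |a| ^ 3) * env ξ ∂gam1 := by
          refine abs_integral_le_integral_abs.trans (integral_mono ir.abs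
            (integrable_env.const_mul _) fun ξ => ?_)
          rw [abs_mul, mul_assoc]
          exact mul_le_mul (hb _) (abs_dens_rem h1 ξ) (abs_nonneg _) hW
      _ ≤ _ := by
          rw [integral_const_mul, shiftC]
          have := mul_nonneg (mul_nonneg hW (show 0 ≤ |a| ^ 3 by positivity))
            (zero_le_one.trans one_le_integral_env)
          linarith
  · have b0 := abs_le.1 (abs_sm0_le hb s (x + h))
    have b0' := abs_le.1 (abs_sm0_le hb s x)
    have a3 : 1 ≤ |a| ^ 3 := one_le_pow₀ h1.le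
    have a1 : |a| ≤ |a| ^ 3 := le_self_pow₀ h1.le (by norm_num)
    have a2 : a ^ 2 ≤ |a| ^ 3 := by
      rw [← sq_abs]; exact pow_le_pow_right₀ h1.le (by norm_num)
    have hI := one_le_integral_env
    have b1 : |a * sm1 w s x| ≤ W * (∫ ξ, env ξ ∂gam1) * |a| ^ 3 := by
      rw [abs_mul, mul_comm |a|]
      exact mul_le_mul (abs_sm_le hw hb measurable_id (fun ξ => le_trans
        (le_add_of_nonneg_right zero_le_one) (abs_id_le_env ξ)) s x) a1 (abs_nonneg _) (by positivity)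
    have b2 : |a ^ 2 / 2 * sm2 w s x| ≤ W * (∫ ξ, env ξ ∂gam1) * |a| ^ 3 := by
      rw [abs_mul, abs_of_nonneg (show 0 ≤ a ^ 2 / 2 by positivity), mul_comm (a ^ 2 / 2)]
      refine mul_le_mul (abs_sm_le hw hb (by fun_prop) (fun ξ => le_trans
        (by rw [abs_le]; constructor <;> nlinarith [sq_nonneg ξ]) (sq_le_env ξ)) s x)
        (by linarith [sq_nonneg a]) (by positivity) (by positivity)
    have c0 : W ≤ W * (∫ ξ, env ξ ∂gam1) * |a| ^ 3 := by
      rw [mul_assoc]; exact le_mul_of_one_le_right hW (one_le_mul_of_one_le_of_one_le hI a3)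
    have b1' := abs_le.1 b1
    have b2' := abs_le.1 b2
    rw [abs_le, shiftC]
    constructor <;> linarith

/-- First-order expansion of the smoothed derivative. -/
theorem sm1_expansion {s : ℝ} (hs : s ≠ 0) (x h : ℝ) :
    |sm1 w s (x + h) - sm1 w s x - h / s * sm2 w s x| ≤ W * shiftC * (h / s) ^ 2 := by
  obtain ⟨a, ha⟩ : ∃ a, a = h / s := ⟨_, rfl⟩
  rw [← ha]
  have hW : 0 ≤ W := (abs_nonneg _).trans (hb 0)
  rcases le_or_gt |a| 1 with h1 | h1
  · set D : ℝ → ℝ := fun ξ => (ξ - a) * dens a ξ - ξ - a * (ξ ^ 2 - 1) with hD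
    have hDb : ∀ ξ, |D ξ| ≤ 12 * a ^ 2 * env ξ := fun ξ => by
      have he := abs_id_le_env ξ
      have hdec : D ξ = (ξ - a) * (dens a ξ - 1 - a * ξ - a ^ 2 / 2 * (ξ ^ 2 - 1)) +
          (a ^ 2 / 2 * ((ξ - a) * (ξ ^ 2 - 1)) - a ^ 2 * ξ) := by
        simp only [hD]; ring
      have h2 : |a| ^ 3 ≤ a ^ 2 := by
        rw [← sq_abs a]; exact pow_le_pow_of_le_one (abs_nonneg _) h1 (by norm_num)
      have hxa : |ξ - a| ≤ |ξ| + 1 := (abs_sub _ _).trans (by linarith)
      have hq : |ξ ^ 2 - 1| ≤ (|ξ| + 1) ^ 2 := by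
        rw [abs_le]; constructor <;> nlinarith [sq_abs ξ, abs_nonneg ξ]
      -- absorb one power of `|ξ| + 1`
      have hsharp : (|ξ| + 1) * |dens a ξ - 1 - a * ξ - a ^ 2 / 2 * (ξ ^ 2 - 1)| ≤
          5 * a ^ 2 * env ξ := by
        set b := a * ξ - a ^ 2 / 2 with hb'
        have hab : |b| ≤ |a| * (|ξ| + 1) := by
          refine (abs_sub _ _).trans ?_
          rw [abs_mul, abs_of_nonneg (show 0 ≤ a ^ 2 / 2 by positivity), ← sq_abs a]
          nlinarith [abs_nonneg a]
        have hb1 : |b| ≤ |ξ| + 1 := hab.trans (mul_le_of_le_one_left (by positivity) h1)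
        have h3 : (|ξ| + 1) * (|b| ^ 3 * Real.exp |b|) ≤ a ^ 2 * env ξ := by
          calc (|ξ| + 1) * (|b| ^ 3 * Real.exp |b|)
              ≤ (|ξ| + 1) * ((|a| * (|ξ| + 1)) ^ 3 * Real.exp (|ξ| + 1)) := by gcongr
            _ = |a| ^ 3 * env ξ := by rw [env]; ring
            _ ≤ _ := mul_le_mul_of_nonneg_right h2 (env_nonneg ξ)
        have h4 : (|ξ| + 1) * |-(a ^ 3 * ξ) / 2 + a ^ 4 / 8| ≤ a ^ 2 * env ξ := by
          have e0 : |-(a ^ 3 * ξ) / 2 + a ^ 4 / 8| ≤ a ^ 2 * (|ξ| + 1) := by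
            refine (abs_add_le _ _).trans ?_
            rw [abs_div, abs_neg, abs_mul, abs_pow, abs_div, abs_pow, abs_two,
              abs_of_pos (show (0 : ℝ) < 8 by norm_num)]
            have e : |a| ^ 4 ≤ a ^ 2 := by
              rw [← sq_abs a]; exact pow_le_pow_of_le_one (abs_nonneg _) h1 (by norm_num)
            have := mul_le_mul_of_nonneg_right h2 (abs_nonneg ξ)
            nlinarith [mul_nonneg (sq_nonneg a) (abs_nonneg ξ)]
          refine (mul_le_mul_of_nonneg_left e0 (by positivity)).trans ?_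
          rw [show (|ξ| + 1) * (a ^ 2 * (|ξ| + 1)) = a ^ 2 * (|ξ| + 1) ^ 2 by ring]
          refine mul_le_mul_of_nonneg_left (le_trans ?_ (le_mul_of_one_le_right (by positivity)
            (Real.one_le_exp (by positivity)))) (sq_nonneg a)
          exact pow_le_pow_right₀ (by linarith [abs_nonneg ξ]) (by norm_num)
        have e : dens a ξ - 1 - a * ξ - a ^ 2 / 2 * (ξ ^ 2 - 1) =
            (Real.exp b - 1 - b - b ^ 2 / 2) + (-(a ^ 3 * ξ) / 2 + a ^ 4 / 8) := by
          simp only [dens, hb']; ring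
        rw [e]
        refine (mul_le_mul_of_nonneg_left ((abs_add_le _ _).trans
          (add_le_add (abs_exp_third b) le_rfl)) (by positivity)).trans ?_
        linarith
      have p2 : |a ^ 2 / 2 * ((ξ - a) * (ξ ^ 2 - 1)) - a ^ 2 * ξ| ≤ 7 * a ^ 2 * env ξ := by
        have e3 : (|ξ| + 1) ^ 3 ≤ env ξ :=
          le_trans (pow_le_pow_right₀ (by linarith [abs_nonneg ξ]) (by norm_num))
            (le_mul_of_one_le_right (by positivity) (Real.one_le_exp (by positivity)))
        refine (abs_sub _ _).trans ?_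
        rw [abs_mul, abs_mul, abs_mul, abs_of_nonneg (show 0 ≤ a ^ 2 / 2 by positivity),
          abs_of_nonneg (sq_nonneg a)]
        have q1 := mul_le_mul hxa hq (abs_nonneg _) (by positivity)
        rw [← pow_succ' (|ξ| + 1) 2] at q1
        have q2 := mul_le_mul_of_nonneg_left (q1.trans e3) (show 0 ≤ a ^ 2 / 2 by positivity)
        have q3 := mul_le_mul_of_nonneg_left (le_trans (le_add_of_nonneg_right zero_le_one) he)
          (sq_nonneg a)
        have := mul_nonneg (sq_nonneg a) (env_nonneg ξ)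
        linarith
      rw [hdec]
      refine (abs_add_le _ _).trans ?_
      rw [abs_mul]
      have := mul_le_mul_of_nonneg_right hxa
        (abs_nonneg (dens a ξ - 1 - a * ξ - a ^ 2 / 2 * (ξ ^ 2 - 1)))
      linarith
    have e : sm1 w s (x + h) = ∫ ξ, w (x + s * ξ) * ((ξ - a) * dens a ξ) ∂gam1 := by
      rw [show (fun ξ => w (x + s * ξ) * ((ξ - a) * dens a ξ)) =
        fun ξ => ((ξ - a) * w (x + s * ξ)) * dens a ξ from funext fun ξ => by ring,
        ← integral_shift (fun ξ => (ξ - a) * w (x + s * ξ))]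
      unfold sm1
      congr 1; ext ξ
      rw [add_sub_cancel_right]
      congr 2
      rw [ha]; field_simp; ring
    have hDm : Measurable D := by rw [hD]; unfold dens; fun_prop
    have ir : Integrable (fun ξ => w (x + s * ξ) * D ξ) gam1 :=
      integrable_of_env ((hw.comp (by fun_prop)).mul hDm) (C := W * (12 * a ^ 2)) fun ξ => by
        rw [abs_mul, mul_assoc]; exact mul_le_mul (hb _) (hDb ξ) (abs_nonneg _) hW
    have i1 : Integrable (fun ξ => ξ * w (x + s * ξ)) gam1 :=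
      integrable_sm hw hb measurable_id (fun ξ => le_trans (le_add_of_nonneg_right zero_le_one) (abs_id_le_env ξ)) s x
    have i2 : Integrable (fun ξ => (ξ ^ 2 - 1) * w (x + s * ξ)) gam1 :=
      integrable_sm hw hb (by fun_prop)
        (fun ξ => le_trans (by rw [abs_le]; constructor <;> nlinarith [sq_nonneg ξ]) (sq_le_env ξ)) s x
    have e2 : (fun ξ => w (x + s * ξ) * ((ξ - a) * dens a ξ)) = fun ξ =>
        w (x + s * ξ) * D ξ + ξ * w (x + s * ξ) + a * ((ξ ^ 2 - 1) * w (x + s * ξ)) := by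
      funext ξ; simp only [hD]; ring
    rw [e, e2, integral_add (ir.fun_add i1) (i2.const_mul a), integral_add ir i1, integral_const_mul]
    unfold sm1 sm2
    rw [show ∀ u v t : ℝ, u + v + t - v - t = u from fun u v t => by ring]
    refine abs_integral_le_integral_abs.trans ((integral_mono ir.abs
      (integrable_env.const_mul (W * (12 * a ^ 2))) fun ξ => ?_).trans (le_of_eq ?_))
    · rw [abs_mul, mul_assoc]; exact mul_le_mul (hb _) (hDb ξ) (abs_nonneg _) hW
    · rw [integral_const_mul, shiftC]; ring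
  · have a2 : 1 ≤ a ^ 2 := by rw [← sq_abs]; exact one_le_pow₀ h1.le
    have a1 : |a| ≤ a ^ 2 := by rw [← sq_abs]; exact le_self_pow₀ h1.le (by norm_num)
    have hI := one_le_integral_env
    set I := ∫ ξ, env ξ ∂gam1
    have hid : ∀ ξ : ℝ, |id ξ| ≤ env ξ := fun ξ =>
      le_trans (le_add_of_nonneg_right zero_le_one) (abs_id_le_env ξ)
    have b1 := abs_le.1 (abs_sm_le hw hb measurable_id hid s (x + h))
    have b1' := abs_le.1 (abs_sm_le hw hb measurable_id hid s x)
    have b2 : |a * sm2 w s x| ≤ a ^ 2 * (W * I) := by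
      rw [abs_mul]
      exact mul_le_mul a1 (abs_sm_le hw hb (by fun_prop) (fun ξ => le_trans
        (by rw [abs_le]; constructor <;> nlinarith [sq_nonneg ξ]) (sq_le_env ξ)) s x)
        (abs_nonneg _) (sq_nonneg a)
    have b2' := abs_le.1 b2
    have c0 : W * I ≤ a ^ 2 * (W * I) :=
      le_mul_of_one_le_left (mul_nonneg hW (zero_le_one.trans hI)) a2
    have hfin : 0 ≤ a ^ 2 * (W * I) := by positivity
    simp only [id] at b1 b1'
    unfold sm1 at *
    rw [abs_le, shiftC]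
    constructor <;> linarith

end

end Vale.Agent.P157
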