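import Mathlib
import Vale.Agent.P157.GaussShift

/-!
Second-order expansion of the expected logarithm of an averaged smoothed weight.
-/

noncomputable section

open MeasureTheory ProbabilityTheory Filter
open scoped Topology

namespace Vale.Agent.P157

/-- The smoothed weight of a log-potential. -/
def sw0 (f : ℝ → ℝ) (s x : ℝ) : ℝ := sm0 (fun z => Real.exp (f z)) s x

/-- Logarithmic first moment of the smoothed weight. -/
def sl1 (f : ℝ → ℝ) (s x : ℝ) : ℝ := sm1 (fun z => Real.exp (f z)) s x / sw0 f s x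

/-- Logarithmic second moment of the smoothed weight. -/
def sl2 (f : ℝ → ℝ) (s x : ℝ) : ℝ := sm2 (fun z => Real.exp (f z)) s x / sw0 f s x

section log

/-- Cubic Taylor bound for the logarithm. -/
lemma abs_log_third {K X : ℝ} (hK : 0 ≤ K) (hl : |Real.log (1 + X)| ≤ 2 * K) :
    |Real.log (1 + X) - X + X ^ 2 / 2| ≤ (16 * K + 8) * |X| ^ 3 := by
  rcases le_or_gt |X| (1 / 2) with h | h
  · have hx : |(-X)| < 1 := by rw [abs_neg]; linarith
    have h2 := Real.abs_log_sub_add_sum_range_le hx 2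
    simp only [Finset.sum_range_succ, Finset.sum_range_zero, zero_add, sub_neg_eq_add, abs_neg] at h2
    norm_num at h2
    calc |Real.log (1 + X) - X + X ^ 2 / 2| = |-X + X ^ 2 / 2 + Real.log (1 + X)| := by congr 1; ring
      _ ≤ |X| ^ 3 / (1 - |X|) := h2
      _ ≤ |X| ^ 3 / (1 / 2) := by gcongr; linarith
      _ ≤ _ := by
          have : 0 ≤ |X| ^ 3 := by positivity
          rw [div_div_eq_mul_div, div_one]
          nlinarith
  · have h1 : 1 ≤ 8 * |X| ^ 3 := by
      nlinarith [pow_le_pow_left₀ (by norm_num : (0 : ℝ) ≤ 1 / 2) h.le 3]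
    have hX : |X| ≤ 4 * |X| ^ 3 := by
      nlinarith [mul_le_mul_of_nonneg_left (pow_le_pow_left₀ (by norm_num : (0 : ℝ) ≤ 1 / 2) h.le 2)
        (abs_nonneg X)]
    have hX2 : X ^ 2 / 2 ≤ |X| ^ 3 := by
      rw [← sq_abs]
      nlinarith [mul_le_mul_of_nonneg_left h.le (sq_nonneg |X|)]
    have hK1 := mul_le_mul_of_nonneg_left h1 hK
    have hp : 0 ≤ |X| ^ 3 := by positivity
    have hl' := abs_le.1 hl
    rw [abs_le]
    constructor <;> linarith [le_abs_self X, neg_abs_le X, sq_nonneg X]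

/-- The constant of `log_second_order`. -/
def logC (K B : ℝ) : ℝ := 27 * (16 * K + 8) * B ^ 3 + 5 * B ^ 2 + 3 * B + 2 * K

lemma log_second_order {K B T a m₁ m₂ E X : ℝ} (hK : 0 ≤ K) (hT : 1 ≤ T)
    (hl : |Real.log (1 + X)| ≤ 2 * K) (h1 : |m₁| ≤ B * T) (h2 : |m₂| ≤ B * T)
    (hE : |E| ≤ B * |a| ^ 3 * T) (hX : X = a * m₁ + a ^ 2 * m₂ + E) :
    |Real.log (1 + X) - a * m₁ - a ^ 2 * (m₂ - m₁ ^ 2 / 2)| ≤ logC K B * |a| ^ 3 * T ^ 3 := by
  have hB : 0 ≤ B := by nlinarith [abs_nonneg m₁]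
  have hT0 : 0 ≤ T := by linarith
  have hT3 : T ≤ T ^ 3 := le_self_pow₀ hT (by norm_num)
  have hT23 : T ^ 2 ≤ T ^ 3 := pow_le_pow_right₀ hT (by norm_num)
  have hT13 : 1 ≤ T ^ 3 := one_le_pow₀ hT
  have ha0 := abs_nonneg a
  rcases le_or_gt |a| 1 with ha | ha
  · have ha2 : a ^ 2 ≤ |a| := by
      rw [← sq_abs]; exact pow_le_of_le_one ha0 ha (by norm_num)
    have ha3 : |a| ^ 3 ≤ a ^ 2 := by
      rw [← sq_abs a]; exact pow_le_pow_of_le_one ha0 ha (by norm_num)
    have hm2 : |a ^ 2 * m₂| ≤ a ^ 2 * (B * T) := by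
      rw [abs_mul, abs_of_nonneg (sq_nonneg a)]; exact mul_le_mul_of_nonneg_left h2 (sq_nonneg a)
    have hm1 : |a * m₁| ≤ |a| * (B * T) := by
      rw [abs_mul]; exact mul_le_mul_of_nonneg_left h1 ha0
    have hE2 : |E| ≤ a ^ 2 * (B * T) :=
      hE.trans (by nlinarith [mul_le_mul_of_nonneg_left ha3 (mul_nonneg hB hT0)])
    have hrest : |a ^ 2 * m₂ + E| ≤ 2 * (a ^ 2 * (B * T)) := (abs_add_le _ _).trans (by linarith)
    have hXb : |X| ≤ 3 * (|a| * (B * T)) := by
      rw [hX, add_assoc]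
      refine (abs_add_le _ _).trans ?_
      have := mul_le_mul_of_nonneg_right ha2 (mul_nonneg hB hT0)
      linarith
    have hcross : |(a ^ 2 * m₂ + E) * (X + a * m₁) / 2| ≤ 4 * B ^ 2 * |a| ^ 3 * T ^ 2 := by
      rw [abs_div, abs_two, abs_mul]
      have := mul_le_mul hrest ((abs_add_le _ _).trans (add_le_add hXb hm1)) (abs_nonneg _)
        (by positivity)
      have e : |a| ^ 3 = a ^ 2 * |a| := by rw [← sq_abs]; ring
      rw [e]
      linarith
    have hcube : |Real.log (1 + X) - X + X ^ 2 / 2| ≤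
        27 * (16 * K + 8) * B ^ 3 * |a| ^ 3 * T ^ 3 := by
      refine (abs_log_third hK hl).trans ?_
      calc (16 * K + 8) * |X| ^ 3 ≤ (16 * K + 8) * (3 * (|a| * (B * T))) ^ 3 := by gcongr
        _ = _ := by ring
    calc |Real.log (1 + X) - a * m₁ - a ^ 2 * (m₂ - m₁ ^ 2 / 2)|
        = |(Real.log (1 + X) - X + X ^ 2 / 2) + E - (a ^ 2 * m₂ + E) * (X + a * m₁) / 2| := by
          congr 1; rw [hX]; ring
      _ ≤ 27 * (16 * K + 8) * B ^ 3 * |a| ^ 3 * T ^ 3 + B * |a| ^ 3 * T +
            4 * B ^ 2 * |a| ^ 3 * T ^ 2 :=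
          (abs_sub _ _).trans (add_le_add ((abs_add_le _ _).trans (add_le_add hcube hE)) hcross)
      _ ≤ _ := by
          have hp : 0 ≤ |a| ^ 3 := by positivity
          have u1 := mul_le_mul_of_nonneg_left hT3 (mul_nonneg hB hp)
          have u2 := mul_le_mul_of_nonneg_left hT23 (show 0 ≤ 4 * B ^ 2 * |a| ^ 3 by positivity)
          have u3 : 0 ≤ (B ^ 2 + 2 * B + 2 * K) * (|a| ^ 3 * T ^ 3) := by positivity
          rw [logC]
          linarith
  · have ha3 : 1 ≤ |a| ^ 3 := one_le_pow₀ ha.le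
    have ha13 : |a| ≤ |a| ^ 3 := le_self_pow₀ ha.le (by norm_num)
    have ha23 : a ^ 2 ≤ |a| ^ 3 := by
      rw [← sq_abs]; exact pow_le_pow_right₀ ha.le (by norm_num)
    have hm : |m₂ - m₁ ^ 2 / 2| ≤ B * T + (B * T) ^ 2 := by
      refine (abs_sub _ _).trans (add_le_add h2 ?_)
      rw [abs_div, abs_pow, abs_two]
      nlinarith [pow_le_pow_left₀ (abs_nonneg _) h1 2, sq_nonneg (B * T)]
    calc |Real.log (1 + X) - a * m₁ - a ^ 2 * (m₂ - m₁ ^ 2 / 2)|
        ≤ 2 * K + |a| * (B * T) + a ^ 2 * (B * T + (B * T) ^ 2) := by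
          refine (abs_sub _ _).trans (add_le_add ((abs_sub _ _).trans (add_le_add hl ?_)) ?_)
          · rw [abs_mul]; exact mul_le_mul_of_nonneg_left h1 ha0
          · rw [abs_mul, abs_of_nonneg (sq_nonneg a)]
            exact mul_le_mul_of_nonneg_left hm (sq_nonneg a)
      _ ≤ (2 * K + 2 * B + B ^ 2) * (|a| ^ 3 * T ^ 3) := by
          have u1 := le_mul_of_one_le_right (show 0 ≤ 2 * K by positivity)
            (one_le_mul_of_one_le_of_one_le ha3 hT13)
          have u2 : |a| * (B * T) ≤ |a| ^ 3 * (B * T ^ 3) := by gcongr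
          have u3 : a ^ 2 * (B * T + (B * T) ^ 2) ≤ |a| ^ 3 * (B * T ^ 3 + B ^ 2 * T ^ 3) := by
            rw [mul_pow]; gcongr
          linarith
      _ ≤ _ := by
          have : 0 ≤ (27 * (16 * K + 8) * B ^ 3 + 4 * B ^ 2 + B) * (|a| ^ 3 * T ^ 3) := by
            positivity
          rw [logC]
          linarith

end log

variable {f : ℝ → ℝ} {K : ℝ}

section
variable (hf : Measurable f) (hb : ∀ z, |f z| ≤ K)
include hf hb

lemma sw0_mem (s x : ℝ) : Real.exp (-K) ≤ sw0 f s x ∧ sw0 f s x ≤ Real.exp K :=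
  integral_exp_mem (π := gam1) (hf.comp (by fun_prop)) fun _ => hb _

lemma sw0_pos (s x : ℝ) : 0 < sw0 f s x := (Real.exp_pos _).trans_le (sw0_mem hf hb s x).1

lemma abs_log_sw0_le (s x : ℝ) : |Real.log (sw0 f s x)| ≤ K :=
  abs_lint_le (π := gam1) (hf.comp (by fun_prop)) fun _ => hb _

omit hf in
lemma abs_exp_f_le (z : ℝ) : |Real.exp (f z)| ≤ Real.exp K := by
  rw [Real.abs_exp]; exact Real.exp_le_exp.2 ((le_abs_self _).trans (hb z))

omit hb in
lemma measurable_sw0_uncurry : Measurable fun p : ℝ × ℝ => sw0 f p.1 p.2 :=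
  ((hf.exp.comp (by fun_prop : Measurable fun q : (ℝ × ℝ) × ℝ => q.1.2 + q.1.1 * q.2)).stronglyMeasurable
    |>.integral_prod_right' (ν := gam1)).measurable

omit hb in
lemma measurable_sw0 (s : ℝ) : Measurable (sw0 f s) :=
  (measurable_sw0_uncurry hf).comp measurable_prodMk_left

omit hb in
lemma measurable_sl1_uncurry : Measurable fun p : ℝ × ℝ => sl1 f p.1 p.2 := by
  have h : Measurable fun q : (ℝ × ℝ) × ℝ => q.2 * Real.exp (f (q.1.2 + q.1.1 * q.2)) :=
    measurable_snd.mul (hf.exp.comp (by fun_prop))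
  exact (h.stronglyMeasurable.integral_prod_right' (ν := gam1)).measurable.div
    (measurable_sw0_uncurry hf)

omit hb in
lemma measurable_sl2_uncurry : Measurable fun p : ℝ × ℝ => sl2 f p.1 p.2 := by
  have h : Measurable fun q : (ℝ × ℝ) × ℝ =>
      (q.2 ^ 2 - 1) * Real.exp (f (q.1.2 + q.1.1 * q.2)) :=
    (by fun_prop : Measurable fun q : (ℝ × ℝ) × ℝ => q.2 ^ 2 - 1).mul (hf.exp.comp (by fun_prop))
  exact (h.stronglyMeasurable.integral_prod_right' (ν := gam1)).measurable.div
    (measurable_sw0_uncurry hf)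

lemma abs_sl1_le (s x : ℝ) : |sl1 f s x| ≤ Real.exp (2 * K) * shiftC := by
  rw [sl1, abs_div, abs_of_pos (sw0_pos hf hb s x), div_le_iff₀ (sw0_pos hf hb s x)]
  calc _ ≤ Real.exp K * shiftC := abs_sm1_le hf.exp (abs_exp_f_le hb) s x
    _ = Real.exp (2 * K) * shiftC * Real.exp (-K) := by
        rw [show Real.exp K = Real.exp (2 * K) * Real.exp (-K) by rw [← Real.exp_add]; ring_nf]; ring
    _ ≤ _ := mul_le_mul_of_nonneg_left (sw0_mem hf hb s x).1
        (mul_nonneg (Real.exp_pos _).le shiftC_nonneg)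

lemma abs_sl2_le (s x : ℝ) : |sl2 f s x| ≤ Real.exp (2 * K) * shiftC := by
  rw [sl2, abs_div, abs_of_pos (sw0_pos hf hb s x), div_le_iff₀ (sw0_pos hf hb s x)]
  calc _ ≤ Real.exp K * shiftC := abs_sm2_le hf.exp (abs_exp_f_le hb) s x
    _ = Real.exp (2 * K) * shiftC * Real.exp (-K) := by
        rw [show Real.exp K = Real.exp (2 * K) * Real.exp (-K) by rw [← Real.exp_add]; ring_nf]; ring
    _ ≤ _ := mul_le_mul_of_nonneg_left (sw0_mem hf hb s x).1
        (mul_nonneg (Real.exp_pos _).le shiftC_nonneg)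

end

/-- The constant of `expect_log_expansion`. -/
def expC (K : ℝ) : ℝ := logC K (Real.exp (2 * K) * shiftC)

lemma cube_integral_le {Y : Type*} [MeasurableSpace Y] {π' : Measure Y} [IsProbabilityMeasure π']
    {φ : Y → ℝ} (h0 : ∀ y, 0 ≤ φ y) (hi : Integrable φ π') (hi3 : Integrable (fun y => φ y ^ 3) π') :
    (∫ y, φ y ∂π') ^ 3 ≤ ∫ y, φ y ^ 3 ∂π' := by
  set T := ∫ y, φ y ∂π' with hT
  have hT0 : 0 ≤ T := integral_nonneg h0
  have h := integral_mono ((hi.const_mul (3 * T ^ 2)).sub (integrable_const (2 * T ^ 3))) hi3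
    fun y => by
      simp only [Pi.sub_apply]
      nlinarith [mul_nonneg (sq_nonneg (φ y - T)) (add_nonneg (h0 y) (mul_nonneg zero_le_two hT0))]
  simp only [Pi.sub_apply] at h
  rw [integral_sub (hi.const_mul _) (integrable_const _), integral_const_mul] at h
  simp only [integral_const, probReal_univ, smul_eq_mul, one_mul, ← hT] at h
  linarith

variable {Ω Y : Type*} [MeasurableSpace Ω] [MeasurableSpace Y] {P : Measure Ω}
  [IsProbabilityMeasure P] {π' : Measure Y} [IsProbabilityMeasure π'] {H : Ω → Y → ℝ}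

/-- Expansion of `E log ∫ sw0 (x + t H) dπ'` to second order in `t`. -/
theorem expect_log_expansion (hf : Measurable f) (hb : ∀ z, |f z| ≤ K)
    (hH : Measurable (Function.uncurry H))
    (h9 : Integrable (fun p : Ω × Y => (1 + |H p.1 p.2|) ^ 9) (P.prod π'))
    (hmean : ∫ ω, ∫ y, H ω y ∂π' ∂P = 0) (hsq : ∫ ω, ∫ y, H ω y ^ 2 ∂π' ∂P = 1)
    {s : ℝ} (hs : s ≠ 0) (x t : ℝ) :
    |(∫ ω, Real.log (∫ y, sw0 f s (x + t * H ω y) ∂π') ∂P) - Real.log (sw0 f s x) -
      (t / s) ^ 2 / 2 * (sl2 f s x - (∫ ω, (∫ y, H ω y ∂π') ^ 2 ∂P) * sl1 f s x ^ 2)| ≤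
      expC K * |t / s| ^ 3 * ∫ ω, ∫ y, (1 + |H ω y|) ^ 9 ∂π' ∂P := by
  obtain ⟨a, ha⟩ : ∃ a, a = t / s := ⟨_, rfl⟩
  rw [← ha]
  have hK : 0 ≤ K := (abs_nonneg _).trans (hb 0)
  have hQ : 0 ≤ Real.exp (2 * K) * shiftC := mul_nonneg (Real.exp_pos _).le shiftC_nonneg
  obtain ⟨B, hB⟩ : ∃ B, B = Real.exp (2 * K) * shiftC := ⟨_, rfl⟩
  set m0 := sw0 f s x
  have hm0 : 0 < m0 := sw0_pos hf hb s x
  have hpow : ∀ k ≤ 9, Integrable (fun p : Ω × Y => (1 + |H p.1 p.2|) ^ k) (P.prod π') :=
    fun k hk => h9.mono' ((hH.abs.const_add 1).pow_const k).aestronglyMeasurable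
      (Eventually.of_forall fun p => by
        rw [Real.norm_eq_abs, abs_of_nonneg (pow_nonneg (by positivity) k)]
        exact pow_le_pow_right₀ (le_add_of_nonneg_right (abs_nonneg _)) hk)
  have hi1 : Integrable (fun p : Ω × Y => H p.1 p.2) (P.prod π') :=
    (hpow 1 (by norm_num)).mono' hH.aestronglyMeasurable (Eventually.of_forall fun p => by
      simp only [Real.norm_eq_abs, pow_one]; linarith [abs_nonneg (H p.1 p.2)])
  have hi2 : Integrable (fun p : Ω × Y => H p.1 p.2 ^ 2) (P.prod π') :=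
    (hpow 2 (by norm_num)).mono' (hH.pow_const 2).aestronglyMeasurable (Eventually.of_forall fun p => by
      simp only [Real.norm_eq_abs, abs_pow]
      exact pow_le_pow_left₀ (abs_nonneg _) (le_add_of_nonneg_left zero_le_one) 2)
  set μ1 := sl1 f s x
  set μ2 := sl2 f s x
  set Hb : Ω → ℝ := fun ω => ∫ y, H ω y ∂π'
  set H2 : Ω → ℝ := fun ω => ∫ y, H ω y ^ 2 ∂π'
  set T : Ω → ℝ := fun ω => ∫ y, (1 + |H ω y|) ^ 3 ∂π'
  set L : Ω → ℝ := fun ω => Real.log (∫ y, sw0 f s (x + t * H ω y) ∂π')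
  set T9 : Ω → ℝ := fun ω => ∫ y, (1 + |H ω y|) ^ 9 ∂π'
  have hsec : ∀ᵐ ω ∂P, Integrable (fun y => (1 + |H ω y|) ^ 9) π' := h9.prod_right_ae
  have hpt : ∀ᵐ ω ∂P, |L ω - Real.log m0 - a * (Hb ω * μ1) -
      a ^ 2 * (H2 ω * μ2 / 2 - (Hb ω * μ1) ^ 2 / 2)| ≤ expC K * |a| ^ 3 * T9 ω ∧
      Hb ω ^ 2 ≤ T9 ω := by
    filter_upwards [hsec] with ω hω
    have hm : Measurable (H ω) := hH.of_uncurry_left
    have hk : ∀ k ≤ 9, Integrable (fun y => (1 + |H ω y|) ^ k) π' := fun k hk =>
      hω.mono' ((hm.abs.const_add 1).pow_const k).aestronglyMeasurable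
        (Eventually.of_forall fun y => by
          rw [Real.norm_eq_abs, abs_of_nonneg (pow_nonneg (by positivity) k)]
          exact pow_le_pow_right₀ (le_add_of_nonneg_right (abs_nonneg _)) hk)
    have j1 : Integrable (fun y => H ω y) π' := (hk 1 (by norm_num)).mono' hm.aestronglyMeasurable
      (Eventually.of_forall fun y => by
        simp only [Real.norm_eq_abs, pow_one]; linarith [abs_nonneg (H ω y)])
    have j2 : Integrable (fun y => H ω y ^ 2) π' := (hk 2 (by norm_num)).mono'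
      (hm.pow_const 2).aestronglyMeasurable (Eventually.of_forall fun y => by
        simp only [Real.norm_eq_abs, abs_pow]
        exact pow_le_pow_left₀ (abs_nonneg _) (le_add_of_nonneg_left zero_le_one) 2)
    have j3 := hk 3 (by norm_num)
    have hpow3 : ∀ y, |H ω y| ≤ (1 + |H ω y|) ^ 3 ∧ H ω y ^ 2 ≤ (1 + |H ω y|) ^ 3 := fun y => by
      have h0 := abs_nonneg (H ω y)
      constructor
      · exact (le_add_of_nonneg_left zero_le_one).trans (le_self_pow₀ (by linarith) (by norm_num))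
      · rw [← sq_abs]
        exact (pow_le_pow_left₀ h0 (le_add_of_nonneg_left zero_le_one) 2).trans
          (pow_le_pow_right₀ (by linarith) (by norm_num))
    have hT1 : 1 ≤ T ω := by
      calc (1 : ℝ) = ∫ _, (1 : ℝ) ∂π' := by simp
        _ ≤ T ω := integral_mono (integrable_const _) j3 fun y =>
            one_le_pow₀ (le_add_of_nonneg_right (abs_nonneg _))
    have hHb : |Hb ω| ≤ T ω :=
      abs_integral_le_integral_abs.trans (integral_mono j1.abs j3 fun y => (hpow3 y).1)
    have hH2 : |H2 ω| ≤ T ω := by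
      rw [abs_of_nonneg (integral_nonneg fun y => sq_nonneg _)]
      exact integral_mono j2 j3 fun y => (hpow3 y).2
    have hT9 : T ω ^ 3 ≤ T9 ω := by
      refine (cube_integral_le (fun y => pow_nonneg (by positivity) 3) j3 ?_).trans (le_of_eq ?_)
      · exact hω.congr (Eventually.of_forall fun y => by ring)
      · simp only [T9, ← pow_mul]
    refine ⟨?_, ?_⟩
    swap
    · calc Hb ω ^ 2 = |Hb ω| ^ 2 := (sq_abs _).symm
        _ ≤ T ω ^ 2 := pow_le_pow_left₀ (abs_nonneg _) hHb 2
        _ ≤ T ω ^ 3 := pow_le_pow_right₀ hT1 (by norm_num)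
        _ ≤ _ := hT9
    -- the relative increment of the average
    set Av := ∫ y, sw0 f s (x + t * H ω y) ∂π'
    have hAvm : Measurable fun y => sw0 f s (x + t * H ω y) :=
      (measurable_sw0 hf s).comp (by fun_prop)
    have iAv : Integrable (fun y => sw0 f s (x + t * H ω y)) π' :=
      integrable_of_abs_le hAvm (K := Real.exp K) fun y => by
        rw [abs_of_pos (sw0_pos hf hb _ _)]; exact (sw0_mem hf hb _ _).2
    have hAv : |Real.log Av| ≤ K := by
      have h1 : Real.exp (-K) ≤ Av := by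
        calc Real.exp (-K) = ∫ _, Real.exp (-K) ∂π' := by simp
          _ ≤ Av := integral_mono (integrable_const _) iAv fun y => (sw0_mem hf hb _ _).1
      have h2 : Av ≤ Real.exp K := by
        calc Av ≤ ∫ _, Real.exp K ∂π' :=
              integral_mono iAv (integrable_const _) fun y => (sw0_mem hf hb _ _).2
          _ = Real.exp K := by simp
      rw [abs_le]
      exact ⟨(Real.le_log_iff_exp_le ((Real.exp_pos _).trans_le h1)).2 h1,
        (Real.log_le_iff_le_exp ((Real.exp_pos _).trans_le h1)).2 h2⟩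
    have hAv0 : 0 < Av := by
      calc (0 : ℝ) < Real.exp (-K) := Real.exp_pos _
        _ = ∫ _, Real.exp (-K) ∂π' := by simp
        _ ≤ Av := integral_mono (integrable_const _) iAv fun y => (sw0_mem hf hb _ _).1
    set X := Av / m0 - 1 with hX
    have hlogX : Real.log (1 + X) = L ω - Real.log m0 := by
      rw [hX, show 1 + (Av / m0 - 1) = Av / m0 by ring, Real.log_div hAv0.ne' hm0.ne']
    have hl : |Real.log (1 + X)| ≤ 2 * K := by
      rw [hlogX]
      refine (abs_sub _ _).trans ?_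
      have := abs_log_sw0_le hf hb s x
      linarith
    set E := X - a * (Hb ω * μ1) - a ^ 2 * (H2 ω * μ2 / 2) with hE
    have hEb : |E| ≤ B * |a| ^ 3 * T ω := by
      have e : E = (∫ y, (sw0 f s (x + t * H ω y) - m0 - t * H ω y / s * sm1 (fun z => Real.exp (f z)) s x
          - (t * H ω y / s) ^ 2 / 2 * sm2 (fun z => Real.exp (f z)) s x) ∂π') / m0 := by
        have e2 : ∀ y, sw0 f s (x + t * H ω y) - m0 - t * H ω y / s * sm1 (fun z => Real.exp (f z)) s x
            - (t * H ω y / s) ^ 2 / 2 * sm2 (fun z => Real.exp (f z)) s x =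
            sw0 f s (x + t * H ω y) - m0 - a * sm1 (fun z => Real.exp (f z)) s x * H ω y
            - a ^ 2 * sm2 (fun z => Real.exp (f z)) s x / 2 * H ω y ^ 2 := fun y => by
          rw [ha]; field_simp
        simp only [e2]
        rw [integral_sub ((iAv.sub' (integrable_const _)).sub' (j1.const_mul _)) (j2.const_mul _),
          integral_sub (iAv.sub' (integrable_const _)) (j1.const_mul _),
          integral_sub iAv (integrable_const _), integral_const_mul, integral_const_mul]
        simp only [integral_const, probReal_univ, smul_eq_mul, one_mul]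
        simp only [hE, hX, μ1, μ2, sl1, sl2, Hb, H2, Av, m0]
        have hne := (sw0_pos hf hb s x).ne'
        field_simp
      rw [e, abs_div, abs_of_pos hm0, div_le_iff₀ hm0]
      have hbnd : ∀ y, |sw0 f s (x + t * H ω y) - m0 - t * H ω y / s * sm1 (fun z => Real.exp (f z)) s x
          - (t * H ω y / s) ^ 2 / 2 * sm2 (fun z => Real.exp (f z)) s x| ≤
          Real.exp K * shiftC * |a| ^ 3 * (1 + |H ω y|) ^ 3 := fun y => by
        refine (sm0_expansion hf.exp (abs_exp_f_le hb) hs x (t * H ω y)).trans ?_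
        rw [show t * H ω y / s = a * H ω y by rw [ha]; ring, abs_mul, mul_pow, ← mul_assoc]
        refine mul_le_mul_of_nonneg_left (pow_le_pow_left₀ (abs_nonneg _)
          (le_add_of_nonneg_left zero_le_one) 3) ?_
        exact mul_nonneg (mul_nonneg (Real.exp_pos _).le shiftC_nonneg) (by positivity)
      refine abs_integral_le_integral_abs.trans ((integral_mono ?_ (j3.const_mul _) hbnd).trans ?_)
      · exact ((j3.const_mul _).mono' (by fun_prop (disch := exact hm) : Measurable _).aestronglyMeasurable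
          (Eventually.of_forall hbnd)).abs
      · rw [integral_const_mul]
        have hlow := (sw0_mem hf hb s x).1
        calc Real.exp K * shiftC * |a| ^ 3 * T ω
            = B * |a| ^ 3 * T ω * Real.exp (-K) := by
              rw [hB, show Real.exp K = Real.exp (2 * K) * Real.exp (-K) by
                rw [← Real.exp_add]; ring_nf]
              ring
          _ ≤ B * |a| ^ 3 * T ω * m0 := mul_le_mul_of_nonneg_left hlow
              (mul_nonneg (mul_nonneg (hB ▸ hQ) (by positivity)) (by linarith))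
    have hm1 : |Hb ω * μ1| ≤ B * T ω := by
      rw [abs_mul, mul_comm, hB]
      exact mul_le_mul (abs_sl1_le hf hb s x) hHb (abs_nonneg _) hQ
    have hm2 : |H2 ω * μ2 / 2| ≤ B * T ω := by
      rw [abs_div, abs_two, abs_mul, hB]
      have := mul_le_mul hH2 (abs_sl2_le hf hb s x) (abs_nonneg _) (by linarith)
      have : 0 ≤ Real.exp (2 * K) * shiftC * T ω := mul_nonneg hQ (by linarith)
      linarith
    have h := log_second_order (a := a) hK hT1 hl hm1 hm2 hEb (by rw [hE]; ring)
    rw [hlogX] at h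
    refine h.trans ?_
    rw [expC, ← hB]
    refine mul_le_mul_of_nonneg_left hT9 (mul_nonneg ?_ (by positivity))
    rw [logC, hB]; positivity
  have hLm : Measurable L := by
    have hu : Measurable fun p : Ω × Y => sw0 f s (x + t * H p.1 p.2) :=
      (measurable_sw0 hf s).comp ((hH.const_mul t).const_add x)
    exact Real.measurable_log.comp (hu.stronglyMeasurable.integral_prod_right' (ν := π')).measurable
  have iL : Integrable L P := by
    refine integrable_of_abs_le (K := K) hLm fun ω => ?_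
    have hm : Measurable fun y => sw0 f s (x + t * H ω y) :=
      (measurable_sw0 hf s).comp (hH.of_uncurry_left.const_mul t |>.const_add x)
    have := abs_lint_le (π := π') (G := fun y => Real.log (sw0 f s (x + t * H ω y)))
      (Real.measurable_log.comp hm) fun y => abs_log_sw0_le hf hb _ _
    simpa [lint, Real.exp_log (sw0_pos hf hb _ _)] using this
  have iHb : Integrable Hb P := hi1.integral_prod_left
  have iH2 : Integrable H2 P := hi2.integral_prod_left
  have i9 : Integrable T9 P := h9.integral_prod_left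
  have iHb2 : Integrable (fun ω => Hb ω ^ 2) P :=
    i9.mono' (iHb.aestronglyMeasurable.pow 2) (hpt.mono fun ω h => by
      rw [Real.norm_eq_abs, abs_of_nonneg (sq_nonneg _)]; exact h.2)
  set g := fun ω => L ω - Real.log m0 - a * (Hb ω * μ1) -
      a ^ 2 * (H2 ω * μ2 / 2 - (Hb ω * μ1) ^ 2 / 2) with hg
  have ig2 : Integrable (fun ω => H2 ω * μ2 / 2 - (Hb ω * μ1) ^ 2 / 2) P :=
    ((iH2.mul_const μ2).div_const 2).sub
      (((iHb2.mul_const (μ1 ^ 2)).congr (Eventually.of_forall fun ω => by ring)).div_const 2)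
  have ig : Integrable g P :=
    ((iL.sub (integrable_const _)).sub ((iHb.mul_const μ1).const_mul a)).sub (ig2.const_mul _)
  have key : ∫ ω, g ω ∂P = (∫ ω, L ω ∂P) - Real.log m0 -
      a ^ 2 / 2 * (μ2 - (∫ ω, Hb ω ^ 2 ∂P) * μ1 ^ 2) := by
    rw [hg, integral_sub ((iL.sub' (integrable_const _)).sub'
        ((iHb.mul_const μ1).const_mul a)) (ig2.const_mul _),
      integral_sub (iL.sub' (integrable_const _)) ((iHb.mul_const μ1).const_mul a),
      integral_sub iL (integrable_const _), integral_const_mul, integral_const_mul,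
      integral_sub ((iH2.mul_const μ2).div_const 2)
        (((iHb2.mul_const (μ1 ^ 2)).congr (Eventually.of_forall fun ω => by ring)).div_const 2),
      integral_div, integral_div, integral_mul_const, integral_mul_const,
      show (fun ω => (Hb ω * μ1) ^ 2) = fun ω => Hb ω ^ 2 * μ1 ^ 2 from funext fun ω => by ring,
      integral_mul_const]
    simp only [integral_const, probReal_univ, smul_eq_mul, one_mul]
    rw [show ∫ ω, Hb ω ∂P = 0 from hmean, show ∫ ω, H2 ω ∂P = 1 from hsq]
    ring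
  rw [← key, ← integral_const_mul]
  exact abs_integral_le_integral_abs.trans
    (integral_mono_ae ig.abs (i9.const_mul _) (hpt.mono fun ω h => h.1))

end Vale.Agent.P157
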