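import Mathlib
import Vale.Agent.P157.Blocks
import Vale.Agent.P157.Laws
import Vale.Agent.P157.RSExpansion
import Vale.Agent.P157.Gardner

/-!
One pattern against the replica-symmetric reference array.
-/

noncomputable section

open MeasureTheory ProbabilityTheory Filter
open scoped Topology ENNReal

namespace Vale.Agent.P157

lemma Usable.continuous {f : ℝ → ℝ} {K : ℝ} (h : Usable f K) : Continuous f := by
  refine continuous_iff_continuousAt.2 fun x => ?_
  rw [Metric.continuousAt_iff]
  intro ε hε
  obtain ⟨L, hL, hm⟩ := h.modulus (ε / 2) (by linarith)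
  refine ⟨ε / (2 * (L + 1)), by positivity, fun {y} hy => ?_⟩
  rw [Real.dist_eq] at hy ⊢
  have := (lt_div_iff₀ (by positivity)).1 hy
  nlinarith [hm y x, abs_nonneg (y - x)]

/-! ### Gaussian linear forms -/

variable {ι : Type*} [Fintype ι]

lemma map_dot_unit {u : ι → ℝ} (hu : ∑ i, u i ^ 2 = 1) :
    (gam ι).map (fun g => dot g u) = gam1 := by
  have hm : Measurable fun g : ι → ℝ => dot g u := by unfold dot; fun_prop
  apply Measure.ext_of_charFun
  ext t
  rw [charFun_apply_real, integral_map hm.aemeasurable (by fun_prop), charFun_gaussianReal]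
  have e : ∀ g : ι → ℝ, (t : ℂ) * (dot g u : ℂ) * Complex.I =
      ((dot g (fun i => t * u i) : ℝ) : ℂ) * Complex.I := fun g => by
    simp only [dot, Complex.ofReal_sum, Finset.mul_sum]
    congr 1
    exact Finset.sum_congr rfl fun i _ => by push_cast; ring
  simp only [e, integral_cexp_dot]
  simp only [mul_pow, ← Finset.mul_sum, hu, mul_one]
  push_cast
  congr 1
  ring

lemma integral_dot (u : ι → ℝ) : ∫ g, dot g u ∂gam ι = 0 := by
  unfold dot
  have hi : ∀ i ∈ Finset.univ, Integrable (fun g : ι → ℝ => g i * u i) (gam ι) := fun i _ =>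
    ((IsGaussian.memLp_two_id (μ := gaussianReal 0 1)).comp_measurePreserving
      (measurePreserving_eval _ i)).integrable one_le_two |>.mul_const _
  rw [integral_finsetSum _ hi]
  simp [integral_mul_const, integral_eval]

lemma integral_sq_gam1 : ∫ x, x ^ 2 ∂gam1 = 1 := by
  have h := variance_eq_sub (μ := gam1) (X := id) IsGaussian.memLp_two_id
  rw [variance_id_gaussianReal] at h
  simpa using h.symm

lemma integral_dot_sq (u : ι → ℝ) : ∫ g, dot g u ^ 2 ∂gam ι = ∑ i, u i ^ 2 := by
  set c := Real.sqrt (∑ i, u i ^ 2) with hc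
  have hs := Real.sq_sqrt (show 0 ≤ ∑ i, u i ^ 2 from Finset.sum_nonneg fun i _ => sq_nonneg _)
  rcases (Real.sqrt_nonneg (∑ i, u i ^ 2)).eq_or_lt with h | h
  · have h0 : ∀ i, u i = 0 := fun i => by
      have := (Finset.sum_eq_zero_iff_of_nonneg (fun i _ => sq_nonneg _)).1
        (show ∑ i, u i ^ 2 = 0 by rw [← hs, ← h]; norm_num) i (Finset.mem_univ i)
      simpa using this
    simp [dot, h0]
  · set v : ι → ℝ := fun i => u i / c
    have hv : ∑ i, v i ^ 2 = 1 := by
      simp only [v, div_pow, ← Finset.sum_div, hc, hs]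
      exact div_self (by rw [← hs]; positivity)
    have e : ∀ g, dot g u ^ 2 = c ^ 2 * dot g v ^ 2 := fun g => by
      rw [← mul_pow]
      congr 1
      simp only [dot, Finset.mul_sum, v]
      exact Finset.sum_congr rfl fun i _ => by
        have hc0 : c ≠ 0 := ne_of_gt h
        field_simp
    simp only [e, integral_const_mul]
    have hm : Measurable fun g : ι → ℝ => dot g v := by unfold dot; fun_prop
    have := integral_map (μ := gam ι) (φ := fun g => dot g v) hm.aemeasurable
      (f := fun x : ℝ => x ^ 2) (by fun_prop)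
    rw [map_dot_unit hv, integral_sq_gam1] at this
    rw [← this, hc, hs, mul_one]

/-- The ninth moment of `1 + |z|`. -/
def mom9 : ℝ := ∫ z, (1 + |z|) ^ 9 ∂gam1

lemma integrable_pow9 : Integrable (fun z : ℝ => (1 + |z|) ^ 9) gam1 := by
  have h := ((integrable_exp_mul_gaussianReal (μ := 0) (v := 1) 1).add
    (integrable_exp_mul_gaussianReal (-1))).const_mul ((Nat.factorial 9 : ℝ) * Real.exp 1)
  refine h.mono' (by fun_prop) (Eventually.of_forall fun z => ?_)
  rw [Real.norm_eq_abs, abs_of_nonneg (by positivity)]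
  have h4 := Real.pow_div_factorial_le_exp (x := 1 + |z|) (by positivity) 9
  rw [div_le_iff₀ (by positivity)] at h4
  refine h4.trans ?_
  simp only [Pi.add_apply]
  rw [Real.exp_add, mul_comm, mul_assoc]
  refine mul_le_mul_of_nonneg_left ?_ (by positivity)
  refine mul_le_mul_of_nonneg_left ?_ (Real.exp_pos _).le
  rcases abs_choice z with h | h <;> rw [h]
  · linarith [Real.exp_pos (-1 * z), show Real.exp (1 * z) = Real.exp z by rw [one_mul]]
  · linarith [Real.exp_pos (1 * z), show Real.exp (-1 * z) = Real.exp (-z) by ring_nf]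

lemma mom9_nonneg : 0 ≤ mom9 := integral_nonneg fun _ => by positivity

/-! ### Householder rotation of Gaussian vectors -/

/-- Reflection in the hyperplane orthogonal to the all-ones vector. -/
def house (m : ℕ) (g : Fin m → ℝ) : Fin m → ℝ := fun j => g j - 2 / m * ∑ i, g i

lemma dot_house {m : ℕ} (g t : Fin m → ℝ) : dot (house m g) t = dot g (house m t) := by
  simp only [dot, house, sub_mul, mul_sub, Finset.sum_sub_distrib]
  congr 1
  rw [← Finset.mul_sum, ← Finset.sum_mul]
  ring

lemma sum_house_sq {m : ℕ} (hm : 0 < m) (t : Fin m → ℝ) :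
    ∑ j, house m t j ^ 2 = ∑ j, t j ^ 2 := by
  have hm' : (m : ℝ) ≠ 0 := by positivity
  simp only [house, sub_sq, Finset.sum_add_distrib, Finset.sum_sub_distrib, Finset.sum_const,
    Finset.card_univ, Fintype.card_fin, nsmul_eq_mul, ← Finset.sum_mul, ← Finset.mul_sum]
  field_simp
  ring

lemma measurePreserving_house {m : ℕ} (hm : 0 < m) :
    MeasurePreserving (house m) (gam (Fin m)) (gam (Fin m)) := by
  have hmh : Measurable (house m) := by unfold house; fun_prop
  refine ⟨hmh, ?_⟩
  have : (WithLp.toLp 2 : (Fin m → ℝ) → EuclideanSpace ℝ (Fin m)) ∘ house m =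
      fun g => WithLp.toLp 2 (house m g) := rfl
  have hL : (gam (Fin m)).map (fun g => WithLp.toLp 2 (house m g)) =
      (gam (Fin m)).map (WithLp.toLp 2) := by
    apply Measure.ext_of_charFun
    ext t
    rw [charFun_apply, charFun_apply, integral_map (by fun_prop) (by fun_prop),
      integral_map (by fun_prop) (by fun_prop)]
    have e1 : ∀ g : Fin m → ℝ, inner ℝ (WithLp.toLp 2 g) t = dot g fun i => t i := fun g => by
      simp [PiLp.inner_apply, dot, mul_comm]
    simp only [e1, dot_house, integral_cexp_dot, sum_house_sq hm]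
  have h := congrArg (Measure.map (WithLp.ofLp : EuclideanSpace ℝ (Fin m) → Fin m → ℝ)) hL
  rw [Measure.map_map (WithLp.measurable_ofLp 2 _) (by fun_prop),
    Measure.map_map (WithLp.measurable_ofLp 2 _) (by fun_prop)] at h
  exact h.trans Measure.map_id

/-! ### Two blocks: the configuration and the reference array -/

/-- Block sizes. -/
abbrev sz2 (N m : ℕ) (b : Bool) : ℕ := if b then N else m

/-- Assemble two blocks. -/
def join2 (N m : ℕ) (a : Fin N → ℝ) (c : Fin m → ℝ) : BI (sz2 N m) → ℝ := fun i =>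
  match i with
  | ⟨true, j⟩ => a j
  | ⟨false, j⟩ => c j

lemma measurePreserving_split (μ : Measure ℝ) [IsProbabilityMeasure μ] (N m : ℕ) :
    MeasurePreserving (fun p : (Fin N → ℝ) × (Fin m → ℝ) => join2 N m p.1 p.2)
      ((Measure.pi fun _ : Fin N => μ).prod (Measure.pi fun _ : Fin m => μ))
      (Measure.pi fun _ : BI (sz2 N m) => μ) := by
  have hm : Measurable fun p : (Fin N → ℝ) × (Fin m → ℝ) => join2 N m p.1 p.2 := by
    refine measurable_pi_lambda _ fun i => ?_
    match i with
    | ⟨true, j⟩ => exact (measurable_pi_apply (show Fin N from j)).comp measurable_fst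
    | ⟨false, j⟩ => exact (measurable_pi_apply (show Fin m from j)).comp measurable_snd
  refine ⟨hm, (Measure.pi_eq fun S hS => ?_).symm⟩
  rw [Measure.map_apply hm (MeasurableSet.univ_pi hS)]
  have : (fun p : (Fin N → ℝ) × (Fin m → ℝ) => join2 N m p.1 p.2) ⁻¹' Set.univ.pi S =
      (Set.univ.pi fun j : Fin N => S ⟨true, j⟩) ×ˢ (Set.univ.pi fun j : Fin m => S ⟨false, j⟩) := by
    ext p
    simp only [Set.mem_preimage, Set.mem_pi, Set.mem_univ, forall_true_left, Set.mem_prod]
    refine ⟨fun h => ⟨fun j => h ⟨true, j⟩, fun j => h ⟨false, j⟩⟩, fun h i => ?_⟩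
    match i with
    | ⟨true, j⟩ => exact h.1 j
    | ⟨false, j⟩ => exact h.2 j
  rw [this, Measure.prod_prod, Measure.pi_pi, Measure.pi_pi, Fintype.prod_sigma, Fintype.prod_bool]
  rfl

lemma dot_feat_join (N m : ℕ) (w : Bool → ℝ) (a y : Fin N → ℝ) (c u : Fin m → ℝ) :
    dot (join2 N m a c) (feat (sz2 N m) w (join2 N m y u)) =
      w true * dot a (dir y) + w false * dot c (dir u) := by
  simp only [dot, feat, Finset.mul_sum]
  rw [Fintype.sum_sigma, Fintype.sum_bool]
  congr 1 <;>
  · refine Finset.sum_congr rfl fun j _ => ?_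
    simp only [join2]
    rw [mul_left_comm]
    rfl

/-- The reference directions. -/
def refVec (q : ℝ) (n : ℕ) (k : Fin n) : Fin (n + 1) → ℝ :=
  house (n + 1) fun j => Real.sqrt q * (if j = 0 then 1 else 0) +
    Real.sqrt (1 - q) * (if j = k.succ then 1 else 0)

lemma sum_refVec_sq {q : ℝ} (hq0 : 0 ≤ q) (hq1 : q < 1) (n : ℕ) (k : Fin n) :
    ∑ j, refVec q n k j ^ 2 = 1 := by
  rw [refVec, sum_house_sq (Nat.succ_pos n), Fin.sum_univ_succ]
  simp only [if_true, (Fin.succ_ne_zero k).symm, if_false, mul_one, mul_zero, add_zero,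
    Fin.succ_ne_zero, zero_add, Fin.succ_inj, mul_ite, ite_pow, ne_eq, OfNat.ofNat_ne_zero,
    not_false_eq_true, zero_pow, Finset.sum_ite_eq', Finset.mem_univ]
  rw [Real.sq_sqrt hq0, Real.sq_sqrt (by linarith)]
  ring

lemma refVec_ne_zero {q : ℝ} (hq0 : 0 ≤ q) (hq1 : q < 1) :
    ∀ᶠ n : ℕ in atTop, ∀ (k : Fin n) (j : Fin (n + 1)), refVec q n k j ≠ 0 := by
  set S := Real.sqrt q + Real.sqrt (1 - q) with hS
  have hs1 : 0 < Real.sqrt (1 - q) := Real.sqrt_pos.2 (by linarith)
  have hS0 : 0 < S := by positivity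
  have hlim : Tendsto (fun n : ℕ => 2 / ((n + 1 : ℕ) : ℝ) * S) atTop (𝓝 0) := by
    have := ((tendsto_const_div_atTop_nhds_zero_nat (2 : ℝ)).comp (tendsto_add_atTop_nat 1)).mul_const S
    simpa using this
  have hev : ∀ᶠ n : ℕ in atTop, 2 / ((n + 1 : ℕ) : ℝ) * S < Real.sqrt (1 - q) ∧
      (0 < q → 2 / ((n + 1 : ℕ) : ℝ) * S < Real.sqrt q) := by
    refine (hlim.eventually (gt_mem_nhds hs1)).and ?_
    rcases hq0.eq_or_lt with h | h
    · exact Eventually.of_forall fun n h' => absurd h' (by linarith)
    · exact (hlim.eventually (gt_mem_nhds (Real.sqrt_pos.2 h))).mono fun n hn _ => hn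
  filter_upwards [hev] with n ⟨h1, h2⟩ k j
  have hsum : ∑ i : Fin (n + 1), (Real.sqrt q * (if i = 0 then 1 else 0) +
      Real.sqrt (1 - q) * (if i = k.succ then 1 else 0)) = S := by
    simp [Finset.sum_add_distrib, ← Finset.mul_sum, hS]
  have hc : 0 < 2 / ((n + 1 : ℕ) : ℝ) * S := by positivity
  simp only [refVec, house, hsum]
  by_cases hj : j = 0
  · subst hj
    simp only [if_true, mul_one, (Fin.succ_ne_zero k).symm, if_false, mul_zero, add_zero]
    rcases hq0.eq_or_lt with h | h
    · rw [← h, Real.sqrt_zero, zero_sub]; exact neg_ne_zero.2 hc.ne'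
    · exact (sub_pos.2 (h2 h)).ne'
  · by_cases hk : j = k.succ
    · simp only [hj, if_false, hk, if_true, mul_zero, mul_one, zero_add]
      simp only [Fin.succ_ne_zero, if_false, mul_zero, zero_add]
      exact (sub_pos.2 h1).ne'
    · simp only [hj, hk, if_false, mul_zero, add_zero, zero_sub]
      exact neg_ne_zero.2 hc.ne'

lemma dot_refVec (q : ℝ) (n : ℕ) (k : Fin n) (g : Fin (n + 1) → ℝ) :
    dot g (refVec q n k) = Real.sqrt q * house (n + 1) g 0 +
      Real.sqrt (1 - q) * house (n + 1) g k.succ := by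
  rw [refVec, ← dot_house]
  simp [dot, mul_comm, add_mul, Finset.sum_add_distrib, ite_mul]

/-- Uniform law on a finite set of labels. -/
def unifFin (n : ℕ) : Measure (Fin n) := (n : ℝ≥0∞)⁻¹ • Measure.count

lemma isProbabilityMeasure_unifFin {n : ℕ} (hn : 0 < n) : IsProbabilityMeasure (unifFin n) := by
  constructor
  simp [unifFin, Measure.count_univ, ENNReal.inv_mul_cancel, hn.ne']

lemma integral_unifFin (n : ℕ) (φ : Fin n → ℝ) :
    ∫ k, φ k ∂unifFin n = (∑ k, φ k) / n := by
  simp [unifFin, integral_smul_measure, integral_count, div_eq_inv_mul]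

section average

variable {K : ℝ} {F : ℝ → ℝ}

/-- Averages over many independent copies. -/
lemma log_average_bounds (hF : Measurable F)
    (hb : ∀ x, Real.exp (-K) ≤ F x ∧ F x ≤ Real.exp K) {n : ℕ} (hn : 0 < n) :
    ∫ ξ : Fin n → ℝ, Real.log ((∑ k, F (ξ k)) / n) ∂gam (Fin n) ≤ Real.log (∫ x, F x ∂gam1) ∧
    Real.log (∫ x, F x ∂gam1) - Real.exp (2 * K) / Real.sqrt n ≤
      ∫ ξ : Fin n → ℝ, Real.log ((∑ k, F (ξ k)) / n) ∂gam (Fin n) := by
  have hn' : (0 : ℝ) < n := by exact_mod_cast hn
  set μ := ∫ x, F x ∂gam1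
  set A : (Fin n → ℝ) → ℝ := fun ξ => (∑ k, F (ξ k)) / n with hA
  have hAm : Measurable A := by
    rw [hA]; exact (Finset.measurable_sum _ fun k _ => hF.comp (measurable_pi_apply k)).div_const _
  have hAb : ∀ ξ, Real.exp (-K) ≤ A ξ ∧ A ξ ≤ Real.exp K := fun ξ => by
    have h1 := Finset.card_nsmul_le_sum Finset.univ (fun k => F (ξ k)) _ fun k _ => (hb (ξ k)).1
    have h2 := Finset.sum_le_card_nsmul Finset.univ (fun k => F (ξ k)) _ fun k _ => (hb (ξ k)).2
    simp only [Finset.card_univ, Fintype.card_fin, nsmul_eq_mul] at h1 h2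
    exact ⟨by rw [hA, le_div_iff₀ hn']; linarith, by rw [hA, div_le_iff₀ hn']; linarith⟩
  have iF : Integrable F gam1 := integrable_of_abs_le hF (K := Real.exp K) fun x => by
    rw [abs_of_nonneg ((Real.exp_pos _).le.trans (hb x).1)]; exact (hb x).2
  have hμ : Real.exp (-K) ≤ μ := by
    calc Real.exp (-K) = ∫ _, Real.exp (-K) ∂gam1 := by simp
      _ ≤ μ := integral_mono (integrable_const _) iF fun x => (hb x).1
  have iAk : ∀ k : Fin n, Integrable (fun ξ : Fin n → ℝ => F (ξ k)) (gam (Fin n)) := fun k =>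
    integrable_of_abs_le (hF.comp (measurable_pi_apply k)) (K := Real.exp K) fun ξ => by
      rw [abs_of_nonneg ((Real.exp_pos _).le.trans (hb _).1)]; exact (hb _).2
  have hmean : ∫ ξ, A ξ ∂gam (Fin n) = μ := by
    simp only [hA, integral_div]
    rw [integral_finsetSum _ fun k _ => iAk k]
    have : ∀ k : Fin n, ∫ ξ : Fin n → ℝ, F (ξ k) ∂gam (Fin n) = μ := fun k =>
      integral_comp_eval hF.aestronglyMeasurable
    simp [this]
    field_simp
  refine ⟨hmean ▸ integral_log_le_log_integral (Real.exp_pos _) hAm hAb, ?_⟩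
  have hL2 : MemLp F 2 gam1 := MemLp.of_bound hF.aestronglyMeasurable (Real.exp K)
    (Eventually.of_forall fun x => by
      rw [Real.norm_eq_abs, abs_of_nonneg ((Real.exp_pos _).le.trans (hb x).1)]; exact (hb x).2)
  have hAL : MemLp A 2 (gam (Fin n)) := MemLp.of_bound hAm.aestronglyMeasurable (Real.exp K)
    (Eventually.of_forall fun x => by
      rw [Real.norm_eq_abs, abs_of_nonneg ((Real.exp_pos _).le.trans (hAb x).1)]; exact (hAb x).2)
  have hvar : variance A (gam (Fin n)) ≤ Real.exp K ^ 2 / n := by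
    have e : A = (∑ k : Fin n, fun ξ : Fin n → ℝ => F (ξ k)) * fun _ => (n : ℝ)⁻¹ := by
      ext ξ; simp [hA, Finset.sum_apply, div_eq_mul_inv]
    rw [e, Pi.mul_def, variance_mul_const, variance_sum_pi (μ := fun _ : Fin n => gam1) fun _ => hL2]
    simp only [Finset.sum_const, Finset.card_univ, Fintype.card_fin, nsmul_eq_mul]
    have hv : variance F gam1 ≤ Real.exp K ^ 2 := by
      refine (variance_le_expectation_sq hF.aestronglyMeasurable).trans ?_
      calc ∫ x, (F ^ 2) x ∂gam1 ≤ ∫ _, Real.exp K ^ 2 ∂gam1 := by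
            refine integral_mono hL2.integrable_sq (integrable_const _) fun x => ?_
            exact pow_le_pow_left₀ ((Real.exp_pos _).le.trans (hb x).1) (hb x).2 2
        _ = _ := by simp
    calc (n : ℝ) * variance F gam1 * (n : ℝ)⁻¹ ^ 2 = variance F gam1 / n := by field_simp
      _ ≤ _ := by gcongr
  have habs : ∫ ξ, |A ξ - μ| ∂gam (Fin n) ≤ Real.exp K / Real.sqrt n := by
    have hd : MemLp (fun ξ => A ξ - μ) 2 (gam (Fin n)) := hAL.sub (memLp_const μ)
    have h := variance_nonneg (fun ξ => |A ξ - μ|) (gam (Fin n))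
    rw [variance_eq_sub (show MemLp (fun ξ => |A ξ - μ|) 2 _ from hd.norm)] at h
    simp only [Pi.pow_apply, sq_abs] at h
    rw [variance_eq_integral hAm.aemeasurable, hmean] at hvar
    refine (Real.le_sqrt_of_sq_le (by linarith : (∫ ξ, |A ξ - μ| ∂gam (Fin n)) ^ 2 ≤
      Real.exp K ^ 2 / n)).trans (le_of_eq ?_)
    rw [Real.sqrt_div (sq_nonneg _), Real.sqrt_sq (Real.exp_pos _).le]
  have hiabs : Integrable (fun ξ => |A ξ - μ|) (gam (Fin n)) :=
    ((hAL.integrable one_le_two).sub (integrable_const μ)).abs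
  have hlog : Integrable (fun ξ => Real.log (A ξ)) (gam (Fin n)) :=
    integrable_of_abs_le (K := K) (Real.measurable_log.comp hAm) fun ξ => by
      have h0 := (Real.exp_pos _).trans_le (hAb ξ).1
      rw [abs_le]
      exact ⟨(Real.le_log_iff_exp_le h0).2 (hAb ξ).1, (Real.log_le_iff_le_exp h0).2 (hAb ξ).2⟩
  have hpt : ∀ ξ, Real.log μ - Real.exp K * |A ξ - μ| ≤ Real.log (A ξ) := fun ξ => by
    have hμ0 := (Real.exp_pos _).trans_le hμ
    have hA0 := (Real.exp_pos _).trans_le (hAb ξ).1
    have h := Real.log_le_sub_one_of_pos (div_pos hμ0 hA0)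
    rw [Real.log_div hμ0.ne' hA0.ne', div_sub_one hA0.ne'] at h
    have h2 : (μ - A ξ) / A ξ ≤ |A ξ - μ| / Real.exp (-K) :=
      (div_le_div_of_nonneg_right ((le_abs_self _).trans_eq (abs_sub_comm _ _)) hA0.le).trans
        (div_le_div_of_nonneg_left (abs_nonneg _) (Real.exp_pos _) (hAb ξ).1)
    rw [Real.exp_neg, div_inv_eq_mul, mul_comm] at h2
    linarith
  have h := integral_mono ((integrable_const _).sub (hiabs.const_mul _)) hlog hpt
  simp only [Pi.sub_apply] at h
  rw [integral_sub (integrable_const _) (hiabs.const_mul _), integral_const_mul] at h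
  simp only [integral_const, probReal_univ, smul_eq_mul, one_mul] at h
  refine le_trans ?_ h
  have := mul_le_mul_of_nonneg_left habs (Real.exp_pos K).le
  rw [← mul_div_assoc, ← Real.exp_add, ← two_mul] at this
  linarith

end average

/-! ### The mixed field -/

variable {N : ℕ} {f : ℝ → ℝ} {K : ℝ} {π' : Measure (Fin N → ℝ)} [IsProbabilityMeasure π']

/-- `E log` of the mixture of the configuration field and the reference field. -/
def mixVal (f : ℝ → ℝ) (π' : Measure (Fin N → ℝ)) (q θ : ℝ) : ℝ :=
  ∫ g, ∫ z, Real.log (∫ y, sw0 f (Real.sqrt ((1 - θ) * (1 - q)))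
    (Real.sqrt ((1 - θ) * q) * z + Real.sqrt θ * dot g (dir y)) ∂π') ∂gam1 ∂gam (Fin N)

/-- Concavity against the reference array, after letting the number of copies grow. -/
theorem mix_bound (hf : Usable f K) (hcv : BlockConcave f) (hN : 0 < N)
    (hne : ∀ᵐ y ∂π', ∀ i, y i ≠ 0) {q θ : ℝ} (hq0 : 0 ≤ q) (hq1 : q < 1) (hθ0 : 0 ≤ θ)
    (hθ1 : θ ≤ 1) :
    θ * (∫ g, lint π' (term f dir g) ∂gam (Fin N)) + (1 - θ) * gardnerG f q ≤
      mixVal f π' q θ := by
  have hlim : Tendsto (fun n : ℕ => θ * (∫ g, lint π' (term f dir g) ∂gam (Fin N)) +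
      (1 - θ) * (gardnerG f q - Real.exp (2 * K) / Real.sqrt n)) atTop
      (𝓝 (θ * (∫ g, lint π' (term f dir g) ∂gam (Fin N)) + (1 - θ) * (gardnerG f q - 0))) := by
    refine (((Tendsto.const_div_atTop (Real.tendsto_sqrt_atTop.comp
      tendsto_natCast_atTop_atTop) _).const_sub _).const_mul _).const_add _
  rw [sub_zero] at hlim
  refine le_of_tendsto hlim ?_
  filter_upwards [refVec_ne_zero hq0 hq1, eventually_gt_atTop 0] with n hnz hn
  have := isProbabilityMeasure_unifFin hn
  set emb : (Fin N → ℝ) × Fin n → BI (sz2 N (n + 1)) → ℝ :=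
    fun p => join2 N (n + 1) p.1 (refVec q n p.2) with hemb
  have hembm : Measurable emb :=
    measurable_from_prod_countable_left fun k =>
      (measurePreserving_split (gaussianReal 0 1) N (n + 1)).measurable.comp
        (f := fun y : Fin N → ℝ => (y, refVec q n k)) (measurable_id.prodMk measurable_const)
  set ρ' := (π'.prod (unifFin n)).map emb
  have : IsProbabilityMeasure ρ' := Measure.isProbabilityMeasure_map hembm.aemeasurable
  have hρne : ∀ᵐ x ∂ρ', ∀ i, x i ≠ 0 := by
    refine (ae_map_iff hembm.aemeasurable ?_).2 ?_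
    · rw [Set.ofPred_forall]
      exact MeasurableSet.iInter fun i =>
        (measurableSet_eq_fun (measurable_pi_apply i) measurable_const).compl
    filter_upwards [(Measure.quasiMeasurePreserving_fst (μ := π') (ν := unifFin n)).ae hne] with p hp i
    match i with
    | ⟨true, j⟩ => exact hp j
    | ⟨false, j⟩ => exact hnz p.2 j
  set θb : Bool → ℝ := fun b => if b then θ else 1 - θ
  have h := hcv Bool (sz2 N (n + 1)) θb (fun b => by cases b <;> simp [θb] <;> linarith)
    (by simp [θb]) (fun b _ => by cases b <;> simp [sz2, hN]) ρ' this hρne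
  rw [Fintype.sum_bool] at h
  simp only [θb, if_true, Bool.false_eq_true, if_false] at h
  -- evaluate the three terms
  have hval : ∀ w : Bool → ℝ, ∫ g, lint ρ' (term f (feat (sz2 N (n + 1)) w) g)
      ∂gam (BI (sz2 N (n + 1))) =
      ∫ p, Real.log (∫ y, (∑ k : Fin n, Real.exp (f (w true * dot p.1 (dir y) + w false *
        (Real.sqrt q * p.2 0 + Real.sqrt (1 - q) * p.2 k.succ)))) / n ∂π')
        ∂(gam (Fin N)).prod (gam (Fin (n + 1))) := by
    intro w
    have hnice := nice_term hf.meas hf.bound (measurable_feat (sz := sz2 N (n + 1)) w)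
    have hsp := measurePreserving_split (gaussianReal 0 1) N (n + 1)
    have hH := measurePreserving_house (m := n + 1) (Nat.succ_pos n)
    have hcomb := hsp.comp ((MeasurePreserving.id (gam (Fin N))).prod hH)
    rw [show gam (BI (sz2 N (n + 1))) = _ from hcomb.map_eq.symm, integral_map hcomb.measurable.aemeasurable
      (measurable_lint ρ' hnice.meas).aestronglyMeasurable]
    congr 1
    ext p
    rw [lint_map hembm (hnice.meas_left _)]
    simp only [lint]
    rw [integral_prod]
    swap
    · exact integrable_exp_of_abs_le ((hnice.meas_left _).comp hembm) fun _ => hnice.bound _ _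
    congr 1
    refine integral_congr_ae (Eventually.of_forall fun y => ?_)
    simp only [integral_unifFin, term, Function.comp_apply, Prod.map_apply, id, hemb, dot_feat_join]
    congr 1
    refine Finset.sum_congr rfl fun k _ => ?_
    congr 3
    have hd : dir (refVec q n k) = refVec q n k := by
      ext j; simp [dir, nrm, sum_refVec_sq hq0 hq1]
    rw [hd, dot_refVec]
    congr 1
    have hinv : ∀ (g : Fin (n + 1) → ℝ), house (n + 1) (house (n + 1) g) = g := fun g => by
      ext j
      simp only [house, Finset.sum_sub_distrib, Finset.sum_const, Finset.card_univ,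
        Fintype.card_fin, nsmul_eq_mul]
      field_simp
      ring
    rw [Prod.map_snd, hinv]
  have hfm : ∀ (a b : ℝ), Measurable fun ξ : ℝ => Real.exp (f (a + b * ξ)) := fun a b =>
    (hf.meas.comp (by fun_prop)).exp
  have hfb : ∀ x, Real.exp (-K) ≤ Real.exp (f x) ∧ Real.exp (f x) ≤ Real.exp K := fun x =>
    ⟨Real.exp_le_exp.2 (abs_le.1 (hf.bound x)).1, Real.exp_le_exp.2 (abs_le.1 (hf.bound x)).2⟩
  have e0 := measurePreserving_piFinSuccAbove (fun _ : Fin (n + 1) => gaussianReal 0 1) 0
  have h2 : gardnerG f q - Real.exp (2 * K) / Real.sqrt n ≤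
      ∫ g, lint ρ' (term f (featb (sz2 N (n + 1)) false) g) ∂gam (BI (sz2 N (n + 1))) := by
    rw [show featb (sz2 N (n + 1)) false = feat (sz2 N (n + 1))
      (fun c => if c = false then (1 : ℝ) else 0) from rfl, hval]
    simp only [Bool.true_eq_false, if_false, if_true, zero_mul, zero_add, one_mul,
      integral_const, probReal_univ, smul_eq_mul]
    rw [integral_fun_snd (fun c : Fin (n + 1) → ℝ => Real.log ((∑ k : Fin n,
      Real.exp (f (Real.sqrt q * c 0 + Real.sqrt (1 - q) * c k.succ))) / n)), probReal_univ,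
      one_smul]
    have e : ∫ c, Real.log ((∑ k : Fin n,
        Real.exp (f (Real.sqrt q * c 0 + Real.sqrt (1 - q) * c k.succ))) / n) ∂gam (Fin (n + 1)) =
        ∫ p : ℝ × (Fin n → ℝ), Real.log ((∑ k : Fin n,
          Real.exp (f (Real.sqrt q * p.1 + Real.sqrt (1 - q) * p.2 k))) / n)
          ∂gam1.prod (gam (Fin n)) := by
      rw [← e0.integral_comp' (g := fun p : ℝ × (Fin n → ℝ) => Real.log ((∑ k : Fin n,
          Real.exp (f (Real.sqrt q * p.1 + Real.sqrt (1 - q) * p.2 k))) / n))]
      rfl
    rw [e]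
    have hmp : Measurable fun p : ℝ × (Fin n → ℝ) => Real.log ((∑ k : Fin n,
        Real.exp (f (Real.sqrt q * p.1 + Real.sqrt (1 - q) * p.2 k))) / n) :=
      Real.measurable_log.comp ((Finset.measurable_sum _ fun k _ =>
        (hf.meas.comp (by fun_prop)).exp).div_const _)
    have hip : Integrable (fun p : ℝ × (Fin n → ℝ) => Real.log ((∑ k : Fin n,
        Real.exp (f (Real.sqrt q * p.1 + Real.sqrt (1 - q) * p.2 k))) / n))
        (gam1.prod (gam (Fin n))) := by
      refine integrable_of_abs_le (K := K) hmp fun p => ?_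
      have hh := abs_lint_le (π := unifFin n)
        (G := fun k => f (Real.sqrt q * p.1 + Real.sqrt (1 - q) * p.2 k)) (measurable_of_countable _)
        fun k => hf.bound _
      rwa [lint, integral_unifFin] at hh
    rw [integral_prod _ hip, gardnerG]
    have hiG : Integrable (fun z => Real.log (∫ ξ, Real.exp (f (Real.sqrt q * z +
        Real.sqrt (1 - q) * ξ)) ∂gam1)) gam1 := by
      refine integrable_of_abs_le (K := K) ?_ fun z => abs_lint_le (π := gam1)
        (hf.meas.comp (by fun_prop)) fun _ => hf.bound _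
      exact (Real.measurable_log.comp (measurable_sw0 hf.meas _)).comp
        (by fun_prop : Measurable fun z : ℝ => Real.sqrt q * z)
    have hpt := fun z : ℝ => (log_average_bounds (hfm (Real.sqrt q * z) (Real.sqrt (1 - q)))
      (fun _ => hfb _) hn).2
    have := integral_mono (hiG.sub (integrable_const _)) hip.integral_prod_left hpt
    simp only [Pi.sub_apply] at this
    rw [integral_sub hiG (integrable_const _)] at this
    simpa using this
  have h1 : ∫ g, lint ρ' (term f (featb (sz2 N (n + 1)) true) g) ∂gam (BI (sz2 N (n + 1))) =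
      ∫ g, lint π' (term f dir g) ∂gam (Fin N) := by
    rw [show featb (sz2 N (n + 1)) true = feat (sz2 N (n + 1))
      (fun c => if c = true then (1 : ℝ) else 0) from rfl, hval]
    simp only [Bool.false_eq_true, if_false, if_true, zero_mul, add_zero, one_mul,
      Finset.sum_const, Finset.card_univ, Fintype.card_fin, nsmul_eq_mul]
    have hn' : (n : ℝ) ≠ 0 := by positivity
    simp only [mul_div_cancel_left₀ _ hn']
    rw [integral_fun_fst (fun g : Fin N → ℝ => Real.log (∫ y, Real.exp (f (dot g (dir y))) ∂π')),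
      probReal_univ, one_smul]
    rfl
  have h3 : ∫ g, lint ρ' (term f (feat (sz2 N (n + 1)) fun b => Real.sqrt (θb b)) g)
      ∂gam (BI (sz2 N (n + 1))) ≤ mixVal f π' q θ := by
    rw [hval]
    simp only [θb, if_true, Bool.false_eq_true, if_false]
    set A := Real.sqrt θ
    set D := Real.sqrt (1 - θ)
    set F : (Fin N → ℝ) → ℝ → ℝ → ℝ := fun g z ξ =>
      ∫ y, Real.exp (f (A * dot g (dir y) + D * (Real.sqrt q * z + Real.sqrt (1 - q) * ξ))) ∂π'
    have hFu : Measurable fun r : ((Fin N → ℝ) × ℝ) × ℝ => F r.1.1 r.1.2 r.2 := by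
      refine ((hf.meas.comp ?_).exp.stronglyMeasurable.integral_prod_right' (ν := π')
        (f := fun r : (((Fin N → ℝ) × ℝ) × ℝ) × (Fin N → ℝ) =>
          Real.exp (f (A * dot r.1.1.1 (dir r.2) +
            D * (Real.sqrt q * r.1.1.2 + Real.sqrt (1 - q) * r.1.2))))).measurable
      exact (((measurable_dot_comp measurable_dir).comp
        ((measurable_fst.comp (measurable_fst.comp measurable_fst)).prodMk measurable_snd)).const_mul A).add
        ((((measurable_snd.comp (measurable_fst.comp measurable_fst)).const_mul _).add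
          ((measurable_snd.comp measurable_fst).const_mul _)).const_mul D)
    have hFb : ∀ g z ξ, Real.exp (-K) ≤ F g z ξ ∧ F g z ξ ≤ Real.exp K := fun g z ξ =>
      integral_exp_mem (π := π') (hf.meas.comp ((((measurable_dot_comp measurable_dir).comp
        (measurable_const.prodMk measurable_id)).const_mul A).add_const _)) fun _ => hf.bound _
    set G2 : (Fin N → ℝ) × (Fin (n + 1) → ℝ) → ℝ := fun p =>
      Real.log ((∑ k : Fin n, F p.1 (p.2 0) (p.2 k.succ)) / n)
    have hswap : ∀ p : (Fin N → ℝ) × (Fin (n + 1) → ℝ), Real.log (∫ y, (∑ k : Fin n,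
        Real.exp (f (A * dot p.1 (dir y) + D * (Real.sqrt q * p.2 0 + Real.sqrt (1 - q) * p.2 k.succ))))
          / n ∂π') = G2 p := fun p => by
      have hi : ∀ r : ℝ, Integrable (fun y => Real.exp (f (A * dot p.1 (dir y) + r))) π' := fun r =>
        integrable_exp_of_abs_le (hf.meas.comp ((((measurable_dot_comp measurable_dir).comp
          (f := fun y : Fin N → ℝ => (p.1, y))
          (measurable_const.prodMk measurable_id)).const_mul A).add_const r)) fun _ => hf.bound _
      simp only [G2, F, integral_div]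
      rw [integral_finsetSum _ fun k _ => hi _]
    simp only [hswap]
    have hG2m : Measurable G2 := by
      refine Real.measurable_log.comp ((Finset.measurable_sum _ fun k _ => ?_).div_const _)
      exact hFu.comp (f := fun p : (Fin N → ℝ) × (Fin (n + 1) → ℝ) => ((p.1, p.2 0), p.2 k.succ))
        ((measurable_fst.prodMk ((measurable_pi_apply 0).comp measurable_snd)).prodMk
          ((measurable_pi_apply k.succ).comp measurable_snd))
    have hG2i : Integrable G2 ((gam (Fin N)).prod (gam (Fin (n + 1)))) := by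
      refine integrable_of_abs_le (K := K) hG2m fun p => ?_
      have hh := abs_lint_le (π := unifFin n) (K := K)
        (G := fun k => Real.log (F p.1 (p.2 0) (p.2 k.succ))) (measurable_of_countable _) fun k => by
          have h0 := (Real.exp_pos _).trans_le (hFb p.1 (p.2 0) (p.2 k.succ)).1
          rw [abs_le]
          exact ⟨(Real.le_log_iff_exp_le h0).2 (hFb _ _ _).1, (Real.log_le_iff_le_exp h0).2 (hFb _ _ _).2⟩
      simp only [lint, integral_unifFin,
        fun k => Real.exp_log ((Real.exp_pos _).trans_le (hFb p.1 (p.2 0) (p.2 k)).1)] at hh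
      exact hh
    rw [integral_prod _ hG2i, mixVal]
    refine integral_mono hG2i.integral_prod_left ?_ fun g => ?_
    · refine integrable_of_abs_le (K := K) ?_ fun g => ?_
      · have hu : Measurable fun r : ((Fin N → ℝ) × ℝ) × (Fin N → ℝ) => sw0 f
            (Real.sqrt ((1 - θ) * (1 - q)))
            (Real.sqrt ((1 - θ) * q) * r.1.2 + Real.sqrt θ * dot r.1.1 (dir r.2)) :=
          (measurable_sw0 hf.meas _).comp (((measurable_snd.comp measurable_fst).const_mul _).add
            (((measurable_dot_comp measurable_dir).comp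
              ((measurable_fst.comp measurable_fst).prodMk measurable_snd)).const_mul _))
        exact ((Real.measurable_log.comp (hu.stronglyMeasurable.integral_prod_right'
          (ν := π')).measurable).stronglyMeasurable.integral_prod_right' (ν := gam1)).measurable
      · refine le_trans (le_of_eq (Real.norm_eq_abs _).symm) ((norm_integral_le_of_norm_le_const
          (C := K) (Eventually.of_forall fun z => ?_)).trans (by simp))
        have hm : Measurable fun y => sw0 f (Real.sqrt ((1 - θ) * (1 - q)))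
            (Real.sqrt ((1 - θ) * q) * z + Real.sqrt θ * dot g (dir y)) :=
          (measurable_sw0 hf.meas _).comp ((((measurable_dot_comp measurable_dir).comp
            (measurable_const.prodMk measurable_id)).const_mul _).const_add _)
        have hh := abs_lint_le (π := π') (G := fun y => Real.log (sw0 f _ _))
          (Real.measurable_log.comp hm) fun y => abs_log_sw0_le hf.meas hf.bound _ _
        simpa [lint, Real.exp_log (sw0_pos hf.meas hf.bound _ _), Real.norm_eq_abs] using hh
    have e : ∫ c, G2 (g, c) ∂gam (Fin (n + 1)) = ∫ p : ℝ × (Fin n → ℝ),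
        Real.log ((∑ k : Fin n, F g p.1 (p.2 k)) / n) ∂gam1.prod (gam (Fin n)) := by
      rw [← e0.integral_comp' (g := fun p : ℝ × (Fin n → ℝ) =>
        Real.log ((∑ k : Fin n, F g p.1 (p.2 k)) / n))]
      rfl
    have hFz : ∀ z, Measurable (F g z) := fun z =>
      hFu.comp (f := fun ξ => ((g, z), ξ)) (measurable_const.prodMk measurable_id)
    have hpm : Measurable fun p : ℝ × (Fin n → ℝ) =>
        Real.log ((∑ k : Fin n, F g p.1 (p.2 k)) / n) :=
      Real.measurable_log.comp ((Finset.measurable_sum _ fun k _ => hFu.comp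
        (f := fun p : ℝ × (Fin n → ℝ) => ((g, p.1), p.2 k))
        ((measurable_const.prodMk measurable_fst).prodMk
          ((measurable_pi_apply k).comp measurable_snd))).div_const _)
    have hpi : Integrable (fun p : ℝ × (Fin n → ℝ) =>
        Real.log ((∑ k : Fin n, F g p.1 (p.2 k)) / n)) (gam1.prod (gam (Fin n))) := by
      refine integrable_of_abs_le (K := K) hpm fun p => ?_
      have hh := abs_lint_le (π := unifFin n) (K := K)
        (G := fun k => Real.log (F g p.1 (p.2 k))) (measurable_of_countable _) fun k => by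
          have h0 := (Real.exp_pos _).trans_le (hFb g p.1 (p.2 k)).1
          rw [abs_le]
          exact ⟨(Real.le_log_iff_exp_le h0).2 (hFb _ _ _).1, (Real.log_le_iff_le_exp h0).2 (hFb _ _ _).2⟩
      simp only [lint, integral_unifFin,
        fun k => Real.exp_log ((Real.exp_pos _).trans_le (hFb g p.1 (p.2 k)).1)] at hh
      exact hh
    rw [e, integral_prod _ hpi]
    have hmean : ∀ z, ∫ ξ, F g z ξ ∂gam1 = ∫ y, sw0 f (Real.sqrt ((1 - θ) * (1 - q)))
        (Real.sqrt ((1 - θ) * q) * z + Real.sqrt θ * dot g (dir y)) ∂π' := by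
      intro z
      simp only [F]
      rw [integral_integral_swap]
      · congr 1
        ext y
        unfold sw0 sm0
        congr 1
        ext ξ
        congr 2
        simp only [A, D, Real.sqrt_mul (sub_nonneg.2 hθ1)]
        ring
      · refine integrable_exp_of_abs_le (hf.meas.comp ?_) fun _ => hf.bound _
        exact (((measurable_dot_comp measurable_dir).comp
          (measurable_const.prodMk measurable_snd)).const_mul A).add
          ((((measurable_fst).const_mul _).const_add _).const_mul D)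
    refine integral_mono hpi.integral_prod_left ?_ fun z => ?_
    · refine integrable_of_abs_le (K := K) ?_ fun z => ?_
      · simp only [← hmean]
        exact Real.measurable_log.comp ((hFu.comp (f := fun r : ℝ × ℝ => ((g, r.1), r.2))
          ((measurable_const.prodMk measurable_fst).prodMk measurable_snd)).stronglyMeasurable
          |>.integral_prod_right' (ν := gam1)).measurable
      · rw [← hmean]
        have hh := abs_lint_le (π := gam1) (K := K) (G := fun ξ => Real.log (F g z ξ))
          (Real.measurable_log.comp (hFz z)) fun ξ => by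
            have h0 := (Real.exp_pos _).trans_le (hFb g z ξ).1
            rw [abs_le]
            exact ⟨(Real.le_log_iff_exp_le h0).2 (hFb _ _ _).1,
              (Real.log_le_iff_le_exp h0).2 (hFb _ _ _).2⟩
        simpa [lint, fun ξ => Real.exp_log ((Real.exp_pos _).trans_le (hFb g z ξ).1)] using hh
    rw [← hmean z]
    exact (log_average_bounds (hFz z) (fun ξ => hFb g z ξ) hn).1
  rw [h1] at h
  have hθ' : 0 ≤ 1 - θ := by linarith
  have := mul_le_mul_of_nonneg_left h2 hθ'
  linarith

/-- Overlap of two independent configurations. -/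
def meanOverlap (π' : Measure (Fin N → ℝ)) : ℝ := ∑ i, (∫ y, dir y i ∂π') ^ 2

lemma gardnerA_eq {q : ℝ} (hq1 : q < 1) :
    gardnerA f q = (∫ z, sl1 f (Real.sqrt (1 - q)) (Real.sqrt q * z) ^ 2 ∂gam1) /
      Real.sqrt (1 - q) ^ 2 := by
  rw [Real.sq_sqrt (by linarith)]
  rfl

lemma gardnerG_eq (q : ℝ) :
    gardnerG f q = ∫ z, Real.log (sw0 f (Real.sqrt (1 - q)) (Real.sqrt q * z)) ∂gam1 := rfl

/-- The reference value expanded around the shrunken reference array. -/
lemma gardnerG_mix (hf : Usable f K) {q θ : ℝ} (hq0 : 0 ≤ q) (hq1 : q < 1) (hθ0 : 0 ≤ θ)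
    (hθ1 : θ ≤ 1) :
    gardnerG f q = ∫ z, ∫ z', Real.log (∫ ξ, sw0 f (Real.sqrt ((1 - θ) * (1 - q)))
      (Real.sqrt ((1 - θ) * q) * z + Real.sqrt θ * (Real.sqrt q * z' + Real.sqrt (1 - q) * ξ))
        ∂gam1) ∂gam1 ∂gam1 := by
  have hd : 0 ≤ 1 - θ := by linarith
  have hp : 0 ≤ 1 - q := by linarith
  have inner : ∀ x, ∫ ξ, sw0 f (Real.sqrt ((1 - θ) * (1 - q)))
      (x + Real.sqrt θ * Real.sqrt (1 - q) * ξ) ∂gam1 = sw0 f (Real.sqrt (1 - q)) x := by
    intro x
    have h := integral_combine (φ := fun r => Real.exp (f (x + r))) ((hf.meas.comp (by fun_prop)).exp)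
      (Real.sqrt θ * Real.sqrt (1 - q)) (Real.sqrt ((1 - θ) * (1 - q)))
    have es : Real.sqrt ((Real.sqrt θ * Real.sqrt (1 - q)) ^ 2 +
        Real.sqrt ((1 - θ) * (1 - q)) ^ 2) = Real.sqrt (1 - q) := by
      congr 1
      rw [mul_pow, Real.sq_sqrt hθ0, Real.sq_sqrt hp, Real.sq_sqrt (mul_nonneg hd hp)]
      ring
    rw [es, integral_prod (f := fun p : ℝ × ℝ => Real.exp (f (x + (Real.sqrt θ * Real.sqrt (1 - q) *
        p.1 + Real.sqrt ((1 - θ) * (1 - q)) * p.2)))) (integrable_exp_of_abs_le
      (G := fun p : ℝ × ℝ => f (x + (Real.sqrt θ * Real.sqrt (1 - q) * p.1 +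
        Real.sqrt ((1 - θ) * (1 - q)) * p.2))) (hf.meas.comp (by fun_prop)) fun _ => hf.bound _)] at h
    refine Eq.trans ?_ h
    unfold sw0 sm0
    congr 1; ext ξ; congr 1; ext ξ'
    simp only [add_assoc]
  set L := fun x => Real.log (sw0 f (Real.sqrt (1 - q)) x)
  have hL : Measurable L := Real.measurable_log.comp (measurable_sw0 hf.meas _)
  have h := integral_combine (φ := L) hL (Real.sqrt ((1 - θ) * q)) (Real.sqrt θ * Real.sqrt q)
  have es : Real.sqrt (Real.sqrt ((1 - θ) * q) ^ 2 + (Real.sqrt θ * Real.sqrt q) ^ 2) =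
      Real.sqrt q := by
    congr 1
    rw [mul_pow, Real.sq_sqrt hθ0, Real.sq_sqrt hq0, Real.sq_sqrt (mul_nonneg hd hq0)]
    ring
  rw [es, integral_prod (f := fun p : ℝ × ℝ => L (Real.sqrt ((1 - θ) * q) * p.1 +
      Real.sqrt θ * Real.sqrt q * p.2)) (integrable_of_abs_le
    (G := fun p : ℝ × ℝ => L (Real.sqrt ((1 - θ) * q) * p.1 + Real.sqrt θ * Real.sqrt q * p.2))
    (K := K) (hL.comp (by fun_prop)) fun _ => abs_log_sw0_le hf.meas hf.bound _ _)] at h
  rw [gardnerG_eq]
  refine h.symm.trans ?_
  congr 1; ext z; congr 1; ext z'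
  simp only [L]
  rw [← inner]
  congr 1; congr 1; ext ξ; congr 1; ring

/-- One pattern costs at most its replica-symmetric value plus a term linear in the overlap. -/
theorem pattern_bound (hf : Usable f K) (hcv : BlockConcave f) (hN : 0 < N)
    (hne : ∀ᵐ y ∂π', ∀ i, y i ≠ 0) {q : ℝ} (hq0 : 0 ≤ q) (hq1 : q < 1) :
    ∫ g, lint π' (term f dir g) ∂gam (Fin N) ≤
      gardnerG f q + gardnerA f q / 2 * (q - meanOverlap π') := by
  set R := meanOverlap π'
  set Ψ := ∫ g, lint π' (term f dir g) ∂gam (Fin N)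
  have hunit : ∀ᵐ y ∂π', ∑ i, dir y i ^ 2 = 1 := by
    filter_upwards [hne] with y hy
    simp only [dir, div_pow, ← Finset.sum_div, nrm]
    rw [Real.sq_sqrt (Finset.sum_nonneg fun i _ => sq_nonneg _), div_self]
    refine ne_of_gt (Finset.sum_pos' (fun i _ => sq_nonneg _) ⟨⟨0, hN⟩, Finset.mem_univ _, ?_⟩)
    exact lt_of_le_of_ne (sq_nonneg _) (Ne.symm (pow_ne_zero 2 (hy _)))
  -- moments of the configuration field
  set H : (Fin N → ℝ) → (Fin N → ℝ) → ℝ := fun g y => dot g (dir y)
  have hH : Measurable (Function.uncurry H) := measurable_dot_comp measurable_dir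
  have hlaw : ∀ᵐ y ∂π', ∀ (φ : ℝ → ℝ), Measurable φ → Integrable φ gam1 →
      Integrable (fun g => φ (H g y)) (gam (Fin N)) ∧ ∫ g, φ (H g y) ∂gam (Fin N) = ∫ x, φ x ∂gam1 := by
    filter_upwards [hunit] with y hy φ hφ hi
    have hm : Measurable fun g : Fin N → ℝ => H g y := hH.of_uncurry_right
    constructor
    · rw [← map_dot_unit hy] at hi
      exact (integrable_map_measure hφ.aestronglyMeasurable hm.aemeasurable).1 hi
    · rw [← map_dot_unit hy, integral_map hm.aemeasurable hφ.aestronglyMeasurable]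
  have h9 : Integrable (fun p : (Fin N → ℝ) × (Fin N → ℝ) => (1 + |H p.1 p.2|) ^ 9)
      ((gam (Fin N)).prod π') := by
    have hm : Measurable fun p : (Fin N → ℝ) × (Fin N → ℝ) => (1 + |H p.1 p.2|) ^ 9 :=
      (hH.abs.const_add 1).pow_const 9
    rw [integrable_prod_iff' hm.aestronglyMeasurable]
    refine ⟨?_, ?_⟩
    · filter_upwards [hlaw] with y hy
      exact (hy (fun x => (1 + |x|) ^ 9) (by fun_prop) integrable_pow9).1
    · refine (integrable_const mom9).congr ?_
      filter_upwards [hlaw] with y hy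
      rw [mom9, ← (hy (fun x => (1 + |x|) ^ 9) (by fun_prop) integrable_pow9).2]
      exact integral_congr_ae (Eventually.of_forall fun g => by
        dsimp only
        rw [Real.norm_eq_abs, abs_of_nonneg (show 0 ≤ (1 + |H g y|) ^ 9 by positivity)])
  have hm9 : ∫ g, ∫ y, (1 + |H g y|) ^ 9 ∂π' ∂gam (Fin N) = mom9 := by
    rw [integral_integral_swap h9]
    calc ∫ y, ∫ g, (1 + |H g y|) ^ 9 ∂gam (Fin N) ∂π' = ∫ _y, mom9 ∂π' := by
          refine integral_congr_ae ?_
          filter_upwards [hlaw] with y hy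
          exact (hy (fun x => (1 + |x|) ^ 9) (by fun_prop) integrable_pow9).2
      _ = mom9 := by simp
  have hlin : ∀ g : Fin N → ℝ, ∫ y, H g y ∂π' = dot g fun i => ∫ y, dir y i ∂π' := fun g => by
    simp only [H, dot]
    have hi : ∀ i, Integrable (fun y : Fin N → ℝ => dir y i) π' := fun i =>
      integrable_of_abs_le (K := 1) (G := fun y : Fin N → ℝ => dir y i)
        ((measurable_pi_apply i).comp measurable_dir) fun y =>
          abs_le_one_iff_mul_self_le_one.2 (by
            rw [← sq]
            exact (Finset.single_le_sum (f := fun j => dir y j ^ 2) (fun j _ => sq_nonneg _)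
              (Finset.mem_univ i)).trans (sum_dir_sq_le y))
    rw [integral_finsetSum _ fun i _ => (hi i).const_mul _]
    simp only [integral_const_mul]
  have hmean : ∫ g, ∫ y, H g y ∂π' ∂gam (Fin N) = 0 := by simp only [hlin, integral_dot]
  have hover : ∫ g, (∫ y, H g y ∂π') ^ 2 ∂gam (Fin N) = R := by
    simp only [hlin, integral_dot_sq]; rfl
  have hsq : ∫ g, ∫ y, H g y ^ 2 ∂π' ∂gam (Fin N) = 1 := by
    have hi2 : Integrable (fun p : (Fin N → ℝ) × (Fin N → ℝ) => H p.1 p.2 ^ 2)
        ((gam (Fin N)).prod π') := by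
      refine h9.mono' (hH.pow_const 2).aestronglyMeasurable (Eventually.of_forall fun p => ?_)
      rw [Real.norm_eq_abs, abs_pow]
      exact (pow_le_pow_left₀ (abs_nonneg _) (le_add_of_nonneg_left zero_le_one) 2).trans
        (pow_le_pow_right₀ (le_add_of_nonneg_right (abs_nonneg _)) (by norm_num))
    rw [integral_integral_swap hi2]
    calc ∫ y, ∫ g, H g y ^ 2 ∂gam (Fin N) ∂π' = ∫ _y, (1 : ℝ) ∂π' := by
          refine integral_congr_ae ?_
          filter_upwards [hunit] with y hy
          exact (integral_dot_sq (dir y)).trans hy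
      _ = 1 := by simp
  -- moments of the reference field
  set H' : ℝ → ℝ → ℝ := fun z ξ => Real.sqrt q * z + Real.sqrt (1 - q) * ξ
  have hone : Real.sqrt (Real.sqrt q ^ 2 + Real.sqrt (1 - q) ^ 2) = 1 := by
    rw [Real.sq_sqrt hq0, Real.sq_sqrt (by linarith), add_sub_cancel, Real.sqrt_one]
  have hcomb : ∀ φ : ℝ → ℝ, Measurable φ → Integrable φ gam1 →
      Integrable (fun p : ℝ × ℝ => φ (H' p.1 p.2)) (gam1.prod gam1) ∧
        ∫ p : ℝ × ℝ, φ (H' p.1 p.2) ∂gam1.prod gam1 = ∫ x, φ x ∂gam1 := fun φ hφ hi => by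
    have he : (gam1.prod gam1).map (fun p : ℝ × ℝ => H' p.1 p.2) = gam1 := by
      simp only [H', map_combine, hone, one_mul]
      exact Measure.map_id
    refine ⟨?_, ?_⟩
    · rw [← he] at hi
      exact (integrable_map_measure hφ.aestronglyMeasurable (by fun_prop)).1 hi
    · have := integral_combine hφ (Real.sqrt q) (Real.sqrt (1 - q))
      simpa [hone] using this
  have h9' := (hcomb (fun x => (1 + |x|) ^ 9) (by fun_prop) integrable_pow9).1
  have hm9' : ∫ z, ∫ ξ, (1 + |H' z ξ|) ^ 9 ∂gam1 ∂gam1 = mom9 := by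
    rw [← integral_prod (f := fun p : ℝ × ℝ => (1 + |H' p.1 p.2|) ^ 9) h9']
    exact (hcomb (fun x => (1 + |x|) ^ 9) (by fun_prop) integrable_pow9).2
  have hid : Integrable (fun x : ℝ => x) gam1 := IsGaussian.memLp_two_id.integrable one_le_two
  have hz : ∫ z, z ∂gam1 = 0 := integral_id_gaussianReal
  have hlin' : ∀ z, ∫ ξ, H' z ξ ∂gam1 = Real.sqrt q * z := fun z => by
    simp only [H']
    rw [integral_add (integrable_const _) (hid.const_mul _),
      integral_const_mul (μ := gam1) (Real.sqrt (1 - q)) (fun x : ℝ => x), hz, mul_zero, add_zero]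
    simp
  have hmean' : ∫ z, ∫ ξ, H' z ξ ∂gam1 ∂gam1 = 0 := by
    simp only [hlin']; rw [integral_const_mul, hz, mul_zero]
  have hsq' : ∫ z, ∫ ξ, H' z ξ ^ 2 ∂gam1 ∂gam1 = 1 := by
    have h := hcomb (fun x => x ^ 2) (by fun_prop) IsGaussian.memLp_two_id.integrable_sq
    rw [← integral_prod (f := fun p : ℝ × ℝ => H' p.1 p.2 ^ 2) h.1, h.2, integral_sq_gam1]
  have hover' : ∫ z, (∫ ξ, H' z ξ ∂gam1) ^ 2 ∂gam1 = q := by
    simp [hlin', mul_pow, integral_const_mul, integral_sq_gam1, Real.sq_sqrt hq0]
  -- the expansions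
  set C := 2 * expC K * mom9
  set Aθ : ℝ → ℝ := fun θ => (∫ z, sl1 f (Real.sqrt ((1 - θ) * (1 - q)))
    (Real.sqrt ((1 - θ) * q) * z) ^ 2 ∂gam1) / Real.sqrt ((1 - θ) * (1 - q)) ^ 2
  have hstep : ∀ θ, 0 < θ → θ < 1 → Ψ ≤ gardnerG f q + Aθ θ / 2 * (q - R) +
      C * (Real.sqrt θ / Real.sqrt ((1 - θ) * (1 - q)) ^ 3) := by
    intro θ hθ0 hθ1
    have hmix := mix_bound hf hcv hN hne hq0 hq1 hθ0.le hθ1.le
    have hG := gardnerG_mix hf hq0 hq1 hθ0.le hθ1.le
    set s := Real.sqrt ((1 - θ) * (1 - q)) with hs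
    have hs0 : 0 < s := Real.sqrt_pos.2 (mul_pos (by linarith) (by linarith))
    set x : ℝ → ℝ := fun z => Real.sqrt ((1 - θ) * q) * z
    set t := Real.sqrt θ
    have he1 := fun z => expect_log_expansion (P := gam (Fin N)) (π' := π') hf.meas hf.bound hH h9
      hmean hsq hs0.ne' (x z) t
    have he2 := fun z => expect_log_expansion (P := gam1) (π' := gam1) hf.meas hf.bound
      (H := H') (by fun_prop) h9' hmean' hsq' hs0.ne' (x z) t
    simp only [hover, hm9] at he1
    simp only [hover', hm9'] at he2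
    set F1 : (Fin N → ℝ) → ℝ → ℝ := fun g z => Real.log (∫ y, sw0 f s (x z + t * H g y) ∂π')
    set F2 : ℝ → ℝ → ℝ := fun z z' => Real.log (∫ ξ, sw0 f s (x z + t * H' z' ξ) ∂gam1)
    have hF1m : Measurable fun r : (Fin N → ℝ) × ℝ => F1 r.1 r.2 := by
      have hu : Measurable fun r : ((Fin N → ℝ) × ℝ) × (Fin N → ℝ) =>
          sw0 f s (x r.1.2 + t * H r.1.1 r.2) :=
        (measurable_sw0 hf.meas s).comp (((measurable_snd.comp measurable_fst).const_mul _).add
          ((hH.comp ((measurable_fst.comp measurable_fst).prodMk measurable_snd)).const_mul _))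
      exact Real.measurable_log.comp (hu.stronglyMeasurable.integral_prod_right' (ν := π')).measurable
    have hF2m : Measurable fun r : ℝ × ℝ => F2 r.1 r.2 := by
      have hu : Measurable fun r : (ℝ × ℝ) × ℝ => sw0 f s (x r.1.1 + t * H' r.1.2 r.2) :=
        (measurable_sw0 hf.meas s).comp (by fun_prop)
      exact Real.measurable_log.comp (hu.stronglyMeasurable.integral_prod_right' (ν := gam1)).measurable
    have hlogb : ∀ {Z : Type} [MeasurableSpace Z] (ν : Measure Z) [IsProbabilityMeasure ν]
        (u : Z → ℝ), Measurable u → |Real.log (∫ y, sw0 f s (u y) ∂ν)| ≤ K := by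
      intro Z _ ν _ u hu
      have hh := abs_lint_le (π := ν) (G := fun y => Real.log (sw0 f s (u y)))
        (Real.measurable_log.comp ((measurable_sw0 hf.meas s).comp hu))
        fun y => abs_log_sw0_le hf.meas hf.bound _ _
      simpa [lint, Real.exp_log (sw0_pos hf.meas hf.bound _ _)] using hh
    have hi1 : Integrable (fun r : (Fin N → ℝ) × ℝ => F1 r.1 r.2) ((gam (Fin N)).prod gam1) :=
      integrable_of_abs_le hF1m fun r => hlogb π' _
        ((((measurable_dot_comp measurable_dir).comp
          (measurable_const.prodMk measurable_id)).const_mul t).const_add _)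
    have hi2 : Integrable (fun r : ℝ × ℝ => F2 r.1 r.2) (gam1.prod gam1) :=
      integrable_of_abs_le hF2m fun r => hlogb gam1 _ (by fun_prop)
    have hMix : mixVal f π' q θ = ∫ z, ∫ g, F1 g z ∂gam (Fin N) ∂gam1 := by
      rw [mixVal, ← integral_integral_swap (f := fun g z => F1 g z) hi1]
    have hd : mixVal f π' q θ - gardnerG f q ≤
        (t / s) ^ 2 / 2 * ((q - R) * ∫ z, sl1 f s (x z) ^ 2 ∂gam1) + C * |t / s| ^ 3 := by
      have hG' : gardnerG f q = ∫ z, ∫ z', F2 z z' ∂gam1 ∂gam1 := hG
      rw [hMix, hG', ← integral_sub hi1.integral_prod_right hi2.integral_prod_left]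
      have hsl : Integrable (fun z => sl1 f s (x z) ^ 2) gam1 := by
        refine integrable_of_abs_le (K := (Real.exp (2 * K) * shiftC) ^ 2)
          (((measurable_sl1_uncurry hf.meas).comp (f := fun z => (s, x z))
            (measurable_const.prodMk (by fun_prop))).pow_const 2) fun z => ?_
        rw [abs_pow]
        exact pow_le_pow_left₀ (abs_nonneg _) (abs_sl1_le hf.meas hf.bound _ _) 2
      calc ∫ z, (∫ g, F1 g z ∂gam (Fin N)) - ∫ z', F2 z z' ∂gam1 ∂gam1
          ≤ ∫ z, ((t / s) ^ 2 / 2 * ((q - R) * sl1 f s (x z) ^ 2) + C * |t / s| ^ 3) ∂gam1 := by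
            refine integral_mono (hi1.integral_prod_right.sub hi2.integral_prod_left)
              (((hsl.const_mul _).const_mul _).add (integrable_const _)) fun z => ?_
            have a1 := abs_le.1 (he1 z)
            have a2 := abs_le.1 (he2 z)
            simp only [C]
            linarith
        _ = _ := by
            rw [integral_add ((hsl.const_mul _).const_mul _) (integrable_const _),
              integral_const_mul, integral_const_mul]
            simp
    have hts : (t / s) ^ 2 = θ / s ^ 2 := by rw [div_pow, Real.sq_sqrt hθ0.le]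
    have hts3 : |t / s| ^ 3 = θ * (t / s ^ 3) := by
      rw [abs_of_nonneg (div_nonneg (Real.sqrt_nonneg _) hs0.le), div_pow, ← mul_div_assoc]
      congr 1
      rw [pow_succ, Real.sq_sqrt hθ0.le]
    rw [hts, hts3] at hd
    refine le_of_mul_le_mul_left ?_ hθ0
    have e : θ * (gardnerG f q + Aθ θ / 2 * (q - R) + C * (t / s ^ 3)) = θ * gardnerG f q +
        θ / s ^ 2 / 2 * ((q - R) * ∫ z, sl1 f s (x z) ^ 2 ∂gam1) + C * (θ * (t / s ^ 3)) := by
      simp only [Aθ, ← hs]
      ring
    rw [e]
    linarith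
  have hcont : ContinuousAt (fun θ => gardnerG f q + Aθ θ / 2 * (q - R) +
      C * (Real.sqrt θ / Real.sqrt ((1 - θ) * (1 - q)) ^ 3)) 0 := by
    have hs0 : Real.sqrt ((1 - (0 : ℝ)) * (1 - q)) ≠ 0 := by
      rw [sub_zero, one_mul]; exact (Real.sqrt_pos.2 (by linarith)).ne'
    have hfc := hf.continuous
    have hK : 0 ≤ K := hf.nonneg
    have hnum : Continuous fun θ : ℝ => ∫ z, sl1 f (Real.sqrt ((1 - θ) * (1 - q)))
        (Real.sqrt ((1 - θ) * q) * z) ^ 2 ∂gam1 := by
      refine continuous_of_dominated (bound := fun _ => (Real.exp (2 * K) * shiftC) ^ 2)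
        (fun θ => ((((measurable_sl1_uncurry hf.meas).comp (f := fun z : ℝ =>
          (Real.sqrt ((1 - θ) * (1 - q)), Real.sqrt ((1 - θ) * q) * z))
          (by fun_prop))).pow_const 2).aestronglyMeasurable)
        (fun θ => Eventually.of_forall fun z => ?_) (integrable_const _)
        (Eventually.of_forall fun z => ?_)
      · rw [Real.norm_eq_abs, abs_pow]
        exact pow_le_pow_left₀ (abs_nonneg _) (abs_sl1_le hf.meas hf.bound _ _) 2
      · refine (Continuous.div ?_ ?_ fun θ => (sw0_pos hf.meas hf.bound _ _).ne').pow 2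
        · refine continuous_of_dominated (bound := fun ξ => Real.exp K * env ξ)
            (fun θ => (measurable_id.mul (hf.meas.comp (by fun_prop)).exp).aestronglyMeasurable)
            (fun θ => Eventually.of_forall fun ξ => ?_) (integrable_env.const_mul _)
            (Eventually.of_forall fun ξ => continuous_const.mul
              (Real.continuous_exp.comp (hfc.comp (by fun_prop))))
          rw [Real.norm_eq_abs, abs_mul, mul_comm (Real.exp K)]
          exact mul_le_mul ((le_add_of_nonneg_right zero_le_one).trans (abs_id_le_env ξ))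
            (abs_exp_f_le hf.bound _) (abs_nonneg _) (env_nonneg ξ)
        · refine continuous_of_dominated (bound := fun _ => Real.exp K)
            (fun θ => (hf.meas.comp (by fun_prop)).exp.aestronglyMeasurable)
            (fun θ => Eventually.of_forall fun ξ => abs_exp_f_le hf.bound _) (integrable_const _)
            (Eventually.of_forall fun ξ => Real.continuous_exp.comp (hfc.comp (by fun_prop)))
    simp only [Aθ]
    fun_prop (disch := positivity)
  have hlim := hcont.tendsto.mono_left (nhdsWithin_le_nhds (s := Set.Ioi (0 : ℝ)))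
  refine ge_of_tendsto (hlim.trans ?_) ?_
  · refine le_of_eq (congrArg _ ?_)
    simp [Aθ, gardnerA_eq hq1, R]
  · filter_upwards [Ioo_mem_nhdsGT (zero_lt_one (α := ℝ))] with θ hθ using hstep θ hθ.1 hθ.2

end Vale.Agent.P157
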