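import Mathlib
import Vale.Agent.P157.Blocks
import Vale.Agent.P157.Laws

/-!
Convergence of the pressure from the block inequality.
-/

noncomputable section

open MeasureTheory ProbabilityTheory Filter
open scoped Topology

namespace Vale.Agent.P157

lemma tendsto_of_almost_superadditive {p B : ℕ → ℝ} {A : ℝ} (hA : ∀ n, |p n| ≤ A)
    (h : ∀ δ : ℝ, 0 < δ → ∀ᶠ n : ℕ in atTop, ∀ N : ℕ, n ≤ N → p n - δ - B n / N ≤ p N) :
    ∃ L, Tendsto p atTop (𝓝 L) := by
  refine cauchySeq_tendsto_of_complete (Metric.cauchySeq_iff.2 fun δ hδ => ?_)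
  obtain ⟨n₀, hn₀⟩ := eventually_atTop.1 (h (δ / 8) (by linarith))
  let s : Set ℝ := p '' {n | n₀ ≤ n}
  have hne : s.Nonempty := ⟨_, n₀, le_refl n₀, rfl⟩
  have hbdd : BddAbove s := ⟨A, by rintro _ ⟨n, -, rfl⟩; exact (abs_le.1 (hA n)).2⟩
  obtain ⟨_, ⟨n, hn, rfl⟩, hn'⟩ := exists_lt_of_lt_csSup hne
    (show sSup s - δ / 8 < sSup s by linarith)
  obtain ⟨N₀, hN₀⟩ := eventually_atTop.1
    (((tendsto_const_div_atTop_nhds_zero_nat (B n)).eventually
      (gt_mem_nhds (show (0 : ℝ) < δ / 8 by linarith))).and (eventually_ge_atTop n))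
  have key : ∀ N, max N₀ n₀ ≤ N → sSup s - δ / 2 < p N ∧ p N ≤ sSup s := fun N hN => by
    obtain ⟨h1, h2⟩ := hN₀ N ((le_max_left _ _).trans hN)
    have := hn₀ n hn N h2
    exact ⟨by linarith, le_csSup hbdd ⟨N, (le_max_right _ _).trans hN, rfl⟩⟩
  refine ⟨max N₀ n₀, fun M hM N hN => ?_⟩
  obtain ⟨a1, a2⟩ := key M hM
  obtain ⟨b1, b2⟩ := key N hN
  rw [Real.dist_eq, abs_lt]
  constructor <;> linarith

variable {ρ : Measure ℝ} {C : ℝ} {f : ℝ → ℝ} {K α : ℝ}

lemma card_blocks {k : ℕ} (sz : Fin k → ℕ) : Fintype.card ((b : Fin k) × Fin (sz b)) = ∑ b, sz b := by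
  simp

/-- The error at block size `n`. -/
def err (K C α ε L : ℝ) (n : ℕ) : ℝ :=
  2 * K * (Real.sqrt (α * n) + 1) / n +
    α * (Real.exp (2 * K) * (ε + L * Real.sqrt (8 * C / Real.sqrt n)))

lemma eventually_err_le {ε L δ : ℝ} (hδ : α * (Real.exp (2 * K) * ε) < δ) :
    ∀ᶠ n : ℕ in atTop, err K C α ε L n ≤ δ := by
  have hsn : Tendsto (fun n : ℕ => Real.sqrt n) atTop atTop :=
    Real.tendsto_sqrt_atTop.comp tendsto_natCast_atTop_atTop
  have h1 : Tendsto (fun n : ℕ => 2 * K * (Real.sqrt (α * n) + 1) / n) atTop (𝓝 0) := by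
    have hs : Tendsto (fun n : ℕ => (Real.sqrt n)⁻¹) atTop (𝓝 0) :=
      tendsto_inv_atTop_zero.comp hsn
    have := ((hs.const_mul (Real.sqrt α)).add
      (tendsto_inv_atTop_nhds_zero_nat (𝕜 := ℝ))).const_mul (2 * K)
    simp only [mul_zero, add_zero] at this
    refine this.congr fun n => ?_
    rcases Nat.eq_zero_or_pos n with rfl | hn
    · simp
    have hn' : (0 : ℝ) < n := by exact_mod_cast hn
    rw [Real.sqrt_mul' _ hn'.le]
    have hq := Real.mul_self_sqrt hn'.le
    field_simp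
    linear_combination (-K * Real.sqrt α) * hq
  have h2 : Tendsto (fun n : ℕ => Real.sqrt (8 * C / Real.sqrt n)) atTop (𝓝 0) := by
    have := (hsn.const_div_atTop (8 * C)).sqrt
    rwa [Real.sqrt_zero] at this
  have h3 := h1.add (((((h2.const_mul L)).const_add ε).const_mul (Real.exp (2 * K))).const_mul α)
  simp only [mul_zero, add_zero, zero_add] at h3
  exact h3.eventually (ge_mem_nhds hδ)

theorem exists_limit (hρ : Admissible ρ C) (hC : 0 ≤ C) (hf : Usable f K) (hcv : BlockConcave f)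
    (hα : 0 < α) :
    ∃ L, Tendsto (fun N : ℕ => logPart ρ f (Fin N) ⌊α * N⌋₊ / N) atTop (𝓝 L) := by
  have := hρ.prob
  have hK0 : 0 ≤ K := hf.nonneg
  set a : ℕ → ℝ := fun N => logPart ρ f (Fin N) ⌊α * N⌋₊ with ha
  have habs : ∀ N, |a N| ≤ α * N * K := by
    intro N
    refine (abs_Phi_le (nice_term hf.meas hf.bound measurable_dir) _).trans ?_
    gcongr
    exact Nat.floor_le (by positivity)
  have hA : ∀ N : ℕ, |a N / N| ≤ α * K := by
    intro N
    rcases Nat.eq_zero_or_pos N with rfl | hN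
    · simp; positivity
    rw [abs_div, Nat.abs_cast, div_le_iff₀ (by exact_mod_cast hN)]
    linarith [habs N]
  suffices hblock : ∀ δ : ℝ, 0 < δ → ∀ᶠ n : ℕ in atTop, ∀ N : ℕ, n ≤ N →
      a n / n - δ - 2 * α * K * n / N ≤ a N / N by
    exact tendsto_of_almost_superadditive (p := fun N => a N / N)
      (B := fun n => 2 * α * K * n) hA hblock
  intro δ hδ
  have hd0 : 0 < δ / (2 * α * Real.exp (2 * K)) := by positivity
  obtain ⟨L, hL, hmod⟩ := hf.modulus _ hd0
  set ε := δ / (2 * α * Real.exp (2 * K)) with hε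
  have hεδ : α * (Real.exp (2 * K) * ε) < δ := by
    rw [hε]; field_simp; linarith
  filter_upwards [eventually_err_le (C := C) (L := L) hεδ, eventually_ge_atTop 1] with n herr0 hn
  intro N hnN
  refine le_trans (sub_le_sub_right (sub_le_sub_left herr0 _) _) ?_
  set k := N / n with hk
  set r := N % n with hr
  have hkr : n * k + r = N := Nat.div_add_mod N n
  have hk1 : 1 ≤ k := Nat.div_pos hnN hn
  set sz : Fin (k + 1) → ℕ := Fin.cases r (fun _ => n) with hsz
  have hsum : ∑ b, sz b = N := by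
    rw [Fin.sum_univ_succ]; simp [hsz]; linarith
  have hszle : ∀ b, sz b ≤ n := by
    intro b
    cases b using Fin.cases with
    | zero => simpa [hsz] using (Nat.mod_lt N (by omega)).le
    | succ i => simp [hsz]
  have hN0 : (0 : ℝ) < N := by exact_mod_cast (lt_of_lt_of_le hn hnN)
  have hn0 : (0 : ℝ) < n := by exact_mod_cast hn
  have hsumR : ∑ b, (sz b : ℝ) = N := by exact_mod_cast hsum
  have hpos : 0 < ∑ b, sz b := by omega
  set M := ⌊α * N⌋₊ with hM
  have hMle : (M : ℝ) ≤ α * N := Nat.floor_le (by positivity)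
  have hMge : α * N - 1 ≤ (M : ℝ) := by linarith [Nat.lt_floor_add_one (α * (N : ℝ))]
  have s1 := radial_step (sz := sz) hρ hf hpos M hL hmod
  have s2 := block_step (sz := sz) hρ hf hcv hpos (fun b => ⌊α * (sz b : ℝ)⌋₊) M
  have s3 : logPart ρ f (BI sz) M = a N :=
    logPart_congr hf.meas hf.bound
      (Fintype.equivFinOfCardEq (by rw [card_blocks, hsum])) M
  rw [s3] at s1
  rw [hsumR] at s1 s2
  -- first error: the fluctuations of the numbers of patterns
  have e1 : ∀ b, Real.sqrt (M * ((sz b : ℝ) / N)) +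
      |(M : ℝ) * ((sz b : ℝ) / N) - ⌊α * (sz b : ℝ)⌋₊| ≤ Real.sqrt (α * n) + 1 := by
    intro b
    have hb : (sz b : ℝ) ≤ n := by exact_mod_cast hszle b
    have h0 : (0 : ℝ) ≤ (sz b : ℝ) / N := by positivity
    have h1 : (sz b : ℝ) / N ≤ 1 := by
      rw [div_le_one hN0]; exact hb.trans (by exact_mod_cast hnN)
    have u1 : (M : ℝ) * ((sz b : ℝ) / N) ≤ α * sz b := by
      calc (M : ℝ) * ((sz b : ℝ) / N) ≤ α * N * ((sz b : ℝ) / N) :=
            mul_le_mul_of_nonneg_right hMle h0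
        _ = α * sz b := by field_simp
    have u2 : α * sz b - 1 ≤ (M : ℝ) * ((sz b : ℝ) / N) := by
      calc α * (sz b : ℝ) - 1 ≤ α * sz b - (sz b : ℝ) / N := by linarith
        _ = (α * N - 1) * ((sz b : ℝ) / N) := by field_simp
        _ ≤ _ := mul_le_mul_of_nonneg_right hMge h0
    have u3 := Nat.floor_le (show 0 ≤ α * (sz b : ℝ) by positivity)
    have u4 := Nat.lt_floor_add_one (α * (sz b : ℝ))
    refine add_le_add (Real.sqrt_le_sqrt (u1.trans (mul_le_mul_of_nonneg_left hb hα.le))) ?_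
    rw [abs_le]; constructor <;> linarith
  -- second error: the radial correction
  have e2 : Real.sqrt (4 * (∑ b, C * Real.sqrt (sz b)) / N) ≤ Real.sqrt (8 * C / Real.sqrt n) := by
    have h1 : (∑ b, C * Real.sqrt (sz b)) ≤ 2 * k * (C * Real.sqrt n) := by
      calc ∑ b, C * Real.sqrt (sz b) ≤ ∑ _b : Fin (k + 1), C * Real.sqrt n :=
            Finset.sum_le_sum fun b _ => by gcongr; exact_mod_cast hszle b
        _ = ((k : ℝ) + 1) * (C * Real.sqrt n) := by simp
        _ ≤ _ := by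
            have : (1 : ℝ) ≤ k := by exact_mod_cast hk1
            exact mul_le_mul_of_nonneg_right (by linarith) (by positivity)
    have h2 : (n : ℝ) * k ≤ N := by exact_mod_cast (show n * k ≤ N by omega)
    have hsn : 0 < Real.sqrt n := Real.sqrt_pos.2 hn0
    have h3 : 4 * (∑ b, C * Real.sqrt (sz b)) / N ≤ 8 * C / Real.sqrt n := by
      rw [div_le_div_iff₀ hN0 hsn]
      have := mul_le_mul_of_nonneg_right h1 hsn.le
      have := mul_le_mul_of_nonneg_left h2 hC
      have e : 2 * (k : ℝ) * (C * Real.sqrt n) * Real.sqrt n = 2 * (C * ((n : ℝ) * k)) := by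
        linear_combination (2 * (k : ℝ) * C) * Real.mul_self_sqrt hn0.le
      linarith
    exact Real.sqrt_le_sqrt h3
  set E := Real.exp (2 * K) * (ε + L * Real.sqrt (8 * C / Real.sqrt n)) with hE
  have hE0 : 0 ≤ E := mul_nonneg (Real.exp_pos _).le
    (add_nonneg hd0.le (mul_nonneg hL (Real.sqrt_nonneg _)))
  have s1' : (M : ℝ) * (Real.exp (2 * K) *
      (ε + L * Real.sqrt (4 * (∑ b, C * Real.sqrt (sz b)) / N))) ≤ α * N * E := by
    refine (mul_le_mul_of_nonneg_left ?_ (Nat.cast_nonneg M)).trans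
      (mul_le_mul_of_nonneg_right hMle hE0)
    rw [hE]
    gcongr
  have s2' : ∑ b, (a (sz b) - K * (Real.sqrt (α * n) + 1)) ≤
      ∑ b, (logPart ρ f (Fin (sz b)) ⌊α * (sz b : ℝ)⌋₊ - K *
        (Real.sqrt (M * ((sz b : ℝ) / N)) + |(M : ℝ) * ((sz b : ℝ) / N) - ⌊α * (sz b : ℝ)⌋₊|)) :=
    Finset.sum_le_sum fun b _ => sub_le_sub_left (mul_le_mul_of_nonneg_left (e1 b) hK0) _
  have s4 : ∑ b, (a (sz b) - K * (Real.sqrt (α * n) + 1)) =
      a r + k * a n - (k + 1) * (K * (Real.sqrt (α * n) + 1)) := by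
    rw [Finset.sum_sub_distrib, Fin.sum_univ_succ]
    simp [hsz]
  have main : a r + k * a n - (k + 1) * (K * (Real.sqrt (α * n) + 1)) - α * N * E ≤ a N := by
    linarith
  have har : -(α * n * K) ≤ a r := by
    have h1 := (abs_le.1 (habs r)).1
    have : α * r * K ≤ α * n * K := by
      gcongr; exact_mod_cast (Nat.mod_lt N (by omega)).le
    linarith
  have hrn : (r : ℝ) ≤ n := by exact_mod_cast (Nat.mod_lt N (by omega)).le
  have hkn : (n : ℝ) * k + r = N := by exact_mod_cast hkr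
  have han : (N : ℝ) * (a n / n) - α * n * K ≤ k * a n := by
    have h1 : (k : ℝ) * a n = (N - r) * (a n / n) := by
      rw [← hkn]; field_simp; ring
    have h2 := mul_le_mul_of_nonneg_left (abs_le.1 (hA n)).2 (Nat.cast_nonneg (α := ℝ) r)
    have h3 := mul_le_mul_of_nonneg_right hrn (show 0 ≤ α * K by positivity)
    linarith
  have hk2 : ((k : ℝ) + 1) ≤ 2 * N / n := by
    rw [le_div_iff₀ hn0]
    have : (1 : ℝ) ≤ k := by exact_mod_cast hk1
    nlinarith [Nat.cast_nonneg (α := ℝ) r]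
  have hbig := mul_le_mul_of_nonneg_right hk2
    (show 0 ≤ K * (Real.sqrt (α * n) + 1) by positivity)
  rw [le_div_iff₀ hN0]
  have hid : (a n / n - err K C α ε L n - 2 * α * K * n / N) * N =
      N * (a n / n) - 2 * N / n * (K * (Real.sqrt (α * n) + 1)) - α * N * E - 2 * α * K * n := by
    have herr : err K C α ε L n = 2 * K * (Real.sqrt (α * n) + 1) / n + α * E := rfl
    rw [herr]
    generalize Real.sqrt (α * n) = S
    field_simp
    ring
  rw [hid]
  linarith

theorem exists_pressure_limit (hf : Usable f K) (hcv : BlockConcave f) (hα : 0 < α) :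
    (∃ L, Tendsto (meanPressure isingLaw α f) atTop (𝓝 L)) ∧
      ∃ L, Tendsto (meanPressure sphereLaw α f) atTop (𝓝 L) := by
  constructor
  · obtain ⟨L, hL⟩ := exists_limit admissible_rad le_rfl hf hcv hα
    refine ⟨L, hL.congr' ?_⟩
    filter_upwards [eventually_gt_atTop 0] with N hN
    exact (meanPressure_eq hf.meas hN α (isingLaw_eq hN)).symm
  · obtain ⟨L, hL⟩ := exists_limit admissible_gaussian gaussC_nonneg hf hcv hα
    refine ⟨L, hL.congr' ?_⟩
    filter_upwards [eventually_gt_atTop 0] with N hN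
    exact (meanPressure_eq hf.meas hN α (sphereLaw_eq hN)).symm

end Vale.Agent.P157
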