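import Mathlib
import Vale.Agent.P157.RSPattern

/-!
Interpolation between thinned patterns and small linear fields.
-/

noncomputable section

open MeasureTheory ProbabilityTheory Filter
open scoped Topology ENNReal

namespace Vale.Agent.P157

/-- Bernoulli law on `Bool`. -/
def bern (δ : ℝ) : Measure Bool :=
  ENNReal.ofReal δ • Measure.dirac true + ENNReal.ofReal (1 - δ) • Measure.dirac false

lemma isProbabilityMeasure_bern {δ : ℝ} (h0 : 0 ≤ δ) (h1 : δ ≤ 1) :
    IsProbabilityMeasure (bern δ) := by
  constructor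
  simp [bern, ← ENNReal.ofReal_add h0 (sub_nonneg.2 h1)]

lemma integral_bern {δ : ℝ} (h0 : 0 ≤ δ) (h1 : δ ≤ 1) (φ : Bool → ℝ) :
    ∫ b, φ b ∂bern δ = δ * φ true + (1 - δ) * φ false := by
  rw [bern, integral_add_measure (Integrable.of_finite.smul_measure ENNReal.ofReal_ne_top)
    (Integrable.of_finite.smul_measure ENNReal.ofReal_ne_top), integral_smul_measure,
    integral_smul_measure, integral_dirac, integral_dirac, ENNReal.toReal_ofReal h0,
    ENNReal.toReal_ofReal (sub_nonneg.2 h1)]
  rfl

lemma lint_const_add {Y : Type*} [MeasurableSpace Y] {π : Measure Y} [IsProbabilityMeasure π]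
    {G : Y → ℝ} {K : ℝ} (hm : Measurable G) (hb : ∀ y, |G y| ≤ K) (c : ℝ) :
    lint π (fun y => c + G y) = c + lint π G := by
  simp only [lint, Real.exp_add]
  rw [integral_const_mul, Real.log_mul (Real.exp_pos c).ne'
    ((Real.exp_pos _).trans_le (integral_exp_mem hm hb).1).ne', Real.log_exp]

variable {N : ℕ}

/-- A linear field on directions. -/
def field (W : Fin N → ℝ) (y : Fin N → ℝ) : ℝ := ∑ i, W i * dir y i

lemma abs_dir_le (y : Fin N → ℝ) (i : Fin N) : |dir y i| ≤ 1 :=
  abs_le_one_iff_mul_self_le_one.2 (by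
    rw [← sq]
    exact (Finset.single_le_sum (f := fun j => dir y j ^ 2) (fun j _ => sq_nonneg _)
      (Finset.mem_univ i)).trans (sum_dir_sq_le y))

lemma measurable_field_uncurry :
    Measurable fun p : (Fin N → ℝ) × (Fin N → ℝ) => field p.1 p.2 :=
  measurable_dot_comp measurable_dir

lemma measurable_field (W : Fin N → ℝ) : Measurable (field W) :=
  measurable_field_uncurry.comp measurable_prodMk_left

lemma abs_field_le (W y : Fin N → ℝ) : |field W y| ≤ ∑ i, |W i| :=
  (Finset.abs_sum_le_sum_abs _ _).trans (Finset.sum_le_sum fun i _ => by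
    rw [abs_mul]; exact mul_le_of_le_one_right (abs_nonneg _) (abs_dir_le y i))

lemma lint_field_le {π' : Measure (Fin N → ℝ)} [IsProbabilityMeasure π'] (W W' : Fin N → ℝ) :
    lint π' (field W) ≤ lint π' (field W') + ∑ i, |W i - W' i| := by
  set D := ∑ i, |W i - W' i|
  have hle : ∀ y, field W y ≤ D + field W' y := fun y => by
    have e : field W y = field (fun i => W i - W' i) y + field W' y := by
      simp [field, sub_mul, Finset.sum_sub_distrib]
    rw [e]
    linarith [(le_abs_self _).trans (abs_field_le (fun i => W i - W' i) y)]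
  rw [add_comm, ← lint_const_add (measurable_field W') (abs_field_le W') D]
  unfold lint
  refine Real.log_le_log ((Real.exp_pos _).trans_le
    (integral_exp_mem (measurable_field W) (abs_field_le W)).1) ?_
  refine integral_mono (integrable_exp_of_abs_le (measurable_field W) (abs_field_le W))
    (integrable_exp_of_abs_le (G := fun y => D + field W' y) (K := |D| + ∑ i, |W' i|)
      ((measurable_field W').const_add D) fun y => (abs_add_le _ _).trans
        (add_le_add le_rfl (abs_field_le W' y))) fun y => ?_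
  exact Real.exp_le_exp.2 (hle y)

lemma integral_sum_mul_sq {v : ℝ → ℝ} {B : ℝ} (hv : Measurable v) (hvb : ∀ x, |v x| ≤ B)
    (hv1 : ∫ x, v x ∂gam1 = 0) (hv2 : ∫ x, v x ^ 2 ∂gam1 = 1) {n : ℕ} (c : Fin n → ℝ) :
    ∫ g : Fin n → ℝ, (∑ i, c i * v (g i)) ^ 2 ∂gam (Fin n) = ∑ i, c i ^ 2 := by
  have hm : ∀ i, MemLp (fun x => c i * v x) 2 gam1 := fun i =>
    (MemLp.of_bound hv.aestronglyMeasurable B (Eventually.of_forall hvb)).const_mul _
  have hi : ∀ i, Integrable (fun g : Fin n → ℝ => c i * v (g i)) (gam (Fin n)) := fun i =>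
    ((hm i).comp_measurePreserving (measurePreserving_eval _ i)).integrable one_le_two
  have hmean : ∫ g : Fin n → ℝ, ∑ i, c i * v (g i) ∂gam (Fin n) = 0 := by
    rw [integral_finsetSum _ fun i _ => hi i]
    refine Finset.sum_eq_zero fun i _ => ?_
    have := integral_comp_eval (μ := fun _ : Fin n => gam1) (i := i) (f := fun x => c i * v x)
      (hm i).aestronglyMeasurable
    rw [this, integral_const_mul, hv1, mul_zero]
  have hvar := variance_sum_pi (μ := fun _ : Fin n => gam1) hm
  have e : (∑ i, fun g : Fin n → ℝ => c i * v (g i)) = fun g => ∑ i, c i * v (g i) := by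
    ext g; simp
  have hL : MemLp (fun g : Fin n → ℝ => ∑ i, c i * v (g i)) 2 (gam (Fin n)) :=
    memLp_finsetSum _ fun i _ => (hm i).comp_measurePreserving (measurePreserving_eval _ i)
  rw [e, variance_eq_sub hL, hmean] at hvar
  simp only [Pi.pow_apply, ne_eq, OfNat.ofNat_ne_zero, not_false_eq_true, zero_pow, sub_zero] at hvar
  rw [hvar]
  refine Finset.sum_congr rfl fun i _ => ?_
  rw [variance_eq_sub (hm i)]
  simp only [Pi.pow_apply, mul_pow, integral_const_mul, hv1, hv2]
  ring

/-- A small linear field gains half its variance times one minus the overlap. -/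
theorem field_step_const {π' : Measure (Fin N → ℝ)} [IsProbabilityMeasure π'] (hN : 0 < N)
    (hne : ∀ᵐ y ∂π', ∀ i, y i ≠ 0) {v : ℝ → ℝ} {B : ℝ} (hv : Measurable v)
    (hvb : ∀ x, |v x| ≤ B) (hv1 : ∫ x, v x ∂gam1 = 0) (hv2 : ∫ x, v x ^ 2 ∂gam1 = 1) {a : ℝ}
    (ha : 0 ≤ a) (haD : a * (N * B) ≤ 1) :
      a ^ 2 / 2 * (1 - meanOverlap π') -
          logC (1 / 2) (1 + N * B + (N * B) ^ 2 + (N * B) ^ 3) * a ^ 3 ≤
        ∫ g, lint π' (field fun i => a * v (g i)) ∂gam (Fin N) := by
  have hB : 0 ≤ B := (abs_nonneg _).trans (hvb 0)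
  set D : ℝ := N * B
  have hD : 0 ≤ D := by positivity
  set B' := 1 + D + D ^ 2 + D ^ 3
  set h : (Fin N → ℝ) → (Fin N → ℝ) → ℝ := fun g y => field (fun i => v (g i)) y
  have hh : ∀ g y, |h g y| ≤ D := fun g y => (abs_field_le _ y).trans <| by
    calc ∑ i, |v (g i)| ≤ ∑ _i : Fin N, B := Finset.sum_le_sum fun i _ => hvb _
      _ = D := by simp [D]
  have hhm : Measurable fun p : (Fin N → ℝ) × (Fin N → ℝ) => h p.1 p.2 :=
    measurable_field_uncurry.comp (f := fun p : (Fin N → ℝ) × (Fin N → ℝ) => (fun i => v (p.1 i), p.2))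
      ((measurable_pi_lambda _ fun i => hv.comp ((measurable_pi_apply i).comp measurable_fst)).prodMk
        measurable_snd)
  have hlin : ∀ g : Fin N → ℝ, (field fun i => a * v (g i)) = fun y => a * h g y := fun g =>
    funext fun y => by simp [h, field, Finset.mul_sum, mul_assoc]
  simp only [hlin]
  set X : (Fin N → ℝ) → ℝ := fun g => (∫ y, Real.exp (a * h g y) ∂π') - 1
  set m₁ : (Fin N → ℝ) → ℝ := fun g => ∫ y, h g y ∂π'
  set m₂ : (Fin N → ℝ) → ℝ := fun g => (∫ y, h g y ^ 2 ∂π') / 2
  have hab : ∀ g y, |a * h g y| ≤ 1 := fun g y => by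
    rw [abs_mul, abs_of_nonneg ha]; exact (mul_le_mul_of_nonneg_left (hh g y) ha).trans haD
  have hL : ∀ g, lint π' (fun y => a * h g y) = Real.log (1 + X g) := fun g => by
    simp [lint, X]
  have hi : ∀ g k, Integrable (fun y => h g y ^ k) π' := fun g k =>
    integrable_of_abs_le (K := D ^ k) ((hhm.comp measurable_prodMk_left).pow_const k) fun y => by
      rw [abs_pow]; exact pow_le_pow_left₀ (abs_nonneg _) (hh g y) k
  have hm1D : ∀ g, |m₁ g| ≤ D := fun g => by
    have := norm_integral_le_of_norm_le_const (μ := π') (f := fun y => h g y) (C := D)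
      (Eventually.of_forall fun y => (Real.norm_eq_abs _).trans_le (hh g y))
    simpa [m₁] using this
  have hpt : ∀ g, |Real.log (1 + X g) - a * m₁ g - a ^ 2 * (m₂ g - m₁ g ^ 2 / 2)| ≤
      logC (1 / 2) B' * a ^ 3 := by
    intro g
    have hb2 := pow_nonneg hD 2
    have hb3 := pow_nonneg hD 3
    have hm1 : |m₁ g| ≤ B' * 1 := by
      refine (hm1D g).trans ?_
      simp only [mul_one, B']; linarith
    have hm2 : |m₂ g| ≤ B' * 1 := by
      simp only [m₂, abs_div, abs_two]
      have := norm_integral_le_of_norm_le_const (μ := π') (f := fun y => h g y ^ 2) (C := D ^ 2)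
        (Eventually.of_forall fun y => by
          rw [Real.norm_eq_abs, abs_pow]; exact pow_le_pow_left₀ (abs_nonneg _) (hh g y) 2)
      simp only [Real.norm_eq_abs, probReal_univ, mul_one] at this
      simp only [mul_one, B']; linarith [abs_nonneg (∫ y, h g y ^ 2 ∂π')]
    have hl : |Real.log (1 + X g)| ≤ 2 * (1 / 2) := by
      rw [← hL g]
      refine (abs_lint_le (K := 1) ((hhm.comp measurable_prodMk_left).const_mul a)
        (hab g)).trans (by norm_num)
    have hE : |X g - a * m₁ g - a ^ 2 * m₂ g| ≤ B' * |a| ^ 3 * 1 := by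
      have ie : Integrable (fun y => Real.exp (a * h g y)) π' :=
        integrable_exp_of_abs_le ((hhm.comp measurable_prodMk_left).const_mul a) (hab g)
      have i1 : Integrable (fun y => h g y) π' := (hi g 1).congr (Eventually.of_forall fun y => pow_one _)
      have e : X g - a * m₁ g - a ^ 2 * m₂ g =
          ∫ y, (Real.exp (a * h g y) - 1 - a * h g y - a ^ 2 / 2 * h g y ^ 2) ∂π' := by
        rw [integral_sub ((ie.sub' (integrable_const _)).sub' (i1.const_mul _)) ((hi g 2).const_mul _),
          integral_sub (ie.sub' (integrable_const _)) (i1.const_mul _),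
          integral_sub ie (integrable_const _), integral_const_mul, integral_const_mul]
        simp only [integral_const, probReal_univ, smul_eq_mul, one_mul, X, m₁, m₂]
        ring
      rw [e, mul_one]
      have hb : ∀ y, ‖Real.exp (a * h g y) - 1 - a * h g y - a ^ 2 / 2 * h g y ^ 2‖ ≤ B' * |a| ^ 3 := by
        intro y
        have h3 := Real.exp_bound (hab g y) (n := 3) (by norm_num)
        have e : ∑ m ∈ Finset.range 3, (a * h g y) ^ m / (m.factorial : ℝ) =
            1 + a * h g y + a ^ 2 / 2 * h g y ^ 2 := by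
          simp [Finset.sum_range_succ]; ring
        rw [e] at h3
        rw [Real.norm_eq_abs]
        calc _ = |Real.exp (a * h g y) - (1 + a * h g y + a ^ 2 / 2 * h g y ^ 2)| := by congr 1; ring
          _ ≤ |a * h g y| ^ 3 * ((Nat.succ 3 : ℕ) / ((Nat.factorial 3 : ℕ) * (3 : ℕ) : ℝ)) := h3
          _ ≤ |a| ^ 3 * D ^ 3 * 1 := by
              rw [abs_mul, mul_pow]
              refine mul_le_mul (mul_le_mul_of_nonneg_left
                (pow_le_pow_left₀ (abs_nonneg _) (hh g y) 3) (by positivity))
                (by norm_num [Nat.factorial]) (by positivity) (by positivity)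
          _ ≤ B' * |a| ^ 3 := by
              rw [mul_one, mul_comm]
              exact mul_le_mul_of_nonneg_right (by simp only [B']; linarith) (by positivity)
      refine (norm_integral_le_of_norm_le_const (Eventually.of_forall hb)).trans ?_
      simp
    have := log_second_order (a := a) (T := 1) (by norm_num) le_rfl hl hm1 hm2 hE (by ring)
    simpa [abs_of_nonneg ha] using this
  have i1 : Integrable m₁ (gam (Fin N)) := integrable_of_abs_le (K := D)
    (hhm.stronglyMeasurable.integral_prod_right' (ν := π')).measurable hm1D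
  have i11 : Integrable (fun g => m₁ g ^ 2) (gam (Fin N)) := integrable_of_abs_le (K := D ^ 2)
    ((hhm.stronglyMeasurable.integral_prod_right' (ν := π')).measurable.pow_const 2) fun g => by
      rw [abs_pow]
      exact pow_le_pow_left₀ (abs_nonneg _) (hm1D g) 2
  have i2 : Integrable m₂ (gam (Fin N)) := integrable_of_abs_le (K := D ^ 2)
    (((hhm.pow_const 2).stronglyMeasurable.integral_prod_right' (ν := π')).measurable.div_const 2)
    fun g => by
      have := norm_integral_le_of_norm_le_const (μ := π') (f := fun y => h g y ^ 2) (C := D ^ 2)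
        (Eventually.of_forall fun y => by
          rw [Real.norm_eq_abs, abs_pow]; exact pow_le_pow_left₀ (abs_nonneg _) (hh g y) 2)
      simp only [Real.norm_eq_abs, probReal_univ, mul_one] at this
      rw [abs_div, abs_two]
      linarith [abs_nonneg (∫ y, h g y ^ 2 ∂π')]
  have hlinm : ∀ g, m₁ g = ∑ i, (∫ y, dir y i ∂π') * v (g i) := fun g => by
    simp only [m₁, h, field]
    have hii : ∀ i, Integrable (fun y : Fin N → ℝ => dir y i) π' := fun i =>
      integrable_of_abs_le (K := 1) (G := fun y : Fin N → ℝ => dir y i)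
        ((measurable_pi_apply i).comp measurable_dir) fun y => abs_dir_le y i
    rw [integral_finsetSum _ fun i _ => (hii i).const_mul _]
    simp only [integral_const_mul, mul_comm]
  have e1 : ∫ g, m₁ g ∂gam (Fin N) = 0 := by
    simp only [hlinm]
    rw [integral_finsetSum _ fun i _ => (integrable_of_abs_le (K := B)
      (G := fun g : Fin N → ℝ => v (g i)) (hv.comp (measurable_pi_apply i)) fun g => hvb _).const_mul _]
    refine Finset.sum_eq_zero fun i _ => ?_
    have h0 : ∫ g : Fin N → ℝ, v (g i) ∂gam (Fin N) = 0 :=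
      (integral_comp_eval (μ := fun _ : Fin N => gam1) (i := i) hv.aestronglyMeasurable).trans hv1
    rw [integral_const_mul, h0, mul_zero]
  have e11 : ∫ g, m₁ g ^ 2 ∂gam (Fin N) = meanOverlap π' := by
    simp only [hlinm, integral_sum_mul_sq hv hvb hv1 hv2]
    rfl
  have e2 : ∫ g, m₂ g ∂gam (Fin N) = 1 / 2 := by
    simp only [m₂, integral_div]
    congr 1
    rw [integral_integral_swap (f := fun g y => h g y ^ 2) (integrable_of_abs_le (K := D ^ 2)
      (hhm.pow_const 2) fun p => by
        simp only [Function.uncurry]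
        rw [abs_pow]; exact pow_le_pow_left₀ (abs_nonneg _) (hh _ _) 2)]
    calc ∫ y, ∫ g, h g y ^ 2 ∂gam (Fin N) ∂π' = ∫ _y, (1 : ℝ) ∂π' := by
          refine integral_congr_ae ?_
          filter_upwards [hne] with y hy
          have e : ∀ g, h g y = ∑ i, dir y i * v (g i) := fun g =>
            Finset.sum_congr rfl fun i _ => mul_comm _ _
          simp only [e, integral_sum_mul_sq hv hvb hv1 hv2, dir, div_pow, ← Finset.sum_div, nrm]
          rw [Real.sq_sqrt (Finset.sum_nonneg fun i _ => sq_nonneg _), div_self]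
          refine ne_of_gt (Finset.sum_pos' (fun i _ => sq_nonneg _)
            ⟨⟨0, hN⟩, Finset.mem_univ _, ?_⟩)
          exact lt_of_le_of_ne (sq_nonneg _) (Ne.symm (pow_ne_zero 2 (hy _)))
      _ = 1 := by simp
  have hlog : Integrable (fun g => Real.log (1 + X g)) (gam (Fin N)) := by
    refine integrable_of_abs_le (K := 1) ?_ fun g => ?_
    · simp only [← hL]
      exact measurable_lint π' (hhm.const_mul a)
    · rw [← hL]; exact abs_lint_le ((hhm.comp measurable_prodMk_left).const_mul a) (hab g)
  have hrhs : Integrable (fun g => a * m₁ g + a ^ 2 * (m₂ g - m₁ g ^ 2 / 2) - logC (1 / 2) B' * a ^ 3)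
      (gam (Fin N)) :=
    ((i1.const_mul a).add ((i2.sub (i11.div_const 2)).const_mul _)).sub (integrable_const _)
  have hmain := integral_mono hrhs hlog fun g => by
    have := (abs_le.1 (hpt g)).1
    linarith
  rw [integral_sub ((i1.const_mul a).fun_add ((i2.sub' (i11.div_const 2)).const_mul _))
      (integrable_const _), integral_add (i1.const_mul a) ((i2.sub' (i11.div_const 2)).const_mul _),
    integral_const_mul, integral_const_mul, integral_sub i2 (i11.div_const 2), e2, integral_div, e1,
    e11] at hmain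
  simp only [integral_const, probReal_univ, smul_eq_mul, one_mul] at hmain
  simp only [hL]
  linarith

lemma exists_bounded_normalised {η : ℝ} (hη : 0 < η) :
    ∃ v : ℝ → ℝ, ∃ B : ℝ, Measurable v ∧ (∀ x, |v x| ≤ B) ∧ ∫ x, v x ∂gam1 = 0 ∧
      ∫ x, v x ^ 2 ∂gam1 = 1 ∧ ∫ x, (v x - x) ^ 2 ∂gam1 ≤ η := by
  set u : ℕ → ℝ → ℝ := fun T x => if |x| ≤ T then x else 0
  have hum : ∀ T, Measurable (u T) := fun T => Measurable.ite
    (measurableSet_le (by fun_prop) measurable_const) measurable_id measurable_const
  have hub : ∀ T x, |u T x| ≤ T ∧ |u T x| ≤ |x| := fun T x => by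
    simp only [u]
    split_ifs with h
    · exact ⟨h, le_rfl⟩
    · simp
  have hlim : ∀ x, ∀ᶠ T : ℕ in atTop, u T x = x := fun x => by
    obtain ⟨n, hn⟩ := exists_nat_ge |x|
    filter_upwards [eventually_ge_atTop n] with T hT
    simp [u, hn.trans (Nat.cast_le.2 hT)]
  have hsqi : Integrable (fun x : ℝ => x ^ 2) gam1 := IsGaussian.memLp_two_id.integrable_sq
  have hs : Tendsto (fun T => ∫ x, u T x ^ 2 ∂gam1) atTop (𝓝 1) := by
    rw [← integral_sq_gam1]
    refine tendsto_integral_of_dominated_convergence (fun x => x ^ 2)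
      (fun T => ((hum T).pow_const 2).aestronglyMeasurable) hsqi
      (fun T => Eventually.of_forall fun x => ?_) (Eventually.of_forall fun x =>
        tendsto_const_nhds.congr' ((hlim x).mono fun T h => by simp only [h]))
    rw [Real.norm_eq_abs, abs_pow, ← sq_abs x]
    exact pow_le_pow_left₀ (abs_nonneg _) (hub T x).2 2
  set c : ℕ → ℝ := fun T => (Real.sqrt (∫ x, u T x ^ 2 ∂gam1))⁻¹
  have hc : Tendsto c atTop (𝓝 1) := by
    have := hs.sqrt.inv₀ (by rw [Real.sqrt_one]; exact one_ne_zero)
    simpa using this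
  have hd : Tendsto (fun T => ∫ x, (c T * u T x - x) ^ 2 ∂gam1) atTop (𝓝 0) := by
    have h0 : (0 : ℝ) = ∫ _x, (0 : ℝ) ∂gam1 := by simp
    rw [h0]
    refine tendsto_integral_filter_of_dominated_convergence (fun x => 9 * x ^ 2)
      (Eventually.of_forall fun T => ((((hum T).const_mul _).sub measurable_id).pow_const 2).aestronglyMeasurable)
      ?_ (hsqi.const_mul 9) (Eventually.of_forall fun x => ?_)
    · filter_upwards [hc.eventually (Metric.ball_mem_nhds 1 one_pos)] with T hT
      refine Eventually.of_forall fun x => ?_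
      rw [Real.dist_eq, abs_lt] at hT
      rw [Real.norm_eq_abs, abs_pow, show 9 * x ^ 2 = (3 * |x|) ^ 2 by rw [mul_pow, sq_abs]; norm_num]
      refine pow_le_pow_left₀ (abs_nonneg _) ?_ 2
      refine (abs_sub _ _).trans ?_
      rw [abs_mul]
      have h1 : |c T| ≤ 2 := by rw [abs_le]; constructor <;> linarith [hT.1, hT.2]
      have := mul_le_mul h1 (hub T x).2 (abs_nonneg _) zero_le_two
      linarith
    · have hc' := hc
      refine Tendsto.congr'
        ((hlim x).mono fun T h => (show (c T * x - x) ^ 2 = (c T * u T x - x) ^ 2 by rw [h])) ?_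
      have := ((hc'.mul_const x).sub_const x).pow 2
      simpa using this
  obtain ⟨T, hT1, hT2⟩ := ((hs.eventually (lt_mem_nhds (show (1 : ℝ) / 2 < 1 by norm_num))).and
    (hd.eventually (ge_mem_nhds hη))).exists
  refine ⟨fun x => c T * u T x, |c T| * T, (hum T).const_mul _, fun x => ?_, ?_, ?_, hT2⟩
  · rw [abs_mul]; exact mul_le_mul_of_nonneg_left (hub T x).1 (abs_nonneg _)
  · rw [integral_const_mul]
    have hneg : ∫ x, u T x ∂gam1 = -∫ x, u T x ∂gam1 := by
      conv_lhs => rw [show gam1 = gam1.map (fun x => -x) by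
        rw [gam1, gaussianReal_map_neg, neg_zero]]
      rw [integral_map (by fun_prop) (hum T).aestronglyMeasurable, ← integral_neg]
      congr 1; ext x
      simp only [u, abs_neg]
      split_ifs <;> simp
    rw [show ∫ x, u T x ∂gam1 = 0 by linarith, mul_zero]
  · simp only [mul_pow, integral_const_mul, c, inv_pow]
    rw [Real.sq_sqrt (by linarith), inv_mul_cancel₀ (by linarith)]

/-- Guerra-type bound: the patterns cost no more than the reference values plus a Gaussian field. -/
theorem interp_bound {f : ℝ → ℝ} {K : ℝ} (hf : Usable f K) (hcv : BlockConcave f) (hN : 0 < N)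
    {π' : Measure (Fin N → ℝ)} [IsProbabilityMeasure π'] (hne : ∀ᵐ y ∂π', ∀ i, y i ≠ 0)
    {q : ℝ} (hq0 : 0 ≤ q) (hq1 : q < 1) {φ : ℝ → ℝ} {c₀ : ℝ} (hφi : Integrable φ gam1)
    {M : ℕ} (hM : 0 < M)
    (hbound : ∀ g : Fin N → ℝ,
      lint π' (field fun i => Real.sqrt (M * gardnerA f q) * g i) ≤ ∑ i, φ (g i) + c₀) :
    Phi (gam (Fin N)) (term f dir) π' M ≤ M * (gardnerG f q - gardnerA f q * (1 - q) / 2) +
      c₀ + N * ∫ z, φ z ∂gam1 + K * Real.sqrt M := by
  obtain ⟨A, hA⟩ : ∃ A, A = gardnerA f q := ⟨_, rfl⟩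
  rw [← hA] at hbound ⊢
  have hA0 : 0 ≤ A := by
    rw [hA, gardnerA_eq hq1]; exact div_nonneg (integral_nonneg fun z => sq_nonneg _) (sq_nonneg _)
  set G := gardnerG f q
  set c' := G - A * (1 - q) / 2
  refine le_of_forall_pos_le_add fun ε hε => ?_
  set η := (ε / (2 * N * (Real.sqrt (M * A) + 1))) ^ 2
  have hη : 0 < η := by positivity
  obtain ⟨v, B, hv, hvb, hv1, hv2, hv3⟩ := exists_bounded_normalised hη
  -- one step
  have hnice := nice_term hf.meas hf.bound (measurable_dir (ι := Fin N))
  have hstep : ∃ C, ∀ δ : ℝ, 0 < δ → δ ≤ 1 → Real.sqrt (δ * A) * (N * B) ≤ 1 →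
      ∀ (ρ : Measure (Fin N → ℝ)), IsProbabilityMeasure ρ → (∀ᵐ y ∂ρ, ∀ i, y i ≠ 0) →
        δ * (∫ g, lint ρ (term f dir g) ∂gam (Fin N)) - C * Real.sqrt (δ * A) ^ 3 ≤
          ∫ g, lint ρ (fun y => δ * c' + field (fun i => Real.sqrt (δ * A) * v (g i)) y)
            ∂gam (Fin N) := by
    refine ⟨logC (1 / 2) (1 + N * B + (N * B) ^ 2 + (N * B) ^ 3), fun δ hδ hδ1 hsmall ρ hρ hρne => ?_⟩
    obtain ⟨C, hC⟩ : ∃ C, C = logC (1 / 2) (1 + N * B + (N * B) ^ 2 + (N * B) ^ 3) := ⟨_, rfl⟩
    rw [← hC]
    have h1 := pattern_bound hf hcv hN hρne hq0 hq1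
    have h2 : Real.sqrt (δ * A) ^ 2 / 2 * (1 - meanOverlap ρ) - C * Real.sqrt (δ * A) ^ 3 ≤
        ∫ g, lint ρ (field fun i => Real.sqrt (δ * A) * v (g i)) ∂gam (Fin N) := by
      rw [hC]
      exact field_step_const hN hρne hv hvb hv1 hv2 (Real.sqrt_nonneg _) hsmall
    rw [Real.sq_sqrt (mul_nonneg hδ.le hA0)] at h2
    rw [← hA] at h1
    have e : ∀ g : Fin N → ℝ, lint ρ (fun y => δ * c' + field (fun i => Real.sqrt (δ * A) * v (g i)) y) =
        δ * c' + lint ρ (field fun i => Real.sqrt (δ * A) * v (g i)) := fun g =>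
      lint_const_add (measurable_field _) (abs_field_le _) _
    have hi : Integrable (fun g : Fin N → ℝ =>
        lint ρ (field fun i => Real.sqrt (δ * A) * v (g i))) (gam (Fin N)) := by
      refine integrable_of_abs_le (K := N * (Real.sqrt (δ * A) * B))
        (measurable_lint ρ (measurable_field_uncurry.comp
          (f := fun p : (Fin N → ℝ) × (Fin N → ℝ) => (fun i => Real.sqrt (δ * A) * v (p.1 i), p.2))
          ((measurable_pi_lambda _ fun i => (hv.comp ((measurable_pi_apply i).comp
            measurable_fst)).const_mul _).prodMk measurable_snd))) fun g => ?_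
      refine abs_lint_le (measurable_field _) fun y => (abs_field_le _ y).trans ?_
      refine le_trans (Finset.sum_le_sum fun i _ => ?_) (le_of_eq (by simp :
        ∑ _i : Fin N, Real.sqrt (δ * A) * B = _))
      rw [abs_mul, abs_of_nonneg (Real.sqrt_nonneg _)]
      exact mul_le_mul_of_nonneg_left (hvb _) (Real.sqrt_nonneg _)
    simp only [e]
    rw [integral_add (integrable_const _) hi]
    simp only [integral_const, probReal_univ, smul_eq_mul, one_mul]
    have h3 := mul_le_mul_of_nonneg_left h1 hδ.le
    simp only [c']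
    linarith
  obtain ⟨C, hC⟩ := hstep
  -- the number of pieces
  have hLlim : Tendsto (fun L : ℕ => (M : ℝ) * L * (C * Real.sqrt (1 / L * A) ^ 3)) atTop (𝓝 0) := by
    have h1 : Tendsto (fun L : ℕ => Real.sqrt (1 / (L : ℝ) * A)) atTop (𝓝 0) := by
      have := ((tendsto_const_div_atTop_nhds_zero_nat (1 : ℝ)).mul_const A).sqrt
      simpa using this
    have h2 := (h1.const_mul (M * A * C))
    rw [mul_zero] at h2
    refine h2.congr' ?_
    filter_upwards [eventually_gt_atTop 0] with L hL
    have hL' : (0 : ℝ) < L := by exact_mod_cast hL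
    rw [pow_succ (Real.sqrt _) 2, Real.sq_sqrt (by positivity)]
    field_simp
  have hsm : Tendsto (fun L : ℕ => Real.sqrt (1 / (L : ℝ) * A) * (N * B)) atTop (𝓝 0) := by
    have := ((tendsto_const_div_atTop_nhds_zero_nat (1 : ℝ)).mul_const A).sqrt.mul_const (N * B : ℝ)
    simpa using this
  obtain ⟨L, ⟨⟨hLe, hLs⟩, hL1⟩⟩ := (((hLlim.eventually (ge_mem_nhds (half_pos hε))).and
    (hsm.eventually (ge_mem_nhds one_pos))).and (eventually_ge_atTop 1)).exists
  have hL0 : (0 : ℝ) < L := by exact_mod_cast hL1
  obtain ⟨δ, hδdef⟩ : ∃ δ : ℝ, δ = 1 / L := ⟨_, rfl⟩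
  rw [← hδdef] at hLe hLs
  have hδ : 0 < δ := by rw [hδdef]; positivity
  have hδ1 : δ ≤ 1 := by
    rw [hδdef, div_le_one hL0]; exact_mod_cast hL1
  set a := Real.sqrt (δ * A)
  -- the two interpolating families
  have := isProbabilityMeasure_bern hδ.le hδ1
  set P' : Measure ((Fin N → ℝ) × Bool) := (gam (Fin N)).prod (bern δ)
  set F' : (Fin N → ℝ) × Bool → (Fin N → ℝ) → ℝ := fun z y => if z.2 then term f dir z.1 y else 0
  have hF' : Nice K F' := by
    refine ⟨?_, fun z y => ?_⟩
    · refine Measurable.ite ?_ (hnice.meas.comp (f := fun p : ((Fin N → ℝ) × Bool) × (Fin N → ℝ) =>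
        (p.1.1, p.2)) ((measurable_fst.comp measurable_fst).prodMk measurable_snd)) measurable_const
      exact (measurable_snd.comp measurable_fst) (measurableSet_singleton true)
    · simp only [F']
      split_ifs
      · exact hnice.bound _ _
      · simpa using hf.nonneg
  set F : (Fin N → ℝ) → (Fin N → ℝ) → ℝ := fun g y => δ * c' + field (fun i => a * v (g i)) y
  have hFm : Measurable fun p : (Fin N → ℝ) × (Fin N → ℝ) => field (fun i => a * v (p.1 i)) p.2 :=
    measurable_field_uncurry.comp
      (f := fun p : (Fin N → ℝ) × (Fin N → ℝ) => (fun i => a * v (p.1 i), p.2))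
      ((measurable_pi_lambda _ fun i =>
        (hv.comp ((measurable_pi_apply i).comp measurable_fst)).const_mul _).prodMk measurable_snd)
  have hF : Nice (|δ * c'| + N * (a * B)) F := by
    refine ⟨hFm.const_add _, fun g y => (abs_add_le _ _).trans (add_le_add le_rfl
      ((abs_field_le _ y).trans ?_))⟩
    refine le_trans (Finset.sum_le_sum fun i _ => ?_) (le_of_eq (by simp :
      ∑ _i : Fin N, a * B = _))
    rw [abs_mul, abs_of_nonneg (Real.sqrt_nonneg _)]
    exact mul_le_mul_of_nonneg_left (hvb _) (Real.sqrt_nonneg _)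
  have hswap := Phi_swap_of_ae (P := gam (Fin N)) (P' := P') (e := C * a ^ 3)
    (fun y => ∀ i, y i ≠ 0) hF hF' (fun ρ hρ hρne => by
      rw [integral_prod _ (hF'.integrable_lint _ _)]
      refine le_trans (sub_le_sub_right (le_of_eq ?_) _) (hC δ hδ hδ1 hLs ρ hρ hρne)
      simp only [integral_bern hδ.le hδ1, F', if_true, Bool.false_eq_true, if_false]
      have h0 : lint ρ (fun _ : Fin N → ℝ => (0 : ℝ)) = 0 := by simp [lint]
      simp only [h0, mul_zero, add_zero, integral_const_mul]) (M * L) π' inferInstance hne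
  -- the thinned patterns
  have hthin : Phi (gam (Fin N)) (term f dir) π' M - K * Real.sqrt M ≤ Phi P' F' π' (M * L) := by
    have hsplit := measurePreserving_arrowProdEquivProdArrow (Fin N → ℝ) Bool (Fin (M * L))
      (fun _ => gam (Fin N)) (fun _ => bern δ)
    set G' : (Fin (M * L) → Fin N → ℝ) × (Fin (M * L) → Bool) → ℝ := fun r =>
      lint π' fun y => ∑ b, if r.2 b then term f dir (r.1 b) y else 0
    have hGn : Nice ((M * L : ℕ) * K) (fun (r : (Fin (M * L) → Fin N → ℝ) × (Fin (M * L) → Bool)) y =>
        ∑ b, if r.2 b then term f dir (r.1 b) y else 0) := by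
      refine ⟨Finset.measurable_sum _ fun b _ => ?_, fun r y => ?_⟩
      · exact hF'.meas.comp
          (f := fun p : ((Fin (M * L) → Fin N → ℝ) × (Fin (M * L) → Bool)) × (Fin N → ℝ) =>
            ((p.1.1 b, p.1.2 b), p.2))
          ((((measurable_pi_apply b).comp (measurable_fst.comp measurable_fst)).prodMk
            ((measurable_pi_apply b).comp (measurable_snd.comp measurable_fst))).prodMk measurable_snd)
      · refine (Finset.abs_sum_le_sum_abs _ _).trans ?_
        refine le_trans (Finset.sum_le_sum fun b _ => hF'.bound (r.1 b, r.2 b) y) ?_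
        simp
    have hPhi : Phi P' F' π' (M * L) =
        ∫ r, G' r ∂(Measure.pi fun _ : Fin (M * L) => gam (Fin N)).prod
          (Measure.pi fun _ : Fin (M * L) => bern δ) := by
      rw [← hsplit.integral_comp' (g := G')]
      rfl
    rw [hPhi, integral_prod_symm _ (hGn.integrable_lint _ _)]
    simp only [G', Phi_mask hnice (M * L) π' inferInstance]
    set θ : Bool → ℝ := fun b => if b then δ else 1 - δ
    have hdev := count_deviation (θ := θ) (bern δ) (fun φ => by
      rw [integral_bern hδ.le hδ1, Fintype.sum_bool]; simp [θ]) true (M * L)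
    have hMδ : ((M * L : ℕ) : ℝ) * θ true = M := by
      simp only [θ, if_true, hδdef]; push_cast; field_simp
    simp only [hMδ, Bool.decide_eq_true] at hdev
    have hint : ∀ φ : (Fin (M * L) → Bool) → ℝ,
        Integrable φ (Measure.pi fun _ : Fin (M * L) => bern δ) := fun φ => Integrable.of_finite
    calc Phi (gam (Fin N)) (term f dir) π' M - K * Real.sqrt M
        ≤ ∫ τ : Fin (M * L) → Bool, (Phi (gam (Fin N)) (term f dir) π' M -
            K * |((∑ b, if τ b = true then 1 else 0 : ℕ) : ℝ) - M|)
              ∂Measure.pi fun _ => bern δ := by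
          rw [integral_sub (hint _) (hint _), integral_const_mul]
          simp only [integral_const, probReal_univ, smul_eq_mul, one_mul]
          exact sub_le_sub_left (mul_le_mul_of_nonneg_left hdev hf.nonneg) _
      _ ≤ _ := by
          refine integral_mono (hint _) (hint _) fun τ => ?_
          have := (abs_le.1 (abs_Phi_sub_le (P := gam (Fin N)) hnice π' M
            (∑ b, if τ b = true then 1 else 0))).2
          rw [abs_sub_comm]
          linarith
  -- the summed fields
  have hfield : Phi (gam (Fin N)) F π' (M * L) ≤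
      M * c' + c₀ + N * (∫ z, φ z ∂gam1) + ε / 2 := by
    set n := M * L
    have hn : 0 < n := Nat.mul_pos hM (by omega)
    have hn' : (0 : ℝ) < n := by exact_mod_cast hn
    have hnδ : (n : ℝ) * δ = M := by simp only [n, hδdef]; push_cast; field_simp
    set s := Real.sqrt (M * A)
    have hs : a * Real.sqrt n = s := by
      simp only [a, s, ← Real.sqrt_mul (mul_nonneg hδ.le hA0)]
      congr 1
      linear_combination A * hnδ
    set W : (Fin n → Fin N → ℝ) → Fin N → ℝ := fun ω i => ∑ b, a * v (ω b i)
    set g' : (Fin n → Fin N → ℝ) → Fin N → ℝ := fun ω i =>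
      dot (fun b => ω b i) fun _ => (Real.sqrt n)⁻¹
    have hval : ∀ ω : Fin n → Fin N → ℝ, lint π' (fun y => ∑ b, F (ω b) y) =
        M * c' + lint π' (field (W ω)) := fun ω => by
      rw [← lint_const_add (measurable_field _) (abs_field_le _)]
      congr 1
      ext y
      simp only [F, Finset.sum_add_distrib, Finset.sum_const, Finset.card_univ, Fintype.card_fin,
        nsmul_eq_mul, field, W, Finset.sum_mul]
      rw [Finset.sum_comm, ← hnδ]
      ring
    have hcoord : ∀ i : Fin N, MeasurePreserving (fun ω : Fin n → Fin N → ℝ => fun b => ω b i)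
        (Measure.pi fun _ : Fin n => gam (Fin N)) (gam (Fin n)) := fun i =>
      measurePreserving_pi (fun _ : Fin n => gam (Fin N)) (fun _ => gaussianReal 0 1)
        (fun _ => measurePreserving_eval (fun _ : Fin N => gaussianReal 0 1) i)
    have hunit : ∑ _b : Fin n, ((Real.sqrt n)⁻¹) ^ 2 = 1 := by
      simp [inv_pow, Real.sq_sqrt hn'.le, hn'.ne']
    have hdotm : Measurable fun g : Fin n → ℝ => dot g fun _ => (Real.sqrt n)⁻¹ := by
      unfold dot; fun_prop
    have hmarg : ∀ i, MeasurePreserving (fun ω : Fin n → Fin N → ℝ => g' ω i)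
        (Measure.pi fun _ : Fin n => gam (Fin N)) gam1 := fun i =>
      (MeasurePreserving.mk hdotm (map_dot_unit hunit)).comp (hcoord i)
    have hdiff : ∀ i, ∫ ω, |W ω i - s * g' ω i| ∂(Measure.pi fun _ : Fin n => gam (Fin N)) ≤
        s * Real.sqrt η := by
      intro i
      have e : (fun ω : Fin n → Fin N → ℝ => |W ω i - s * g' ω i|) =
          fun ω => |∑ b, a * (v (ω b i) - ω b i)| := by
        ext ω
        simp only [W, g', dot, Finset.mul_sum, ← Finset.sum_sub_distrib, mul_sub]
        congr 1
        refine Finset.sum_congr rfl fun b _ => ?_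
        rw [← hs]
        have : Real.sqrt n ≠ 0 := (Real.sqrt_pos.2 hn').ne'
        field_simp
      have hm : MemLp (fun x : ℝ => a * (v x - x)) 2 gam1 :=
        ((MemLp.of_bound hv.aestronglyMeasurable B (Eventually.of_forall hvb)).sub
          IsGaussian.memLp_two_id).const_mul a
      set S : (Fin n → ℝ) → ℝ := fun g => ∑ b, a * (v (g b) - g b)
      have hS : MemLp S 2 (gam (Fin n)) :=
        memLp_finsetSum _ fun b _ => hm.comp_measurePreserving (measurePreserving_eval _ b)
      rw [e]
      have e' : ∫ ω : Fin n → Fin N → ℝ, |S (fun b => ω b i)|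
          ∂(Measure.pi fun _ : Fin n => gam (Fin N)) = ∫ g, |S g| ∂gam (Fin n) := by
        rw [← (hcoord i).map_eq]
        exact (integral_map (hcoord i).measurable.aemeasurable
          ((hcoord i).map_eq ▸ hS.aestronglyMeasurable.norm)).symm
      change ∫ ω : Fin n → Fin N → ℝ, |S (fun b => ω b i)| ∂_ ≤ _
      rw [e']
      have h := variance_nonneg (fun g => |S g|) (gam (Fin n))
      rw [variance_eq_sub (show MemLp (fun g => |S g|) 2 _ from hS.norm)] at h
      simp only [Pi.pow_apply, sq_abs] at h
      have hmean0 : ∫ x, a * (v x - x) ∂gam1 = 0 := by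
        have hidi : Integrable (fun x : ℝ => x) gam1 := IsGaussian.memLp_two_id.integrable one_le_two
        rw [integral_const_mul, integral_sub (integrable_of_abs_le hv hvb) hidi, hv1]
        simp [integral_id_gaussianReal]
      have hmean : ∫ g, S g ∂gam (Fin n) = 0 := by
        simp only [S]
        have hi : ∀ b : Fin n, Integrable (fun g : Fin n → ℝ => a * (v (g b) - g b)) (gam (Fin n)) :=
          fun b => (hm.comp_measurePreserving (measurePreserving_eval _ b)).integrable one_le_two
        rw [integral_finsetSum _ fun b _ => hi b]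
        refine Finset.sum_eq_zero fun b _ => ?_
        exact (integral_comp_eval (μ := fun _ : Fin n => gam1) (i := b)
          hm.aestronglyMeasurable).trans hmean0
      have hvar := variance_sum_pi (μ := fun _ : Fin n => gam1) (fun _ => hm)
      have es : (∑ b, fun g : Fin n → ℝ => a * (v (g b) - g b)) = S := by ext g; simp [S]
      rw [es, variance_eq_sub hS, hmean, variance_eq_sub hm, hmean0] at hvar
      simp only [Pi.pow_apply, Finset.sum_const, Finset.card_univ, Fintype.card_fin, nsmul_eq_mul,
        mul_pow, integral_const_mul, ne_eq, OfNat.ofNat_ne_zero, not_false_eq_true, zero_pow,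
        sub_zero] at hvar
      have hsq : (∫ g, |S g| ∂gam (Fin n)) ^ 2 ≤ (s * Real.sqrt η) ^ 2 := by
        refine le_trans (by linarith : _ ≤ ∫ g, S g ^ 2 ∂gam (Fin n)) ?_
        rw [hvar, mul_pow s, Real.sq_sqrt hη.le, ← hs, mul_pow a, Real.sq_sqrt hn'.le,
          show a ^ 2 * (n : ℝ) * η = n * (a ^ 2 * η) by ring]
        exact mul_le_mul_of_nonneg_left (mul_le_mul_of_nonneg_left hv3 (sq_nonneg a)) hn'.le
      exact (abs_le_of_sq_le_sq' hsq (by positivity)).2
    have hinti : ∀ i, Integrable (fun ω => |W ω i - s * g' ω i|)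
        (Measure.pi fun _ : Fin n => gam (Fin N)) := fun i => by
      have h1 : Integrable (fun ω : Fin n → Fin N → ℝ => W ω i)
          (Measure.pi fun _ : Fin n => gam (Fin N)) :=
        integrable_finsetSum _ fun b _ => (integrable_of_abs_le (K := B)
          (G := fun ω : Fin n → Fin N → ℝ => v (ω b i))
          (hv.comp ((measurable_pi_apply i).comp (measurable_pi_apply b))) fun ω => hvb _).const_mul a
      exact (h1.sub ((hmarg i).integrable_comp_of_integrable
        (g := fun x : ℝ => s * x) ((IsGaussian.memLp_two_id.integrable one_le_two).const_mul s))).abs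
    have hiφ : ∀ i, Integrable (fun ω => φ (g' ω i)) (Measure.pi fun _ : Fin n => gam (Fin N)) :=
      fun i => (hmarg i).integrable_comp_of_integrable hφi
    have hub : ∀ ω : Fin n → Fin N → ℝ, lint π' (fun y => ∑ b, F (ω b) y) ≤
        M * c' + c₀ + ((∑ i, φ (g' ω i)) + ∑ i, |W ω i - s * g' ω i|) := fun ω => by
      rw [hval ω]
      have h1 := lint_field_le (π' := π') (W ω) (fun i => s * g' ω i)
      have h2 := hbound (g' ω)
      linarith
    unfold Phi
    refine (integral_mono ((hF.sum n).integrable_lint _ _) ((integrable_const _).add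
      ((integrable_finsetSum _ fun i _ => hiφ i).add (integrable_finsetSum _ fun i _ => hinti i)))
      hub).trans ?_
    simp only [Pi.add_apply]
    rw [integral_add (integrable_const _) ((integrable_finsetSum _ fun i _ => hiφ i).fun_add
        (integrable_finsetSum _ fun i _ => hinti i)),
      integral_add (integrable_finsetSum _ fun i _ => hiφ i)
        (integrable_finsetSum _ fun i _ => hinti i),
      integral_finsetSum _ fun i _ => hiφ i, integral_finsetSum _ fun i _ => hinti i]
    simp only [integral_const, probReal_univ, smul_eq_mul, one_mul]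
    have e : ∀ i, ∫ ω, φ (g' ω i) ∂(Measure.pi fun _ : Fin n => gam (Fin N)) = ∫ z, φ z ∂gam1 :=
      fun i => by
        have := integral_map (hmarg i).measurable.aemeasurable (f := φ)
          ((hmarg i).map_eq ▸ hφi.aestronglyMeasurable)
        rw [(hmarg i).map_eq] at this
        exact this.symm
    simp only [e, Finset.sum_const, Finset.card_univ, Fintype.card_fin, nsmul_eq_mul]
    have hsum := Finset.sum_le_sum (s := Finset.univ) fun i _ => hdiff i
    simp only [Finset.sum_const, Finset.card_univ, Fintype.card_fin, nsmul_eq_mul] at hsum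
    have hη' : (N : ℝ) * (s * Real.sqrt η) ≤ ε / 2 := by
      simp only [η, s]
      rw [Real.sqrt_sq (by positivity)]
      have hs0 := Real.sqrt_nonneg ((M : ℝ) * A)
      have hN' : (0 : ℝ) < N := by exact_mod_cast hN
      rw [← mul_assoc, mul_div, div_le_div_iff₀ (by positivity) two_pos]
      nlinarith [mul_pos hε hN']
    linarith
  have he : ((M * L : ℕ) : ℝ) * (C * a ^ 3) ≤ ε / 2 := by push_cast; exact hLe
  simp only [c'] at hfield ⊢
  linarith

end Vale.Agent.P157
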