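import Mathlib
import Vale.Agent.P157.RSInterp
import Vale.Agent.P157.Limit

/-!
The replica-symmetric formula bounds the limiting pressure from above.
-/

noncomputable section

open MeasureTheory ProbabilityTheory Filter
open scoped Topology ENNReal

namespace Vale.Agent.P157

lemma log_cosh_mem (x : ℝ) : 0 ≤ Real.log (Real.cosh x) ∧ Real.log (Real.cosh x) ≤ |x| := by
  refine ⟨Real.log_nonneg (Real.one_le_cosh x), ?_⟩
  rw [Real.log_le_iff_le_exp (Real.cosh_pos x), Real.cosh_eq]
  have h1 := Real.exp_le_exp.2 (le_abs_self x)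
  have h2 := Real.exp_le_exp.2 (neg_le_abs x)
  linarith

lemma integrable_log_cosh (s : ℝ) : Integrable (fun z => Real.log (Real.cosh (s * z))) gam1 := by
  refine ((IsGaussian.memLp_two_id.integrable one_le_two).abs.const_mul |s|).mono'
    (Real.measurable_log.comp (Real.continuous_cosh.measurable.comp
      (measurable_const_mul s))).aestronglyMeasurable (Eventually.of_forall fun z => ?_)
  rw [Real.norm_eq_abs, abs_of_nonneg (log_cosh_mem _).1]
  simpa [abs_mul] using (log_cosh_mem (s * z)).2

lemma gardnerA_nonneg {f : ℝ → ℝ} {q : ℝ} (hq : q < 1) : 0 ≤ gardnerA f q := by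
  rw [gardnerA_eq hq]; exact div_nonneg (integral_nonneg fun z => sq_nonneg _) (sq_nonneg _)

variable {N : ℕ}

lemma lint_field_rad (hN : 0 < N) (W : Fin N → ℝ) :
    lint (Measure.pi fun _ : Fin N => rad) (field W) =
      ∑ i, Real.log (Real.cosh (W i / Real.sqrt N)) := by
  have hrad : ∀ t : ℝ, ∫ x, Real.exp (t * x) ∂rad = Real.cosh t := by
    intro t
    have hi : ∀ a : ℝ, Integrable (fun x => Real.exp (t * x)) (Measure.dirac a) := fun a =>
      integrable_dirac (by simp [enorm_lt_top])
    rw [rad, integral_smul_measure, integral_add_measure (hi 1) (hi (-1)), integral_dirac,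
      integral_dirac, Real.cosh_eq]
    simp [div_eq_inv_mul]
  have he : (fun y : Fin N → ℝ => Real.exp (field W y)) =ᵐ[Measure.pi fun _ : Fin N => rad]
      fun y => ∏ i, Real.exp (W i / Real.sqrt N * y i) := by
    filter_upwards [ae_rad_sq] with y hy
    rw [← Real.exp_sum]
    congr 1
    refine Finset.sum_congr rfl fun i _ => ?_
    simp only [dir, nrm_of_sq_one hy, Fintype.card_fin]
    ring
  rw [lint, integral_congr_ae he,
    integral_fintype_prod_eq_prod (fun i x => Real.exp (W i / Real.sqrt N * x))]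
  simp only [hrad]
  exact Real.log_prod fun i _ => (Real.cosh_pos _).ne'

lemma integral_exp_linear_quadratic {lam : ℝ} (hl : 0 < lam) (h : ℝ) :
    ∫ x, Real.exp (h * x + (1 - lam) * x ^ 2 / 2) ∂gam1 =
      Real.exp (h ^ 2 / (2 * lam) - Real.log lam / 2) ∧
    Integrable (fun x => Real.exp (h * x + (1 - lam) * x ^ 2 / 2)) gam1 := by
  set v : NNReal := Real.toNNReal (1 / lam)
  have hv : v ≠ 0 := by
    simp only [v, ne_eq, Real.toNNReal_eq_zero, not_le]
    positivity
  have hsq : Real.sqrt lam ≠ 0 := (Real.sqrt_pos.2 hl).ne'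
  have e : ∀ x, gaussianPDFReal 0 1 x * Real.exp (h * x + (1 - lam) * x ^ 2 / 2) =
      Real.exp (h ^ 2 / (2 * lam) - Real.log lam / 2) * gaussianPDFReal (h / lam) v x := fun x => by
    simp only [gaussianPDFReal, NNReal.coe_one, mul_one, sub_zero, v,
      Real.coe_toNNReal _ (one_div_pos.2 hl).le]
    rw [Real.exp_sub, show Real.exp (Real.log lam / 2) = Real.sqrt lam by
        rw [Real.sqrt_eq_rpow, Real.rpow_def_of_pos hl]; ring_nf,
      show 2 * Real.pi * (1 / lam) = 2 * Real.pi / lam by ring,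
      Real.sqrt_div (by positivity), inv_div, mul_assoc, ← Real.exp_add]
    rw [show Real.exp (h ^ 2 / (2 * lam)) / Real.sqrt lam *
        (Real.sqrt lam / Real.sqrt (2 * Real.pi) *
          Real.exp (-(x - h / lam) ^ 2 / (2 * (1 / lam)))) =
        (Real.sqrt (2 * Real.pi))⁻¹ * (Real.exp (h ^ 2 / (2 * lam)) *
          Real.exp (-(x - h / lam) ^ 2 / (2 * (1 / lam)))) by field_simp, ← Real.exp_add]
    congr 2
    field_simp
    ring
  refine ⟨?_, ?_⟩
  · rw [integral_gam1]
    simp only [e]
    rw [integral_const_mul, integral_gaussianPDFReal_eq_one _ hv, mul_one]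
  · have hi : Integrable (fun x => gaussianPDFReal 0 1 x *
        Real.exp (h * x + (1 - lam) * x ^ 2 / 2)) := by
      simp only [e]
      exact (integrable_gaussianPDFReal _ _).const_mul _
    rw [gam1, gaussianReal_of_var_ne_zero _ one_ne_zero,
      integrable_withDensity_iff (measurable_gaussianPDF _ _)
        (Eventually.of_forall fun _ => gaussianPDF_lt_top)]
    refine hi.congr (Eventually.of_forall fun x => ?_)
    simp [toReal_gaussianPDF, mul_comm]

lemma integral_exp_field_mono (W : Fin N → ℝ) {c₁ c₂ : ℝ} (h1 : 0 ≤ c₁) (h2 : c₁ ≤ c₂) :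
    ∫ y, Real.exp (c₁ * field W y) ∂gam (Fin N) ≤ ∫ y, Real.exp (c₂ * field W y) ∂gam (Fin N) := by
  have hm : ∀ c, Integrable (fun y => Real.exp (c * field W y)) (gam (Fin N)) := fun c =>
    integrable_exp_of_abs_le ((measurable_field W).const_mul c) (K := |c| * ∑ i, |W i|) fun y => by
      rw [abs_mul]; exact mul_le_mul_of_nonneg_left (abs_field_le W y) (abs_nonneg c)
  have hneg : MeasurePreserving (fun (y : Fin N → ℝ) i => -y i) (gam (Fin N)) (gam (Fin N)) :=
    measurePreserving_pi _ _ fun _ => ⟨measurable_neg, by rw [gaussianReal_map_neg, neg_zero]⟩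
  have hodd : ∀ y : Fin N → ℝ, field W (fun i => -y i) = -field W y := fun y => by
    simp [field, dir, nrm, neg_div]
  have key : ∀ c, ∫ y, Real.exp (c * field W y) ∂gam (Fin N) =
      ∫ y, Real.cosh (c * field W y) ∂gam (Fin N) := fun c => by
    have hflip : ∫ y, Real.exp (c * field W y) ∂gam (Fin N) =
        ∫ y, Real.exp (-(c * field W y)) ∂gam (Fin N) := by
      conv_lhs => rw [← hneg.map_eq]
      rw [integral_map hneg.measurable.aemeasurable
        ((measurable_field W).const_mul c).exp.aestronglyMeasurable]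
      simp only [hodd, mul_neg]
    simp only [Real.cosh_eq, integral_div]
    rw [integral_add (hm c) ((hm (-c)).congr (Eventually.of_forall fun y => by simp only [neg_mul]))]
    linarith
  have hc : ∀ c, Integrable (fun y => Real.cosh (c * field W y)) (gam (Fin N)) := fun c => by
    simp only [Real.cosh_eq]
    exact ((hm c).add ((hm (-c)).congr (Eventually.of_forall fun y => by simp only [neg_mul]))).div_const 2
  rw [key, key]
  refine integral_mono (hc _) (hc _) fun y => Real.cosh_le_cosh.2 ?_
  rw [abs_mul, abs_mul, abs_of_nonneg h1, abs_of_nonneg (h1.trans h2)]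
  exact mul_le_mul_of_nonneg_right h2 (abs_nonneg _)

lemma lint_field_gauss_le (hN : 0 < N) {ε lam : ℝ} (hε : 0 < ε) (hε1 : ε < 1) (hl : 0 < lam)
    (hbig : 2 * gaussC * Real.sqrt N ≤ ε * N) (W : Fin N → ℝ) :
    lint (gam (Fin N)) (field W) ≤ (∑ i, W i ^ 2) / (2 * lam * (N * (1 - ε))) +
      ((N : ℝ) * (ε * |1 - lam| - Real.log lam - (1 - lam)) / 2 + Real.log 2) := by
  have hN' : (0 : ℝ) < N := by exact_mod_cast hN
  set S2 : (Fin N → ℝ) → ℝ := fun y => ∑ i, y i ^ 2
  set c := Real.sqrt (N * (1 - ε))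
  have hc : 0 < c := Real.sqrt_pos.2 (by nlinarith)
  set Wv : Fin N → ℝ := fun i => W i / c
  have hWc : ∀ y, field W y = c * field Wv y := fun y => by
    simp only [field, Finset.mul_sum, Wv]
    exact Finset.sum_congr rfl fun i _ => by field_simp
  set G : (Fin N → ℝ) → ℝ := fun y => Real.exp (∑ i, (Wv i * y i + (1 - lam) * y i ^ 2 / 2))
  set S := {y : Fin N → ℝ | |S2 y - N| ≤ ε * N}
  have hS2m : Measurable S2 := by simp only [S2]; fun_prop
  have hSm : MeasurableSet S := measurableSet_le (hS2m.sub_const _).abs measurable_const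
  have hSP : 1 / 2 ≤ (gam (Fin N)).real S := by
    have hmk := mul_meas_ge_le_integral_of_nonneg (μ := gam (Fin N))
      (f := fun y => |S2 y - N|) (Eventually.of_forall fun y => abs_nonneg _)
      (admissible_gaussian.sq_integrable N) (ε * N)
    have hsub : Sᶜ ⊆ {y | ε * N ≤ |S2 y - N|} := fun y hy => by
      simp only [S, Set.mem_compl_iff, Set.mem_setOf_eq, not_le] at hy
      exact hy.le
    have h1 := measureReal_mono (μ := gam (Fin N)) hsub
    rw [probReal_compl_eq_one_sub hSm] at h1
    have h2 := hmk.trans (admissible_gaussian.moment N)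
    have h3 : ε * N * (1 - (gam (Fin N)).real S) ≤ gaussC * Real.sqrt N :=
      (mul_le_mul_of_nonneg_left h1 (by positivity)).trans h2
    by_contra hcon
    have := mul_lt_mul_of_pos_left (show (1 : ℝ) / 2 < 1 - (gam (Fin N)).real S by linarith)
      (show 0 < ε * N by positivity)
    linarith
  have hGi : Integrable G (gam (Fin N)) := by
    simp only [G, Real.exp_sum]
    exact Integrable.fintype_prod fun i => (integral_exp_linear_quadratic hl (Wv i)).2
  have hGval : ∫ y, G y ∂gam (Fin N) =
      Real.exp ((∑ i, W i ^ 2) / (2 * lam * (N * (1 - ε))) - N * Real.log lam / 2) := by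
    simp only [G, Real.exp_sum]
    rw [integral_fintype_prod_eq_prod (fun i x => Real.exp (Wv i * x + (1 - lam) * x ^ 2 / 2))]
    simp only [(integral_exp_linear_quadratic hl _).1, ← Real.exp_sum, Finset.sum_sub_distrib]
    congr 2
    · rw [Finset.sum_div]
      refine Finset.sum_congr rfl fun i _ => ?_
      simp only [Wv, div_pow, c]
      rw [Real.sq_sqrt (by nlinarith)]
      field_simp
    · simp [mul_div_assoc]
  set J := ∫ y, Real.exp (field W y) ∂gam (Fin N)
  have hJ : 0 < J := (Real.exp_pos _).trans_le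
    (integral_exp_mem (measurable_field W) (abs_field_le W)).1
  set κ := (1 - lam) * N / 2 - ε * N * |1 - lam| / 2
  have hpol := admissible_gaussian.polar N
  have hrec : Measurable (recombine (ι := Fin N)) := measurable_recombine
  have hne : ∀ᵐ p ∂(gam (Fin N)).prod (gam (Fin N)), ∀ i, p.2 i ≠ 0 := by
    refine (Measure.quasiMeasurePreserving_snd (μ := gam (Fin N)) (ν := gam (Fin N))).ae
      (p := fun y : Fin N → ℝ => ∀ i, y i ≠ 0) ?_
    rw [ae_all_iff]
    intro i
    have h0 : ∀ᵐ x ∂gam1, x ≠ 0 := by rw [ae_iff]; simpa using admissible_gaussian.zero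
    exact (measurePreserving_eval (fun _ : Fin N => gam1) i).quasiMeasurePreserving.ae h0
  have hGi2 : Integrable (fun p : (Fin N → ℝ) × (Fin N → ℝ) => G (recombine p))
      ((gam (Fin N)).prod (gam (Fin N))) :=
    (MeasurePreserving.mk hrec hpol).integrable_comp_of_integrable hGi
  have hGprod : ∫ y, G y ∂gam (Fin N) =
      ∫ p, G (recombine p) ∂(gam (Fin N)).prod (gam (Fin N)) := by
    have hae : AEStronglyMeasurable G
        (((gam (Fin N)).prod (gam (Fin N))).map (recombine (ι := Fin N))) := by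
      rw [show ((gam (Fin N)).prod (gam (Fin N))).map (recombine (ι := Fin N)) = gam (Fin N) from hpol]
      exact hGi.aestronglyMeasurable
    exact (congrArg (fun m : Measure (Fin N → ℝ) => ∫ y, G y ∂m) hpol).symm.trans
      (integral_map hrec.aemeasurable hae)
  have hlow : ∫ y, S.indicator (fun _ => Real.exp κ * J) y ∂gam (Fin N) ≤ ∫ y, G y ∂gam (Fin N) := by
    rw [hGprod, integral_prod _ hGi2]
    refine integral_mono_ae ((integrable_const _).indicator hSm) hGi2.integral_prod_left ?_
    filter_upwards [hGi2.prod_right_ae, Measure.ae_ae_of_ae_prod hne] with y1 hy1 hy2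
    by_cases hy : y1 ∈ S
    swap
    · simp only [Set.indicator_of_notMem hy]
      exact integral_nonneg fun y2 => (Real.exp_pos _).le
    simp only [Set.indicator_of_mem hy]
    simp only [S, Set.mem_setOf_eq, abs_le] at hy
    have hy1n : c ≤ nrm y1 := Real.sqrt_le_sqrt (by simp only [S2] at hy; linarith [hy.1])
    calc Real.exp κ * J = Real.exp κ * ∫ y2, Real.exp (c * field Wv y2) ∂gam (Fin N) := by
          simp only [J, hWc]
      _ ≤ Real.exp κ * ∫ y2, Real.exp (nrm y1 * field Wv y2) ∂gam (Fin N) :=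
          mul_le_mul_of_nonneg_left (integral_exp_field_mono Wv hc.le hy1n) (Real.exp_pos _).le
      _ = ∫ y2, Real.exp κ * Real.exp (nrm y1 * field Wv y2) ∂gam (Fin N) :=
          (integral_const_mul _ _).symm
      _ ≤ ∫ y2, G (recombine (y1, y2)) ∂gam (Fin N) := by
          refine integral_mono_ae ((integrable_exp_of_abs_le ((measurable_field Wv).const_mul _)
            (K := |nrm y1| * ∑ i, |Wv i|) fun y => by
              rw [abs_mul]; exact mul_le_mul_of_nonneg_left (abs_field_le Wv y) (abs_nonneg _)).const_mul _)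
            hy1 ?_
          filter_upwards [hy2] with y2 h2
          rw [← Real.exp_add]
          refine Real.exp_le_exp.2 ?_
          have e1 : ∑ i, recombine (y1, y2) i ^ 2 = S2 y1 := by
            simp only [recombine, mul_pow, ← Finset.mul_sum, dir, div_pow, ← Finset.sum_div, nrm]
            rw [Real.sq_sqrt (Finset.sum_nonneg fun i _ => sq_nonneg _),
              Real.sq_sqrt (Finset.sum_nonneg fun i _ => sq_nonneg _), div_self, mul_one]
            exact ne_of_gt (Finset.sum_pos' (fun i _ => sq_nonneg _)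
              ⟨⟨0, hN⟩, Finset.mem_univ _, lt_of_le_of_ne (sq_nonneg _) (Ne.symm (pow_ne_zero 2 (h2 _)))⟩)
          have e2 : ∑ i, Wv i * recombine (y1, y2) i = nrm y1 * field Wv y2 := by
            simp only [recombine, field, Finset.mul_sum]
            exact Finset.sum_congr rfl fun i _ => by ring
          rw [Finset.sum_add_distrib, ← Finset.sum_div, ← Finset.mul_sum, e1, e2]
          have hab : |(1 - lam) * (S2 y1 - N)| ≤ ε * N * |1 - lam| := by
            rw [abs_mul, mul_comm]
            exact mul_le_mul_of_nonneg_right (abs_le.2 hy) (abs_nonneg _)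
          have := (abs_le.1 hab).1
          simp only [κ]
          linarith
  rw [integral_indicator_const _ hSm, hGval, smul_eq_mul] at hlow
  have h5 : Real.exp κ * J / 2 ≤
      Real.exp ((∑ i, W i ^ 2) / (2 * lam * (N * (1 - ε))) - N * Real.log lam / 2) := by
    refine le_trans ?_ hlow
    have := mul_le_mul_of_nonneg_right hSP (show 0 ≤ Real.exp κ * J by positivity)
    linarith
  have h6 := Real.log_le_log (by positivity) h5
  rw [Real.log_div (by positivity) two_ne_zero, Real.log_mul (Real.exp_pos _).ne' hJ.ne',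
    Real.log_exp, Real.log_exp] at h6
  change Real.log J ≤ _
  simp only [κ] at h6
  linarith

lemma tendsto_floor_div (α : ℝ) (hα : 0 ≤ α) :
    Tendsto (fun N : ℕ => (⌊α * N⌋₊ : ℝ) / N) atTop (𝓝 α) :=
  (tendsto_nat_floor_mul_div_atTop hα).comp tendsto_natCast_atTop_atTop

lemma eventually_floor_pos {α : ℝ} (hα : 0 < α) : ∀ᶠ N : ℕ in atTop, 0 < ⌊α * (N : ℝ)⌋₊ := by
  filter_upwards [(tendsto_natCast_atTop_atTop.const_mul_atTop hα).eventually_ge_atTop 1] with N hN
  exact Nat.floor_pos.2 hN

lemma tendsto_const_div_sqrt (c : ℝ) :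
    Tendsto (fun N : ℕ => c / Real.sqrt N) atTop (𝓝 0) :=
  (Real.tendsto_sqrt_atTop.comp tendsto_natCast_atTop_atTop).const_div_atTop c

lemma interp_error_le {K α : ℝ} (hK : 0 ≤ K) (hα : 0 ≤ α) {N : ℕ} (hN : 0 < N) :
    K * Real.sqrt ⌊α * (N : ℝ)⌋₊ / N ≤ K * Real.sqrt α / Real.sqrt N := by
  have hN' : (0 : ℝ) < N := by exact_mod_cast hN
  have h := Real.sqrt_le_sqrt (Nat.floor_le (show 0 ≤ α * (N : ℝ) by positivity))
  rw [Real.sqrt_mul hα] at h
  rw [div_le_div_iff₀ hN' (Real.sqrt_pos.2 hN')]
  calc K * Real.sqrt ⌊α * (N : ℝ)⌋₊ * Real.sqrt N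
      ≤ K * (Real.sqrt α * Real.sqrt N) * Real.sqrt N := by gcongr
    _ = K * Real.sqrt α * (Real.sqrt N * Real.sqrt N) := by ring
    _ = _ := by rw [Real.mul_self_sqrt hN'.le]

variable {f : ℝ → ℝ} {K α L q : ℝ}

/-- The replica-symmetric formula is an upper bound on the cube. -/
theorem limit_le_gardnerIsing (hf : Usable f K) (hcv : BlockConcave f) (hα : 0 < α)
    (hL : Tendsto (meanPressure isingLaw α f) atTop (𝓝 L)) (hq0 : 0 ≤ q) (hq1 : q < 1) :
    L ≤ gardnerIsing f α q := by
  obtain ⟨A, hA⟩ : ∃ A, A = gardnerA f q := ⟨_, rfl⟩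
  have hA0 : 0 ≤ A := hA ▸ gardnerA_nonneg hq1
  set c' := gardnerG f q - A * (1 - q) / 2
  set I := ∫ z, Real.log (Real.cosh (Real.sqrt (α * A) * z)) ∂gam1
  have hlim : Tendsto (fun N : ℕ => (⌊α * (N : ℝ)⌋₊ : ℝ) / N * c' + I +
      K * Real.sqrt α / Real.sqrt N) atTop (𝓝 (α * c' + I + 0)) :=
    (((tendsto_floor_div α hα.le).mul_const c').add_const I).add (tendsto_const_div_sqrt _)
  refine (le_of_tendsto_of_tendsto hL hlim ?_).trans (le_of_eq ?_)
  swap
  · simp only [gardnerIsing, c', I, hA]; ring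
  filter_upwards [eventually_gt_atTop 0, eventually_floor_pos hα] with N hN hM
  set M := ⌊α * (N : ℝ)⌋₊
  have hN' : (0 : ℝ) < N := by exact_mod_cast hN
  have hMle : (M : ℝ) ≤ α * N := Nat.floor_le (by positivity)
  have hne : ∀ᵐ y ∂(Measure.pi fun _ : Fin N => rad), ∀ i, y i ≠ 0 := by
    filter_upwards [ae_rad_sq] with y hy i h
    simpa [h] using hy i
  set s := Real.sqrt (M * A)
  have h := interp_bound hf hcv hN (π' := Measure.pi fun _ : Fin N => rad) hne hq0 hq1
    (φ := fun z => Real.log (Real.cosh (s / Real.sqrt N * z))) (c₀ := 0) (integrable_log_cosh _) hM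
    (fun g => by
      rw [lint_field_rad hN, ← hA, add_zero]
      refine le_of_eq (Finset.sum_congr rfl fun i _ => ?_)
      congr 2; ring)
  rw [← hA] at h
  have hsle : s / Real.sqrt N ≤ Real.sqrt (α * A) := by
    simp only [s, ← Real.sqrt_div (by positivity : 0 ≤ (M : ℝ) * A)]
    refine Real.sqrt_le_sqrt ?_
    rw [div_le_iff₀ hN']
    nlinarith
  have hmono : ∫ z, Real.log (Real.cosh (s / Real.sqrt N * z)) ∂gam1 ≤ I := by
    refine integral_mono (integrable_log_cosh _) (integrable_log_cosh _) fun z => ?_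
    refine Real.log_le_log (Real.cosh_pos _) (Real.cosh_le_cosh.2 ?_)
    rw [abs_mul, abs_mul, abs_of_nonneg (by positivity : 0 ≤ s / Real.sqrt N),
      abs_of_nonneg (Real.sqrt_nonneg _)]
    exact mul_le_mul_of_nonneg_right hsle (abs_nonneg z)
  rw [meanPressure_eq hf.meas hN α (isingLaw_eq hN)]
  change Phi (gam (Fin N)) (term f dir) _ M / N ≤ _
  calc Phi (gam (Fin N)) (term f dir) (Measure.pi fun _ : Fin N => rad) M / N
      ≤ ((M : ℝ) * c' + N * I + K * Real.sqrt M) / N := by
        gcongr
        have := mul_le_mul_of_nonneg_left hmono hN'.le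
        simp only [c']
        linarith
    _ = (M : ℝ) / N * c' + I + K * Real.sqrt M / N := by field_simp
    _ ≤ _ := add_le_add le_rfl (interp_error_le hf.nonneg hα.le hN)

/-- The replica-symmetric formula is an upper bound on the sphere. -/
theorem limit_le_gardnerSphere (hf : Usable f K) (hcv : BlockConcave f) (hα : 0 < α)
    (hL : Tendsto (meanPressure sphereLaw α f) atTop (𝓝 L)) (hq0 : 0 ≤ q) (hq1 : q < 1) :
    L ≤ gardnerSphere f α q := by
  obtain ⟨A, hA⟩ : ∃ A, A = gardnerA f q := ⟨_, rfl⟩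
  have hA0 : 0 ≤ A := hA ▸ gardnerA_nonneg hq1
  set c' := gardnerG f q - A * (1 - q) / 2
  set lam := 1 / (1 - q) with hlam
  have hl : 0 < lam := by rw [hlam]; exact one_div_pos.2 (by linarith)
  have hstep : ∀ ε, 0 < ε → ε < 1 → L ≤
      α * c' + α * A / (2 * lam * (1 - ε)) + (ε * |1 - lam| - Real.log lam - (1 - lam)) / 2 := by
    intro ε hε hε1
    set κ := (ε * |1 - lam| - Real.log lam - (1 - lam)) / 2
    set R := α * A / (2 * lam * (1 - ε))
    have hlim : Tendsto (fun N : ℕ => (⌊α * (N : ℝ)⌋₊ : ℝ) / N * c' + R + κ + Real.log 2 / N +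
        K * Real.sqrt α / Real.sqrt N) atTop (𝓝 (α * c' + R + κ + 0 + 0)) :=
      (((((tendsto_floor_div α hα.le).mul_const c').add_const R).add_const κ).add
        (tendsto_const_div_atTop_nhds_zero_nat _)).add (tendsto_const_div_sqrt _)
    refine (le_of_tendsto_of_tendsto hL hlim ?_).trans (le_of_eq (by ring))
    filter_upwards [eventually_gt_atTop 0, eventually_floor_pos hα,
      (Real.tendsto_sqrt_atTop.comp tendsto_natCast_atTop_atTop).eventually_ge_atTop
        (2 * gaussC / ε)] with N hN hM hbig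
    set M := ⌊α * (N : ℝ)⌋₊
    have hN' : (0 : ℝ) < N := by exact_mod_cast hN
    have hMle : (M : ℝ) ≤ α * N := Nat.floor_le (by positivity)
    have hbig' : 2 * gaussC * Real.sqrt N ≤ ε * N := by
      simp only [Function.comp_apply, div_le_iff₀ hε] at hbig
      calc 2 * gaussC * Real.sqrt N ≤ Real.sqrt N * ε * Real.sqrt N := by gcongr
        _ = ε * (Real.sqrt N * Real.sqrt N) := by ring
        _ = _ := by rw [Real.mul_self_sqrt hN'.le]
    have hne : ∀ᵐ y ∂gam (Fin N), ∀ i, y i ≠ 0 := by
      rw [ae_all_iff]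
      intro i
      have h0 : ∀ᵐ x ∂gam1, x ≠ 0 := by rw [ae_iff]; simpa using admissible_gaussian.zero
      exact (measurePreserving_eval (fun _ : Fin N => gam1) i).quasiMeasurePreserving.ae h0
    set t := (M : ℝ) * A / (2 * lam * (N * (1 - ε)))
    have hsqi : Integrable (fun z : ℝ => z ^ 2) gam1 := IsGaussian.memLp_two_id.integrable_sq
    have h := interp_bound hf hcv hN (π' := gam (Fin N)) hne hq0 hq1
      (φ := fun z => t * z ^ 2)
      (c₀ := (N : ℝ) * (ε * |1 - lam| - Real.log lam - (1 - lam)) / 2 + Real.log 2)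
      (hsqi.const_mul t) hM
      (fun g => by
        refine (lint_field_gauss_le hN hε hε1 hl hbig' _).trans (le_of_eq ?_)
        congr 1
        rw [← hA, Finset.sum_div]
        refine Finset.sum_congr rfl fun i _ => ?_
        rw [mul_pow, Real.sq_sqrt (by positivity)]
        simp only [t]
        ring)
    rw [← hA, integral_const_mul, integral_sq_gam1, mul_one] at h
    have hpos : 0 < 1 - ε := by linarith
    have ht : (N : ℝ) * t ≤ N * R := by
      refine mul_le_mul_of_nonneg_left ?_ hN'.le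
      simp only [t, R]
      rw [div_le_div_iff₀ (by positivity) (by positivity)]
      have := mul_le_mul_of_nonneg_right hMle (show 0 ≤ A * (2 * lam * (1 - ε)) by positivity)
      linarith
    rw [meanPressure_eq hf.meas hN α (sphereLaw_eq hN)]
    change Phi (gam (Fin N)) (term f dir) _ M / N ≤ _
    calc Phi (gam (Fin N)) (term f dir) (gam (Fin N)) M / N
        ≤ ((M : ℝ) * c' + N * R + N * κ + Real.log 2 + K * Real.sqrt M) / N := by
          gcongr
          simp only [κ, c']
          linarith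
      _ = (M : ℝ) / N * c' + R + κ + Real.log 2 / N + K * Real.sqrt M / N := by field_simp
      _ ≤ _ := add_le_add le_rfl (interp_error_le hf.nonneg hα.le hN)
  have hlim : Tendsto (fun ε => α * c' + α * A / (2 * lam * (1 - ε)) +
      (ε * |1 - lam| - Real.log lam - (1 - lam)) / 2) (𝓝[>] 0)
      (𝓝 (α * c' + α * A / (2 * lam * (1 - 0)) + (0 * |1 - lam| - Real.log lam - (1 - lam)) / 2)) := by
    refine Tendsto.mono_left ?_ nhdsWithin_le_nhds
    have : ContinuousAt (fun ε => α * c' + α * A / (2 * lam * (1 - ε)) +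
        (ε * |1 - lam| - Real.log lam - (1 - lam)) / 2) 0 := by
      fun_prop (disch := positivity)
    exact this
  refine (ge_of_tendsto hlim ?_).trans (le_of_eq ?_)
  · filter_upwards [Ioo_mem_nhdsGT (zero_lt_one (α := ℝ))] with ε hε using hstep ε hε.1 hε.2
  · have h1 : (1 - q) ≠ 0 := by linarith
    simp only [gardnerSphere, c', hlam, one_div, Real.log_inv, hA]
    field_simp
    ring

/-- Existence together with the Gardner bound. -/
theorem exists_limit_le_gardner (hf : Usable f K) (hcv : BlockConcave f) (hα : 0 < α) :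
    (∃ L, Tendsto (meanPressure isingLaw α f) atTop (𝓝 L) ∧
        ∀ q ∈ Set.Ico (0 : ℝ) 1, L ≤ gardnerIsing f α q) ∧
      ∃ L, Tendsto (meanPressure sphereLaw α f) atTop (𝓝 L) ∧
        ∀ q ∈ Set.Ico (0 : ℝ) 1, L ≤ gardnerSphere f α q := by
  obtain ⟨⟨L1, h1⟩, ⟨L2, h2⟩⟩ := exists_pressure_limit (α := α) hf hcv hα
  exact ⟨⟨L1, h1, fun q hq => limit_le_gardnerIsing hf hcv hα h1 hq.1 hq.2⟩,
    ⟨L2, h2, fun q hq => limit_le_gardnerSphere hf hcv hα h2 hq.1 hq.2⟩⟩

end Vale.Agent.P157
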