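import Mathlib
import Vale.Agent.P157.Potential

/-!
Gaussian integration by parts for product measures, and a general bound for integrals of linear forms.
-/

noncomputable section

open MeasureTheory ProbabilityTheory Filter
open scoped Topology

namespace Vale.Agent.P157

lemma gaussianPDFReal_zero_one (x : ℝ) :
    gaussianPDFReal 0 1 x = (Real.sqrt (2 * Real.pi))⁻¹ * Real.exp (-x ^ 2 / 2) := by
  simp [gaussianPDFReal]

lemma hasDerivAt_gaussianPDFReal (x : ℝ) :
    HasDerivAt (fun t => -gaussianPDFReal 0 1 t) (x * gaussianPDFReal 0 1 x) x := by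
  simp only [gaussianPDFReal_zero_one]
  have h := ((((hasDerivAt_pow 2 x).neg.div_const 2).exp).const_mul
    (Real.sqrt (2 * Real.pi))⁻¹).neg
  refine h.congr_deriv ?_
  simp; ring

/-- One-dimensional Gaussian integration by parts. -/
theorem integral_id_mul_gaussian {f f' : ℝ → ℝ} {A A' : ℝ} (hf : ∀ x, HasDerivAt f (f' x) x)
    (hb : ∀ x, |f x| ≤ A) (hb' : ∀ x, |f' x| ≤ A') :
    ∫ x, x * f x ∂gaussianReal 0 1 = ∫ x, f' x ∂gaussianReal 0 1 := by
  have hcont : Continuous f := continuous_iff_continuousAt.2 fun x => (hf x).continuousAt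
  have hm' : Measurable f' := by
    have : f' = deriv f := funext fun x => (hf x).deriv.symm
    rw [this]; exact measurable_deriv f
  set p := gaussianPDFReal 0 1 with hp
  have hpi : Integrable p := integrable_gaussianPDFReal 0 1
  have hpm : Measurable p := measurable_gaussianPDFReal 0 1
  have hxp : Integrable fun x => x * p x := by
    have h := (integrable_mul_exp_neg_mul_sq (b := 1 / 2) (by norm_num)).const_mul
      (Real.sqrt (2 * Real.pi))⁻¹
    refine h.congr (Eventually.of_forall fun x => ?_)
    simp only [hp, gaussianPDFReal_zero_one]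
    rw [show -(1 / 2 : ℝ) * x ^ 2 = -x ^ 2 / 2 by ring]
    ring
  have i1 : Integrable (f * fun x => x * p x) :=
    hxp.bdd_mul hcont.aestronglyMeasurable (c := A) (Eventually.of_forall hb)
  have i2 : Integrable (f' * fun x => -p x) :=
    hpi.neg.bdd_mul hm'.aestronglyMeasurable (c := A') (Eventually.of_forall hb')
  have i3 : Integrable (f * fun x => -p x) :=
    hpi.neg.bdd_mul hcont.aestronglyMeasurable (c := A) (Eventually.of_forall hb)
  have h := integral_mul_deriv_eq_deriv_mul_of_integrable (fun x _ => hf x)
    (fun x _ => hasDerivAt_gaussianPDFReal x) i1 i2 i3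
  rw [integral_gaussianReal_eq_integral_smul one_ne_zero,
    integral_gaussianReal_eq_integral_smul one_ne_zero]
  simp only [smul_eq_mul]
  calc ∫ x, p x * (x * f x) = ∫ x, f x * (x * p x) := by congr 1; ext x; ring
    _ = -∫ x, f' x * -p x := h
    _ = ∫ x, p x * f' x := by
        rw [← integral_neg]; congr 1; ext x; ring

variable {ι : Type*} [Fintype ι]

lemma integrable_abs_coord (i : ι) : Integrable (fun g : ι → ℝ => |g i|) (gam ι) :=
  (((IsGaussian.memLp_two_id (μ := gaussianReal 0 1)).comp_measurePreserving
    (measurePreserving_eval _ i)).integrable one_le_two).abs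

/-- `∑ |g i|`. -/
def coordAbs (g : ι → ℝ) : ℝ := ∑ i, |g i|

lemma measurable_coordAbs : Measurable (coordAbs (ι := ι)) := by unfold coordAbs; fun_prop

lemma integrable_coordAbs : Integrable (coordAbs (ι := ι)) (gam ι) :=
  integrable_finsetSum _ fun i _ => integrable_abs_coord i

lemma coordAbs_nonneg (g : ι → ℝ) : 0 ≤ coordAbs g := Finset.sum_nonneg fun i _ => abs_nonneg _

lemma abs_dot_le_coordAbs {e : ι → ℝ} {C : ℝ} (he : ∀ i, |e i| ≤ C) (g : ι → ℝ) :
    |dot g e| ≤ coordAbs g * C := by
  refine (Finset.abs_sum_le_sum_abs _ _).trans ?_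
  rw [coordAbs, Finset.sum_mul]
  exact Finset.sum_le_sum fun i _ => by
    rw [abs_mul]; exact mul_le_mul_of_nonneg_left (he i) (abs_nonneg _)

lemma measurePreserving_update [DecidableEq ι] (i : ι) :
    MeasurePreserving (fun p : ℝ × (ι → ℝ) => Function.update p.2 i p.1)
      ((gaussianReal 0 1).prod (gam ι)) (gam ι) := by
  have hm : Measurable fun p : ℝ × (ι → ℝ) => Function.update p.2 i p.1 := by
    refine measurable_pi_lambda _ fun j => ?_
    by_cases h : j = i
    · subst h; simp only [Function.update_self]; exact measurable_fst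
    · simp only [Function.update_of_ne h]; fun_prop
  refine ⟨hm, (Measure.pi_eq fun s hs => ?_).symm⟩
  rw [Measure.map_apply hm (MeasurableSet.univ_pi hs)]
  have : (fun p : ℝ × (ι → ℝ) => Function.update p.2 i p.1) ⁻¹' Set.univ.pi s =
      s i ×ˢ Set.univ.pi (Function.update s i Set.univ) := by
    ext p
    simp only [Set.mem_preimage, Set.mem_pi, Set.mem_univ, forall_true_left, Set.mem_prod]
    constructor
    · intro h
      refine ⟨by simpa using h i, fun j => ?_⟩
      by_cases hj : j = i
      · subst hj; simp
      · simpa [Function.update_of_ne hj] using h j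
    · rintro ⟨h1, h2⟩ j
      by_cases hj : j = i
      · subst hj; simpa using h1
      · simpa [Function.update_of_ne hj] using h2 j
  rw [this, Measure.prod_prod, Measure.pi_pi, ← Finset.mul_prod_erase _ _ (Finset.mem_univ i),
    ← Finset.mul_prod_erase (s := Finset.univ) (f := fun j => gaussianReal 0 1 (s j))
      (Finset.mem_univ i), Function.update_self, measure_univ, one_mul]
  congr 1
  exact Finset.prod_congr rfl fun j hj => by
    rw [Function.update_of_ne (Finset.ne_of_mem_erase hj)]

/-- Multivariate Gaussian integration by parts. -/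
theorem integral_dot_mul [DecidableEq ι] (e : ι → ℝ) {G : (ι → ℝ) → ℝ} {G' : ι → (ι → ℝ) → ℝ}
    {A A' : ℝ} (hG : Measurable G) (hG' : ∀ i, Measurable (G' i)) (hb : ∀ g, |G g| ≤ A)
    (hb' : ∀ i g, |G' i g| ≤ A')
    (hd : ∀ g i, HasDerivAt (fun t => G (Function.update g i t)) (G' i g) (g i)) :
    ∫ g, dot g e * G g ∂gam ι = ∫ g, ∑ i, e i * G' i g ∂gam ι := by
  have hcoord : ∀ i, ∫ g, g i * G g ∂gam ι = ∫ g, G' i g ∂gam ι := by
    intro i
    have hu := measurePreserving_update (ι := ι) i
    have hi : Integrable (fun g => g i * G g) (gam ι) :=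
      ((integrable_abs_coord i).mul_const A).mono' (by fun_prop)
        (Eventually.of_forall fun g => by
          rw [Real.norm_eq_abs, abs_mul]; exact mul_le_mul_of_nonneg_left (hb g) (abs_nonneg _))
    have hi' : Integrable (G' i) (gam ι) := integrable_of_abs_le (hG' i) (hb' i)
    have key : ∀ g, ∫ t, t * G (Function.update g i t) ∂gaussianReal 0 1 =
        ∫ t, G' i (Function.update g i t) ∂gaussianReal 0 1 := fun g => by
      refine integral_id_mul_gaussian (fun t => ?_) (fun t => hb _) (fun t => hb' i _)
      simpa [Function.update_idem, Function.update_self] using hd (Function.update g i t) i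
    have e1 : ∫ g, g i * G g ∂gam ι =
        ∫ p, p.1 * G (Function.update p.2 i p.1) ∂(gaussianReal 0 1).prod (gam ι) := by
      conv_lhs => rw [← hu.map_eq, integral_map hu.measurable.aemeasurable (by fun_prop)]
      simp
    have e2 : ∫ g, G' i g ∂gam ι =
        ∫ p, G' i (Function.update p.2 i p.1) ∂(gaussianReal 0 1).prod (gam ι) := by
      conv_lhs => rw [← hu.map_eq, integral_map hu.measurable.aemeasurable
        (hG' i).aestronglyMeasurable]
    have i1 : Integrable (fun p : ℝ × (ι → ℝ) => p.1 * G (Function.update p.2 i p.1))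
        ((gaussianReal 0 1).prod (gam ι)) :=
      (hu.integrable_comp_of_integrable hi).congr (Eventually.of_forall fun p => by simp)
    have i2 : Integrable (fun p : ℝ × (ι → ℝ) => G' i (Function.update p.2 i p.1))
        ((gaussianReal 0 1).prod (gam ι)) := hu.integrable_comp_of_integrable hi'
    rw [e1, e2, integral_prod_symm _ i1, integral_prod_symm _ i2]
    simp only [key]
  have hi : ∀ i ∈ Finset.univ, Integrable (fun g : ι → ℝ => e i * (g i * G g)) (gam ι) :=
    fun i _ => (((integrable_abs_coord i).mul_const A).mono' (by fun_prop)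
      (Eventually.of_forall fun g => by
        rw [Real.norm_eq_abs, abs_mul]
        exact mul_le_mul_of_nonneg_left (hb g) (abs_nonneg _))).const_mul _
  rw [show (fun g : ι → ℝ => dot g e * G g) = fun g => ∑ i, e i * (g i * G g) from funext fun g => by
    rw [dot, Finset.sum_mul]
    exact Finset.sum_congr rfl fun i _ => by ring, integral_finsetSum _ hi,
    integral_finsetSum _ fun i _ => (integrable_of_abs_le (hG' i) (hb' i)).const_mul _]
  simp only [integral_const_mul, hcoord]

end Vale.Agent.P157
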