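import Mathlib
import Vale.Agent.P157.Potential
import Vale.Agent.P157.Stein

/-!
Second derivative of the expected log-average along a path of feature maps.
-/

noncomputable section

open MeasureTheory ProbabilityTheory Filter
open scoped Topology

namespace Vale.Agent.P157

/-- A weight with three bounded derivatives, bounded below. -/
structure SmoothWeight where
  (U U1 U2 U3 : ℝ → ℝ)
  (a A : ℝ)
  apos : 0 < a
  lower : ∀ z, a ≤ U z
  d1 : ∀ z, HasDerivAt U (U1 z) z
  d2 : ∀ z, HasDerivAt U1 (U2 z) z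
  d3 : ∀ z, HasDerivAt U2 (U3 z) z
  b0 : ∀ z, |U z| ≤ A
  b1 : ∀ z, |U1 z| ≤ A
  b2 : ∀ z, |U2 z| ≤ A
  b3 : ∀ z, |U3 z| ≤ A

namespace SmoothWeight

variable (W : SmoothWeight)

lemma A_nonneg : 0 ≤ W.A := (abs_nonneg _).trans (W.b0 0)

lemma cont0 : Continuous W.U := continuous_iff_continuousAt.2 fun z => (W.d1 z).continuousAt
lemma cont1 : Continuous W.U1 := continuous_iff_continuousAt.2 fun z => (W.d2 z).continuousAt
lemma cont2 : Continuous W.U2 := continuous_iff_continuousAt.2 fun z => (W.d3 z).continuousAt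
lemma meas3 : Measurable W.U3 := by
  have : W.U3 = deriv W.U2 := funext fun z => (W.d3 z).deriv.symm
  rw [this]; exact measurable_deriv _

end SmoothWeight

/-- A differentiable path of features with constant Gram velocity. -/
structure Path {ι : Type*} [Fintype ι] {Y : Type*} [MeasurableSpace Y] (π' : Measure Y) where
  J : Set ℝ
  openJ : IsOpen J
  v : ℝ → Y → ι → ℝ
  e : ℝ → Y → ι → ℝ
  C : ℝ
  Cnonneg : 0 ≤ C
  vmeas : ∀ s, Measurable (v s)
  emeas : ∀ s, Measurable (e s)
  vb : ∀ s ∈ J, ∀ y i, |v s y i| ≤ C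
  eb : ∀ s ∈ J, ∀ y i, |e s y i| ≤ C
  deriv : ∀ s ∈ J, ∀ y i, HasDerivAt (fun r => v r y i) (e s y i) s
  K : Y → Y → ℝ
  kmeas : Measurable (Function.uncurry K)
  keq : ∀ s ∈ J, ∀ y w, dot (e s y) (v s w) + dot (v s y) (e s w) = K y w
  orth : ∀ s ∈ J, ∀ᵐ y ∂π', dot (e s y) (v s y) = 0

variable {ι : Type*} [Fintype ι] {Y : Type*} [MeasurableSpace Y] {π' : Measure Y}
  [IsProbabilityMeasure π'] (W : SmoothWeight) (P : Path (ι := ι) π')

lemma dot_comm (u w : ι → ℝ) : dot u w = dot w u :=
  Finset.sum_congr rfl fun i _ => mul_comm _ _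

lemma abs_dot_le {u w : ι → ℝ} {C C' : ℝ} (hC : 0 ≤ C) (hu : ∀ i, |u i| ≤ C) (hw : ∀ i, |w i| ≤ C') :
    |dot u w| ≤ Fintype.card ι * (C * C') := by
  refine (Finset.abs_sum_le_sum_abs _ _).trans ?_
  calc ∑ i, |u i * w i| ≤ ∑ _i : ι, C * C' := Finset.sum_le_sum fun i _ => by
        rw [abs_mul]; exact mul_le_mul (hu i) (hw i) (abs_nonneg _) hC
    _ = _ := by simp

namespace Path

/-- The field. -/
def z (s : ℝ) (g : ι → ℝ) (y : Y) : ℝ := dot g (P.v s y)

/-- Its velocity. -/
def zd (s : ℝ) (g : ι → ℝ) (y : Y) : ℝ := dot g (P.e s y)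

/-- The average weight. -/
def Z (s : ℝ) (g : ι → ℝ) : ℝ := ∫ y, W.U (P.z s g y) ∂π'

/-- The expected log-average. -/
def m (s : ℝ) : ℝ := ∫ g, Real.log (P.Z W s g) ∂gam ι

/-- The two-replica first-order term. -/
def R (s : ℝ) (g : ι → ℝ) : ℝ :=
  ∫ p : Y × Y, P.K p.1 p.2 * (W.U1 (P.z s g p.1) * W.U1 (P.z s g p.2)) ∂π'.prod π'

/-- Its expectation. -/
def Q (s : ℝ) : ℝ := ∫ g, P.R W s g / P.Z W s g ^ 2 ∂gam ι

/-- Second-order two-replica term. -/
def A1 (s : ℝ) (g : ι → ℝ) : ℝ :=
  ∫ p : Y × Y, P.K p.1 p.2 ^ 2 * (W.U2 (P.z s g p.1) * W.U2 (P.z s g p.2)) ∂π'.prod π'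

/-- Second-order three-replica term. -/
def A2 (s : ℝ) (g : ι → ℝ) : ℝ :=
  ∫ q : (Y × Y) × Y, P.K q.1.1 q.1.2 * P.K q.1.1 q.2 *
    (W.U2 (P.z s g q.1.1) * W.U1 (P.z s g q.1.2) * W.U1 (P.z s g q.2)) ∂(π'.prod π').prod π'

lemma measurable_z_uncurry (s : ℝ) : Measurable fun p : (ι → ℝ) × Y => P.z s p.1 p.2 :=
  measurable_dot_comp (P.vmeas s)

lemma measurable_zd_uncurry (s : ℝ) : Measurable fun p : (ι → ℝ) × Y => P.zd s p.1 p.2 :=
  measurable_dot_comp (P.emeas s)

lemma measurable_z (s : ℝ) (g : ι → ℝ) : Measurable (P.z s g) :=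
  (P.measurable_z_uncurry s).comp measurable_prodMk_left

lemma measurable_zd (s : ℝ) (g : ι → ℝ) : Measurable (P.zd s g) :=
  (P.measurable_zd_uncurry s).comp measurable_prodMk_left

lemma abs_zd_le {s : ℝ} (hs : s ∈ P.J) (g : ι → ℝ) (y : Y) : |P.zd s g y| ≤ coordAbs g * P.C :=
  abs_dot_le_coordAbs (P.eb s hs y) g

lemma integrable_U (s : ℝ) (g : ι → ℝ) : Integrable (fun y => W.U (P.z s g y)) π' :=
  integrable_of_abs_le (W.cont0.measurable.comp (P.measurable_z s g)) fun _ => W.b0 _

lemma Z_mem (s : ℝ) (g : ι → ℝ) : W.a ≤ P.Z W s g ∧ P.Z W s g ≤ W.A := by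
  constructor
  · calc W.a = ∫ _, W.a ∂π' := by simp
      _ ≤ _ := integral_mono (integrable_const _) (P.integrable_U W s g) fun y => W.lower _
  · calc P.Z W s g ≤ ∫ _, W.A ∂π' :=
          integral_mono (P.integrable_U W s g) (integrable_const _) fun y => (le_abs_self _).trans (W.b0 _)
      _ = W.A := by simp

lemma Z_pos (s : ℝ) (g : ι → ℝ) : 0 < P.Z W s g := W.apos.trans_le (P.Z_mem W s g).1

lemma measurable_Z (s : ℝ) : Measurable (P.Z W s) :=
  ((W.cont0.measurable.comp (P.measurable_z_uncurry s)).stronglyMeasurable.integral_prod_right'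
    (ν := π')).measurable

lemma hasDerivAt_z {s : ℝ} (hs : s ∈ P.J) (g : ι → ℝ) (y : Y) :
    HasDerivAt (fun r => P.z r g y) (P.zd s g y) s :=
  HasDerivAt.fun_sum fun i _ => (P.deriv s hs y i).const_mul (g i)

/-- The time derivative of the average. -/
def Zd (s : ℝ) (g : ι → ℝ) : ℝ := ∫ y, W.U1 (P.z s g y) * P.zd s g y ∂π'

lemma hasDerivAt_Z {s : ℝ} (hs : s ∈ P.J) (g : ι → ℝ) :
    HasDerivAt (fun r => P.Z W r g) (P.Zd W s g) s :=
  (hasDerivAt_integral_of_dominated_loc_of_deriv_le
    (F' := fun r y => W.U1 (P.z r g y) * P.zd r g y)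
    (bound := fun _ => W.A * (coordAbs g * P.C)) (P.openJ.mem_nhds hs)
    (Eventually.of_forall fun r => (W.cont0.measurable.comp (P.measurable_z r g)).aestronglyMeasurable)
    (P.integrable_U W s g)
    ((W.cont1.measurable.comp (P.measurable_z s g)).mul (P.measurable_zd s g)).aestronglyMeasurable
    (Eventually.of_forall fun y r hr => by
      rw [Real.norm_eq_abs, abs_mul]
      exact mul_le_mul (W.b1 _) (P.abs_zd_le hr g y) (abs_nonneg _) W.A_nonneg)
    (integrable_const _)
    (Eventually.of_forall fun y r hr => (W.d1 _).comp r (P.hasDerivAt_z hr g y))).2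

lemma abs_Zd_le {s : ℝ} (hs : s ∈ P.J) (g : ι → ℝ) : |P.Zd W s g| ≤ W.A * (coordAbs g * P.C) := by
  have := norm_integral_le_of_norm_le_const (μ := π')
    (f := fun y => W.U1 (P.z s g y) * P.zd s g y) (C := W.A * (coordAbs g * P.C))
    (Eventually.of_forall fun y => by
      rw [Real.norm_eq_abs, abs_mul]
      exact mul_le_mul (W.b1 _) (P.abs_zd_le hs g y) (abs_nonneg _) W.A_nonneg)
  simpa [Zd] using this

lemma measurable_Zd (s : ℝ) : Measurable (P.Zd W s) :=
  (((W.cont1.measurable.comp (P.measurable_z_uncurry s)).mul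
    (P.measurable_zd_uncurry s)).stronglyMeasurable.integral_prod_right' (ν := π')).measurable

lemma z_update [DecidableEq ι] (s : ℝ) (g : ι → ℝ) (y : Y) (i : ι) (t : ℝ) :
    P.z s (Function.update g i t) y = P.z s g y + (t - g i) * P.v s y i := by
  simp only [z, dot]
  rw [← Finset.add_sum_erase _ _ (Finset.mem_univ i),
    ← Finset.add_sum_erase (s := Finset.univ) (f := fun j => g j * P.v s y j) (Finset.mem_univ i),
    Function.update_self, Finset.sum_congr rfl fun j hj => by
      rw [Function.update_of_ne (Finset.ne_of_mem_erase hj)]]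
  ring

lemma hasDerivAt_z_coord [DecidableEq ι] (s : ℝ) (g : ι → ℝ) (y : Y) (i : ι) :
    HasDerivAt (fun t => P.z s (Function.update g i t) y) (P.v s y i) (g i) := by
  simp only [P.z_update]
  simpa using (((hasDerivAt_id (g i)).sub_const (g i)).mul_const (P.v s y i)).const_add (P.z s g y)

/-- The spatial derivative of the average. -/
def Zi (s : ℝ) (g : ι → ℝ) (i : ι) : ℝ := ∫ x, W.U1 (P.z s g x) * P.v s x i ∂π'

lemma abs_Zi_le {s : ℝ} (hs : s ∈ P.J) (g : ι → ℝ) (i : ι) : |P.Zi W s g i| ≤ W.A * P.C := by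
  have := norm_integral_le_of_norm_le_const (μ := π')
    (f := fun x => W.U1 (P.z s g x) * P.v s x i) (C := W.A * P.C)
    (Eventually.of_forall fun y => by
      rw [Real.norm_eq_abs, abs_mul]
      exact mul_le_mul (W.b1 _) (P.vb s hs y i) (abs_nonneg _) W.A_nonneg)
  simpa [Zi] using this

lemma measurable_Zi (s : ℝ) (i : ι) : Measurable fun g => P.Zi W s g i :=
  (((W.cont1.measurable.comp (P.measurable_z_uncurry s)).mul
    (((measurable_pi_apply i).comp (P.vmeas s)).comp measurable_snd)).stronglyMeasurable.integral_prod_right'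
      (ν := π')).measurable

lemma hasDerivAt_Z_coord [DecidableEq ι] {s : ℝ} (hs : s ∈ P.J) (g : ι → ℝ) (i : ι) :
    HasDerivAt (fun t => P.Z W s (Function.update g i t)) (P.Zi W s g i) (g i) := by
  have h := (hasDerivAt_integral_of_dominated_loc_of_deriv_le
    (F := fun t y => W.U (P.z s (Function.update g i t) y))
    (F' := fun t y => W.U1 (P.z s (Function.update g i t) y) * P.v s y i)
    (x₀ := g i) (bound := fun _ => W.A * P.C) univ_mem
    (Eventually.of_forall fun t =>
      (W.cont0.measurable.comp (P.measurable_z s _)).aestronglyMeasurable)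
    (P.integrable_U W s _)
    ((W.cont1.measurable.comp (P.measurable_z s _)).mul
      ((measurable_pi_apply i).comp (P.vmeas s))).aestronglyMeasurable
    (Eventually.of_forall fun y t _ => by
      rw [Real.norm_eq_abs, abs_mul]
      exact mul_le_mul (W.b1 _) (P.vb s hs y i) (abs_nonneg _) W.A_nonneg)
    (integrable_const _)
    (Eventually.of_forall fun y t _ => ?_)).2
  · simp only [Function.update_eq_self] at h
    exact h
  · have := P.hasDerivAt_z_coord s (Function.update g i t) y i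
    simp only [Function.update_idem, Function.update_self] at this
    exact (W.d1 _).comp t this

lemma abs_K_le {s : ℝ} (hs : s ∈ P.J) (y w : Y) :
    |P.K y w| ≤ 2 * (Fintype.card ι * (P.C * P.C)) := by
  rw [← P.keq s hs y w, two_mul]
  exact (abs_add_le _ _).trans (add_le_add (abs_dot_le P.Cnonneg (P.eb s hs y) (P.vb s hs w))
    (abs_dot_le P.Cnonneg (P.vb s hs y) (P.eb s hs w)))

lemma K_comm {s : ℝ} (hs : s ∈ P.J) (y w : Y) : P.K y w = P.K w y := by
  rw [← P.keq s hs y w, ← P.keq s hs w y, dot_comm (P.e s w), dot_comm (P.v s w), add_comm]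

/-- Integration by parts at a fixed replica configuration: first order. -/
lemma ibp_first {s : ℝ} (hs : s ∈ P.J) (y : Y) :
    ∫ g, P.zd s g y * (W.U1 (P.z s g y) / P.Z W s g) ∂gam ι =
      ∫ g, (dot (P.e s y) (P.v s y) * W.U2 (P.z s g y) / P.Z W s g -
        W.U1 (P.z s g y) * (∫ x, W.U1 (P.z s g x) * dot (P.e s y) (P.v s x) ∂π') /
          P.Z W s g ^ 2) ∂gam ι := by
  classical
  have hzm : Measurable fun g => P.z s g y :=
    (P.measurable_z_uncurry s).comp measurable_prodMk_right
  refine (integral_dot_mul (P.e s y) (G := fun g => W.U1 (P.z s g y) / P.Z W s g)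
    (G' := fun i g => W.U2 (P.z s g y) * P.v s y i / P.Z W s g -
      W.U1 (P.z s g y) * P.Zi W s g i / P.Z W s g ^ 2)
    (A := W.A / W.a) (A' := W.A * P.C / W.a + W.A * (W.A * P.C) / W.a ^ 2)
    ((W.cont1.measurable.comp hzm).div (P.measurable_Z W s))
    (fun i => (((W.cont2.measurable.comp hzm).mul_const _).div (P.measurable_Z W s)).sub
      (((W.cont1.measurable.comp hzm).mul (P.measurable_Zi W s i)).div
        ((P.measurable_Z W s).pow_const 2))) (fun g => ?_) (fun i g => ?_) fun g i => ?_).trans ?_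
  · rw [abs_div, abs_of_pos (P.Z_pos W s g)]
    exact div_le_div₀ W.A_nonneg (W.b1 _) W.apos (P.Z_mem W s g).1
  · refine (abs_sub _ _).trans (add_le_add ?_ ?_)
    · rw [abs_div, abs_mul, abs_of_pos (P.Z_pos W s g)]
      exact div_le_div₀ (mul_nonneg W.A_nonneg P.Cnonneg)
        (mul_le_mul (W.b2 _) (P.vb s hs y i) (abs_nonneg _) W.A_nonneg) W.apos (P.Z_mem W s g).1
    · rw [abs_div, abs_mul, abs_of_pos (pow_pos (P.Z_pos W s g) 2)]
      exact div_le_div₀ (mul_nonneg W.A_nonneg (mul_nonneg W.A_nonneg P.Cnonneg))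
        (mul_le_mul (W.b1 _) (P.abs_Zi_le W hs g i) (abs_nonneg _) W.A_nonneg)
        (pow_pos W.apos 2) (pow_le_pow_left₀ W.apos.le (P.Z_mem W s g).1 2)
  · have h1 := (W.d2 _).comp (g i) (P.hasDerivAt_z_coord s g y i)
    have h2 := h1.div (P.hasDerivAt_Z_coord W hs g i)
      (by rw [Function.update_eq_self]; exact (P.Z_pos W s g).ne')
    simp only [Function.comp_apply, Function.update_eq_self] at h2
    refine h2.congr_deriv ?_
    have := (P.Z_pos W s g).ne'
    field_simp
  · refine integral_congr_ae (Eventually.of_forall fun g => ?_)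
    simp only [mul_sub, Finset.sum_sub_distrib]
    congr 1
    · simp only [dot, Finset.sum_mul, Finset.sum_div]
      exact Finset.sum_congr rfl fun i _ => by ring
    · have e : ∫ x, W.U1 (P.z s g x) * dot (P.e s y) (P.v s x) ∂π' =
          ∑ i, P.e s y i * P.Zi W s g i := by
        simp only [Zi, ← integral_const_mul, dot, Finset.mul_sum]
        rw [integral_finsetSum]
        · exact Finset.sum_congr rfl fun i _ => by congr 1; ext x; ring
        · intro i _
          refine integrable_of_abs_le (K := W.A * (P.C * P.C))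
            ((W.cont1.measurable.comp (P.measurable_z s g)).mul
              (((measurable_pi_apply i).comp (P.vmeas s)).const_mul _)) fun x => ?_
          rw [abs_mul, abs_mul]
          exact mul_le_mul (W.b1 _) (mul_le_mul (P.eb s hs y i) (P.vb s hs x i) (abs_nonneg _)
            P.Cnonneg) (by positivity) W.A_nonneg
      rw [e, Finset.mul_sum, Finset.sum_div]
      exact Finset.sum_congr rfl fun i _ => by ring

lemma measurable_dot_ev (s : ℝ) : Measurable fun p : Y × Y => dot (P.e s p.1) (P.v s p.2) :=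
  measurable_dot.comp (((P.emeas s).comp measurable_fst).prodMk ((P.vmeas s).comp measurable_snd))

/-- The first derivative. -/
theorem hasDerivAt_m {s : ℝ} (hs : s ∈ P.J) :
    HasDerivAt (P.m W) (-(1 / 2) * P.Q W s) s := by
  have hlog : ∀ r g, |Real.log (P.Z W r g)| ≤ |Real.log W.a| + |Real.log W.A| := fun r g => by
    have h1 := Real.log_le_log W.apos (P.Z_mem W r g).1
    have h2 := Real.log_le_log (P.Z_pos W r g) (P.Z_mem W r g).2
    rw [abs_le]
    constructor <;> linarith [neg_abs_le (Real.log W.a), le_abs_self (Real.log W.A),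
      abs_nonneg (Real.log W.a), abs_nonneg (Real.log W.A)]
  have hd := (hasDerivAt_integral_of_dominated_loc_of_deriv_le (μ := gam ι)
    (F := fun r g => Real.log (P.Z W r g))
    (F' := fun r g => P.Zd W r g / P.Z W r g)
    (bound := fun g => W.A * (coordAbs g * P.C) / W.a) (P.openJ.mem_nhds hs)
    (Eventually.of_forall fun r => (Real.measurable_log.comp (P.measurable_Z W r)).aestronglyMeasurable)
    (integrable_of_abs_le (Real.measurable_log.comp (P.measurable_Z W s)) (hlog s))
    ((P.measurable_Zd W s).div (P.measurable_Z W s)).aestronglyMeasurable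
    (Eventually.of_forall fun g r hr => by
      rw [Real.norm_eq_abs, abs_div, abs_of_pos (P.Z_pos W r g)]
      exact div_le_div₀ (mul_nonneg W.A_nonneg (mul_nonneg (coordAbs_nonneg g) P.Cnonneg))
        (P.abs_Zd_le W hr g) W.apos (P.Z_mem W r g).1)
    (((integrable_coordAbs.mul_const _).const_mul _).div_const _)
    (Eventually.of_forall fun g r hr => (P.hasDerivAt_Z W hr g).log (P.Z_pos W r g).ne')).2
  refine hd.congr_deriv ?_
  set G : (ι → ℝ) → Y → ℝ := fun g y => P.zd s g y * (W.U1 (P.z s g y) / P.Z W s g) with hG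
  have hGi : Integrable (Function.uncurry G) ((gam ι).prod π') := by
    refine (((integrable_coordAbs (ι := ι)).mul_const P.C).mul_const (W.A / W.a)).comp_fst π' |>.mono'
      (Measurable.aestronglyMeasurable ?_) (Eventually.of_forall fun p => ?_)
    · exact (P.measurable_zd_uncurry s).mul ((W.cont1.measurable.comp (P.measurable_z_uncurry s)).div
        ((P.measurable_Z W s).comp measurable_fst))
    · rw [Real.norm_eq_abs]
      simp only [hG, Function.uncurry, abs_mul, abs_div, abs_of_pos (P.Z_pos W s p.1)]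
      exact mul_le_mul (P.abs_zd_le hs _ _) (div_le_div₀ W.A_nonneg (W.b1 _) W.apos
        (P.Z_mem W s _).1) (div_nonneg (abs_nonneg _) (P.Z_pos W s _).le)
        (mul_nonneg (coordAbs_nonneg _) P.Cnonneg)
  have e0 : ∀ g, P.Zd W s g / P.Z W s g = ∫ y, G g y ∂π' := fun g => by
    rw [Zd, ← integral_div]
    congr 1; ext y; simp only [hG]; ring
  simp only [e0]
  rw [integral_integral_swap hGi]
  simp only [hG, P.ibp_first W hs]
  -- the self-interaction term vanishes
  set L : (ι → ℝ) → Y → ℝ := fun g y => W.U1 (P.z s g y) *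
    (∫ x, W.U1 (P.z s g x) * dot (P.e s y) (P.v s x) ∂π') / P.Z W s g ^ 2 with hL
  have hae : ∀ᵐ y ∂π', ∫ g, (dot (P.e s y) (P.v s y) * W.U2 (P.z s g y) / P.Z W s g - L g y) ∂gam ι =
      ∫ g, -L g y ∂gam ι := by
    filter_upwards [P.orth s hs] with y hy
    simp [hy]
  rw [integral_congr_ae hae]
  simp only [integral_neg]
  have hin : Measurable fun q : (ι → ℝ) × Y =>
      ∫ x, W.U1 (P.z s q.1 x) * dot (P.e s q.2) (P.v s x) ∂π' :=
    (((W.cont1.measurable.comp ((P.measurable_z_uncurry s).comp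
        (f := fun r : ((ι → ℝ) × Y) × Y => (r.1.1, r.2))
        ((measurable_fst.comp measurable_fst).prodMk measurable_snd))).mul
      ((P.measurable_dot_ev s).comp (f := fun r : ((ι → ℝ) × Y) × Y => (r.1.2, r.2))
        ((measurable_snd.comp measurable_fst).prodMk measurable_snd))).stronglyMeasurable.integral_prod_right'
          (ν := π')).measurable
  have hinb : ∀ g y, |∫ x, W.U1 (P.z s g x) * dot (P.e s y) (P.v s x) ∂π'| ≤
      W.A * (Fintype.card ι * (P.C * P.C)) := fun g y => by
    have := norm_integral_le_of_norm_le_const (μ := π')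
      (f := fun x => W.U1 (P.z s g x) * dot (P.e s y) (P.v s x))
      (C := W.A * (Fintype.card ι * (P.C * P.C))) (Eventually.of_forall fun x => by
        rw [Real.norm_eq_abs, abs_mul]
        exact mul_le_mul (W.b1 _) (abs_dot_le P.Cnonneg (P.eb s hs y) (P.vb s hs x)) (abs_nonneg _)
          W.A_nonneg)
    simpa using this
  have hLi : Integrable (Function.uncurry L) ((gam ι).prod π') := by
    refine integrable_of_abs_le (K := W.A * (W.A * (Fintype.card ι * (P.C * P.C))) / W.a ^ 2)
      (((W.cont1.measurable.comp (P.measurable_z_uncurry s)).mul hin).div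
        (((P.measurable_Z W s).comp measurable_fst).pow_const 2)) fun q => ?_
    simp only [hL, Function.uncurry, abs_div, abs_mul, abs_of_pos (pow_pos (P.Z_pos W s q.1) 2)]
    exact div_le_div₀ (mul_nonneg W.A_nonneg (mul_nonneg W.A_nonneg
        (mul_nonneg (Nat.cast_nonneg _) (mul_nonneg P.Cnonneg P.Cnonneg))))
      (mul_le_mul (W.b1 _) (hinb _ _) (abs_nonneg _) W.A_nonneg) (pow_pos W.apos 2)
      (pow_le_pow_left₀ W.apos.le (P.Z_mem W s _).1 2)
  rw [← integral_integral_swap hLi, Q, ← integral_const_mul, ← integral_neg]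
  congr 1
  ext g
  -- symmetrise
  simp only [hL, R]
  rw [integral_div, ← mul_div_assoc, ← neg_div]
  congr 1
  set H : Y × Y → ℝ := fun p =>
    W.U1 (P.z s g p.1) * W.U1 (P.z s g p.2) * dot (P.e s p.1) (P.v s p.2)
  have hHi : Integrable H (π'.prod π') := by
    refine integrable_of_abs_le (K := W.A * W.A * (Fintype.card ι * (P.C * P.C)))
      (((W.cont1.measurable.comp ((P.measurable_z s g).comp measurable_fst)).mul
        (W.cont1.measurable.comp ((P.measurable_z s g).comp measurable_snd))).mul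
        (P.measurable_dot_ev s)) fun p => ?_
    simp only [H, abs_mul]
    exact mul_le_mul (mul_le_mul (W.b1 _) (W.b1 _) (abs_nonneg _) W.A_nonneg)
      (abs_dot_le P.Cnonneg (P.eb s hs _) (P.vb s hs _)) (abs_nonneg _)
      (mul_nonneg W.A_nonneg W.A_nonneg)
  have e1 : ∫ y, W.U1 (P.z s g y) * ∫ x, W.U1 (P.z s g x) * dot (P.e s y) (P.v s x) ∂π' ∂π' =
      ∫ p, H p ∂π'.prod π' := by
    rw [integral_prod _ hHi]
    simp only [← integral_const_mul, H, mul_assoc]
  have e2 : ∫ p : Y × Y, P.K p.1 p.2 * (W.U1 (P.z s g p.1) * W.U1 (P.z s g p.2)) ∂π'.prod π' =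
      (∫ p, H p ∂π'.prod π') + ∫ p, H p.swap ∂π'.prod π' := by
    have hs' : Integrable (fun p => H p.swap) (π'.prod π') := hHi.swap
    rw [← integral_add hHi hs']
    congr 1
    ext p
    simp only [H, Prod.fst_swap, Prod.snd_swap, ← P.keq s hs p.1 p.2,
      dot_comm (P.v s p.1) (P.e s p.2)]
    ring
  rw [e1, e2, integral_prod_swap]
  ring

end Path

end Vale.Agent.P157
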