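import Mathlib
import Vale.Agent.P157.Potential
import Vale.Agent.P157.Stein
import Vale.Agent.P157.Interp

/-!
The second derivative along a path.
-/

noncomputable section

open MeasureTheory ProbabilityTheory Filter
open scoped Topology

namespace Vale.Agent.P157

variable {ι : Type*} [Fintype ι] {Y : Type*} [MeasurableSpace Y] {π' : Measure Y}
  [IsProbabilityMeasure π'] (W : SmoothWeight) (P : Path (ι := ι) π')

namespace Path

/-- The interaction with the velocity at a configuration. -/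
def ZE (s : ℝ) (g : ι → ℝ) (y : Y) : ℝ :=
  ∫ x, W.U1 (P.z s g x) * dot (P.e s y) (P.v s x) ∂π'

/-- A bound for Gram velocities. -/
def dC : ℝ := Fintype.card ι * (P.C * P.C)

omit [IsProbabilityMeasure π'] in
lemma dC_nonneg : 0 ≤ P.dC := mul_nonneg (Nat.cast_nonneg _) (mul_nonneg P.Cnonneg P.Cnonneg)

omit [IsProbabilityMeasure π'] in
lemma abs_dot_ev_le {s : ℝ} (hs : s ∈ P.J) (y x : Y) : |dot (P.e s y) (P.v s x)| ≤ P.dC :=
  abs_dot_le P.Cnonneg (P.eb s hs y) (P.vb s hs x)

lemma abs_ZE_le {s : ℝ} (hs : s ∈ P.J) (g : ι → ℝ) (y : Y) : |P.ZE W s g y| ≤ W.A * P.dC := by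
  have := norm_integral_le_of_norm_le_const (μ := π')
    (f := fun x => W.U1 (P.z s g x) * dot (P.e s y) (P.v s x)) (C := W.A * P.dC)
    (Eventually.of_forall fun x => by
      rw [Real.norm_eq_abs, abs_mul]
      exact mul_le_mul (W.b1 _) (P.abs_dot_ev_le hs y x) (abs_nonneg _) W.A_nonneg)
  simpa [ZE] using this

lemma measurable_ZE (s : ℝ) : Measurable fun q : (ι → ℝ) × Y => P.ZE W s q.1 q.2 :=
  (((W.cont1.measurable.comp ((P.measurable_z_uncurry s).comp
      (f := fun r : ((ι → ℝ) × Y) × Y => (r.1.1, r.2))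
      ((measurable_fst.comp measurable_fst).prodMk measurable_snd))).mul
    ((P.measurable_dot_ev s).comp (f := fun r : ((ι → ℝ) × Y) × Y => (r.1.2, r.2))
      ((measurable_snd.comp measurable_fst).prodMk measurable_snd))).stronglyMeasurable.integral_prod_right'
        (ν := π')).measurable

lemma sum_e_Zi {s : ℝ} (hs : s ∈ P.J) (g : ι → ℝ) (y : Y) :
    ∑ i, P.e s y i * P.Zi W s g i = P.ZE W s g y := by
  simp only [Zi, ZE, ← integral_const_mul, dot, Finset.mul_sum]
  rw [integral_finsetSum]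
  · exact Finset.sum_congr rfl fun i _ => by congr 1; ext x; ring
  · intro i _
    refine integrable_of_abs_le (K := W.A * (P.C * P.C))
      ((W.cont1.measurable.comp (P.measurable_z s g)).mul
        (((measurable_pi_apply i).comp (P.vmeas s)).const_mul _)) fun x => ?_
    rw [abs_mul, abs_mul]
    exact mul_le_mul (W.b1 _) (mul_le_mul (P.eb s hs y i) (P.vb s hs x i) (abs_nonneg _)
      P.Cnonneg) (mul_nonneg (abs_nonneg _) (abs_nonneg _)) W.A_nonneg

/-- Integration by parts against a ratio with a power of the average. -/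
lemma ibp_ratio [DecidableEq ι] {s : ℝ} (hs : s ∈ P.J) (k : ℕ) (y₀ : Y) {N : (ι → ℝ) → ℝ}
    {N' : ι → (ι → ℝ) → ℝ} {B B' : ℝ} (hN : Measurable N) (hN' : ∀ i, Measurable (N' i))
    (hNb : ∀ g, |N g| ≤ B) (hNb' : ∀ i g, |N' i g| ≤ B')
    (hd : ∀ g i, HasDerivAt (fun t => N (Function.update g i t)) (N' i g) (g i)) :
    ∫ g, P.zd s g y₀ * (N g / P.Z W s g ^ k) ∂gam ι =
      ∫ g, ((∑ i, P.e s y₀ i * N' i g) / P.Z W s g ^ k -
        k * N g * P.ZE W s g y₀ / P.Z W s g ^ (k + 1)) ∂gam ι := by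
  refine (integral_dot_mul (P.e s y₀) (G := fun g => N g / P.Z W s g ^ k)
    (G' := fun i g => N' i g / P.Z W s g ^ k -
      k * N g * P.Zi W s g i / P.Z W s g ^ (k + 1))
    (A := B / W.a ^ k) (A' := B' / W.a ^ k + k * B * (W.A * P.C) / W.a ^ (k + 1))
    (hN.div ((P.measurable_Z W s).pow_const k))
    (fun i => ((hN' i).div ((P.measurable_Z W s).pow_const k)).sub
      (((hN.const_mul _).mul (P.measurable_Zi W s i)).div ((P.measurable_Z W s).pow_const _)))
    (fun g => ?_) (fun i g => ?_) fun g i => ?_).trans ?_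
  · have hB : 0 ≤ B := (abs_nonneg _).trans (hNb g)
    rw [abs_div, abs_of_pos (pow_pos (P.Z_pos W s g) k)]
    exact div_le_div₀ hB (hNb g) (pow_pos W.apos k) (pow_le_pow_left₀ W.apos.le (P.Z_mem W s g).1 k)
  · have hB : 0 ≤ B := (abs_nonneg _).trans (hNb g)
    have hB' : 0 ≤ B' := (abs_nonneg _).trans (hNb' i g)
    refine (abs_sub _ _).trans (add_le_add ?_ ?_)
    · rw [abs_div, abs_of_pos (pow_pos (P.Z_pos W s g) k)]
      exact div_le_div₀ hB' (hNb' i g) (pow_pos W.apos k)
        (pow_le_pow_left₀ W.apos.le (P.Z_mem W s g).1 k)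
    · rw [abs_div, abs_mul, abs_mul, Nat.abs_cast, abs_of_pos (pow_pos (P.Z_pos W s g) (k + 1))]
      exact div_le_div₀ (mul_nonneg (mul_nonneg (Nat.cast_nonneg _) hB)
          (mul_nonneg W.A_nonneg P.Cnonneg))
        (mul_le_mul (mul_le_mul_of_nonneg_left (hNb g) (Nat.cast_nonneg _)) (P.abs_Zi_le W hs g i)
          (abs_nonneg _) (mul_nonneg (Nat.cast_nonneg _) hB))
        (pow_pos W.apos _) (pow_le_pow_left₀ W.apos.le (P.Z_mem W s g).1 _)
  · have h2 := (hd g i).div ((P.hasDerivAt_Z_coord W hs g i).pow k)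
      (by simp only [Pi.pow_apply, Function.update_eq_self]; exact (pow_pos (P.Z_pos W s g) k).ne')
    simp only [Pi.pow_apply, Function.update_eq_self] at h2
    refine h2.congr_deriv ?_
    have := (P.Z_pos W s g).ne'
    cases k with
    | zero => simp
    | succ j =>
      simp only [Nat.add_sub_cancel]
      field_simp
      push_cast
      ring
  · refine integral_congr_ae (Eventually.of_forall fun g => ?_)
    simp only [mul_sub, Finset.sum_sub_distrib, ← P.sum_e_Zi W hs g y₀, Finset.mul_sum,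
      Finset.sum_div]
    congr 1
    · exact Finset.sum_congr rfl fun i _ => by ring
    · exact Finset.sum_congr rfl fun i _ => by ring

lemma hasDerivAt_U1_coord [DecidableEq ι] (s : ℝ) (g : ι → ℝ) (y : Y) (i : ι) :
    HasDerivAt (fun t => W.U1 (P.z s (Function.update g i t) y))
      (W.U2 (P.z s g y) * P.v s y i) (g i) := by
  have h := (W.d2 _).comp (g i) (P.hasDerivAt_z_coord s g y i)
  simpa [Function.comp_def, Function.update_eq_self] using h

lemma hasDerivAt_U2_coord [DecidableEq ι] (s : ℝ) (g : ι → ℝ) (y : Y) (i : ι) :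
    HasDerivAt (fun t => W.U2 (P.z s (Function.update g i t) y))
      (W.U3 (P.z s g y) * P.v s y i) (g i) := by
  have h := (W.d3 _).comp (g i) (P.hasDerivAt_z_coord s g y i)
  simpa [Function.comp_def, Function.update_eq_self] using h

lemma measurable_z_at (s : ℝ) (y : Y) : Measurable fun g => P.z s g y :=
  (P.measurable_z_uncurry s).comp measurable_prodMk_right

/-- Second order integration by parts, two replicas. -/
lemma ibp_two {s : ℝ} (hs : s ∈ P.J) (y w : Y) (hy : dot (P.e s y) (P.v s y) = 0) :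
    ∫ g, P.zd s g y * (W.U2 (P.z s g y) * W.U1 (P.z s g w) / P.Z W s g ^ 2) ∂gam ι =
      ∫ g, (W.U2 (P.z s g y) * W.U2 (P.z s g w) * dot (P.e s y) (P.v s w) / P.Z W s g ^ 2 -
        2 * (W.U2 (P.z s g y) * W.U1 (P.z s g w)) * P.ZE W s g y / P.Z W s g ^ 3) ∂gam ι := by
  classical
  rw [P.ibp_ratio W hs 2 y (N := fun g => W.U2 (P.z s g y) * W.U1 (P.z s g w))
    (N' := fun i g => W.U3 (P.z s g y) * P.v s y i * W.U1 (P.z s g w) +
      W.U2 (P.z s g y) * (W.U2 (P.z s g w) * P.v s w i))
    (B := W.A * W.A) (B' := W.A * P.C * W.A + W.A * (W.A * P.C))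
    ((W.cont2.measurable.comp (P.measurable_z_at s y)).mul
      (W.cont1.measurable.comp (P.measurable_z_at s w)))
    (fun i => (((W.meas3.comp (P.measurable_z_at s y)).mul_const _).mul
      (W.cont1.measurable.comp (P.measurable_z_at s w))).add
      ((W.cont2.measurable.comp (P.measurable_z_at s y)).mul
        ((W.cont2.measurable.comp (P.measurable_z_at s w)).mul_const _)))
    (fun g => by rw [abs_mul]; exact mul_le_mul (W.b2 _) (W.b1 _) (abs_nonneg _) W.A_nonneg)
    (fun i g => by
      refine (abs_add_le _ _).trans (add_le_add ?_ ?_) <;> simp only [abs_mul]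
      · exact mul_le_mul (mul_le_mul (W.b3 _) (P.vb s hs y i) (abs_nonneg _) W.A_nonneg) (W.b1 _)
          (abs_nonneg _) (mul_nonneg W.A_nonneg P.Cnonneg)
      · exact mul_le_mul (W.b2 _) (mul_le_mul (W.b2 _) (P.vb s hs w i) (abs_nonneg _) W.A_nonneg)
          (mul_nonneg (abs_nonneg _) (abs_nonneg _)) W.A_nonneg)
    fun g i => ?_]
  · refine integral_congr_ae (Eventually.of_forall fun g => ?_)
    have e : ∑ i, P.e s y i * (W.U3 (P.z s g y) * P.v s y i * W.U1 (P.z s g w) +
        W.U2 (P.z s g y) * (W.U2 (P.z s g w) * P.v s w i)) =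
        W.U3 (P.z s g y) * W.U1 (P.z s g w) * dot (P.e s y) (P.v s y) +
        W.U2 (P.z s g y) * W.U2 (P.z s g w) * dot (P.e s y) (P.v s w) := by
      simp only [dot, Finset.mul_sum, ← Finset.sum_add_distrib]
      exact Finset.sum_congr rfl fun i _ => by ring
    simp only [e, hy, mul_zero, zero_add, Nat.cast_ofNat]
  · have h := (P.hasDerivAt_U2_coord W s g y i).mul (P.hasDerivAt_U1_coord W s g w i)
    simp only [Function.update_eq_self] at h
    exact h

/-- Second order integration by parts, three replicas. -/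
lemma ibp_three {s : ℝ} (hs : s ∈ P.J) (y w x : Y) (hx : dot (P.e s x) (P.v s x) = 0) :
    ∫ g, P.zd s g x *
        (W.U1 (P.z s g y) * W.U1 (P.z s g w) * W.U1 (P.z s g x) / P.Z W s g ^ 3) ∂gam ι =
      ∫ g, ((W.U2 (P.z s g y) * W.U1 (P.z s g w) * W.U1 (P.z s g x) * dot (P.e s x) (P.v s y) +
          W.U1 (P.z s g y) * W.U2 (P.z s g w) * W.U1 (P.z s g x) * dot (P.e s x) (P.v s w)) /
            P.Z W s g ^ 3 -
        3 * (W.U1 (P.z s g y) * W.U1 (P.z s g w) * W.U1 (P.z s g x)) * P.ZE W s g x /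
          P.Z W s g ^ 4) ∂gam ι := by
  classical
  rw [P.ibp_ratio W hs 3 x
    (N := fun g => W.U1 (P.z s g y) * W.U1 (P.z s g w) * W.U1 (P.z s g x))
    (N' := fun i g => (W.U2 (P.z s g y) * P.v s y i * W.U1 (P.z s g w) +
        W.U1 (P.z s g y) * (W.U2 (P.z s g w) * P.v s w i)) * W.U1 (P.z s g x) +
      W.U1 (P.z s g y) * W.U1 (P.z s g w) * (W.U2 (P.z s g x) * P.v s x i))
    (B := W.A * W.A * W.A)
    (B' := (W.A * P.C * W.A + W.A * (W.A * P.C)) * W.A + W.A * W.A * (W.A * P.C))
    (((W.cont1.measurable.comp (P.measurable_z_at s y)).mul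
      (W.cont1.measurable.comp (P.measurable_z_at s w))).mul
      (W.cont1.measurable.comp (P.measurable_z_at s x)))
    (fun i => (((((W.cont2.measurable.comp (P.measurable_z_at s y)).mul_const _).mul
      (W.cont1.measurable.comp (P.measurable_z_at s w))).add
      ((W.cont1.measurable.comp (P.measurable_z_at s y)).mul
        ((W.cont2.measurable.comp (P.measurable_z_at s w)).mul_const _))).mul
      (W.cont1.measurable.comp (P.measurable_z_at s x))).add
      (((W.cont1.measurable.comp (P.measurable_z_at s y)).mul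
        (W.cont1.measurable.comp (P.measurable_z_at s w))).mul
        ((W.cont2.measurable.comp (P.measurable_z_at s x)).mul_const _)))
    (fun g => by
      simp only [abs_mul]
      exact mul_le_mul (mul_le_mul (W.b1 _) (W.b1 _) (abs_nonneg _) W.A_nonneg) (W.b1 _)
        (abs_nonneg _) (mul_nonneg W.A_nonneg W.A_nonneg))
    (fun i g => by
      have hAC : 0 ≤ W.A * P.C := mul_nonneg W.A_nonneg P.Cnonneg
      refine (abs_add_le _ _).trans (add_le_add ?_ ?_)
      · rw [abs_mul]
        refine mul_le_mul ((abs_add_le _ _).trans (add_le_add ?_ ?_)) (W.b1 _) (abs_nonneg _)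
          (add_nonneg (mul_nonneg hAC W.A_nonneg) (mul_nonneg W.A_nonneg hAC))
        · simp only [abs_mul]
          exact mul_le_mul (mul_le_mul (W.b2 _) (P.vb s hs y i) (abs_nonneg _) W.A_nonneg) (W.b1 _)
            (abs_nonneg _) hAC
        · simp only [abs_mul]
          exact mul_le_mul (W.b1 _) (mul_le_mul (W.b2 _) (P.vb s hs w i) (abs_nonneg _) W.A_nonneg)
            (mul_nonneg (abs_nonneg _) (abs_nonneg _)) W.A_nonneg
      · simp only [abs_mul]
        exact mul_le_mul (mul_le_mul (W.b1 _) (W.b1 _) (abs_nonneg _) W.A_nonneg)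
          (mul_le_mul (W.b2 _) (P.vb s hs x i) (abs_nonneg _) W.A_nonneg)
          (mul_nonneg (abs_nonneg _) (abs_nonneg _)) (mul_nonneg W.A_nonneg W.A_nonneg))
    fun g i => ?_]
  · refine integral_congr_ae (Eventually.of_forall fun g => ?_)
    have e : ∑ i, P.e s x i * ((W.U2 (P.z s g y) * P.v s y i * W.U1 (P.z s g w) +
        W.U1 (P.z s g y) * (W.U2 (P.z s g w) * P.v s w i)) * W.U1 (P.z s g x) +
        W.U1 (P.z s g y) * W.U1 (P.z s g w) * (W.U2 (P.z s g x) * P.v s x i)) =
        (W.U2 (P.z s g y) * W.U1 (P.z s g w) * W.U1 (P.z s g x) * dot (P.e s x) (P.v s y) +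
          W.U1 (P.z s g y) * W.U2 (P.z s g w) * W.U1 (P.z s g x) * dot (P.e s x) (P.v s w)) +
          W.U1 (P.z s g y) * W.U1 (P.z s g w) * W.U2 (P.z s g x) * dot (P.e s x) (P.v s x) := by
      simp only [dot, Finset.mul_sum, ← Finset.sum_add_distrib]
      exact Finset.sum_congr rfl fun i _ => by ring
    simp only [e, hx, mul_zero, add_zero, Nat.cast_ofNat]
  · have h := ((P.hasDerivAt_U1_coord W s g y i).mul (P.hasDerivAt_U1_coord W s g w i)).mul
      (P.hasDerivAt_U1_coord W s g x i)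
    simp only [Function.update_eq_self, Pi.mul_apply] at h
    exact h

end Path

end Vale.Agent.P157
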