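import Mathlib
import Vale.Agent.P157.Potential
import Vale.Agent.P157.Stein
import Vale.Agent.P157.Interp
import Vale.Agent.P157.Interp2

/-!
Assembling the second derivative.
-/

noncomputable section

open MeasureTheory ProbabilityTheory Filter
open scoped Topology

namespace Vale.Agent.P157

variable {ι : Type*} [Fintype ι] {Y : Type*} [MeasurableSpace Y] {π' : Measure Y}
  [IsProbabilityMeasure π'] (W : SmoothWeight) (P : Path (ι := ι) π')

namespace Path

/-- A bound for `K`. -/
def kC : ℝ := 2 * P.dC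

omit [IsProbabilityMeasure π'] in
lemma kC_nonneg : 0 ≤ P.kC := mul_nonneg zero_le_two P.dC_nonneg

lemma abs_K_le' {s : ℝ} (hs : s ∈ P.J) (y w : Y) : |P.K y w| ≤ P.kC := P.abs_K_le hs y w

lemma measurable_z_pair (s : ℝ) :
    Measurable (fun r : (ι → ℝ) × (Y × Y) => P.z s r.1 r.2.1) ∧
    Measurable (fun r : (ι → ℝ) × (Y × Y) => P.z s r.1 r.2.2) :=
  ⟨(P.measurable_z_uncurry s).comp (measurable_fst.prodMk (measurable_fst.comp measurable_snd)),
    (P.measurable_z_uncurry s).comp (measurable_fst.prodMk (measurable_snd.comp measurable_snd))⟩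

lemma measurable_z_triple (s : ℝ) :
    Measurable (fun r : (ι → ℝ) × ((Y × Y) × Y) => P.z s r.1 r.2.1.1) ∧
    Measurable (fun r : (ι → ℝ) × ((Y × Y) × Y) => P.z s r.1 r.2.1.2) ∧
    Measurable (fun r : (ι → ℝ) × ((Y × Y) × Y) => P.z s r.1 r.2.2) :=
  ⟨(P.measurable_z_uncurry s).comp (f := fun r : (ι → ℝ) × ((Y × Y) × Y) => (r.1, r.2.1.1))
      (by fun_prop),
    (P.measurable_z_uncurry s).comp (f := fun r : (ι → ℝ) × ((Y × Y) × Y) => (r.1, r.2.1.2))
      (by fun_prop),
    (P.measurable_z_uncurry s).comp (measurable_fst.prodMk (measurable_snd.comp measurable_snd))⟩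

/-- Integrand of `R`. -/
def rI (s : ℝ) (g : ι → ℝ) (p : Y × Y) : ℝ :=
  P.K p.1 p.2 * (W.U1 (P.z s g p.1) * W.U1 (P.z s g p.2))

lemma measurable_rI_uncurry (s : ℝ) : Measurable (Function.uncurry (P.rI W s)) :=
  (P.kmeas.comp measurable_snd).mul
    ((W.cont1.measurable.comp (P.measurable_z_pair s).1).mul
      (W.cont1.measurable.comp (P.measurable_z_pair s).2))

lemma abs_rI_le {s r : ℝ} (hs : s ∈ P.J) (g : ι → ℝ) (p : Y × Y) :
    |P.rI W r g p| ≤ P.kC * (W.A * W.A) := by
  rw [rI, abs_mul, abs_mul]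
  exact mul_le_mul (P.abs_K_le' hs _ _) (mul_le_mul (W.b1 _) (W.b1 _) (abs_nonneg _) W.A_nonneg)
    (mul_nonneg (abs_nonneg _) (abs_nonneg _)) P.kC_nonneg

lemma integrable_rI {s : ℝ} (hs : s ∈ P.J) (r : ℝ) (g : ι → ℝ) :
    Integrable (P.rI W r g) (π'.prod π') :=
  integrable_of_abs_le ((P.measurable_rI_uncurry W r).comp measurable_prodMk_left)
    (P.abs_rI_le W hs g)

lemma abs_R_le {s r : ℝ} (hs : s ∈ P.J) (g : ι → ℝ) : |P.R W r g| ≤ P.kC * (W.A * W.A) := by
  have := norm_integral_le_of_norm_le_const (μ := π'.prod π') (f := P.rI W r g)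
    (Eventually.of_forall (P.abs_rI_le W hs g))
  rw [probReal_univ, mul_one, Real.norm_eq_abs] at this
  exact this

lemma measurable_R (s : ℝ) : Measurable (P.R W s) :=
  ((P.measurable_rI_uncurry W s).stronglyMeasurable.integral_prod_right' (ν := π'.prod π')).measurable

/-- Velocity integrand of `R`, one side. -/
def rdI (s : ℝ) (g : ι → ℝ) (p : Y × Y) : ℝ :=
  P.K p.1 p.2 * (W.U2 (P.z s g p.1) * P.zd s g p.1 * W.U1 (P.z s g p.2))

lemma measurable_rdI_uncurry (s : ℝ) : Measurable (Function.uncurry (P.rdI W s)) :=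
  (P.kmeas.comp measurable_snd).mul (((W.cont2.measurable.comp (P.measurable_z_pair s).1).mul
    ((P.measurable_zd_uncurry s).comp (measurable_fst.prodMk (measurable_fst.comp measurable_snd)))).mul
      (W.cont1.measurable.comp (P.measurable_z_pair s).2))

lemma abs_rdI_le {s : ℝ} (hs : s ∈ P.J) (g : ι → ℝ) (p : Y × Y) :
    |P.rdI W s g p| ≤ P.kC * (W.A * (coordAbs g * P.C) * W.A) := by
  rw [rdI, abs_mul, abs_mul, abs_mul]
  exact mul_le_mul (P.abs_K_le' hs _ _) (mul_le_mul (mul_le_mul (W.b2 _) (P.abs_zd_le hs g _)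
    (abs_nonneg _) W.A_nonneg) (W.b1 _) (abs_nonneg _)
    (mul_nonneg W.A_nonneg (mul_nonneg (coordAbs_nonneg g) P.Cnonneg)))
    (mul_nonneg (mul_nonneg (abs_nonneg _) (abs_nonneg _)) (abs_nonneg _)) P.kC_nonneg

/-- The derivative of `R`. -/
def Rd (s : ℝ) (g : ι → ℝ) : ℝ := 2 * ∫ p, P.rdI W s g p ∂π'.prod π'

lemma hasDerivAt_R {s : ℝ} (hs : s ∈ P.J) (g : ι → ℝ) :
    HasDerivAt (fun r => P.R W r g) (P.Rd W s g) s := by
  have hb : ∀ {r : ℝ}, r ∈ P.J → ∀ (g : ι → ℝ) (p : Y × Y),
      |P.rdI W r g p| ≤ P.kC * (W.A * (coordAbs g * P.C) * W.A) := P.abs_rdI_le W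
  have hi : Integrable (P.rdI W s g) (π'.prod π') :=
    integrable_of_abs_le ((P.measurable_rdI_uncurry W s).comp measurable_prodMk_left) (hb hs g)
  have h := (hasDerivAt_integral_of_dominated_loc_of_deriv_le
    (F := fun r => P.rI W r g) (F' := fun r p => P.rdI W r g p + P.rdI W r g p.swap)
    (bound := fun _ => P.kC * (W.A * (coordAbs g * P.C) * W.A) +
      P.kC * (W.A * (coordAbs g * P.C) * W.A)) (P.openJ.mem_nhds hs)
    (Eventually.of_forall fun r =>
      ((P.measurable_rI_uncurry W r).comp measurable_prodMk_left).aestronglyMeasurable)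
    (P.integrable_rI W hs s g) (hi.add hi.swap).aestronglyMeasurable
    (Eventually.of_forall fun p r hr => (abs_add_le _ _).trans (add_le_add (hb hr g p) (hb hr g _)))
    (integrable_const _)
    (Eventually.of_forall fun p r hr => by
      have h := (((W.d2 _).comp r (P.hasDerivAt_z hr g p.1)).mul
        ((W.d2 _).comp r (P.hasDerivAt_z hr g p.2))).const_mul (P.K p.1 p.2)
      refine h.congr_deriv ?_
      simp only [rdI, Prod.fst_swap, Prod.snd_swap, ← P.K_comm hr p.1 p.2, Function.comp_apply]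
      ring)).2
  refine h.congr_deriv ?_
  have hsw : Integrable (fun p => P.rdI W s g p.swap) (π'.prod π') := hi.swap
  rw [integral_add hi hsw, integral_prod_swap, Rd]
  ring

/-- The second derivative integrand. -/
def qdI (s : ℝ) (g : ι → ℝ) : ℝ :=
  P.A1 W s g / P.Z W s g ^ 2 - 4 * P.A2 W s g / P.Z W s g ^ 3 +
    3 * P.R W s g ^ 2 / P.Z W s g ^ 4

/-- The derivative of `Q` is the expectation of `qdI`. -/
theorem hasDerivAt_Q {s : ℝ} (hs : s ∈ P.J) :
    HasDerivAt (P.Q W) (∫ g, P.qdI W s g ∂gam ι) s := by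
  set KA := P.kC * (W.A * W.A) with hKA
  have hZ2 : ∀ r g, 0 < P.Z W r g ^ 2 := fun r g => pow_pos (P.Z_pos W r g) 2
  have hRdb : ∀ r, r ∈ P.J → ∀ g, |P.Rd W r g| ≤ 2 * (P.kC * (W.A * (coordAbs g * P.C) * W.A)) := by
    intro r hr g
    have := norm_integral_le_of_norm_le_const (μ := π'.prod π') (f := P.rdI W r g)
      (Eventually.of_forall (P.abs_rdI_le W hr g))
    rw [probReal_univ, mul_one, Real.norm_eq_abs] at this
    rw [Rd, abs_mul, abs_two]
    linarith
  set D : ℝ → (ι → ℝ) → ℝ := fun r g =>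
    P.Rd W r g / P.Z W r g ^ 2 - 2 * P.R W r g * P.Zd W r g / P.Z W r g ^ 3 with hD
  have hRdm : Measurable (P.Rd W s) :=
    ((P.measurable_rdI_uncurry W s).stronglyMeasurable.integral_prod_right'
      (ν := π'.prod π')).measurable.const_mul 2
  have hd := (hasDerivAt_integral_of_dominated_loc_of_deriv_le (μ := gam ι)
    (F := fun r g => P.R W r g / P.Z W r g ^ 2) (F' := D)
    (bound := fun g => 2 * (P.kC * (W.A * (coordAbs g * P.C) * W.A)) / W.a ^ 2 +
      2 * KA * (W.A * (coordAbs g * P.C)) / W.a ^ 3) (P.openJ.mem_nhds hs)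
    (Eventually.of_forall fun r => ((P.measurable_R W r).div
      ((P.measurable_Z W r).pow_const 2)).aestronglyMeasurable)
    (integrable_of_abs_le (K := KA / W.a ^ 2) ((P.measurable_R W s).div
      ((P.measurable_Z W s).pow_const 2)) fun g => by
      rw [abs_div, abs_of_pos (hZ2 s g)]
      exact div_le_div₀ (mul_nonneg P.kC_nonneg (mul_nonneg W.A_nonneg W.A_nonneg))
        (P.abs_R_le W hs g) (pow_pos W.apos 2) (pow_le_pow_left₀ W.apos.le (P.Z_mem W s g).1 2))
    ((hRdm.div ((P.measurable_Z W s).pow_const 2)).sub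
      ((((P.measurable_R W s).const_mul 2).mul (P.measurable_Zd W s)).div
        ((P.measurable_Z W s).pow_const 3))).aestronglyMeasurable
    (Eventually.of_forall fun g r hr => by
      have hcn : 0 ≤ W.A * (coordAbs g * P.C) :=
        mul_nonneg W.A_nonneg (mul_nonneg (coordAbs_nonneg g) P.Cnonneg)
      refine (abs_sub _ _).trans (add_le_add ?_ ?_)
      · rw [abs_div, abs_of_pos (hZ2 r g)]
        exact div_le_div₀ (mul_nonneg zero_le_two (mul_nonneg P.kC_nonneg
          (mul_nonneg hcn W.A_nonneg))) (hRdb r hr g) (pow_pos W.apos 2)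
          (pow_le_pow_left₀ W.apos.le (P.Z_mem W r g).1 2)
      · rw [abs_div, abs_of_pos (pow_pos (P.Z_pos W r g) 3), abs_mul, abs_mul, abs_two]
        have hK0 : 0 ≤ KA := mul_nonneg P.kC_nonneg (mul_nonneg W.A_nonneg W.A_nonneg)
        exact div_le_div₀ (mul_nonneg (mul_nonneg zero_le_two hK0) hcn)
          (mul_le_mul (mul_le_mul_of_nonneg_left (P.abs_R_le W hr g) zero_le_two)
            (P.abs_Zd_le W hr g) (abs_nonneg _) (mul_nonneg zero_le_two hK0))
          (pow_pos W.apos 3) (pow_le_pow_left₀ W.apos.le (P.Z_mem W r g).1 3))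
    (by
      refine Integrable.add ?_ ?_
      · exact (((((integrable_coordAbs (ι := ι)).mul_const P.C).const_mul W.A).mul_const
          W.A).const_mul P.kC).const_mul 2 |>.div_const _
      · exact ((((integrable_coordAbs (ι := ι)).mul_const P.C).const_mul W.A).const_mul
          (2 * KA)).div_const _)
    (Eventually.of_forall fun g r hr => by
      have h := (P.hasDerivAt_R W hr g).div ((P.hasDerivAt_Z W hr g).pow 2)
        (by simp only [Pi.pow_apply]; exact (hZ2 r g).ne')
      refine h.congr_deriv ?_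
      have := (P.Z_pos W r g).ne'
      simp only [hD, Pi.pow_apply]
      field_simp
      push_cast
      ring)).2
  refine hd.congr_deriv ?_
  -- two-replica velocity term
  set G1 : (ι → ℝ) → Y × Y → ℝ := fun g p => P.K p.1 p.2 *
    (P.zd s g p.1 * (W.U2 (P.z s g p.1) * W.U1 (P.z s g p.2) / P.Z W s g ^ 2)) with hG1
  set H1 : (ι → ℝ) → Y × Y → ℝ := fun g p => P.K p.1 p.2 *
    (W.U2 (P.z s g p.1) * W.U2 (P.z s g p.2) * dot (P.e s p.1) (P.v s p.2) / P.Z W s g ^ 2 -
      2 * (W.U2 (P.z s g p.1) * W.U1 (P.z s g p.2)) * P.ZE W s g p.1 / P.Z W s g ^ 3) with hH1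
  -- three-replica velocity term
  set G2 : (ι → ℝ) → (Y × Y) × Y → ℝ := fun g q => P.K q.1.1 q.1.2 * (P.zd s g q.2 *
    (W.U1 (P.z s g q.1.1) * W.U1 (P.z s g q.1.2) * W.U1 (P.z s g q.2) / P.Z W s g ^ 3)) with hG2
  set H2 : (ι → ℝ) → (Y × Y) × Y → ℝ := fun g q => P.K q.1.1 q.1.2 *
    ((W.U2 (P.z s g q.1.1) * W.U1 (P.z s g q.1.2) * W.U1 (P.z s g q.2) *
          dot (P.e s q.2) (P.v s q.1.1) +
        W.U1 (P.z s g q.1.1) * W.U2 (P.z s g q.1.2) * W.U1 (P.z s g q.2) *
          dot (P.e s q.2) (P.v s q.1.2)) / P.Z W s g ^ 3 -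
      3 * (W.U1 (P.z s g q.1.1) * W.U1 (P.z s g q.1.2) * W.U1 (P.z s g q.2)) *
        P.ZE W s g q.2 / P.Z W s g ^ 4) with hH2
  obtain ⟨mp1, mp2⟩ := P.measurable_z_pair s
  obtain ⟨mt1, mt2, mt3⟩ := P.measurable_z_triple s
  have mzd1 : Measurable fun r : (ι → ℝ) × (Y × Y) => P.zd s r.1 r.2.1 :=
    (P.measurable_zd_uncurry s).comp (measurable_fst.prodMk (measurable_fst.comp measurable_snd))
  have mzd3 : Measurable fun r : (ι → ℝ) × ((Y × Y) × Y) => P.zd s r.1 r.2.2 :=
    (P.measurable_zd_uncurry s).comp (measurable_fst.prodMk (measurable_snd.comp measurable_snd))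
  have mZE1 : Measurable fun r : (ι → ℝ) × (Y × Y) => P.ZE W s r.1 r.2.1 :=
    (P.measurable_ZE W s).comp (measurable_fst.prodMk (measurable_fst.comp measurable_snd))
  have mZE3 : Measurable fun r : (ι → ℝ) × ((Y × Y) × Y) => P.ZE W s r.1 r.2.2 :=
    (P.measurable_ZE W s).comp (measurable_fst.prodMk (measurable_snd.comp measurable_snd))
  have hA0 := W.A_nonneg
  have hk0 := P.kC_nonneg
  have hd0 := P.dC_nonneg
  have hC0 := P.Cnonneg
  have hap := W.apos
  have iG1 : Integrable (Function.uncurry G1) ((gam ι).prod (π'.prod π')) := by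
    refine ((((integrable_coordAbs (ι := ι)).mul_const P.C).mul_const
      (W.A * W.A / W.a ^ 2)).const_mul P.kC).comp_fst (π'.prod π') |>.mono'
      (Measurable.aestronglyMeasurable ?_) (Eventually.of_forall fun r => ?_)
    · exact (P.kmeas.comp measurable_snd).mul (mzd1.mul (((W.cont2.measurable.comp mp1).mul
        (W.cont1.measurable.comp mp2)).div (((P.measurable_Z W s).comp measurable_fst).pow_const 2)))
    · simp only [hG1, Function.uncurry, Real.norm_eq_abs, abs_mul, abs_div, abs_of_pos (hZ2 s r.1)]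
      exact mul_le_mul (P.abs_K_le' hs _ _) (mul_le_mul (P.abs_zd_le hs _ _)
        (div_le_div₀ (mul_nonneg hA0 hA0) (mul_le_mul (W.b2 _) (W.b1 _) (abs_nonneg _) hA0)
          (pow_pos hap 2) (pow_le_pow_left₀ hap.le (P.Z_mem W s _).1 2))
        (div_nonneg (mul_nonneg (abs_nonneg _) (abs_nonneg _)) (hZ2 s _).le)
        (mul_nonneg (coordAbs_nonneg _) hC0))
        (mul_nonneg (abs_nonneg _) (div_nonneg (mul_nonneg (abs_nonneg _) (abs_nonneg _))
          (hZ2 s _).le)) hk0
  have iG2 : Integrable (Function.uncurry G2) ((gam ι).prod ((π'.prod π').prod π')) := by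
    refine ((((integrable_coordAbs (ι := ι)).mul_const P.C).mul_const
      (W.A * W.A * W.A / W.a ^ 3)).const_mul P.kC).comp_fst ((π'.prod π').prod π') |>.mono'
      (Measurable.aestronglyMeasurable ?_) (Eventually.of_forall fun r => ?_)
    · exact (P.kmeas.comp (measurable_fst.comp measurable_snd)).mul (mzd3.mul
        ((((W.cont1.measurable.comp mt1).mul (W.cont1.measurable.comp mt2)).mul
          (W.cont1.measurable.comp mt3)).div
            (((P.measurable_Z W s).comp measurable_fst).pow_const 3)))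
    · have hZ3 := pow_pos (P.Z_pos W s r.1) 3
      simp only [hG2, Function.uncurry, Real.norm_eq_abs, abs_mul, abs_div, abs_of_pos hZ3]
      exact mul_le_mul (P.abs_K_le' hs _ _) (mul_le_mul (P.abs_zd_le hs _ _)
        (div_le_div₀ (mul_nonneg (mul_nonneg hA0 hA0) hA0)
          (mul_le_mul (mul_le_mul (W.b1 _) (W.b1 _) (abs_nonneg _) hA0) (W.b1 _) (abs_nonneg _)
            (mul_nonneg hA0 hA0)) (pow_pos hap 3) (pow_le_pow_left₀ hap.le (P.Z_mem W s _).1 3))
        (div_nonneg (mul_nonneg (mul_nonneg (abs_nonneg _) (abs_nonneg _)) (abs_nonneg _)) hZ3.le)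
        (mul_nonneg (coordAbs_nonneg _) hC0))
        (mul_nonneg (abs_nonneg _) (div_nonneg
          (mul_nonneg (mul_nonneg (abs_nonneg _) (abs_nonneg _)) (abs_nonneg _)) hZ3.le)) hk0
  have iH1 : Integrable (Function.uncurry H1) ((gam ι).prod (π'.prod π')) := by
    refine integrable_of_abs_le (K := P.kC * (W.A * W.A * P.dC / W.a ^ 2 +
      2 * (W.A * W.A) * (W.A * P.dC) / W.a ^ 3)) ?_ fun r => ?_
    · exact (P.kmeas.comp measurable_snd).mul
        (((((W.cont2.measurable.comp mp1).mul (W.cont2.measurable.comp mp2)).mul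
          ((P.measurable_dot_ev s).comp measurable_snd)).div
            (((P.measurable_Z W s).comp measurable_fst).pow_const 2)).sub
        (((((W.cont2.measurable.comp mp1).mul (W.cont1.measurable.comp mp2)).const_mul 2).mul
          mZE1).div (((P.measurable_Z W s).comp measurable_fst).pow_const 3)))
    · simp only [hH1, Function.uncurry]
      rw [abs_mul]
      refine mul_le_mul (P.abs_K_le' hs _ _) ((abs_sub _ _).trans (add_le_add ?_ ?_)) (abs_nonneg _) hk0
      · rw [abs_div, abs_of_pos (hZ2 s _), abs_mul, abs_mul]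
        exact div_le_div₀ (mul_nonneg (mul_nonneg hA0 hA0) hd0)
          (mul_le_mul (mul_le_mul (W.b2 _) (W.b2 _) (abs_nonneg _) hA0) (P.abs_dot_ev_le hs _ _)
            (abs_nonneg _) (mul_nonneg hA0 hA0)) (pow_pos hap 2)
          (pow_le_pow_left₀ hap.le (P.Z_mem W s _).1 2)
      · rw [abs_div, abs_of_pos (pow_pos (P.Z_pos W s _) 3), abs_mul, abs_mul, abs_mul, abs_two]
        exact div_le_div₀ (mul_nonneg (mul_nonneg zero_le_two (mul_nonneg hA0 hA0))
            (mul_nonneg hA0 hd0))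
          (mul_le_mul (mul_le_mul_of_nonneg_left (mul_le_mul (W.b2 _) (W.b1 _) (abs_nonneg _) hA0)
            zero_le_two) (P.abs_ZE_le W hs _ _) (abs_nonneg _)
            (mul_nonneg zero_le_two (mul_nonneg hA0 hA0))) (pow_pos hap 3)
          (pow_le_pow_left₀ hap.le (P.Z_mem W s _).1 3)
  have mev1 : Measurable fun r : (ι → ℝ) × ((Y × Y) × Y) => dot (P.e s r.2.2) (P.v s r.2.1.1) :=
    (P.measurable_dot_ev s).comp (f := fun r : (ι → ℝ) × ((Y × Y) × Y) => (r.2.2, r.2.1.1))
      (by fun_prop)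
  have mev2 : Measurable fun r : (ι → ℝ) × ((Y × Y) × Y) => dot (P.e s r.2.2) (P.v s r.2.1.2) :=
    (P.measurable_dot_ev s).comp (f := fun r : (ι → ℝ) × ((Y × Y) × Y) => (r.2.2, r.2.1.2))
      (by fun_prop)
  have iH2 : Integrable (Function.uncurry H2) ((gam ι).prod ((π'.prod π').prod π')) := by
    refine integrable_of_abs_le (K := P.kC * ((W.A * W.A * W.A * P.dC + W.A * W.A * W.A * P.dC) /
      W.a ^ 3 + 3 * (W.A * W.A * W.A) * (W.A * P.dC) / W.a ^ 4)) ?_ fun r => ?_
    · exact (P.kmeas.comp (measurable_fst.comp measurable_snd)).mul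
        ((((((W.cont2.measurable.comp mt1).mul (W.cont1.measurable.comp mt2)).mul
          (W.cont1.measurable.comp mt3)).mul mev1).add
          ((((W.cont1.measurable.comp mt1).mul (W.cont2.measurable.comp mt2)).mul
          (W.cont1.measurable.comp mt3)).mul mev2)).div
            (((P.measurable_Z W s).comp measurable_fst).pow_const 3) |>.sub
        ((((((W.cont1.measurable.comp mt1).mul (W.cont1.measurable.comp mt2)).mul
          (W.cont1.measurable.comp mt3)).const_mul 3).mul mZE3).div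
            (((P.measurable_Z W s).comp measurable_fst).pow_const 4)))
    · simp only [hH2, Function.uncurry]
      rw [abs_mul]
      refine mul_le_mul (P.abs_K_le' hs _ _) ((abs_sub _ _).trans (add_le_add ?_ ?_)) (abs_nonneg _) hk0
      · rw [abs_div, abs_of_pos (pow_pos (P.Z_pos W s _) 3)]
        refine div_le_div₀ (add_nonneg (mul_nonneg (mul_nonneg (mul_nonneg hA0 hA0) hA0) hd0)
          (mul_nonneg (mul_nonneg (mul_nonneg hA0 hA0) hA0) hd0)) ((abs_add_le _ _).trans
            (add_le_add ?_ ?_)) (pow_pos hap 3) (pow_le_pow_left₀ hap.le (P.Z_mem W s _).1 3)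
        · simp only [abs_mul]
          exact mul_le_mul (mul_le_mul (mul_le_mul (W.b2 _) (W.b1 _) (abs_nonneg _) hA0) (W.b1 _)
            (abs_nonneg _) (mul_nonneg hA0 hA0)) (P.abs_dot_ev_le hs _ _) (abs_nonneg _)
            (mul_nonneg (mul_nonneg hA0 hA0) hA0)
        · simp only [abs_mul]
          exact mul_le_mul (mul_le_mul (mul_le_mul (W.b1 _) (W.b2 _) (abs_nonneg _) hA0) (W.b1 _)
            (abs_nonneg _) (mul_nonneg hA0 hA0)) (P.abs_dot_ev_le hs _ _) (abs_nonneg _)
            (mul_nonneg (mul_nonneg hA0 hA0) hA0)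
      · rw [abs_div, abs_of_pos (pow_pos (P.Z_pos W s _) 4)]
        simp only [abs_mul, Nat.abs_ofNat]
        exact div_le_div₀ (mul_nonneg (mul_nonneg (by norm_num) (mul_nonneg (mul_nonneg hA0 hA0) hA0))
            (mul_nonneg hA0 hd0))
          (mul_le_mul (mul_le_mul_of_nonneg_left (mul_le_mul (mul_le_mul (W.b1 _) (W.b1 _)
            (abs_nonneg _) hA0) (W.b1 _) (abs_nonneg _) (mul_nonneg hA0 hA0)) (by norm_num))
            (P.abs_ZE_le W hs _ _) (abs_nonneg _)
            (mul_nonneg (by norm_num) (mul_nonneg (mul_nonneg hA0 hA0) hA0))) (pow_pos hap 4)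
          (pow_le_pow_left₀ hap.le (P.Z_mem W s _).1 4)
  have eD : ∀ g, D s g =
      2 * (∫ p, G1 g p ∂π'.prod π') - 2 * ∫ q, G2 g q ∂(π'.prod π').prod π' := by
    intro g
    have e1 : ∫ p, G1 g p ∂π'.prod π' = (∫ p, P.rdI W s g p ∂π'.prod π') / P.Z W s g ^ 2 := by
      rw [← integral_div]
      congr 1; ext p; simp only [hG1, rdI]; ring
    have e2 : ∫ q, G2 g q ∂(π'.prod π').prod π' = P.R W s g * P.Zd W s g / P.Z W s g ^ 3 := by
      rw [R, Zd, ← integral_prod_mul, ← integral_div]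
      congr 1; ext q; simp only [hG2]; ring
    simp only [hD, Rd, e1, e2]
    ring
  have eE1 : ∫ g, ∫ p, G1 g p ∂π'.prod π' ∂gam ι = ∫ g, ∫ p, H1 g p ∂π'.prod π' ∂gam ι := by
    rw [integral_integral_swap iG1, integral_integral_swap iH1]
    refine integral_congr_ae ?_
    filter_upwards [(Measure.quasiMeasurePreserving_fst (μ := π') (ν := π')).ae (P.orth s hs)]
      with p hp
    simp only [hG1, hH1, integral_const_mul, P.ibp_two W hs p.1 p.2 hp]
  have eE2 : ∫ g, ∫ q, G2 g q ∂(π'.prod π').prod π' ∂gam ι =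
      ∫ g, ∫ q, H2 g q ∂(π'.prod π').prod π' ∂gam ι := by
    rw [integral_integral_swap iG2, integral_integral_swap iH2]
    refine integral_congr_ae ?_
    filter_upwards [(Measure.quasiMeasurePreserving_snd (μ := π'.prod π') (ν := π')).ae (P.orth s hs)]
      with q hq
    simp only [hG2, hH2, integral_const_mul, P.ibp_three W hs q.1.1 q.1.2 q.2 hq]
  have i1 : Integrable (fun g => 2 * ∫ p, G1 g p ∂π'.prod π') (gam ι) :=
    iG1.integral_prod_left.const_mul 2
  have i2 : Integrable (fun g => 2 * ∫ q, G2 g q ∂(π'.prod π').prod π') (gam ι) :=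
    iG2.integral_prod_left.const_mul 2
  have j1 : Integrable (fun g => 2 * ∫ p, H1 g p ∂π'.prod π') (gam ι) :=
    iH1.integral_prod_left.const_mul 2
  have j2 : Integrable (fun g => 2 * ∫ q, H2 g q ∂(π'.prod π').prod π') (gam ι) :=
    iH2.integral_prod_left.const_mul 2
  simp only [eD]
  rw [integral_sub i1 i2, integral_const_mul, integral_const_mul, eE1, eE2, ← integral_const_mul,
    ← integral_const_mul, ← integral_sub j1 j2]
  refine integral_congr_ae (Eventually.of_forall fun g => ?_)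
  -- symmetrisation at fixed disorder
  simp only [qdI]
  set Zg := P.Z W s g
  have hz := P.measurable_z s g
  have hU1 : ∀ y, |W.U1 (P.z s g y)| ≤ W.A := fun y => W.b1 _
  have hU2 : ∀ y, |W.U2 (P.z s g y)| ≤ W.A := fun y => W.b2 _
  set d : Y → Y → ℝ := fun y w => dot (P.e s y) (P.v s w) with hddef
  have hdm : Measurable fun p : Y × Y => d p.1 p.2 := P.measurable_dot_ev s
  set f1 : Y × Y → ℝ := fun p => P.K p.1 p.2 * (W.U2 (P.z s g p.1) * W.U2 (P.z s g p.2)) * d p.1 p.2
  set f2 : (Y × Y) × Y → ℝ := fun q => P.K q.1.1 q.1.2 *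
    (W.U2 (P.z s g q.1.1) * W.U1 (P.z s g q.1.2) * W.U1 (P.z s g q.2)) * d q.1.1 q.2
  set f3 : (Y × Y) × Y → ℝ := fun q => P.K q.1.1 q.1.2 *
    (W.U2 (P.z s g q.1.1) * W.U1 (P.z s g q.1.2) * W.U1 (P.z s g q.2)) * d q.2 q.1.1
  have if1 : Integrable f1 (π'.prod π') := by
    refine integrable_of_abs_le (K := P.kC * (W.A * W.A) * P.dC) ((P.kmeas.mul
      ((W.cont2.measurable.comp (hz.comp measurable_fst)).mul
        (W.cont2.measurable.comp (hz.comp measurable_snd)))).mul hdm) fun p => ?_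
    simp only [f1, abs_mul]
    exact mul_le_mul (mul_le_mul (P.abs_K_le' hs _ _) (mul_le_mul (hU2 _) (hU2 _) (abs_nonneg _) hA0)
      (mul_nonneg (abs_nonneg _) (abs_nonneg _)) hk0) (P.abs_dot_ev_le hs _ _) (abs_nonneg _)
      (mul_nonneg hk0 (mul_nonneg hA0 hA0))
  have hW3 : Measurable fun q : (Y × Y) × Y =>
      W.U2 (P.z s g q.1.1) * W.U1 (P.z s g q.1.2) * W.U1 (P.z s g q.2) :=
    ((W.cont2.measurable.comp (hz.comp (measurable_fst.comp measurable_fst))).mul
      (W.cont1.measurable.comp (hz.comp (measurable_snd.comp measurable_fst)))).mul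
      (W.cont1.measurable.comp (hz.comp measurable_snd))
  have hb3 : ∀ q : (Y × Y) × Y, |P.K q.1.1 q.1.2 *
      (W.U2 (P.z s g q.1.1) * W.U1 (P.z s g q.1.2) * W.U1 (P.z s g q.2))| ≤
      P.kC * (W.A * W.A * W.A) := fun q => by
    simp only [abs_mul]
    exact mul_le_mul (P.abs_K_le' hs _ _) (mul_le_mul (mul_le_mul (hU2 _) (hU1 _) (abs_nonneg _) hA0)
      (hU1 _) (abs_nonneg _) (mul_nonneg hA0 hA0))
      (mul_nonneg (mul_nonneg (abs_nonneg _) (abs_nonneg _)) (abs_nonneg _)) hk0
  have if2 : Integrable f2 ((π'.prod π').prod π') := by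
    refine integrable_of_abs_le (K := P.kC * (W.A * W.A * W.A) * P.dC)
      (((P.kmeas.comp measurable_fst).mul hW3).mul
        (hdm.comp (f := fun q : (Y × Y) × Y => (q.1.1, q.2)) (by fun_prop))) fun q => ?_
    simp only [f2]; rw [abs_mul]
    exact mul_le_mul (hb3 q) (P.abs_dot_ev_le hs _ _) (abs_nonneg _)
      (mul_nonneg hk0 (mul_nonneg (mul_nonneg hA0 hA0) hA0))
  have if3 : Integrable f3 ((π'.prod π').prod π') := by
    refine integrable_of_abs_le (K := P.kC * (W.A * W.A * W.A) * P.dC)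
      (((P.kmeas.comp measurable_fst).mul hW3).mul
        (hdm.comp (f := fun q : (Y × Y) × Y => (q.2, q.1.1)) (by fun_prop))) fun q => ?_
    simp only [f3]; rw [abs_mul]
    exact mul_le_mul (hb3 q) (P.abs_dot_ev_le hs _ _) (abs_nonneg _)
      (mul_nonneg hk0 (mul_nonneg (mul_nonneg hA0 hA0) hA0))
  have sA1 : P.A1 W s g = 2 * ∫ p, f1 p ∂π'.prod π' := by
    have hsw : Integrable (fun p => f1 p.swap) (π'.prod π') := if1.swap
    have : ∫ p, f1 p.swap ∂π'.prod π' = ∫ p, f1 p ∂π'.prod π' := integral_prod_swap _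
    have h := integral_add if1 hsw
    rw [this, ← two_mul] at h
    rw [← h, A1]
    congr 1; ext p
    simp only [f1, hddef, Prod.fst_swap, Prod.snd_swap, ← P.K_comm hs p.1 p.2]
    rw [sq, ← P.keq s hs p.1 p.2, dot_comm (P.v s p.1) (P.e s p.2)]
    ring
  have sA2 : P.A2 W s g = (∫ q, f2 q ∂(π'.prod π').prod π') +
      ∫ q, f3 q ∂(π'.prod π').prod π' := by
    rw [← integral_add if2 if3, A2]
    congr 1; ext q
    simp only [f2, f3, hddef, ← P.keq s hs q.1.1 q.2, dot_comm (P.v s q.1.1) (P.e s q.2)]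
    ring
  have eH1 : ∫ p, H1 g p ∂π'.prod π' =
      (∫ p, f1 p ∂π'.prod π') / Zg ^ 2 - 2 * (∫ q, f2 q ∂(π'.prod π').prod π') / Zg ^ 3 := by
    have e : ∀ p : Y × Y, H1 g p = f1 p / Zg ^ 2 - 2 * (∫ x, f2 (p, x) ∂π') / Zg ^ 3 := by
      intro p
      have hin : ∫ x, f2 (p, x) ∂π' =
          P.K p.1 p.2 * (W.U2 (P.z s g p.1) * W.U1 (P.z s g p.2)) * P.ZE W s g p.1 := by
        rw [ZE, ← integral_const_mul]
        congr 1; ext x; simp only [f2, hddef]; ring
      simp only [hH1, hin, f1, hddef, Zg]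
      ring
    simp only [e]
    rw [integral_sub (if1.div_const _) ((if2.integral_prod_left.const_mul 2).div_const _),
      integral_div, integral_div, integral_const_mul, integral_prod _ if2]
  set u : Y × Y → ℝ := P.rI W s g
  have iu : Integrable u (π'.prod π') := P.integrable_rI W hs s g
  set w1 : Y → ℝ := fun x => W.U1 (P.z s g x) * P.ZE W s g x
  have iw1 : Integrable w1 π' := integrable_of_abs_le (K := W.A * (W.A * P.dC))
    ((W.cont1.measurable.comp hz).mul ((P.measurable_ZE W s).comp measurable_prodMk_left))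
    fun x => by
      simp only [w1, abs_mul]
      exact mul_le_mul (hU1 _) (P.abs_ZE_le W hs _ _) (abs_nonneg _) hA0
  have hw1R : 2 * ∫ x, w1 x ∂π' = P.R W s g := by
    set H : Y × Y → ℝ := fun p => W.U1 (P.z s g p.1) * W.U1 (P.z s g p.2) * d p.1 p.2
    have hH : Integrable H (π'.prod π') := by
      refine integrable_of_abs_le (K := W.A * W.A * P.dC)
        (((W.cont1.measurable.comp (hz.comp measurable_fst)).mul
          (W.cont1.measurable.comp (hz.comp measurable_snd))).mul hdm) fun p => ?_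
      simp only [H, abs_mul]
      exact mul_le_mul (mul_le_mul (hU1 _) (hU1 _) (abs_nonneg _) hA0) (P.abs_dot_ev_le hs _ _)
        (abs_nonneg _) (mul_nonneg hA0 hA0)
    have e : ∫ x, w1 x ∂π' = ∫ p, H p ∂π'.prod π' := by
      rw [integral_prod _ hH]
      simp only [w1, ZE, ← integral_const_mul, H, hddef, mul_assoc]
    have hsw : Integrable (fun p => H p.swap) (π'.prod π') := hH.swap
    have h := integral_add hH hsw
    rw [integral_prod_swap, ← two_mul] at h
    rw [e, ← h, R]
    congr 1; ext p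
    simp only [H, hddef, Prod.fst_swap, Prod.snd_swap, ← P.keq s hs p.1 p.2,
      dot_comm (P.v s p.1) (P.e s p.2)]
    ring
  have eH2 : ∫ q, H2 g q ∂(π'.prod π').prod π' =
      2 * (∫ q, f3 q ∂(π'.prod π').prod π') / Zg ^ 3 -
        3 * (P.R W s g * ∫ x, w1 x ∂π') / Zg ^ 4 := by
    set sw : (Y × Y) × Y → (Y × Y) × Y := fun q => (q.1.swap, q.2)
    have hsw : MeasurePreserving sw ((π'.prod π').prod π') ((π'.prod π').prod π') :=
      (Measure.measurePreserving_swap (μ := π') (ν := π')).prod (MeasurePreserving.id π')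
    have if3' : Integrable (fun q => f3 (sw q)) ((π'.prod π').prod π') :=
      hsw.integrable_comp_of_integrable if3
    have e : ∀ q, H2 g q = (f3 q + f3 (sw q)) / Zg ^ 3 - 3 * (u q.1 * w1 q.2) / Zg ^ 4 := by
      intro q
      simp only [hH2, f3, hddef, sw, Prod.fst_swap, Prod.snd_swap, ← P.K_comm hs q.1.1 q.1.2, u, rI,
        w1, Zg]
      ring
    have es : ∫ q, f3 (sw q) ∂(π'.prod π').prod π' = ∫ q, f3 q ∂(π'.prod π').prod π' := by
      conv_rhs => rw [← hsw.map_eq]
      exact (integral_map hsw.measurable.aemeasurable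
        (by rw [hsw.map_eq]; exact if3.aestronglyMeasurable)).symm
    simp only [e]
    have iuw : Integrable (fun q : (Y × Y) × Y => 3 * (u q.1 * w1 q.2)) ((π'.prod π').prod π') :=
      (iu.mul_prod iw1).const_mul 3
    have iff' : Integrable (fun q => f3 q + f3 (sw q)) ((π'.prod π').prod π') := if3.add if3'
    rw [integral_sub (iff'.div_const _) (iuw.div_const _), integral_div, integral_div,
      integral_add if3 if3', es, integral_const_mul, integral_prod_mul, ← two_mul]
    rfl
  rw [eH1, eH2, sA1, sA2, ← hw1R]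
  ring

end Path

end Vale.Agent.P157
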