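import Mathlib
import Vale.Agent.P157.Potential
import Vale.Agent.P157.Stein
import Vale.Agent.P157.Interp
import Vale.Agent.P157.Interp2
import Vale.Agent.P157.Interp3
import Vale.Agent.P157.Blocks

/-!
Concavity in the block weights for smooth weights of small amplitude.
-/

noncomputable section

open MeasureTheory ProbabilityTheory Filter
open scoped Topology

namespace Vale.Agent.P157

/-- `E h(X) h(Y)` for standard Gaussians of correlation `ρ`. -/
def corr2 (h : ℝ → ℝ) (ρ : ℝ) : ℝ :=
  ∫ g : Fin 2 → ℝ, h (g 0) * h (ρ * g 0 + Real.sqrt (1 - ρ ^ 2) * g 1)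
    ∂Measure.pi fun _ => gaussianReal 0 1

variable {ι : Type*} [Fintype ι]

lemma integral_pair_eq_corr2 {h : ℝ → ℝ} (hh : Measurable h) {u u' : ι → ℝ}
    (h1 : ∑ i, u i ^ 2 = 1) (h2 : ∑ i, u' i ^ 2 = 1) :
    dot u u' ∈ Set.Icc (-1 : ℝ) 1 ∧
      ∫ g, h (dot g u) * h (dot g u') ∂gam ι = corr2 h (dot u u') := by
  set ρ := dot u u' with hρ
  have hp : 0 ≤ ∑ i, (u i + u' i) ^ 2 := Finset.sum_nonneg fun i _ => sq_nonneg _
  have hn : 0 ≤ ∑ i, (u i - u' i) ^ 2 := Finset.sum_nonneg fun i _ => sq_nonneg _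
  simp only [add_sq, sub_sq, Finset.sum_add_distrib, Finset.sum_sub_distrib, h1, h2, mul_assoc,
    ← Finset.mul_sum] at hp hn
  have hmem : ρ ∈ Set.Icc (-1 : ℝ) 1 := by
    constructor <;> simp only [hρ, dot] <;> linarith
  refine ⟨hmem, ?_⟩
  set r := Real.sqrt (1 - ρ ^ 2)
  have hr : r ^ 2 = 1 - ρ ^ 2 := Real.sq_sqrt (by nlinarith [hmem.1, hmem.2])
  set L : (ι → ℝ) → EuclideanSpace ℝ (Fin 2) := fun g => WithLp.toLp 2 ![dot g u, dot g u']
  set L' : (Fin 2 → ℝ) → EuclideanSpace ℝ (Fin 2) :=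
    fun g => WithLp.toLp 2 ![g 0, ρ * g 0 + r * g 1]
  have hL : Measurable L := by
    refine (WithLp.measurable_toLp 2 _).comp (measurable_pi_lambda _ fun i => ?_)
    fin_cases i
    · exact measurable_dot.comp (measurable_id.prodMk measurable_const)
    · exact measurable_dot.comp (measurable_id.prodMk measurable_const)
  have hL' : Measurable L' := by
    refine (WithLp.measurable_toLp 2 _).comp (measurable_pi_lambda _ fun i => ?_)
    fin_cases i
    · exact measurable_pi_apply 0
    · simp; fun_prop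
  have hlaw : (gam ι).map L = (gam (Fin 2)).map L' := by
    apply Measure.ext_of_charFun
    ext t
    rw [charFun_apply, charFun_apply, integral_map hL.aemeasurable (by fun_prop),
      integral_map hL'.aemeasurable (by fun_prop)]
    have e1 : ∀ g, inner ℝ (L g) t = dot g fun i => t 0 * u i + t 1 * u' i := fun g => by
      simp [L, PiLp.inner_apply, Fin.sum_univ_two, dot, Finset.mul_sum, mul_add,
        Finset.sum_add_distrib]
      congr 1 <;> exact Finset.sum_congr rfl fun i _ => by ring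
    have e2 : ∀ g, inner ℝ (L' g) t = dot g ![t 0 + ρ * t 1, r * t 1] := fun g => by
      simp [L', PiLp.inner_apply, Fin.sum_univ_two, dot]
      ring
    simp only [e1, e2, integral_cexp_dot]
    congr 3
    have : ∑ i, (t 0 * u i + t 1 * u' i) ^ 2 =
        t 0 ^ 2 * (∑ i, u i ^ 2) + 2 * (t 0 * t 1) * ρ + t 1 ^ 2 * (∑ i, u' i ^ 2) := by
      simp only [hρ, dot, Finset.mul_sum, ← Finset.sum_add_distrib]
      exact Finset.sum_congr rfl fun i _ => by ring
    rw [this, h1, h2]
    simp only [Fin.sum_univ_two, Matrix.cons_val_zero, Matrix.cons_val_one, mul_pow, hr]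
    ring
  have hphi : Measurable fun x : EuclideanSpace ℝ (Fin 2) => h (x 0) * h (x 1) :=
    (hh.comp (by fun_prop)).mul (hh.comp (by fun_prop))
  calc ∫ g, h (dot g u) * h (dot g u') ∂gam ι = ∫ x, h (x 0) * h (x 1) ∂(gam ι).map L := by
        rw [integral_map hL.aemeasurable hphi.aestronglyMeasurable]
        simp [L]
    _ = corr2 h ρ := by
        rw [hlaw, integral_map hL'.aemeasurable hphi.aestronglyMeasurable]
        simp [L', corr2, r]

/-- Amplitude condition. -/
structure Gentle (W : SmoothWeight) (S η c : ℝ) : Prop where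
  s1 : ∀ z, |W.U1 z| ≤ S
  s2 : ∀ z, |W.U2 z| ≤ S
  near : ∀ z, |W.U z - 1| ≤ η
  small : η ≤ 1 / 2
  corr : ∀ ρ ∈ Set.Icc (-1 : ℝ) 1, c ≤ corr2 W.U2 ρ
  dom : 10 * η * S ^ 2 + 32 * S ^ 3 ≤ c

variable {Y : Type*} [MeasurableSpace Y] {π' : Measure Y} [IsProbabilityMeasure π']

theorem Path.integral_qdI_nonneg (W : SmoothWeight) (P : Path (ι := ι) π') {S η c : ℝ}
    (hW : Gentle W S η c) {s : ℝ} (hs : s ∈ P.J) (hu : ∀ᵐ y ∂π', ∑ i, P.v s y i ^ 2 = 1) :
    0 ≤ ∫ g, P.qdI W s g ∂gam ι := by
  set VK := ∫ p : Y × Y, P.K p.1 p.2 ^ 2 ∂π'.prod π' with hVK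
  have hS : 0 ≤ S := (abs_nonneg _).trans (hW.s1 0)
  have hη : 0 ≤ η := (abs_nonneg _).trans (hW.near 0)
  have hk0 := P.kC_nonneg
  have hK2 : Integrable (fun p : Y × Y => P.K p.1 p.2 ^ 2) (π'.prod π') :=
    integrable_of_abs_le (K := P.kC ^ 2) (P.kmeas.pow_const 2) fun p => by
      rw [abs_pow]; exact pow_le_pow_left₀ (abs_nonneg _) (P.abs_K_le' hs _ _) 2
  have hVK0 : 0 ≤ VK := integral_nonneg fun p => sq_nonneg _
  set a1 : (ι → ℝ) → Y × Y → ℝ := fun g p =>
    P.K p.1 p.2 ^ 2 * (W.U2 (P.z s g p.1) * W.U2 (P.z s g p.2)) with ha1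
  have ha1m : Measurable (Function.uncurry a1) :=
    ((P.kmeas.comp measurable_snd).pow_const 2).mul
      ((W.cont2.measurable.comp (P.measurable_z_pair s).1).mul
        (W.cont2.measurable.comp (P.measurable_z_pair s).2))
  have ha1b : ∀ g p, |a1 g p| ≤ P.K p.1 p.2 ^ 2 * S ^ 2 := fun g p => by
    rw [ha1]; simp only
    rw [abs_mul, abs_of_nonneg (sq_nonneg (P.K p.1 p.2)), abs_mul, sq S]
    exact mul_le_mul_of_nonneg_left (mul_le_mul (hW.s2 _) (hW.s2 _) (abs_nonneg _) hS) (sq_nonneg _)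
  have ha1i : Integrable (Function.uncurry a1) ((gam ι).prod (π'.prod π')) := by
    refine integrable_of_abs_le (K := P.kC ^ 2 * S ^ 2) ha1m fun r => (ha1b r.1 r.2).trans ?_
    rw [← sq_abs (P.K r.2.1 r.2.2)]
    gcongr
    exact P.abs_K_le' hs _ _
  have hA1 : ∀ g, |P.A1 W s g| ≤ S ^ 2 * VK := by
    intro g
    have hi : Integrable (a1 g) (π'.prod π') :=
      integrable_of_abs_le (K := P.kC ^ 2 * S ^ 2) (ha1m.comp measurable_prodMk_left)
        fun p => (ha1b g p).trans (by
          rw [← sq_abs (P.K p.1 p.2)]; gcongr; exact P.abs_K_le' hs _ _)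
    calc |P.A1 W s g| ≤ ∫ p, |a1 g p| ∂π'.prod π' := abs_integral_le_integral_abs
      _ ≤ ∫ p : Y × Y, P.K p.1 p.2 ^ 2 * S ^ 2 ∂π'.prod π' :=
          integral_mono hi.abs (hK2.mul_const _) (ha1b g)
      _ = S ^ 2 * VK := by rw [integral_mul_const, hVK]; ring
  have hmain : c * VK ≤ ∫ g, P.A1 W s g ∂gam ι := by
    have : ∫ g, P.A1 W s g ∂gam ι = ∫ g, ∫ p, a1 g p ∂π'.prod π' ∂gam ι := rfl
    rw [this, integral_integral_swap ha1i, hVK, ← integral_const_mul]
    refine integral_mono_ae (hK2.const_mul c) ha1i.integral_prod_right ?_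
    filter_upwards [(Measure.quasiMeasurePreserving_fst (μ := π') (ν := π')).ae hu,
      (Measure.quasiMeasurePreserving_snd (μ := π') (ν := π')).ae hu] with p h1 h2
    obtain ⟨hmem, heq⟩ := integral_pair_eq_corr2 W.cont2.measurable h1 h2
    simp only [ha1, integral_const_mul, Path.z]
    rw [heq, mul_comm c]
    exact mul_le_mul_of_nonneg_left (hW.corr _ hmem) (sq_nonneg _)
  -- the triple term
  have hA2 : ∀ g, |P.A2 W s g| ≤ S ^ 3 * VK := by
    intro g
    set f : (Y × Y) × Y → ℝ := fun q => P.K q.1.1 q.1.2 * P.K q.1.1 q.2 *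
      (W.U2 (P.z s g q.1.1) * W.U1 (P.z s g q.1.2) * W.U1 (P.z s g q.2))
    have hz := P.measurable_z s g
    have hKm : Measurable fun q : (Y × Y) × Y => P.K q.1.1 q.2 :=
      P.kmeas.comp (f := fun q : (Y × Y) × Y => (q.1.1, q.2)) (by fun_prop)
    have hfm : Measurable f := ((P.kmeas.comp measurable_fst).mul hKm).mul
      (((W.cont2.measurable.comp (hz.comp (measurable_fst.comp measurable_fst))).mul
        (W.cont1.measurable.comp (hz.comp (measurable_snd.comp measurable_fst)))).mul
        (W.cont1.measurable.comp (hz.comp measurable_snd)))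
    have hfb : ∀ q, |f q| ≤ (P.K q.1.1 q.1.2 ^ 2 + P.K q.1.1 q.2 ^ 2) / 2 * S ^ 3 := by
      intro q
      simp only [f, abs_mul]
      refine mul_le_mul ?_ ?_ (mul_nonneg (mul_nonneg (abs_nonneg _) (abs_nonneg _)) (abs_nonneg _))
        (by positivity)
      · nlinarith [sq_nonneg (|P.K q.1.1 q.1.2| - |P.K q.1.1 q.2|), sq_abs (P.K q.1.1 q.1.2),
          sq_abs (P.K q.1.1 q.2)]
      · rw [pow_succ, sq]
        exact mul_le_mul (mul_le_mul (hW.s2 _) (hW.s1 _) (abs_nonneg _) hS) (hW.s1 _) (abs_nonneg _)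
          (mul_nonneg hS hS)
    set k1 : (Y × Y) × Y → ℝ := fun q => P.K q.1.1 q.1.2 ^ 2
    set k2 : (Y × Y) × Y → ℝ := fun q => P.K q.1.1 q.2 ^ 2
    have hk1 : Integrable k1 ((π'.prod π').prod π') := hK2.comp_fst π'
    have hk2b : ∀ q, |k2 q| ≤ P.kC ^ 2 := fun q => by
      rw [abs_pow]; exact pow_le_pow_left₀ (abs_nonneg _) (P.abs_K_le' hs _ _) 2
    have hk2 : Integrable k2 ((π'.prod π').prod π') := integrable_of_abs_le (hKm.pow_const 2) hk2b
    have hk12 : Integrable (fun q => (k1 q + k2 q) / 2 * S ^ 3) ((π'.prod π').prod π') :=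
      ((hk1.add hk2).div_const 2).mul_const _
    have hfi : Integrable f ((π'.prod π').prod π') :=
      hk12.mono' hfm.aestronglyMeasurable (Eventually.of_forall hfb)
    have e1 : ∫ q, k1 q ∂(π'.prod π').prod π' = VK := by
      rw [integral_prod _ hk1]; simp [k1, hVK]
    have e2 : ∫ q, k2 q ∂(π'.prod π').prod π' = VK := by
      have hmp : MeasurePreserving (fun q : (Y × Y) × Y => (q.1.1, q.2))
          ((π'.prod π').prod π') (π'.prod π') :=
        (measurePreserving_fst (μ := π') (ν := π')).prod (MeasurePreserving.id π')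
      rw [hVK]
      conv_rhs => rw [← hmp.map_eq]
      rw [integral_map hmp.measurable.aemeasurable
        (by rw [hmp.map_eq]; exact hK2.aestronglyMeasurable)]
    calc |P.A2 W s g| ≤ ∫ q, |f q| ∂(π'.prod π').prod π' := abs_integral_le_integral_abs
      _ ≤ ∫ q, (k1 q + k2 q) / 2 * S ^ 3 ∂(π'.prod π').prod π' := integral_mono hfi.abs hk12 hfb
      _ = S ^ 3 * VK := by
          rw [integral_mul_const, integral_div, integral_add hk1 hk2, e1, e2]; ring
  have hZ : ∀ g, |P.Z W s g - 1| ≤ η := by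
    intro g
    have : P.Z W s g - 1 = ∫ y, (W.U (P.z s g y) - 1) ∂π' := by
      rw [integral_sub (P.integrable_U W s g) (integrable_const _)]; simp [Path.Z]
    rw [this]
    have := norm_integral_le_of_norm_le_const (μ := π') (f := fun y => W.U (P.z s g y) - 1)
      (Eventually.of_forall fun y => hW.near _)
    simpa using this
  have hA1m : Measurable (P.A1 W s) :=
    (ha1m.stronglyMeasurable.integral_prod_right' (ν := π'.prod π')).measurable
  have hA2m : Measurable (P.A2 W s) := by
    obtain ⟨m1, m2, m3⟩ := P.measurable_z_triple s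
    have : Measurable fun r : (ι → ℝ) × ((Y × Y) × Y) =>
        P.K r.2.1.1 r.2.1.2 * P.K r.2.1.1 r.2.2 *
          (W.U2 (P.z s r.1 r.2.1.1) * W.U1 (P.z s r.1 r.2.1.2) * W.U1 (P.z s r.1 r.2.2)) :=
      ((P.kmeas.comp (measurable_fst.comp measurable_snd)).mul
        (P.kmeas.comp (f := fun r : (ι → ℝ) × ((Y × Y) × Y) => (r.2.1.1, r.2.2)) (by fun_prop))).mul
        (((W.cont2.measurable.comp m1).mul (W.cont1.measurable.comp m2)).mul
          (W.cont1.measurable.comp m3))
    exact (this.stronglyMeasurable.integral_prod_right' (ν := (π'.prod π').prod π')).measurable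
  have hpoint : ∀ g, P.A1 W s g - (10 * η * S ^ 2 + 32 * S ^ 3) * VK ≤ P.qdI W s g := by
    intro g
    set Z := P.Z W s g
    obtain ⟨z1, z2⟩ := abs_le.1 (hZ g)
    have hs' := hW.small
    have hZh : 1 / 2 ≤ Z := by linarith
    have hZp : 0 < Z := by linarith
    have hinv : |1 / Z ^ 2 - 1| ≤ 10 * η := by
      rw [show (1 : ℝ) / Z ^ 2 - 1 = (1 - Z) * (1 + Z) / Z ^ 2 by field_simp; ring, abs_div, abs_mul,
        abs_of_pos (pow_pos hZp 2), abs_of_nonneg (show (0 : ℝ) ≤ 1 + Z by linarith),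
        div_le_iff₀ (pow_pos hZp 2), abs_sub_comm]
      calc |Z - 1| * (1 + Z) ≤ η * (1 + Z) := mul_le_mul_of_nonneg_right (hZ g) (by linarith)
        _ ≤ 10 * η * Z ^ 2 := by
            rw [mul_comm 10 η, mul_assoc]
            exact mul_le_mul_of_nonneg_left (by nlinarith) hη
    have e1 : P.A1 W s g - 10 * η * (S ^ 2 * VK) ≤ P.A1 W s g / Z ^ 2 := by
      have h := mul_le_mul hinv (hA1 g) (abs_nonneg _) (by positivity)
      rw [← abs_mul, abs_le] at h
      have : P.A1 W s g / Z ^ 2 = P.A1 W s g + (1 / Z ^ 2 - 1) * P.A1 W s g := by ring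
      linarith
    have e2 : 4 * P.A2 W s g / Z ^ 3 ≤ 32 * (S ^ 3 * VK) := by
      have h3 : (1 / 8 : ℝ) ≤ Z ^ 3 := by
        have := pow_le_pow_left₀ (by norm_num) hZh 3
        norm_num at this ⊢; linarith
      rw [div_le_iff₀ (pow_pos hZp 3)]
      have h5 := (abs_le.1 (hA2 g)).2
      have h6 := mul_le_mul_of_nonneg_left h3
        (show 0 ≤ 32 * (S ^ 3 * VK) by positivity)
      linarith
    have e3 : 0 ≤ 3 * P.R W s g ^ 2 / Z ^ 4 := by positivity
    unfold Path.qdI
    linarith
  have hA1i : Integrable (P.A1 W s) (gam ι) := integrable_of_abs_le hA1m hA1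
  have hqi : Integrable (P.qdI W s) (gam ι) := by
    have hA0 := W.A_nonneg
    refine integrable_of_abs_le (K := S ^ 2 * VK / W.a ^ 2 + 4 * (S ^ 3 * VK) / W.a ^ 3 +
      3 * (P.kC * (W.A * W.A)) ^ 2 / W.a ^ 4) ?_ fun g => ?_
    · exact ((hA1m.div ((P.measurable_Z W s).pow_const 2)).sub
        ((hA2m.const_mul 4).div ((P.measurable_Z W s).pow_const 3))).add
        ((((P.measurable_R W s).pow_const 2).const_mul 3).div ((P.measurable_Z W s).pow_const 4))
    · have hZp := P.Z_pos W s g
      have hle : ∀ k, W.a ^ k ≤ P.Z W s g ^ k := fun k =>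
        pow_le_pow_left₀ W.apos.le (P.Z_mem W s g).1 k
      refine (abs_add_le _ _).trans (add_le_add ((abs_sub _ _).trans (add_le_add ?_ ?_)) ?_)
      · rw [abs_div, abs_of_pos (pow_pos hZp 2)]
        exact div_le_div₀ (by positivity) (hA1 g) (pow_pos W.apos 2) (hle 2)
      · rw [abs_div, abs_mul, Nat.abs_ofNat, abs_of_pos (pow_pos hZp 3)]
        exact div_le_div₀ (by positivity) (mul_le_mul_of_nonneg_left (hA2 g) (by norm_num))
          (pow_pos W.apos 3) (hle 3)
      · rw [abs_div, abs_mul, Nat.abs_ofNat, abs_pow, abs_of_pos (pow_pos hZp 4)]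
        exact div_le_div₀ (by positivity) (mul_le_mul_of_nonneg_left
          (pow_le_pow_left₀ (abs_nonneg _) (P.abs_R_le W hs g) 2) (by norm_num))
          (pow_pos W.apos 4) (hle 4)
  have h1 := integral_mono (hA1i.sub (integrable_const _)) hqi hpoint
  simp only [Pi.sub_apply] at h1
  rw [integral_sub hA1i (integrable_const _)] at h1
  simp only [integral_const, probReal_univ, smul_eq_mul, one_mul] at h1
  have h2 := mul_le_mul_of_nonneg_right hW.dom hVK0
  linarith

theorem Path.concaveOn_m (W : SmoothWeight) (P : Path (ι := ι) π') {S η c : ℝ} (hW : Gentle W S η c)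
    (hJ : P.J = Set.Ioo (0 : ℝ) 1) (hc : ContinuousOn (P.m W) (Set.Icc 0 1))
    (hu : ∀ s ∈ P.J, ∀ᵐ y ∂π', ∑ i, P.v s y i ^ 2 = 1) :
    ConcaveOn ℝ (Set.Icc (0 : ℝ) 1) (P.m W) := by
  refine concaveOn_of_hasDerivWithinAt2_nonpos (convex_Icc _ _) hc
    (f' := fun s => -(1 / 2) * P.Q W s) (f'' := fun s => -(1 / 2) * ∫ g, P.qdI W s g ∂gam ι)
    ?_ ?_ ?_ <;> intro s hs <;> rw [interior_Icc, ← hJ] at hs
  · exact (P.hasDerivAt_m W hs).hasDerivWithinAt
  · exact ((P.hasDerivAt_Q W hs).const_mul _).hasDerivWithinAt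
  · have := P.integral_qdI_nonneg W hW hs (hu s hs)
    linarith

section blocks

variable {B : Type} [Fintype B] [DecidableEq B] {sz : B → ℕ}

lemma dot_feat (a b : B → ℝ) (y w : BI sz → ℝ) :
    dot (feat sz a y) (feat sz b w) =
      ∑ d, a d * b d * dot (dir (blk sz d y)) (dir (blk sz d w)) := by
  simp only [dot, feat, Fintype.sum_sigma, Finset.mul_sum]
  exact Finset.sum_congr rfl fun d _ => Finset.sum_congr rfl fun j _ => by ring

lemma abs_dir_le_one {κ : Type*} [Fintype κ] (y : κ → ℝ) (i : κ) : |dir y i| ≤ 1 := by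
  have h := (Finset.single_le_sum (f := fun j => dir y j ^ 2) (fun j _ => sq_nonneg _)
    (Finset.mem_univ i)).trans (sum_dir_sq_le y)
  exact abs_le_one_iff_mul_self_le_one.2 (by rw [← sq]; exact h)

lemma dot_dir_self {d : B} (hd : 0 < sz d) {y : BI sz → ℝ} (hy : ∀ i, y i ≠ 0) :
    dot (dir (blk sz d y)) (dir (blk sz d y)) = 1 := by
  simp only [dot, dir, ← sq, div_pow]
  rw [← Finset.sum_div, nrm, Real.sq_sqrt (Finset.sum_nonneg fun i _ => sq_nonneg _), div_self]
  refine ne_of_gt (Finset.sum_pos' (fun i _ => sq_nonneg _)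
    ⟨⟨0, hd⟩, Finset.mem_univ _, ?_⟩)
  exact lt_of_le_of_ne (sq_nonneg _) (Ne.symm (pow_ne_zero 2 (hy _)))

variable (sz)

/-- The average of `U` over features with block weights `w`, logged and averaged. -/
def phiW (W : SmoothWeight) (ρ' : Measure (BI sz → ℝ)) (w : B → ℝ) : ℝ :=
  ∫ g, Real.log (∫ y, W.U (dot g (feat sz (fun d => Real.sqrt (w d)) y)) ∂ρ') ∂gam (BI sz)

/-- Weights in the simplex, positive exactly on a given support. -/
def openFace (θ : B → ℝ) : Set (B → ℝ) :=
  {w | (∀ b, θ b = 0 → w b = 0) ∧ (∀ b, θ b ≠ 0 → 0 < w b) ∧ ∑ b, w b = 1}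

variable {sz}

omit [DecidableEq B] in
lemma convex_openFace (θ : B → ℝ) : Convex ℝ (openFace θ) := by
  rintro p ⟨p0, p1, p2⟩ q ⟨q0, q1, q2⟩ a b ha hb hab
  refine ⟨fun d hd => by simp [p0 d hd, q0 d hd], fun d hd => ?_, ?_⟩
  · simp only [Pi.add_apply, Pi.smul_apply, smul_eq_mul]
    rcases ha.eq_or_lt with h | h
    · rw [← h, show b = 1 by linarith]; simpa using q1 d hd
    · exact add_pos_of_pos_of_nonneg (mul_pos h (p1 d hd)) (mul_nonneg hb (q1 d hd).le)
  · simp only [Pi.add_apply, Pi.smul_apply, smul_eq_mul, Finset.sum_add_distrib, ← Finset.mul_sum,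
      p2, q2, mul_one, hab]

omit [DecidableEq B] in
lemma le_one_of_face {θ p : B → ℝ} (hp : p ∈ openFace θ) (d : B) : p d ≤ 1 := by
  rw [← hp.2.2]
  refine Finset.single_le_sum (f := p) (fun b _ => ?_) (Finset.mem_univ d)
  by_cases hb : θ b = 0
  · rw [hp.1 b hb]
  · exact (hp.2.1 b hb).le

theorem concaveOn_phiW (W : SmoothWeight) {S η c : ℝ} (hW : Gentle W S η c) {θ : B → ℝ}
    (hpos : ∀ b, θ b ≠ 0 → 0 < sz b) (ρ' : Measure (BI sz → ℝ)) [IsProbabilityMeasure ρ']
    (hne : ∀ᵐ y ∂ρ', ∀ i, y i ≠ 0) : ConcaveOn ℝ (openFace θ) (phiW sz W ρ') := by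
  refine ⟨convex_openFace θ, fun p hp q hq a b ha hb hab => ?_⟩
  set w : ℝ → B → ℝ := fun s d => (1 - s) * p d + s * q d with hw
  have hwmem : ∀ s ∈ Set.Icc (0 : ℝ) 1, w s ∈ openFace θ := fun s hs => by
    have := convex_openFace θ hp hq (sub_nonneg.2 hs.2) hs.1 (sub_add_cancel 1 s)
    exact this
  set C := 1 + ∑ d, 1 / Real.sqrt (min (p d) (q d)) with hC
  have hC1 : 1 ≤ C := le_add_of_nonneg_right (Finset.sum_nonneg fun d _ => by positivity)
  let P : Path (ι := BI sz) ρ' :=
  { J := Set.Ioo (0 : ℝ) 1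
    openJ := isOpen_Ioo
    v := fun s => feat sz fun d => Real.sqrt (w s d)
    e := fun s => feat sz fun d => (q d - p d) / (2 * Real.sqrt (w s d))
    C := C
    Cnonneg := zero_le_one.trans hC1
    vmeas := fun s => measurable_feat _
    emeas := fun s => measurable_feat _
    vb := fun s hs y i => by
      simp only [feat, abs_mul, abs_of_nonneg (Real.sqrt_nonneg _)]
      refine le_trans (mul_le_one₀ (Real.sqrt_le_one.2 ?_) (abs_nonneg _) (abs_dir_le_one _ _)) hC1
      exact le_one_of_face (hwmem s (Set.Ioo_subset_Icc_self hs)) _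
    eb := fun s hs y i => by
      simp only [feat, abs_mul, abs_div, abs_two, abs_of_nonneg (Real.sqrt_nonneg _)]
      refine le_trans (mul_le_of_le_one_right (by positivity) (abs_dir_le_one _ _)) ?_
      set d := i.1
      by_cases hd : θ d = 0
      · simp [hp.1 d hd, hq.1 d hd, hw]; linarith
      have hm : 0 < min (p d) (q d) := lt_min (hp.2.1 d hd) (hq.2.1 d hd)
      have hle : min (p d) (q d) ≤ w s d := by
        calc min (p d) (q d) = (1 - s) * min (p d) (q d) + s * min (p d) (q d) := by ring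
          _ ≤ w s d := add_le_add (mul_le_mul_of_nonneg_left (min_le_left _ _) (by linarith [hs.2]))
              (mul_le_mul_of_nonneg_left (min_le_right _ _) hs.1.le)
      have hsm := Real.sqrt_pos.2 hm
      have hqp : |q d - p d| ≤ 2 := by
        rw [abs_le]
        constructor <;> linarith [le_one_of_face hp d, le_one_of_face hq d, (hp.2.1 d hd).le,
          (hq.2.1 d hd).le]
      calc |q d - p d| / (2 * Real.sqrt (w s d)) ≤ 2 / (2 * Real.sqrt (min (p d) (q d))) :=
            div_le_div₀ zero_le_two hqp (by positivity)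
              (mul_le_mul_of_nonneg_left (Real.sqrt_le_sqrt hle) zero_le_two)
        _ = 1 / Real.sqrt (min (p d) (q d)) := by field_simp
        _ ≤ C := le_trans (Finset.single_le_sum (f := fun d => 1 / Real.sqrt (min (p d) (q d)))
            (fun d _ => by positivity) (Finset.mem_univ d)) (le_add_of_nonneg_left zero_le_one)
    deriv := fun s hs y i => by
      simp only [feat]
      refine HasDerivAt.mul_const ?_ _
      set d := i.1
      by_cases hd : θ d = 0
      · simp only [hw, hp.1 d hd, hq.1 d hd, mul_zero, add_zero, Real.sqrt_zero, sub_zero, zero_div]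
        exact hasDerivAt_const _ _
      have h1 : HasDerivAt (fun r => w r d) (q d - p d) s := by
        have := (((hasDerivAt_id s).const_sub 1).mul_const (p d)).add
          ((hasDerivAt_id s).mul_const (q d))
        exact this.congr_deriv (by ring)
      exact h1.sqrt ((hwmem s (Set.Ioo_subset_Icc_self hs)).2.1 d hd).ne'
    K := fun y z => ∑ d, (q d - p d) * dot (dir (blk sz d y)) (dir (blk sz d z))
    kmeas := Finset.measurable_sum _ fun d _ => ((measurable_dot.comp
      (((measurable_dir.comp (measurable_blk d)).comp measurable_fst).prodMk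
        ((measurable_dir.comp (measurable_blk d)).comp measurable_snd))).const_mul _)
    keq := fun s hs y z => by
      simp only [dot_feat, ← Finset.sum_add_distrib]
      refine Finset.sum_congr rfl fun d _ => ?_
      by_cases hd : θ d = 0
      · simp [hw, hp.1 d hd, hq.1 d hd]
      have := Real.sqrt_ne_zero'.2 ((hwmem s (Set.Ioo_subset_Icc_self hs)).2.1 d hd)
      field_simp
      ring
    orth := fun s hs => by
      filter_upwards [hne] with y hy
      rw [dot_feat]
      have e : ∀ d, (q d - p d) / (2 * Real.sqrt (w s d)) * Real.sqrt (w s d) *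
          dot (dir (blk sz d y)) (dir (blk sz d y)) = (q d - p d) / 2 := fun d => by
        by_cases hd : θ d = 0
        · simp [hp.1 d hd, hq.1 d hd]
        have := Real.sqrt_ne_zero'.2 ((hwmem s (Set.Ioo_subset_Icc_self hs)).2.1 d hd)
        rw [dot_dir_self (hpos d hd) hy]
        field_simp
      simp only [e, ← Finset.sum_div, Finset.sum_sub_distrib, hp.2.2, hq.2.2, sub_self, zero_div] }
  have hm : ∀ s, P.m W s = phiW sz W ρ' (w s) := fun s => rfl
  have hcont : ContinuousOn (P.m W) (Set.Icc 0 1) := by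
    have hv : ∀ (g : BI sz → ℝ) (y : BI sz → ℝ), Continuous fun s => P.z s g y := fun g y => by
      simp only [Path.z, dot, P, feat, hw]; fun_prop
    refine continuousOn_of_dominated (bound := fun _ => |Real.log W.a| + |Real.log W.A|)
      (fun s _ => (Real.measurable_log.comp (P.measurable_Z W s)).aestronglyMeasurable)
      (fun s _ => Eventually.of_forall fun g => ?_) (integrable_const _)
      (Eventually.of_forall fun g => ?_)
    · have h1 := Real.log_le_log W.apos (P.Z_mem W s g).1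
      have h2 := Real.log_le_log (P.Z_pos W s g) (P.Z_mem W s g).2
      rw [Real.norm_eq_abs, abs_le]
      constructor <;> linarith [neg_abs_le (Real.log W.a), le_abs_self (Real.log W.A),
        abs_nonneg (Real.log W.a), abs_nonneg (Real.log W.A)]
    · refine ContinuousOn.log (Continuous.continuousOn ?_) fun s _ => (P.Z_pos W s g).ne'
      exact continuous_of_dominated (bound := fun _ => W.A)
        (fun s => (W.cont0.measurable.comp (P.measurable_z s g)).aestronglyMeasurable)
        (fun s => Eventually.of_forall fun y => W.b0 _) (integrable_const _)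
        (Eventually.of_forall fun y => W.cont0.comp (hv g y))
  have hu : ∀ s ∈ P.J, ∀ᵐ y ∂ρ', ∑ i, P.v s y i ^ 2 = 1 := fun s hs => by
    filter_upwards [hne] with y hy
    have hmem := hwmem s (Set.Ioo_subset_Icc_self hs)
    have : ∑ i, P.v s y i ^ 2 = ∑ d, Real.sqrt (w s d) * Real.sqrt (w s d) *
        dot (dir (blk sz d y)) (dir (blk sz d y)) := by
      rw [← dot_feat]; simp [dot, sq, P]
    rw [this, ← hmem.2.2]
    refine Finset.sum_congr rfl fun d _ => ?_
    by_cases hd : θ d = 0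
    · simp [hmem.1 d hd]
    · rw [Real.mul_self_sqrt (hmem.2.1 d hd).le, dot_dir_self (hpos d hd) hy, mul_one]
  have h := (P.concaveOn_m W hW rfl hcont hu).2 (Set.left_mem_Icc.2 zero_le_one)
    (Set.right_mem_Icc.2 zero_le_one) ha hb hab
  simp only [hm, smul_eq_mul, mul_zero, mul_one, zero_add] at h
  have e0 : w 0 = p := by ext d; simp [hw]
  have e1 : w 1 = q := by ext d; simp [hw]
  have eb : w b = a • p + b • q := by
    ext d; simp [hw, show a = 1 - b by linarith]
  rw [e0, e1, eb] at h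
  simpa [smul_eq_mul] using h

/-- Small-amplitude smooth weights give block concavity. -/
theorem blockConcave_of_gentle {f : ℝ → ℝ} {K : ℝ} (hf : Usable f K) (W : SmoothWeight)
    (hU : ∀ z, W.U z = Real.exp (f z)) {S η c : ℝ} (hW : Gentle W S η c) : BlockConcave f := by
  intro B _ _ sz θ hθ0 hθ1 hpos ρ' hρ' hne
  have hphi : ∀ w, phiW sz W ρ' w =
      ∫ g, lint ρ' (term f (feat sz fun d => Real.sqrt (w d)) g) ∂gam (BI sz) := fun w => by
    simp only [phiW, hU]; rfl
  set δ : B → B → ℝ := fun b d => if d = b then 1 else 0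
  have hθmem : θ ∈ openFace θ :=
    ⟨fun b hb => hb, fun b hb => lt_of_le_of_ne (hθ0 b) (Ne.symm hb), hθ1⟩
  set T := Finset.univ.filter fun b => θ b ≠ 0
  have hT : ∀ (F : B → ℝ), ∑ b ∈ T, θ b * F b = ∑ b, θ b * F b := fun F => by
    refine Finset.sum_subset (Finset.subset_univ _) fun b _ hb => ?_
    simp [T] at hb; simp [hb]
  rw [← hphi θ, show (∑ b, θ b * ∫ g, lint ρ' (term f (featb sz b) g) ∂gam (BI sz)) =
      ∑ b ∈ T, θ b * ∫ g, lint ρ' (term f (featb sz b) g) ∂gam (BI sz) from (hT _).symm]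
  refine le_of_forall_pos_le_add fun ε hε => ?_
  have hε' : 0 < ε / (2 * Real.exp (2 * K)) := by positivity
  obtain ⟨L, hL, hmod⟩ := hf.modulus _ hε'
  -- smoothing parameter
  obtain ⟨t, ht0, ht1, htε⟩ : ∃ t : ℝ, 0 < t ∧ t ≤ 1 ∧
      L * Real.sqrt (2 * t) ≤ ε / (2 * Real.exp (2 * K)) := by
    have hc : ContinuousAt (fun t : ℝ => L * Real.sqrt (2 * t)) 0 := by fun_prop
    have h0 : ∀ᶠ t in 𝓝[>] (0 : ℝ), L * Real.sqrt (2 * t) ≤ ε / (2 * Real.exp (2 * K)) :=
      (hc.eventually (ge_mem_nhds (by simpa using hε'))).filter_mono nhdsWithin_le_nhds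
    obtain ⟨t, h1, h2, h3⟩ :=
      (h0.and (eventually_mem_nhdsWithin.and
        ((eventually_le_nhds (one_pos (α := ℝ))).filter_mono nhdsWithin_le_nhds))).exists
    exact ⟨t, h2, h3, h1⟩
  set p : B → B → ℝ := fun b d => (1 - t) * δ b d + t * θ d
  have hp : ∀ b ∈ T, p b ∈ openFace θ := by
    intro b hb
    simp only [T, Finset.mem_filter, Finset.mem_univ, true_and] at hb
    refine ⟨fun d hd => ?_, fun d hd => ?_, ?_⟩
    · have hdb : d ≠ b := fun h => hb (h ▸ hd)
      simp [p, δ, hd, hdb]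
    · exact add_pos_of_nonneg_of_pos (mul_nonneg (by linarith) (by simp only [δ]; split_ifs <;> norm_num))
        (mul_pos ht0 (hθmem.2.1 d hd))
    · simp [p, δ, Finset.sum_add_distrib, ← Finset.mul_sum, hθ1]
  have hT1 : ∑ b ∈ T, θ b = 1 := by simpa [hθ1] using hT fun _ => 1
  have hJ := (concaveOn_phiW W hW hpos ρ' hne).le_map_sum (t := T) (w := θ) (p := p)
    (fun b _ => hθ0 b) hT1 hp
  have hmix : ∑ b ∈ T, θ b • p b = θ := by
    ext d
    simp only [Finset.sum_apply, Pi.smul_apply, smul_eq_mul]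
    rw [hT fun b => p b d]
    simp only [p, δ, mul_add, Finset.sum_add_distrib, ← Finset.sum_mul, hθ1, one_mul]
    rw [Finset.sum_eq_single d]
    · simp; ring
    · intro b _ hb; simp [Ne.symm hb]
    · simp
  rw [hmix] at hJ
  simp only [smul_eq_mul] at hJ
  have hend : ∀ b ∈ T, ∫ g, lint ρ' (term f (featb sz b) g) ∂gam (BI sz) ≤
      phiW sz W ρ' (p b) + ε := by
    intro b hb
    rw [hphi]
    have hd : ∀ y : BI sz → ℝ, Real.sqrt (∑ i, (featb sz b y i -
        feat sz (fun d => Real.sqrt (p b d)) y i) ^ 2) ≤ Real.sqrt (2 * t) := by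
      intro y
      refine Real.sqrt_le_sqrt ?_
      have e : ∀ i : BI sz, featb sz b y i - feat sz (fun d => Real.sqrt (p b d)) y i =
          feat sz (fun d => Real.sqrt (δ b d) - Real.sqrt (p b d)) y i := fun i => by
        simp only [featb, feat, δ]
        split_ifs <;> simp [sub_mul]
      simp only [e]
      rw [Fintype.sum_sigma]
      simp only [feat, mul_pow, ← Finset.mul_sum]
      calc ∑ d, (Real.sqrt (δ b d) - Real.sqrt (p b d)) ^ 2 *
            ∑ j, dir (blk sz d y) j ^ 2
          ≤ ∑ d, (Real.sqrt (δ b d) - Real.sqrt (p b d)) ^ 2 := Finset.sum_le_sum fun d _ =>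
            mul_le_of_le_one_right (sq_nonneg _) (sum_dir_sq_le _)
        _ ≤ ∑ d, (t * δ b d + t * θ d) := Finset.sum_le_sum fun d _ => by
            have h0 : 0 ≤ δ b d := by simp only [δ]; split_ifs <;> norm_num
            have h1 : 0 ≤ p b d :=
              add_nonneg (mul_nonneg (by linarith) h0) (mul_nonneg ht0.le (hθ0 d))
            refine le_trans (show (Real.sqrt (δ b d) - Real.sqrt (p b d)) ^ 2 ≤ |δ b d - p b d| from ?_) ?_
            · have ha' := Real.sq_sqrt h0
              have hb' := Real.sq_sqrt h1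
              have sa := Real.sqrt_nonneg (δ b d)
              have sb := Real.sqrt_nonneg (p b d)
              rcases le_total (Real.sqrt (δ b d)) (Real.sqrt (p b d)) with h | h
              · have := neg_abs_le (δ b d - p b d); nlinarith
              · have := le_abs_self (δ b d - p b d); nlinarith
            · have q1 := mul_nonneg ht0.le h0
              have q2 := mul_nonneg ht0.le (hθ0 d)
              rw [abs_le]
              constructor <;> simp only [p] <;> linarith
        _ = 2 * t := by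
            simp [δ, Finset.sum_add_distrib, ← Finset.mul_sum, hθ1]
            ring
    have := abs_le.1 (abs_lint_sub_le (π' := ρ') hf.meas hf.bound hL hmod
      (measurable_feat (fun d => if d = b then (1 : ℝ) else 0)) (measurable_feat _) hd)
    have h2 : Real.exp (2 * K) *
        (ε / (2 * Real.exp (2 * K)) + L * Real.sqrt (2 * t)) ≤ ε := by
      calc _ ≤ Real.exp (2 * K) * (ε / (2 * Real.exp (2 * K)) + ε / (2 * Real.exp (2 * K))) := by
            gcongr
        _ = ε := by field_simp; ring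
    have e3 : featb sz b = feat sz (fun d => if d = b then (1 : ℝ) else 0) := rfl
    rw [e3]
    linarith
  calc ∑ b ∈ T, θ b * ∫ g, lint ρ' (term f (featb sz b) g) ∂gam (BI sz)
      ≤ ∑ b ∈ T, θ b * (phiW sz W ρ' (p b) + ε) :=
        Finset.sum_le_sum fun b hb => mul_le_mul_of_nonneg_left (hend b hb) (hθ0 b)
    _ ≤ phiW sz W ρ' θ + ε := by
        simp only [mul_add, Finset.sum_add_distrib, ← Finset.sum_mul, hT1, one_mul]
        linarith

end blocks

end Vale.Agent.P157
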