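import Mathlib
import Vale.Agent.P157.RSPattern
import Vale.Agent.P157.Smooth

/-!
The annealed value from the second moment and the concentration of the log-partition function.
-/

noncomputable section

open MeasureTheory ProbabilityTheory Filter
open scoped Topology

namespace Vale.Agent.P157

section concentration

variable {Y Ω : Type*} [MeasurableSpace Y] [MeasurableSpace Ω] {P : Measure Ω}
  [IsProbabilityMeasure P] {K : ℝ} {F : Ω → Y → ℝ}

/-- Exponential moments of the log-partition function. -/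
theorem mgf_lint_le (h : Nice K F) (l : ℝ) (M : ℕ) :
    ∀ π : Measure Y, IsProbabilityMeasure π →
      ∫ ω : Fin M → Ω, Real.exp (l * lint π (fun y => ∑ a, F (ω a) y)) ∂Measure.pi (fun _ => P) ≤
        Real.exp (l * Phi P F π M + M * (l ^ 2 * K ^ 2 / 2)) := by
  induction M with
  | zero => intro π _; simp [Phi_zero, lint]
  | succ M ih =>
    intro π hπ
    have e := measurePreserving_piFinSuccAbove (fun _ : Fin (M + 1) => P) 0
    set L : Ω × (Fin M → Ω) → ℝ := fun p => lint π (fun y => F p.1 y + ∑ a, F (p.2 a) y) with hL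
    have e1 : ∫ ω : Fin (M + 1) → Ω, Real.exp (l * lint π (fun y => ∑ a, F (ω a) y))
        ∂Measure.pi (fun _ => P) = ∫ p, Real.exp (l * L p) ∂P.prod (Measure.pi fun _ => P) := by
      rw [← e.integral_comp' (g := fun p => Real.exp (l * L p))]
      congr 1
      ext ω
      congr 2
      simp only [hL]
      congr 1
      ext y
      rw [Fin.sum_univ_succ]
      rfl
    rw [e1]
    have hadd := h.add (h.sum M)
    have hLm : Measurable L := measurable_lint π hadd.meas
    have hLb : ∀ p, |L p| ≤ K + M * K := fun p => abs_lint_le (hadd.meas_left p) (hadd.bound p)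
    have hei : Integrable (fun p => Real.exp (l * L p)) (P.prod (Measure.pi fun _ : Fin M => P)) :=
      integrable_exp_of_abs_le (hLm.const_mul l) (K := |l| * (K + M * K)) fun p => by
        rw [abs_mul]; exact mul_le_mul_of_nonneg_left (hLb p) (abs_nonneg l)
    set Yf : Ω → ℝ := fun ω => lint π (F ω) + Phi P F (π.tilted (F ω)) M with hYf
    have hY : ∀ ω, Yf ω = ∫ r : Fin M → Ω, L (ω, r) ∂Measure.pi fun _ => P := fun ω => by
      have := isProb_tilted (π := π) (h.meas_left ω) (h.bound ω)
      simp only [hL, hYf, lint_add (h.meas_left ω) (h.bound ω) ((h.sum M).meas_left _)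
        ((h.sum M).bound _)]
      rw [integral_add (integrable_const _) ((h.sum M).integrable_lint _ _)]
      simp [Phi]
    have hstep : ∀ ω, ∫ r : Fin M → Ω, Real.exp (l * L (ω, r)) ∂Measure.pi (fun _ => P) ≤
        Real.exp (l * Yf ω) * Real.exp (M * (l ^ 2 * K ^ 2 / 2)) := fun ω => by
      have hT := isProb_tilted (π := π) (h.meas_left ω) (h.bound ω)
      simp only [hL, lint_add (h.meas_left ω) (h.bound ω) ((h.sum M).meas_left _)
        ((h.sum M).bound _), mul_add, Real.exp_add, integral_const_mul]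
      refine (mul_le_mul_of_nonneg_left (ih _ hT) (Real.exp_pos _).le).trans (le_of_eq ?_)
      rw [hYf, ← Real.exp_add, ← Real.exp_add]
      congr 1
      ring
    have hYint : Integrable Yf P := integrable_tilted_Phi P h h M
    have hrange : ∀ ω, Yf ω ∈ Set.Icc (Phi P F π M - K) (Phi P F π M + K) := fun ω => by
      have hd : |Yf ω - Phi P F π M| ≤ K := by
        have hi1 : Integrable (fun r : Fin M → Ω => L (ω, r)) (Measure.pi fun _ => P) :=
          integrable_of_abs_le (hLm.comp measurable_prodMk_left) fun r => hLb _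
        rw [hY, Phi, ← integral_sub hi1 ((h.sum M).integrable_lint _ _)]
        refine (norm_integral_le_of_norm_le_const (μ := Measure.pi fun _ : Fin M => P)
          (f := fun r : Fin M → Ω => L (ω, r) - lint π fun y => ∑ a, F (r a) y) (C := K)
          (Eventually.of_forall fun r => ?_)).trans (le_of_eq (by rw [probReal_univ, mul_one]))
        have hS := isProb_tilted (π := π) ((h.sum M).meas_left r) ((h.sum M).bound r)
        have e2 : L (ω, r) = lint π (fun y => ∑ a, F (r a) y) +
            lint (π.tilted fun y => ∑ a, F (r a) y) (F ω) := by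
          rw [← lint_add ((h.sum M).meas_left r) ((h.sum M).bound r) (h.meas_left ω) (h.bound ω)]
          simp only [hL, add_comm]
        rw [Real.norm_eq_abs, e2, add_sub_cancel_left]
        exact abs_lint_le (h.meas_left ω) (h.bound ω)
      rw [Set.mem_Icc]
      constructor <;> linarith [(abs_le.1 hd).1, (abs_le.1 hd).2]
    have hsg := hasSubgaussianMGF_of_mem_Icc (μ := P) hYint.aemeasurable (Eventually.of_forall hrange)
    have hm := hsg.mgf_le l
    simp only [mgf] at hm
    have hK : 0 ≤ K ∨ IsEmpty Y := by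
      rcases isEmpty_or_nonempty Y with hy | ⟨⟨y⟩⟩
      · exact Or.inr hy
      · rcases isEmpty_or_nonempty Ω with hw | ⟨⟨w⟩⟩
        · exact absurd (Measure.eq_zero_of_isEmpty P) (IsProbabilityMeasure.ne_zero P)
        · exact Or.inl ((abs_nonneg _).trans (h.bound w y))
    have hc : ((‖Phi P F π M + K - (Phi P F π M - K)‖₊ / 2) ^ 2 : NNReal).toReal = K ^ 2 := by
      push_cast
      rw [Real.norm_eq_abs, show Phi P F π M + K - (Phi P F π M - K) = 2 * K by ring,
        abs_mul, abs_two]
      rw [show 2 * |K| / 2 = |K| by ring, sq_abs]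
    rw [hc] at hm
    have hmean : ∫ ω, Yf ω ∂P = Phi P F π (M + 1) := (Phi_succ h M).symm
    have e3 : ∀ ω, Real.exp (l * Yf ω) =
        Real.exp (l * Phi P F π (M + 1)) * Real.exp (l * (Yf ω - ∫ ω', Yf ω' ∂P)) := fun ω => by
      rw [← Real.exp_add, hmean]; congr 1; ring
    have hiY : Integrable (fun ω => Real.exp (l * Yf ω)) P := by
      simp only [e3]
      exact (hsg.integrable_exp_mul l).const_mul _
    calc ∫ p, Real.exp (l * L p) ∂P.prod (Measure.pi fun _ => P)
        = ∫ ω, ∫ r : Fin M → Ω, Real.exp (l * L (ω, r)) ∂Measure.pi (fun _ => P) ∂P :=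
          integral_prod _ hei
      _ ≤ ∫ ω, Real.exp (l * Yf ω) * Real.exp (M * (l ^ 2 * K ^ 2 / 2)) ∂P :=
          integral_mono hei.integral_prod_left (hiY.mul_const _) hstep
      _ ≤ _ := by
          rw [integral_mul_const]
          simp only [e3, integral_const_mul]
          refine (mul_le_mul_of_nonneg_right (mul_le_mul_of_nonneg_left hm (Real.exp_pos _).le)
            (Real.exp_pos _).le).trans (le_of_eq ?_)
          rw [← Real.exp_add, ← Real.exp_add]
          push_cast
          congr 1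
          ring

/-- A second-moment bound forces the quenched value up to the annealed one. -/
theorem Phi_ge_annealed (h : Nice K F) {π : Measure Y} [IsProbabilityMeasure π] {M : ℕ} {a D : ℝ}
    (hD : 1 ≤ D)
    (h1 : ∫ ω : Fin M → Ω, Real.exp (lint π (fun y => ∑ b, F (ω b) y)) ∂Measure.pi (fun _ => P) =
      Real.exp a)
    (h2 : ∫ ω : Fin M → Ω, Real.exp (2 * lint π (fun y => ∑ b, F (ω b) y)) ∂Measure.pi (fun _ => P) ≤
      Real.exp (2 * a) * D)
    {l : ℝ} (hl0 : 0 < l) (hl1 : l < 1) :
    a - Real.log D / l - M * (l * K ^ 2 / 2) ≤ Phi P F π M := by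
  set X : (Fin M → Ω) → ℝ := fun ω => lint π (fun y => ∑ b, F (ω b) y) - a
  have hXm : Measurable X := (measurable_lint π (h.sum M).meas).sub_const a
  have hXb : ∀ ω, |X ω| ≤ M * K + |a| := fun ω => (abs_sub _ _).trans
    (add_le_add (abs_lint_le ((h.sum M).meas_left ω) ((h.sum M).bound ω)) le_rfl)
  have hi : ∀ c d : ℝ, Integrable (fun ω => Real.exp (c * X ω + d)) (Measure.pi fun _ : Fin M => P) :=
    fun c d => integrable_exp_of_abs_le ((hXm.const_mul c).add_const d)
      (K := |c| * (M * K + |a|) + |d|) fun ω => (abs_add_le _ _).trans (add_le_add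
        (by rw [abs_mul]; exact mul_le_mul_of_nonneg_left (hXb ω) (abs_nonneg c)) le_rfl)
  set u := 1 / (2 - l)
  set v := (1 - l) / (2 - l)
  have hu : 0 < u := one_div_pos.2 (by linarith)
  have hv : 0 < v := div_pos (by linarith) (by linarith)
  have h2l : 2 - l ≠ 0 := by linarith
  have huv : u + v = 1 := by simp only [u, v]; rw [← add_div, div_eq_one_iff_eq h2l]; ring
  set S := (1 - l) * Real.log D
  have hpt : ∀ ω, Real.exp (X ω) ≤
      u * Real.exp (l * X ω + S) + v * Real.exp (2 * X ω + -Real.log D) := fun ω => by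
    have := convexOn_exp.2 (Set.mem_univ (l * X ω + S)) (Set.mem_univ (2 * X ω + -Real.log D))
      hu.le hv.le huv
    simp only [smul_eq_mul] at this
    refine le_trans (le_of_eq ?_) this
    congr 1
    simp only [u, v, S]
    field_simp
    ring
  have hX1 : ∫ ω, Real.exp (X ω) ∂(Measure.pi fun _ : Fin M => P) = 1 := by
    simp only [X, Real.exp_sub, integral_div, h1, div_self (Real.exp_pos a).ne']
  have hX2 : ∫ ω, Real.exp (2 * X ω + -Real.log D) ∂(Measure.pi fun _ : Fin M => P) ≤ 1 := by
    simp only [X, Real.exp_add, mul_sub, Real.exp_sub, Real.exp_neg,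
      Real.exp_log (zero_lt_one.trans_le hD), integral_mul_const, integral_div]
    rw [← div_eq_mul_inv, div_div, div_le_one (mul_pos (Real.exp_pos _) (zero_lt_one.trans_le hD))]
    exact h2
  have i1 : Integrable (fun ω => Real.exp (X ω)) (Measure.pi fun _ : Fin M => P) := by
    simpa using hi 1 0
  have hm := integral_mono i1 (((hi l S).const_mul u).add ((hi 2 _).const_mul v)) hpt
  simp only [Pi.add_apply] at hm
  rw [hX1, integral_add ((hi l S).const_mul u) ((hi 2 _).const_mul v), integral_const_mul,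
    integral_const_mul] at hm
  have hlow : 1 ≤ ∫ ω, Real.exp (l * X ω + S) ∂(Measure.pi fun _ : Fin M => P) := by
    have := mul_le_mul_of_nonneg_left hX2 hv.le
    by_contra hcon
    have := mul_lt_mul_of_pos_left (not_le.1 hcon) hu
    linarith
  have hup : ∫ ω, Real.exp (l * X ω + S) ∂(Measure.pi fun _ : Fin M => P) ≤
      Real.exp (l * Phi P F π M + M * (l ^ 2 * K ^ 2 / 2) + (S - l * a)) := by
    rw [Real.exp_add _ (S - l * a)]
    refine le_trans (le_of_eq ?_) (mul_le_mul_of_nonneg_right (mgf_lint_le h l M π inferInstance)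
      (Real.exp_pos _).le)
    rw [← integral_mul_const]
    congr 1
    ext ω
    rw [← Real.exp_add]
    congr 1
    simp only [X]; ring
  have h3 := Real.one_le_exp_iff.1 (hlow.trans hup)
  have hlD := Real.log_nonneg hD
  simp only [S] at h3
  have h5 : 0 ≤ l * Real.log D := mul_nonneg hl0.le hlD
  have h6 : l * (a - Real.log D / l - M * (l * K ^ 2 / 2)) ≤ l * Phi P F π M := by
    rw [mul_sub, mul_sub, mul_div_cancel₀ _ hl0.ne']
    linarith
  exact le_of_mul_le_mul_left h6 hl0

end concentration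

section moments

variable {N : ℕ} {π : Measure (Fin N → ℝ)} [IsProbabilityMeasure π] {f : ℝ → ℝ} {K : ℝ}

/-- Second-moment correlation of the weight, normalised by the squared mean. -/
def corrRatio (f : ℝ → ℝ) (r : ℝ) : ℝ :=
  corr2 (fun z => Real.exp (f z)) r / (∫ z, Real.exp (f z) ∂gaussianReal 0 1) ^ 2

lemma corrRatio_mem (hf : Measurable f) (hb : ∀ z, |f z| ≤ K) (r : ℝ) :
    0 < corrRatio f r ∧ |Real.log (corrRatio f r)| ≤ 4 * K := by
  obtain ⟨a1, a2⟩ := integral_exp_mem (π := gam1) hf hb
  have hg : Measurable fun g : Fin 2 → ℝ => f (g 0) + f (r * g 0 + Real.sqrt (1 - r ^ 2) * g 1) :=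
    (hf.comp (measurable_pi_apply 0)).add (hf.comp (by fun_prop))
  obtain ⟨c1, c2⟩ := integral_exp_mem (π := gam (Fin 2)) hg (K := 2 * K) fun g =>
    (abs_add_le _ _).trans (by linarith [hb (g 0), hb (r * g 0 + Real.sqrt (1 - r ^ 2) * g 1)])
  have e : ∫ g : Fin 2 → ℝ, Real.exp (f (g 0) + f (r * g 0 + Real.sqrt (1 - r ^ 2) * g 1))
      ∂gam (Fin 2) = corr2 (fun z => Real.exp (f z)) r := by
    simp only [Real.exp_add]; rfl
  rw [e] at c1 c2
  have ha := (Real.exp_pos _).trans_le a1
  have hc := (Real.exp_pos _).trans_le c1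
  refine ⟨div_pos hc (pow_pos ha 2), ?_⟩
  rw [corrRatio, Real.log_div hc.ne' (pow_ne_zero 2 ha.ne'), Real.log_pow]
  have l1 := Real.log_le_log (Real.exp_pos _) a1
  have l2 := Real.log_le_log ha a2
  have l3 := Real.log_le_log (Real.exp_pos _) c1
  have l4 := Real.log_le_log hc c2
  simp only [Real.log_exp] at l1 l2 l3 l4
  rw [abs_le]
  push_cast
  constructor <;> linarith

lemma Phi_term_le_annealed (hf : Measurable f) (hb : ∀ z, |f z| ≤ K) (hN : 0 < N)
    (hne : ∀ᵐ y ∂π, ∀ i, y i ≠ 0) (M : ℕ) :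
    (∫ ω : Fin M → Fin N → ℝ, Real.exp (lint π (fun y => ∑ a, term f dir (ω a) y))
        ∂Measure.pi (fun _ => gam (Fin N)) = Real.exp (M * Real.log (∫ z, Real.exp (f z) ∂gam1))) ∧
      Phi (gam (Fin N)) (term f dir) π M ≤ M * Real.log (∫ z, Real.exp (f z) ∂gam1) := by
  have hn := nice_term hf hb (measurable_dir (ι := Fin N))
  have hs := hn.sum M
  have ha := (Real.exp_pos _).trans_le (integral_exp_mem (π := gam1) hf hb).1
  have h1 : ∫ ω : Fin M → Fin N → ℝ, Real.exp (lint π (fun y => ∑ a, term f dir (ω a) y))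
      ∂Measure.pi (fun _ => gam (Fin N)) = Real.exp (M * Real.log (∫ z, Real.exp (f z) ∂gam1)) := by
    have e : ∀ ω : Fin M → Fin N → ℝ, Real.exp (lint π (fun y => ∑ a, term f dir (ω a) y)) =
        ∫ y, Real.exp (∑ a, term f dir (ω a) y) ∂π := fun ω =>
      Real.exp_log ((Real.exp_pos _).trans_le (integral_exp_mem (hs.meas_left ω) (hs.bound ω)).1)
    simp only [e]
    rw [integral_integral_swap (integrable_exp_of_abs_le hs.meas fun p => hs.bound p.1 p.2)]
    have hin : ∀ᵐ y ∂π, ∫ ω : Fin M → Fin N → ℝ, Real.exp (∑ a, term f dir (ω a) y)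
        ∂Measure.pi (fun _ => gam (Fin N)) = (∫ z, Real.exp (f z) ∂gam1) ^ M := by
      filter_upwards [hne] with y hy
      simp only [Real.exp_sum]
      rw [integral_fintype_prod_eq_pow (fun g : Fin N → ℝ => Real.exp (term f dir g y)),
        Fintype.card_fin]
      congr 1
      have hu : ∑ i, dir y i ^ 2 = 1 := by
        simp only [dir, div_pow, ← Finset.sum_div, nrm]
        rw [Real.sq_sqrt (Finset.sum_nonneg fun i _ => sq_nonneg _), div_self]
        refine ne_of_gt (Finset.sum_pos' (fun i _ => sq_nonneg _) ⟨⟨0, hN⟩, Finset.mem_univ _, ?_⟩)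
        exact lt_of_le_of_ne (sq_nonneg _) (Ne.symm (pow_ne_zero 2 (hy _)))
      have hm : Measurable fun g : Fin N → ℝ => dot g (dir y) := by unfold dot; fun_prop
      have := integral_map (μ := gam (Fin N)) hm.aemeasurable (f := fun z => Real.exp (f z))
        hf.exp.aestronglyMeasurable
      rw [map_dot_unit hu] at this
      exact this.symm
    rw [integral_congr_ae hin]
    simp [Real.exp_nat_mul, Real.exp_log ha]
  refine ⟨h1, ?_⟩
  have hmeas : Measurable fun ω : Fin M → Fin N → ℝ => lint π (fun y => ∑ a, term f dir (ω a) y) :=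
    measurable_lint π hs.meas
  have hj := integral_log_le_log_integral (π := Measure.pi fun _ : Fin M => gam (Fin N))
    (h := fun ω => Real.exp (lint π (fun y => ∑ a, term f dir (ω a) y))) (Real.exp_pos _) hmeas.exp
    (b := Real.exp (M * K)) (a := Real.exp (-(M * K))) fun ω => by
      have := abs_le.1 (abs_lint_le (π := π) (hs.meas_left ω) (hs.bound ω))
      exact ⟨Real.exp_le_exp.2 this.1, Real.exp_le_exp.2 this.2⟩
  simp only [Real.log_exp, h1] at hj
  exact hj

lemma second_moment (hf : Measurable f) (hb : ∀ z, |f z| ≤ K) (hN : 0 < N)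
    (hne : ∀ᵐ y ∂π, ∀ i, y i ≠ 0) (M : ℕ) :
    ∫ ω : Fin M → Fin N → ℝ, Real.exp (2 * lint π (fun y => ∑ a, term f dir (ω a) y))
        ∂Measure.pi (fun _ => gam (Fin N)) =
      Real.exp (2 * (M * Real.log (∫ z, Real.exp (f z) ∂gam1))) *
        ∫ p, corrRatio f (dot (dir p.1) (dir p.2)) ^ M ∂π.prod π := by
  have hn := nice_term hf hb (measurable_dir (ι := Fin N))
  have hs := hn.sum M
  have ha := (Real.exp_pos _).trans_le (integral_exp_mem (π := gam1) hf hb).1
  have e : ∀ ω : Fin M → Fin N → ℝ, Real.exp (2 * lint π (fun y => ∑ a, term f dir (ω a) y)) =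
      ∫ p : (Fin N → ℝ) × (Fin N → ℝ), Real.exp (∑ a, term f dir (ω a) p.1) *
        Real.exp (∑ a, term f dir (ω a) p.2) ∂π.prod π := fun ω => by
    rw [integral_prod_mul (fun y => Real.exp (∑ a, term f dir (ω a) y))
      (fun y => Real.exp (∑ a, term f dir (ω a) y)), two_mul, Real.exp_add]
    congr 1 <;>
    exact Real.exp_log ((Real.exp_pos _).trans_le (integral_exp_mem (hs.meas_left ω) (hs.bound ω)).1)
  simp only [e]
  have hsw : Integrable (fun q : (Fin M → Fin N → ℝ) × ((Fin N → ℝ) × (Fin N → ℝ)) =>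
      Real.exp (∑ a, term f dir (q.1 a) q.2.1) * Real.exp (∑ a, term f dir (q.1 a) q.2.2))
      ((Measure.pi fun _ : Fin M => gam (Fin N)).prod (π.prod π)) := by
    have h1 : Measurable fun q : (Fin M → Fin N → ℝ) × ((Fin N → ℝ) × (Fin N → ℝ)) =>
      ∑ a, term f dir (q.1 a) q.2.1 := hs.meas.comp (f := fun q : (Fin M → Fin N → ℝ) × ((Fin N → ℝ) × (Fin N → ℝ)) =>
      (q.1, q.2.1)) (measurable_fst.prodMk (measurable_fst.comp measurable_snd))
    have h2 : Measurable fun q : (Fin M → Fin N → ℝ) × ((Fin N → ℝ) × (Fin N → ℝ)) =>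
      ∑ a, term f dir (q.1 a) q.2.2 := hs.meas.comp (f := fun q : (Fin M → Fin N → ℝ) × ((Fin N → ℝ) × (Fin N → ℝ)) =>
      (q.1, q.2.2)) (measurable_fst.prodMk (measurable_snd.comp measurable_snd))
    refine integrable_of_abs_le (K := Real.exp (M * K) * Real.exp (M * K)) (h1.exp.mul h2.exp)
      fun q => ?_
    rw [abs_mul, Real.abs_exp, Real.abs_exp]
    exact mul_le_mul (Real.exp_le_exp.2 ((le_abs_self _).trans (hs.bound _ _)))
      (Real.exp_le_exp.2 ((le_abs_self _).trans (hs.bound _ _))) (Real.exp_pos _).le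
      (Real.exp_pos _).le
  rw [integral_integral_swap hsw, ← integral_const_mul]
  have hunit : ∀ y : Fin N → ℝ, (∀ i, y i ≠ 0) → ∑ i, dir y i ^ 2 = 1 := fun y hy => by
    simp only [dir, div_pow, ← Finset.sum_div, nrm]
    rw [Real.sq_sqrt (Finset.sum_nonneg fun i _ => sq_nonneg _), div_self]
    refine ne_of_gt (Finset.sum_pos' (fun i _ => sq_nonneg _) ⟨⟨0, hN⟩, Finset.mem_univ _, ?_⟩)
    exact lt_of_le_of_ne (sq_nonneg _) (Ne.symm (pow_ne_zero 2 (hy _)))
  refine integral_congr_ae ?_
  filter_upwards [(Measure.quasiMeasurePreserving_fst (μ := π) (ν := π)).ae hne,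
    (Measure.quasiMeasurePreserving_snd (μ := π) (ν := π)).ae hne] with p h1 h2
  simp only [Real.exp_sum, ← Finset.prod_mul_distrib]
  rw [integral_fintype_prod_eq_pow (fun g : Fin N → ℝ =>
      Real.exp (term f dir g p.1) * Real.exp (term f dir g p.2)), Fintype.card_fin]
  simp only [term]
  rw [(integral_pair_eq_corr2 hf.exp (hunit _ h1) (hunit _ h2)).2, corrRatio, div_pow,
    show Real.exp (2 * (M * Real.log (∫ z, Real.exp (f z) ∂gam1))) =
      ((∫ z, Real.exp (f z) ∂gam1) ^ 2) ^ M by
      rw [← pow_mul, ← Real.exp_log (pow_pos ha (2 * M)), Real.log_pow]; push_cast; ring_nf]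
  rw [mul_div_cancel₀ _ (pow_ne_zero _ (pow_ne_zero 2 ha.ne'))]

end moments

section overlap

/-- A tail bound on the overlap turns a pointwise comparison into a subexponential second moment. -/
theorem exists_overlap_bound {α T ε : ℝ} {I : ℝ → ℝ} (hα : 0 ≤ α) (hT : 0 < T)
    (hI : ContinuousOn I (Set.Icc 0 T)) (hI0 : I 0 = 0)
    (hIm : MonotoneOn I (Set.Icc 0 T)) (hε : 0 < ε) :
    ∃ m : ℕ, ∀ {Z : Type} [MeasurableSpace Z] (μ : Measure Z) [IsProbabilityMeasure μ]
      (R : Z → ℝ), Measurable R → ∀ (Lam : ℝ → ℝ) (K : ℝ), (Measurable fun z => Lam (R z)) →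
      (∀ z, |Lam (R z)| ≤ K) → (∀ z, |R z| ≤ T → α * Lam (R z) ≤ I |R z|) →
      (∀ z, T < |R z| → α * Lam (R z) ≤ I T) → ∀ (N M : ℕ) (C : ℝ), (M : ℝ) ≤ α * N →
      (∀ t ∈ Set.Icc 0 T, μ.real {z | t ≤ |R z|} ≤ C * Real.exp (-(N * I t))) →
      ∫ z, Real.exp (M * Lam (R z)) ∂μ ≤ (m + 1) * (C * Real.exp (ε * N)) := by
  obtain ⟨δ, hδ, hu⟩ := Metric.uniformContinuousOn_iff.1
    (isCompact_Icc.uniformContinuousOn_of_continuous hI) ε hε
  obtain ⟨m, hm⟩ := exists_nat_gt (T / δ)
  have hm0 : (0 : ℝ) < m := (div_pos hT hδ).trans hm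
  have hm' : 0 < m := by exact_mod_cast hm0
  refine ⟨m, fun {Z} _ μ _ R hR Lam K hLm hLb hin hout N M C hM htail => ?_⟩
  set t : ℕ → ℝ := fun j => min T (T * j / m)
  have htmem : ∀ j, t j ∈ Set.Icc 0 T := fun j => ⟨le_min hT.le (by positivity), min_le_left _ _⟩
  have hInn : ∀ s ∈ Set.Icc 0 T, 0 ≤ I s := fun s hs => hI0 ▸ hIm (Set.left_mem_Icc.2 hT.le) hs hs.1
  have hstep : ∀ j, I (t (j + 1)) ≤ I (t j) + ε := fun j => by
    have hd : dist (t (j + 1)) (t j) < δ := by
      rw [Real.dist_eq]
      refine lt_of_le_of_lt ?_ ((div_lt_iff₀ hm0).2 (by rw [mul_comm]; exact (div_lt_iff₀ hδ).1 hm))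
      refine (abs_min_sub_min_le_max T (T * ((j + 1 : ℕ) : ℝ) / m) T (T * j / m)).trans ?_
      rw [sub_self, abs_zero, max_eq_right (abs_nonneg _)]
      refine le_of_eq ?_
      push_cast
      rw [show T * ((j : ℝ) + 1) / m - T * j / m = T / m by ring, abs_of_pos (div_pos hT hm0)]
    have := hu _ (htmem (j + 1)) _ (htmem j) hd
    rw [Real.dist_eq, abs_lt] at this
    linarith
  have hMI : ∀ r, 0 ≤ r → ∀ x, α * x ≤ r → (M : ℝ) * x ≤ N * r := fun r hr x hx => by
    rcases le_or_gt x 0 with h | h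
    · exact (mul_nonpos_of_nonneg_of_nonpos (Nat.cast_nonneg M) h).trans (by positivity)
    · calc (M : ℝ) * x ≤ α * N * x := mul_le_mul_of_nonneg_right hM h.le
        _ = N * (α * x) := by ring
        _ ≤ _ := mul_le_mul_of_nonneg_left hx (Nat.cast_nonneg N)
  set f : ℕ → Z → ℝ := fun j => Set.indicator {z | t j ≤ |R z|} fun _ => Real.exp (N * I (t (j + 1)))
  have hsm : ∀ j, MeasurableSet {z | t j ≤ |R z|} := fun j => measurableSet_le measurable_const hR.abs
  have hfi : ∀ j, Integrable (f j) μ := fun j => (integrable_const _).indicator (hsm j)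
  have hfnn : ∀ j z, 0 ≤ f j z := fun j z => Set.indicator_nonneg (fun _ _ => (Real.exp_pos _).le) z
  have hpt : ∀ z, Real.exp (M * Lam (R z)) ≤ ∑ j ∈ Finset.range (m + 1), f j z := by
    intro z
    rcases le_or_gt |R z| T with h | h
    · set j := ⌊|R z| * m / T⌋₊
      have hj : j ≤ m := by
        refine Nat.floor_le_of_le ?_
        rw [div_le_iff₀ hT, mul_comm]
        exact mul_le_mul_of_nonneg_left h hm0.le
      have h1 : t j ≤ |R z| := by
        refine min_le_of_right_le ?_
        have := Nat.floor_le (show 0 ≤ |R z| * m / T by positivity)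
        rw [le_div_iff₀ hT] at this
        rw [div_le_iff₀ hm0]
        linarith
      have h2 : |R z| ≤ t (j + 1) := by
        refine le_min h ?_
        have := Nat.lt_floor_add_one (|R z| * m / T)
        rw [div_lt_iff₀ hT] at this
        rw [le_div_iff₀ hm0]
        push_cast
        linarith
      refine le_trans ?_ (Finset.single_le_sum (fun i _ => hfnn i z)
        (Finset.mem_range.2 (Nat.lt_succ_of_le hj)))
      simp only [f, Set.indicator_of_mem (show z ∈ {z | t j ≤ |R z|} from h1)]
      refine Real.exp_le_exp.2 (hMI _ (hInn _ (htmem _)) _ ((hin z h).trans ?_))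
      exact hIm ⟨abs_nonneg _, h⟩ (htmem _) h2
    · refine le_trans ?_ (Finset.single_le_sum (fun i _ => hfnn i z) (Finset.self_mem_range_succ m))
      have htm : t m = T := by simp [t, hm0.ne']
      have htm1 : t (m + 1) = T := by
        refine min_eq_left ?_
        rw [le_div_iff₀ hm0]; push_cast
        nlinarith
      simp only [f, Set.indicator_of_mem (show z ∈ {z | t m ≤ |R z|} by
        simp only [Set.mem_setOf_eq, htm]; exact h.le), htm1]
      exact Real.exp_le_exp.2 (hMI _ (hInn _ (Set.right_mem_Icc.2 hT.le)) _ (hout z h))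
  have hlhs : Integrable (fun z => Real.exp (M * Lam (R z))) μ :=
    integrable_exp_of_abs_le (hLm.const_mul _) (K := M * K) fun z => by
      rw [abs_mul, Nat.abs_cast]; exact mul_le_mul_of_nonneg_left (hLb z) (Nat.cast_nonneg M)
  refine (integral_mono hlhs (integrable_finsetSum _ fun j _ => hfi j) hpt).trans ?_
  rw [integral_finsetSum _ fun j _ => hfi j]
  refine le_trans (Finset.sum_le_sum (g := fun _ => C * Real.exp (ε * N)) fun j _ => ?_)
    (le_of_eq (by simp))
  simp only [f, integral_indicator_const _ (hsm j), smul_eq_mul]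
  calc μ.real {z | t j ≤ |R z|} * Real.exp (N * I (t (j + 1)))
      ≤ C * Real.exp (-(N * I (t j))) * Real.exp (N * I (t (j + 1))) :=
        mul_le_mul_of_nonneg_right (htail _ (htmem j)) (Real.exp_pos _).le
    _ ≤ _ := by
        rw [mul_assoc, ← Real.exp_add]
        have hC : 0 ≤ C := by
          have := htail _ (Set.left_mem_Icc.2 hT.le)
          rw [hI0, mul_zero, neg_zero, Real.exp_zero, mul_one] at this
          exact measureReal_nonneg.trans this
        refine mul_le_mul_of_nonneg_left (Real.exp_le_exp.2 ?_) hC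
        have := mul_le_mul_of_nonneg_left (hstep j) (Nat.cast_nonneg (α := ℝ) N)
        linarith

end overlap

end Vale.Agent.P157
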