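import Mathlib
import Vale.Agent.P157.SecondMoment
import Vale.Agent.P157.GardnerBound

/-!
Overlap tails on the cube and the sphere, and the annealed value of the pressure.
-/

noncomputable section

open MeasureTheory ProbabilityTheory Filter
open scoped Topology

namespace Vale.Agent.P157

/-- Large-deviation rate of the ovl of two uniform signs vectors. -/
def rateIsing (r : ℝ) : ℝ := ((1 + r) * Real.log (1 + r) + (1 - r) * Real.log (1 - r)) / 2

/-- Large-deviation rate of the ovl of two uniform points of the sphere. -/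
def rateSphere (r : ℝ) : ℝ := -Real.log (1 - r ^ 2) / 2

lemma rateIsing_zero : rateIsing 0 = 0 := by simp [rateIsing]

lemma rateSphere_zero : rateSphere 0 = 0 := by simp [rateSphere]

lemma rateIsing_abs (r : ℝ) : rateIsing |r| = rateIsing r := by
  rcases abs_choice r with h | h <;> rw [h]
  simp only [rateIsing, sub_neg_eq_add, ← sub_eq_add_neg]
  ring

lemma rateSphere_abs (r : ℝ) : rateSphere |r| = rateSphere r := by simp [rateSphere, sq_abs]

lemma continuous_rateIsing : Continuous rateIsing := by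
  unfold rateIsing
  exact ((Real.continuous_mul_log.comp (by fun_prop : Continuous fun r : ℝ => 1 + r)).add
    (Real.continuous_mul_log.comp (by fun_prop : Continuous fun r : ℝ => 1 - r))).div_const 2

lemma hasDerivAt_rateIsing {r : ℝ} (h : r ∈ Set.Ioo (-1 : ℝ) 1) :
    HasDerivAt rateIsing ((Real.log (1 + r) - Real.log (1 - r)) / 2) r := by
  have h1 := (Real.hasDerivAt_mul_log (show (1 + r) ≠ 0 by linarith [h.1])).comp r
    ((hasDerivAt_id r).const_add 1)
  have h2 := (Real.hasDerivAt_mul_log (show (1 - r) ≠ 0 by linarith [h.2])).comp r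
    ((hasDerivAt_id r).const_sub 1)
  exact ((h1.add h2).div_const 2).congr_deriv (by ring)

lemma monotoneOn_rateIsing : MonotoneOn rateIsing (Set.Icc 0 1) := by
  refine monotoneOn_of_hasDerivWithinAt_nonneg (convex_Icc 0 1) continuous_rateIsing.continuousOn
    (f' := fun r => (Real.log (1 + r) - Real.log (1 - r)) / 2) (fun r hr => ?_) (fun r hr => ?_) <;>
  rw [interior_Icc] at hr
  · exact (hasDerivAt_rateIsing ⟨by linarith [hr.1], hr.2⟩).hasDerivWithinAt
  · have := Real.log_le_log (show 0 < 1 - r by linarith [hr.2])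
      (show 1 - r ≤ 1 + r by linarith [hr.1])
    linarith

lemma continuousOn_rateSphere {T : ℝ} (hT1 : T < 1) : ContinuousOn rateSphere (Set.Icc 0 T) := by
  unfold rateSphere
  refine ((ContinuousOn.log (by fun_prop) fun r hr => ?_).neg).div_const 2
  have := mul_le_mul hr.2 hr.2 hr.1 (hr.1.trans hr.2)
  nlinarith [hr.1.trans hr.2]

lemma monotoneOn_rateSphere {T : ℝ} (hT1 : T < 1) : MonotoneOn rateSphere (Set.Icc 0 T) := by
  intro a ha b hb hab
  have h1 : 0 < 1 - b ^ 2 := by
    have : b ^ 2 < 1 := by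
      have := pow_lt_pow_left₀ (hb.2.trans_lt hT1) hb.1 (n := 2) two_ne_zero
      linarith
    linarith
  have h2 := pow_le_pow_left₀ ha.1 hab 2
  have := Real.log_le_log h1 (show 1 - b ^ 2 ≤ 1 - a ^ 2 by linarith)
  simp only [rateSphere]
  linarith

variable {N : ℕ}

/-- Overlap of two configurations. -/
def ovl (p : (Fin N → ℝ) × (Fin N → ℝ)) : ℝ := dot (dir p.1) (dir p.2)

lemma measurable_ovl : Measurable (ovl (N := N)) :=
  measurable_dot.comp ((measurable_dir.comp measurable_fst).prodMk (measurable_dir.comp measurable_snd))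

lemma abs_ovl_le (p : (Fin N → ℝ) × (Fin N → ℝ)) : |ovl p| ≤ 1 := by
  rw [ovl, dot]
  refine (Finset.abs_sum_le_sum_abs _ _).trans ?_
  calc ∑ i, |dir p.1 i * dir p.2 i| ≤ ∑ i, (dir p.1 i ^ 2 / 2 + dir p.2 i ^ 2 / 2) :=
        Finset.sum_le_sum fun i _ => by
          rw [abs_mul]
          nlinarith [sq_nonneg (|dir p.1 i| - |dir p.2 i|), sq_abs (dir p.1 i), sq_abs (dir p.2 i)]
    _ ≤ 1 := by
        rw [Finset.sum_add_distrib, ← Finset.sum_div, ← Finset.sum_div]
        linarith [sum_dir_sq_le p.1, sum_dir_sq_le p.2]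

lemma ovl_eq_field (y y' : Fin N → ℝ) : ovl (y, y') = field (dir y') y :=
  by simp [ovl, field, dot, mul_comm]

/-- An exponential bound for the ovl tail on the cube. -/
theorem tail_ising (hN : 0 < N) {t : ℝ} (ht : t ∈ Set.Icc (0 : ℝ) 1) :
    ((Measure.pi fun _ : Fin N => rad).prod (Measure.pi fun _ : Fin N => rad)).real
      {p | t ≤ |ovl p|} ≤ 2 * Real.exp (-((N : ℝ) * rateIsing t)) := by
  set π := Measure.pi fun _ : Fin N => rad
  have key : ∀ l, 0 ≤ l → (π.prod π).real {p | t ≤ |ovl p|} ≤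
      2 * Real.exp (-(N * (l * t - Real.log (Real.cosh l)))) := by
    intro l hl
    have hNl : (0 : ℝ) ≤ N * l := by positivity
    set G : (Fin N → ℝ) × (Fin N → ℝ) → ℝ := fun p =>
      Real.exp (N * l * ovl p) + Real.exp (-(N * l) * ovl p)
    have hi : ∀ c, Integrable (fun p => Real.exp (c * ovl p)) (π.prod π) := fun c =>
      integrable_exp_of_abs_le (measurable_ovl.const_mul c) (K := |c|) fun p => by
        rw [abs_mul]; exact mul_le_of_le_one_right (abs_nonneg c) (abs_ovl_le p)
    have hGi : Integrable G (π.prod π) := (hi _).add (hi _)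
    have hS : MeasurableSet {p : (Fin N → ℝ) × (Fin N → ℝ) | t ≤ |ovl p|} :=
      measurableSet_le measurable_const measurable_ovl.abs
    have h1 : (π.prod π).real {p | t ≤ |ovl p|} * Real.exp (N * l * t) ≤
        ∫ p, G p ∂π.prod π := by
      rw [← smul_eq_mul, ← integral_indicator_const _ hS]
      refine integral_mono ((integrable_const _).indicator hS) hGi fun p => ?_
      by_cases hp : t ≤ |ovl p|
      · rw [Set.indicator_of_mem (show p ∈ {p | t ≤ |ovl p|} from hp)]
        have hb := mul_le_mul_of_nonneg_left hp hNl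
        rcases abs_choice (ovl p) with h | h <;> rw [h] at hb
        · exact (Real.exp_le_exp.2 hb).trans (le_add_of_nonneg_right (Real.exp_pos _).le)
        · refine (Real.exp_le_exp.2 (hb.trans (le_of_eq ?_))).trans
            (le_add_of_nonneg_left (Real.exp_pos _).le)
          ring
      · rw [Set.indicator_of_notMem (show p ∉ {p | t ≤ |ovl p|} from hp)]
        positivity
    have h2 : ∀ c : ℝ, |c| = N * l → ∫ p, Real.exp (c * ovl p) ∂π.prod π =
        Real.exp (N * Real.log (Real.cosh l)) := by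
      intro c hc
      rw [integral_prod_symm _ (hi c)]
      have : ∀ᵐ y' ∂π, ∫ y, Real.exp (c * ovl (y, y')) ∂π =
          Real.exp (N * Real.log (Real.cosh l)) := by
        filter_upwards [ae_rad_sq] with y' hy'
        have e : ∀ y, c * ovl (y, y') = field (fun i => c * dir y' i) y := fun y => by
          rw [ovl_eq_field]; simp [field, Finset.mul_sum, mul_assoc]
        simp only [e]
        have hl' := lint_field_rad hN (fun i => c * dir y' i)
        rw [lint] at hl'
        have hpos := (Real.exp_pos _).trans_le (integral_exp_mem (π := π)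
          (measurable_field fun i => c * dir y' i) (abs_field_le _)).1
        rw [← Real.exp_log hpos, hl']
        congr 1
        have hc' : ∀ i, Real.cosh (c * dir y' i / Real.sqrt N) = Real.cosh l := fun i => by
          have hN' : (0 : ℝ) < N := by exact_mod_cast hN
          rw [← Real.cosh_abs]
          congr 1
          have hy : |y' i| = 1 := by
            have h1 := hy' i
            rw [← sq_abs] at h1
            nlinarith [abs_nonneg (y' i)]
          rw [abs_div, abs_mul, hc, dir, abs_div, hy, nrm_of_sq_one hy', Fintype.card_fin,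
            abs_of_nonneg (Real.sqrt_nonneg _)]
          field_simp
          rw [Real.sq_sqrt hN'.le]
          ring
        simp [hc']
      rw [integral_congr_ae this]
      simp
    have h3 : ∫ p, G p ∂π.prod π = 2 * Real.exp (N * Real.log (Real.cosh l)) := by
      rw [integral_add (hi _) (hi _), h2 _ (abs_of_nonneg hNl),
        h2 _ (by rw [abs_neg, abs_of_nonneg hNl])]
      ring
    rw [h3] at h1
    calc (π.prod π).real {p | t ≤ |ovl p|}
        ≤ 2 * Real.exp (N * Real.log (Real.cosh l)) / Real.exp (N * l * t) :=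
          (le_div_iff₀ (Real.exp_pos _)).2 h1
      _ = _ := by rw [mul_div_assoc, ← Real.exp_sub]; congr 2; ring
  have main : ∀ s ∈ Set.Ico (0 : ℝ) 1, s ≤ t →
      (π.prod π).real {p | t ≤ |ovl p|} ≤ 2 * Real.exp (-((N : ℝ) * rateIsing s)) := by
    intro s hs hst
    set l := (Real.log (1 + s) - Real.log (1 - s)) / 2
    have hl : 0 ≤ l := by
      have := Real.log_le_log (show 0 < 1 - s by linarith [hs.2])
        (show 1 - s ≤ 1 + s by linarith [hs.1])
      simp only [l]; linarith
    refine (key l hl).trans ?_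
    gcongr
    have hp : 0 < 1 + s := by linarith [hs.1]
    have hm : 0 < 1 - s := by linarith [hs.2]
    have hcosh : Real.log (Real.cosh l) = -(Real.log (1 + s) + Real.log (1 - s)) / 2 := by
      have e : Real.cosh l = Real.exp (-(Real.log (1 + s) + Real.log (1 - s)) / 2) := by
        have p1 : Real.exp l = Real.exp (-(Real.log (1 + s) + Real.log (1 - s)) / 2) * (1 + s) := by
          conv_rhs => rw [← Real.exp_log hp]
          rw [← Real.exp_add]; congr 1; rw [Real.log_exp]; simp only [l]; ring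
        have p2 : Real.exp (-l) = Real.exp (-(Real.log (1 + s) + Real.log (1 - s)) / 2) * (1 - s) := by
          conv_rhs => rw [← Real.exp_log hm]
          rw [← Real.exp_add]; congr 1; rw [Real.log_exp]; simp only [l]; ring
        rw [Real.cosh_eq, p1, p2]; ring
      rw [e, Real.log_exp]
    rw [hcosh]
    have h1 := mul_le_mul_of_nonneg_left hst hl
    simp only [rateIsing, l] at h1 ⊢
    linarith
  rcases ht.2.lt_or_eq with h | h
  · exact main t ⟨ht.1, h⟩ le_rfl
  · have hc : Continuous fun s : ℝ => 2 * Real.exp (-((N : ℝ) * rateIsing s)) :=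
      continuous_const.mul (Real.continuous_exp.comp (continuous_const.mul continuous_rateIsing).neg)
    refine ge_of_tendsto ((hc.tendsto t).mono_left (nhdsWithin_le_nhds (s := Set.Iio t))) ?_
    filter_upwards [Ioo_mem_nhdsLT (show (0 : ℝ) < t by linarith)] with s hs
    exact main s ⟨hs.1.le, h ▸ hs.2⟩ hs.2.le

/-- An exponential bound for the ovl tail on the sphere. -/
theorem tail_sphere (hN : 2 ≤ N) {t T : ℝ} (ht : t ∈ Set.Icc (0 : ℝ) T) (hT1 : T < 1) :
    ((gam (Fin N)).prod (gam (Fin N))).real {p | t ≤ |ovl p|} ≤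
      Real.exp (1 + Real.log (N / (1 - T ^ 2)) / 2) * Real.exp (-((N : ℝ) * rateSphere t)) := by
  have hN' : (2 : ℝ) ≤ N := by exact_mod_cast hN
  have ht2 : t ^ 2 ≤ T ^ 2 := pow_le_pow_left₀ ht.1 ht.2 2
  have hT2 : T ^ 2 < 1 := by
    have := pow_lt_pow_left₀ hT1 (ht.1.trans ht.2) (n := 2) two_ne_zero
    linarith
  have h1t : 0 < 1 - t ^ 2 := by linarith
  have hNt : 0 < (N : ℝ) - t ^ 2 := by linarith
  obtain ⟨η, hη⟩ : ∃ η : ℝ, η = 1 - 1 / N := ⟨_, rfl⟩
  have hη0 : 0 ≤ η := by
    rw [hη, sub_nonneg, div_le_one (by linarith)]; linarith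
  obtain ⟨s, hs⟩ : ∃ s : ℝ, s = η / (2 * (1 - t ^ 2)) := ⟨_, rfl⟩
  have hs0 : 0 ≤ s := by rw [hs]; positivity
  obtain ⟨lam, hlam⟩ : ∃ lam : ℝ, lam = 1 + 2 * s * t ^ 2 := ⟨_, rfl⟩
  have hl : 0 < lam := by rw [hlam]; positivity
  have hlam_eq : lam = (1 - t ^ 2 / N) / (1 - t ^ 2) := by
    rw [hlam, hs, hη]; field_simp; ring
  obtain ⟨mu, hmu⟩ : ∃ mu : ℝ, mu = (1 - t ^ 2) / (N - t ^ 2) := ⟨_, rfl⟩
  have hmu0 : 0 < mu := by rw [hmu]; positivity
  have hmu_eq : 1 - 2 * s / lam = mu := by
    rw [hlam_eq, hs, hη, hmu]; field_simp; ring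
  set E := Real.exp (-((N : ℝ) * Real.log lam) / 2 - Real.log mu / 2)
  set G : (Fin N → ℝ) × (Fin N → ℝ) → ℝ := fun p =>
    Real.exp (s * (dot p.1 (dir p.2) ^ 2 - t ^ 2 * ∑ i, p.1 i ^ 2))
  have hGm : Measurable G := by
    refine Real.measurable_exp.comp (Measurable.const_mul ((((measurable_dot.comp
      (measurable_fst.prodMk (measurable_dir.comp measurable_snd))).pow_const 2)).sub
        ((Finset.measurable_sum _ fun i _ => ((measurable_pi_apply i).comp measurable_fst).pow_const 2).const_mul _)) s)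
  have hinner : ∀ u : Fin N → ℝ, ∑ i, u i ^ 2 = 1 →
      Integrable (fun y => Real.exp (s * (dot y u ^ 2 - t ^ 2 * ∑ i, y i ^ 2))) (gam (Fin N)) ∧
        ∫ y, Real.exp (s * (dot y u ^ 2 - t ^ 2 * ∑ i, y i ^ 2)) ∂gam (Fin N) = E := by
    intro u hu
    set c := Real.sqrt (2 * s)
    set H : (Fin N → ℝ) × ℝ → ℝ := fun q =>
      ∏ i, Real.exp (c * q.2 * u i * q.1 i + (1 - lam) * q.1 i ^ 2 / 2)
    have hHm : Measurable H := by simp only [H]; fun_prop
    have hy : ∀ z : ℝ, Integrable (fun y => H (y, z)) (gam (Fin N)) ∧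
        ∫ y, H (y, z) ∂gam (Fin N) =
          Real.exp (-((N : ℝ) * Real.log lam) / 2) * Real.exp (0 * z + (1 - mu) * z ^ 2 / 2) := fun z => by
      refine ⟨Integrable.fintype_prod fun i => (integral_exp_linear_quadratic hl (c * z * u i)).2, ?_⟩
      simp only [H]
      rw [integral_fintype_prod_eq_prod (fun i x => Real.exp (c * z * u i * x + (1 - lam) * x ^ 2 / 2))]
      simp only [(integral_exp_linear_quadratic hl _).1, ← Real.exp_sum, ← Real.exp_add]
      congr 1
      simp only [Finset.sum_sub_distrib, mul_pow, ← Finset.sum_div, ← Finset.mul_sum, hu,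
        Finset.sum_const, Finset.card_univ, Fintype.card_fin, nsmul_eq_mul, c,
        Real.sq_sqrt (show 0 ≤ 2 * s by positivity), ← hmu_eq]
      field_simp
      ring
    have hHi : Integrable H ((gam (Fin N)).prod gam1) := by
      rw [integrable_prod_iff' hHm.aestronglyMeasurable]
      refine ⟨Eventually.of_forall fun z => (hy z).1, ?_⟩
      refine ((integral_exp_linear_quadratic hmu0 0).2.const_mul
        (Real.exp (-((N : ℝ) * Real.log lam) / 2))).congr (Eventually.of_forall fun z => ?_)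
      dsimp only
      rw [← (hy z).2]
      exact integral_congr_ae (Eventually.of_forall fun y => by
        dsimp only
        rw [Real.norm_eq_abs, abs_of_pos]
        exact Finset.prod_pos fun i _ => Real.exp_pos _)
    have hzint : ∀ y : Fin N → ℝ, ∫ z, H (y, z) ∂gam1 =
        Real.exp (s * (dot y u ^ 2 - t ^ 2 * ∑ i, y i ^ 2)) := fun y => by
      have e : ∀ z, H (y, z) = Real.exp (-(s * (t ^ 2 * ∑ i, y i ^ 2))) *
          Real.exp (c * dot y u * z + (1 - 1) * z ^ 2 / 2) := fun z => by
        simp only [H, ← Real.exp_sum, ← Real.exp_add]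
        congr 1
        simp only [Finset.sum_add_distrib, dot, hlam, Finset.mul_sum, Finset.sum_mul, ← Finset.sum_neg_distrib]
        rw [add_comm, sub_self, zero_mul, zero_div, add_zero]
        congr 1 <;> refine Finset.sum_congr rfl fun i _ => ?_ <;> ring
      simp only [e]
      rw [integral_const_mul, (integral_exp_linear_quadratic one_pos _).1, ← Real.exp_add]
      congr 1
      rw [Real.log_one, mul_pow, Real.sq_sqrt (show 0 ≤ 2 * s by positivity)]
      ring
    refine ⟨?_, ?_⟩
    · have := hHi.integral_prod_left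
      simp only [hzint] at this
      exact this
    · simp only [← hzint]
      rw [integral_integral_swap (f := fun y z => H (y, z)) hHi]
      simp only [(hy _).2]
      rw [integral_const_mul, (integral_exp_linear_quadratic hmu0 0).1, ← Real.exp_add]
      simp only [E]
      congr 1
      ring
  set π := gam (Fin N)
  have hne : ∀ᵐ y ∂π, ∀ i, y i ≠ 0 := by
    rw [ae_all_iff]
    intro i
    have h0 : ∀ᵐ x ∂gam1, x ≠ 0 := by rw [ae_iff]; simpa using admissible_gaussian.zero
    exact (measurePreserving_eval (fun _ : Fin N => gam1) i).quasiMeasurePreserving.ae h0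
  have hsq : ∀ y : Fin N → ℝ, (∀ i, y i ≠ 0) → 0 < ∑ i, y i ^ 2 := fun y hy =>
    Finset.sum_pos' (fun i _ => sq_nonneg _) ⟨⟨0, by omega⟩, Finset.mem_univ _,
      lt_of_le_of_ne (sq_nonneg _) (Ne.symm (pow_ne_zero 2 (hy _)))⟩
  have hunit : ∀ y : Fin N → ℝ, (∀ i, y i ≠ 0) → ∑ i, dir y i ^ 2 = 1 := fun y hy => by
    simp only [dir, div_pow, ← Finset.sum_div, nrm]
    rw [Real.sq_sqrt (hsq y hy).le, div_self (hsq y hy).ne']
  have hGi : Integrable G (π.prod π) := by
    rw [integrable_prod_iff' hGm.aestronglyMeasurable]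
    refine ⟨hne.mono fun y' hy' => (hinner _ (hunit _ hy')).1, (integrable_const E).congr ?_⟩
    filter_upwards [hne] with y' hy'
    rw [← (hinner _ (hunit _ hy')).2]
    exact integral_congr_ae (Eventually.of_forall fun y => by
      dsimp only
      rw [Real.norm_eq_abs, abs_of_pos]
      exact Real.exp_pos _)
  have hval : ∫ p, G p ∂π.prod π = E := by
    rw [integral_prod_symm _ hGi]
    have : ∀ᵐ y' ∂π, ∫ y, G (y, y') ∂π = E := hne.mono fun y' hy' => (hinner _ (hunit _ hy')).2
    rw [integral_congr_ae this]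
    simp
  have hS : MeasurableSet {p : (Fin N → ℝ) × (Fin N → ℝ) | t ≤ |ovl p|} :=
    measurableSet_le measurable_const measurable_ovl.abs
  have hP : (π.prod π).real {p | t ≤ |ovl p|} ≤ E := by
    rw [← hval, ← mul_one ((π.prod π).real _), ← smul_eq_mul, ← integral_indicator_const _ hS]
    refine integral_mono_ae ((integrable_const _).indicator hS) hGi ?_
    filter_upwards [(Measure.quasiMeasurePreserving_fst (μ := π) (ν := π)).ae hne] with p hp
    by_cases h : t ≤ |ovl p|
    · rw [Set.indicator_of_mem (show p ∈ {p | t ≤ |ovl p|} from h)]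
      refine Real.one_le_exp (mul_nonneg hs0 ?_)
      have h2 := pow_le_pow_left₀ ht.1 h 2
      rw [sq_abs] at h2
      have hd : dot p.1 (dir p.2) = nrm p.1 * ovl p := by
        have hn : nrm p.1 ≠ 0 := (Real.sqrt_pos.2 (hsq _ hp)).ne'
        simp only [ovl, dot, dir, Finset.mul_sum]
        exact Finset.sum_congr rfl fun i _ => by field_simp
      rw [hd, mul_pow, nrm, Real.sq_sqrt (hsq _ hp).le, sub_nonneg, mul_comm]
      exact mul_le_mul_of_nonneg_left h2 (hsq _ hp).le
    · rw [Set.indicator_of_notMem (show p ∉ {p | t ≤ |ovl p|} from h)]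
      exact (Real.exp_pos _).le
  refine hP.trans ?_
  rw [← Real.exp_add]
  refine Real.exp_le_exp.2 ?_
  have hx : t ^ 2 / N ≤ 1 / 2 := by
    rw [div_le_iff₀ (by linarith)]; linarith
  have hx0 : 0 < 1 - t ^ 2 / N := by linarith
  have hlog : -(N : ℝ) * Real.log (1 - t ^ 2 / N) ≤ 2 := by
    have h := Real.log_le_sub_one_of_pos (inv_pos.2 hx0)
    rw [Real.log_inv] at h
    have h2 : (1 - t ^ 2 / N)⁻¹ - 1 ≤ 2 * (t ^ 2 / N) := by
      rw [inv_eq_one_div, div_sub_one hx0.ne', div_le_iff₀ hx0]
      nlinarith [sq_nonneg t, show 0 ≤ t ^ 2 / (N : ℝ) by positivity]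
    have h3 := mul_le_mul_of_nonneg_left (h.trans h2) (show (0 : ℝ) ≤ N by linarith)
    have h4 : (N : ℝ) * (2 * (t ^ 2 / N)) = 2 * t ^ 2 := by field_simp
    linarith
  have hmu' : -Real.log mu ≤ Real.log (N / (1 - T ^ 2)) := by
    rw [← Real.log_inv, hmu, inv_div]
    refine Real.log_le_log (by positivity) ?_
    gcongr <;> linarith [sq_nonneg t]
  rw [hlam_eq, Real.log_div hx0.ne' h1t.ne']
  simp only [rateSphere]
  linarith

lemma measurable_corrRatio {f : ℝ → ℝ} (hf : Measurable f) : Measurable (corrRatio f) := by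
  have h : Measurable fun q : ℝ × (Fin 2 → ℝ) =>
      Real.exp (f (q.2 0)) * Real.exp (f (q.1 * q.2 0 + Real.sqrt (1 - q.1 ^ 2) * q.2 1)) :=
    ((hf.comp (by fun_prop)).exp).mul ((hf.comp (by fun_prop)).exp)
  exact (h.stronglyMeasurable.integral_prod_right' (ν := gam (Fin 2))).measurable.div_const _

/-- Annealed value from an ovl tail and a pointwise comparison with its rate. -/
theorem tendsto_annealed {ρ : Measure ℝ} [IsProbabilityMeasure ρ] (hρ0 : ρ {0} = 0) {f : ℝ → ℝ}
    {K α T : ℝ} (hf : Measurable f) (hb : ∀ z, |f z| ≤ K) (hα : 0 < α) (hT : 0 < T)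
    {I : ℝ → ℝ} (hI : ContinuousOn I (Set.Icc 0 T)) (hI0 : I 0 = 0)
    (hIm : MonotoneOn I (Set.Icc 0 T))
    (hin : ∀ r, |r| ≤ T → α * Real.log (corrRatio f r) ≤ I |r|)
    (hout : ∀ r, |r| ≤ 1 → T < |r| → α * Real.log (corrRatio f r) ≤ I T)
    {C : ℕ → ℝ} (hC : Tendsto (fun N => Real.log (C N) / N) atTop (𝓝 0))
    (hC1 : ∀ᶠ N in atTop, 1 ≤ C N)
    (htail : ∀ᶠ N : ℕ in atTop, ∀ t ∈ Set.Icc 0 T,
      ((Measure.pi fun _ : Fin N => ρ).prod (Measure.pi fun _ : Fin N => ρ)).real
        {p | t ≤ |ovl p|} ≤ C N * Real.exp (-(N * I t))) :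
    Tendsto (fun N : ℕ => logPart ρ f (Fin N) ⌊α * N⌋₊ / N) atTop
      (𝓝 (α * Real.log (∫ z, Real.exp (f z) ∂gam1))) := by
  set a := Real.log (∫ z, Real.exp (f z) ∂gam1)
  have hne : ∀ N : ℕ, ∀ᵐ y ∂(Measure.pi fun _ : Fin N => ρ), ∀ i, y i ≠ 0 := fun N => by
    rw [ae_all_iff]
    intro i
    have h0 : ∀ᵐ x ∂ρ, x ≠ 0 := by rw [ae_iff]; simpa using hρ0
    exact (measurePreserving_eval (fun _ : Fin N => ρ) i).quasiMeasurePreserving.ae h0
  have hfl := (tendsto_floor_div α hα.le).mul_const a
  rw [tendsto_order]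
  refine ⟨fun b hb' => ?_, fun b hb' => ?_⟩
  swap
  · filter_upwards [hfl.eventually (gt_mem_nhds hb'), eventually_gt_atTop 0] with N h1 hN
    refine lt_of_le_of_lt ?_ h1
    rw [div_mul_eq_mul_div]
    gcongr
    exact (Phi_term_le_annealed hf hb hN (hne N) _).2
  set δ := α * a - b
  have hδ : 0 < δ := sub_pos.2 hb'
  obtain ⟨l, hl0, hl1, hlδ⟩ : ∃ l : ℝ, 0 < l ∧ l < 1 ∧ α * (l * K ^ 2 / 2) ≤ δ / 4 := by
    refine ⟨min (1 / 2) (δ / (4 * (α * K ^ 2 + 1))), by positivity,
      (min_le_left _ _).trans_lt (by norm_num), ?_⟩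
    have := mul_le_mul_of_nonneg_left (min_le_right (1 / 2) (δ / (4 * (α * K ^ 2 + 1))))
      (show 0 ≤ α * K ^ 2 / 2 by positivity)
    have h2 : α * K ^ 2 / 2 * (δ / (4 * (α * K ^ 2 + 1))) ≤ δ / 4 := by
      rw [← mul_div_assoc, div_le_div_iff₀ (by positivity) (by norm_num)]
      nlinarith [show 0 ≤ α * K ^ 2 from by positivity]
    linarith
  obtain ⟨m, hm⟩ := exists_overlap_bound hα.le hT hI hI0 hIm (show 0 < l * δ / 4 by positivity)
  have hlim : Tendsto (fun N : ℕ => (⌊α * (N : ℝ)⌋₊ : ℝ) / N * a -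
      (Real.log ((m : ℝ) + 1) / N + Real.log (C N) / N) / l - δ / 4 -
      (⌊α * (N : ℝ)⌋₊ : ℝ) / N * (l * K ^ 2 / 2)) atTop
      (𝓝 (α * a - (0 + 0) / l - δ / 4 - α * (l * K ^ 2 / 2))) :=
    ((hfl.sub (((tendsto_const_div_atTop_nhds_zero_nat _).add hC).div_const l)).sub_const _).sub
      ((tendsto_floor_div α hα.le).mul_const _)
  filter_upwards [hlim.eventually (lt_mem_nhds (show b < _ by simp only [δ] at hlδ hδ ⊢; simp; linarith)),
    eventually_gt_atTop 0, hC1, htail] with N h1 hN hC1 ht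
  refine lt_of_lt_of_le h1 ?_
  set M := ⌊α * (N : ℝ)⌋₊
  set π := Measure.pi fun _ : Fin N => ρ
  have hN' : (0 : ℝ) < N := by exact_mod_cast hN
  have hmeas : Measurable fun p : (Fin N → ℝ) × (Fin N → ℝ) => Real.log (corrRatio f (ovl p)) :=
    Real.measurable_log.comp ((measurable_corrRatio hf).comp measurable_ovl)
  have hov := hm (π.prod π) ovl measurable_ovl (fun r => Real.log (corrRatio f r)) (4 * K)
    hmeas (fun p => (corrRatio_mem hf hb _).2) (fun p hp => hin _ hp)
    (fun p hp => hout _ (abs_ovl_le p) hp) N M (C N) (Nat.floor_le (by positivity)) ht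
  have e : (fun p : (Fin N → ℝ) × (Fin N → ℝ) => Real.exp (M * Real.log (corrRatio f (ovl p)))) =
      fun p => corrRatio f (dot (dir p.1) (dir p.2)) ^ M := by
    ext p
    rw [Real.exp_nat_mul, Real.exp_log (corrRatio_mem hf hb _).1]
    rfl
  rw [e] at hov
  set D := ((m : ℝ) + 1) * (C N * Real.exp (l * δ / 4 * N))
  have hD : 1 ≤ D := one_le_mul_of_one_le_of_one_le (by simp)
    (one_le_mul_of_one_le_of_one_le hC1 (Real.one_le_exp (by positivity)))
  have h2 := second_moment hf hb hN (hne N) M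
  have h2' := h2.le.trans (mul_le_mul_of_nonneg_left hov (Real.exp_pos _).le)
  have hlow := Phi_ge_annealed (nice_term hf hb (measurable_dir (ι := Fin N))) (π := π) hD
    (Phi_term_le_annealed hf hb hN (hne N) M).1 h2' hl0 hl1
  have hlogD : Real.log D = Real.log ((m : ℝ) + 1) + Real.log (C N) + l * δ / 4 * N := by
    simp only [D]
    rw [Real.log_mul (by positivity) (by positivity), Real.log_mul (by linarith)
      (Real.exp_pos _).ne', Real.log_exp]
    ring
  rw [hlogD] at hlow
  rw [le_div_iff₀ hN']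
  refine le_trans (le_of_eq ?_) hlow
  simp only [a]
  field_simp
  ring

/-- Annealed value on the cube. -/
theorem tendsto_annealed_ising {f : ℝ → ℝ} {K α : ℝ} (hf : Measurable f) (hb : ∀ z, |f z| ≤ K)
    (hα : 0 < α) (hc : ∀ r ∈ Set.Icc (-1 : ℝ) 1, α * Real.log (corrRatio f r) ≤ rateIsing r) :
    Tendsto (meanPressure isingLaw α f) atTop
      (𝓝 (α * Real.log (∫ z, Real.exp (f z) ∂gaussianReal 0 1))) := by
  refine (tendsto_annealed (ρ := rad) admissible_rad.zero hf hb hα one_pos
    continuous_rateIsing.continuousOn rateIsing_zero monotoneOn_rateIsing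
    (fun r hr => by rw [rateIsing_abs]; exact hc r (abs_le.1 hr))
    (fun r h1 h2 => absurd h1 (not_le.2 h2)) (C := fun _ => 2) (tendsto_const_div_atTop_nhds_zero_nat _)
    (Eventually.of_forall fun _ => one_le_two) ?_).congr' ?_
  · filter_upwards [eventually_gt_atTop 0] with N hN t ht using tail_ising hN ht
  · filter_upwards [eventually_gt_atTop 0] with N hN
    exact (meanPressure_eq hf hN α (isingLaw_eq hN)).symm

/-- Annealed value on the sphere. -/
theorem tendsto_annealed_sphere {f : ℝ → ℝ} {K α : ℝ} (hf : Measurable f) (hb : ∀ z, |f z| ≤ K)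
    (hα : 0 < α) (hc : ∀ r ∈ Set.Ioo (-1 : ℝ) 1, α * Real.log (corrRatio f r) ≤ rateSphere r) :
    Tendsto (meanPressure sphereLaw α f) atTop
      (𝓝 (α * Real.log (∫ z, Real.exp (f z) ∂gaussianReal 0 1))) := by
  have hK : 0 ≤ K := (abs_nonneg _).trans (hb 0)
  obtain ⟨T, hT, hT1, hTI⟩ : ∃ T : ℝ, 0 < T ∧ T < 1 ∧ 4 * K * α ≤ rateSphere T := by
    have he : Real.exp (-(8 * K * α + 1)) < 1 := by
      rw [Real.exp_lt_one_iff]; nlinarith
    refine ⟨Real.sqrt (1 - Real.exp (-(8 * K * α + 1))), Real.sqrt_pos.2 (by linarith), ?_, ?_⟩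
    · rw [Real.sqrt_lt' one_pos, one_pow]
      linarith [Real.exp_pos (-(8 * K * α + 1))]
    · rw [rateSphere, Real.sq_sqrt (by linarith), sub_sub_cancel, Real.log_exp]
      linarith
  have hT2 : 0 < 1 - T ^ 2 := by nlinarith
  refine (tendsto_annealed (ρ := gam1) admissible_gaussian.zero hf hb hα hT
    (continuousOn_rateSphere hT1) rateSphere_zero (monotoneOn_rateSphere hT1)
    (fun r hr => by
      rw [rateSphere_abs]
      exact hc r (abs_lt.1 (hr.trans_lt hT1)))
    (fun r _ _ => le_trans (mul_le_mul_of_nonneg_left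
      ((le_abs_self _).trans (corrRatio_mem hf hb r).2) hα.le) (le_trans (by linarith) hTI))
    (C := fun N => Real.exp (1 + Real.log (N / (1 - T ^ 2)) / 2)) ?_ ?_ ?_).congr' ?_
  · simp only [Real.log_exp]
    have h1 : Tendsto (fun N : ℕ => Real.log N / N) atTop (𝓝 0) :=
      (Real.isLittleO_log_id_atTop.tendsto_div_nhds_zero).comp tendsto_natCast_atTop_atTop
    have h2 := (((h1.sub (tendsto_const_div_atTop_nhds_zero_nat (Real.log (1 - T ^ 2)))).div_const
      2).add (tendsto_const_div_atTop_nhds_zero_nat (1 : ℝ)))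
    simp only [sub_zero, zero_div, add_zero] at h2
    refine h2.congr' ?_
    filter_upwards [eventually_gt_atTop 0] with N hN
    rw [Real.log_div (by positivity) hT2.ne']
    field_simp
    ring
  · filter_upwards [eventually_ge_atTop 1] with N hN
    have : (1 : ℝ) ≤ N := by exact_mod_cast hN
    refine Real.one_le_exp ?_
    have := Real.log_nonneg (show (1 : ℝ) ≤ N / (1 - T ^ 2) by
      rw [le_div_iff₀ hT2]; nlinarith)
    linarith
  · filter_upwards [eventually_ge_atTop 2] with N hN t ht using tail_sphere hN ht hT1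
  · filter_upwards [eventually_gt_atTop 0] with N hN
    exact (meanPressure_eq hf hN α (sphereLaw_eq hN)).symm

end Vale.Agent.P157
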