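import Mathlib
import Vale.Agent.P157.GardnerBound
import Vale.Agent.P157.Annealed
import Vale.Agent.P157.Stein

/-!
The exact annealed threshold for even log-potentials.
-/

noncomputable section

open MeasureTheory ProbabilityTheory Filter
open scoped Topology

namespace Vale.Agent.P157

/-- `E (z² - 1) e^f / E e^f`. -/
def curv (f : ℝ → ℝ) : ℝ :=
  (∫ z, (z ^ 2 - 1) * Real.exp (f z) ∂gaussianReal 0 1) / ∫ z, Real.exp (f z) ∂gaussianReal 0 1

lemma integral_sub_one_sq : ∫ z, (z ^ 2 - 1) ^ 2 ∂gam1 = 2 := by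
  have h2i : Integrable (fun z : ℝ => z ^ 2) gam1 := IsGaussian.memLp_two_id.integrable_sq
  have h4i : Integrable (fun z : ℝ => z ^ 4) gam1 :=
    integrable_pow9.mono' (by fun_prop) (Eventually.of_forall fun z => by
      rw [Real.norm_eq_abs, abs_pow]
      exact (pow_le_pow_left₀ (abs_nonneg _) (le_add_of_nonneg_left zero_le_one) 4).trans
        (pow_le_pow_right₀ (le_add_of_nonneg_right (abs_nonneg _)) (by norm_num)))
  have hpdf : ∀ k ≤ 4, Integrable fun z : ℝ => z ^ k * gaussianPDFReal 0 1 z := by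
    intro k hk
    have hg : Integrable (fun z : ℝ => z ^ k) gam1 := integrable_pow9.mono' (by fun_prop)
      (Eventually.of_forall fun z => by
        rw [Real.norm_eq_abs, abs_pow]
        exact (pow_le_pow_left₀ (abs_nonneg _) (le_add_of_nonneg_left zero_le_one) k).trans
          (pow_le_pow_right₀ (le_add_of_nonneg_right (abs_nonneg _)) (by omega)))
    rw [gam1, gaussianReal_of_var_ne_zero _ one_ne_zero,
      integrable_withDensity_iff (measurable_gaussianPDF _ _)
        (Eventually.of_forall fun _ => gaussianPDF_lt_top)] at hg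
    exact hg.congr (Eventually.of_forall fun z => by simp [toReal_gaussianPDF])
  have h4 : ∫ z, z ^ 4 ∂gam1 = 3 := by
    have h := integral_mul_deriv_eq_deriv_mul_of_integrable
      (u := fun z : ℝ => z ^ 3) (v := fun z => -gaussianPDFReal 0 1 z)
      (u' := fun z => 3 * z ^ 2) (v' := fun z => z * gaussianPDFReal 0 1 z)
      (fun z _ => by simpa using hasDerivAt_pow 3 z) (fun z _ => hasDerivAt_gaussianPDFReal z)
      ((hpdf 4 le_rfl).congr (Eventually.of_forall fun z => by simp only [Pi.mul_apply]; ring))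
      (((hpdf 2 (by norm_num)).const_mul (-3)).congr (Eventually.of_forall fun z => by
        simp only [Pi.mul_apply]; ring))
      ((hpdf 3 (by norm_num)).neg.congr (Eventually.of_forall fun z => by
        simp only [Pi.mul_apply, Pi.neg_apply]; ring))
    have e1 : ∫ z, z ^ 4 ∂gam1 = ∫ z : ℝ, z ^ 3 * (z * gaussianPDFReal 0 1 z) := by
      rw [integral_gam1]; congr 1; ext z; ring
    rw [e1, h, show (∫ z : ℝ, 3 * z ^ 2 * -gaussianPDFReal 0 1 z) =
      -(3 * ∫ z : ℝ, gaussianPDFReal 0 1 z * z ^ 2) by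
        rw [← integral_const_mul, ← integral_neg]; congr 1; ext z; ring,
      ← integral_gam1, integral_sq_gam1]
    norm_num
  have e : ∀ z : ℝ, (z ^ 2 - 1) ^ 2 = z ^ 4 - 2 * z ^ 2 + 1 := fun z => by ring
  simp only [e]
  rw [integral_add (h4i.sub' (h2i.const_mul 2)) (integrable_const _),
    integral_sub h4i (h2i.const_mul 2), integral_const_mul, h4, integral_sq_gam1]
  norm_num

/-- An envelope with integrable cube. -/
def envQ (z : ℝ) : ℝ := (1 + mom9) * (1 + |z|) ^ 3

lemma one_le_envQ (z : ℝ) : 1 ≤ envQ z :=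
  one_le_mul_of_one_le_of_one_le (le_add_of_nonneg_right mom9_nonneg)
    (one_le_pow₀ (le_add_of_nonneg_right (abs_nonneg z)))

lemma integrable_envQ_pow (k : ℕ) (hk : k ≤ 3) : Integrable (fun z => envQ z ^ k) gam1 := by
  refine (integrable_pow9.const_mul ((1 + mom9) ^ k)).mono'
    (by unfold envQ; fun_prop) (Eventually.of_forall fun z => ?_)
  have h1 : (1 : ℝ) ≤ 1 + |z| := le_add_of_nonneg_right (abs_nonneg z)
  have h0 : 0 ≤ envQ z := zero_le_one.trans (one_le_envQ z)
  rw [Real.norm_eq_abs, abs_of_nonneg (pow_nonneg h0 k), envQ, mul_pow, ← pow_mul]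
  exact mul_le_mul_of_nonneg_left (pow_le_pow_right₀ h1 (by omega))
    (pow_nonneg (by linarith [mom9_nonneg]) k)

lemma envQ_bounds (z : ℝ) :
    |z| ≤ envQ z ∧ z ^ 2 ≤ envQ z ∧ |z ^ 2 - 1| ≤ envQ z ∧ |z| ^ 3 + mom9 ≤ envQ z := by
  have hz := abs_nonneg z
  have hm := mom9_nonneg
  have hp : (1 + |z|) ^ 3 ≤ envQ z := le_mul_of_one_le_left (by positivity) (by linarith)
  have h3 : |z| ^ 3 + mom9 ≤ envQ z := by
    have h1 : |z| ^ 3 ≤ (1 + |z|) ^ 3 := by gcongr; linarith
    have h2 : mom9 ≤ mom9 * (1 + |z|) ^ 3 :=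
      le_mul_of_one_le_right hm (one_le_pow₀ (by linarith))
    rw [envQ]; linarith
  have h1 : |z| ≤ (1 + |z|) ^ 3 :=
    le_trans (by linarith) (le_self_pow₀ (by linarith) (by norm_num))
  have h2 : z ^ 2 + 1 ≤ (1 + |z|) ^ 3 :=
    le_trans (by nlinarith [sq_abs z]) (pow_le_pow_right₀ (by linarith) (by norm_num : 2 ≤ 3))
  refine ⟨le_trans h1 hp, le_trans ?_ hp, le_trans ?_ hp, h3⟩
  · linarith
  · rw [abs_le]; constructor <;> linarith [sq_nonneg z]

variable {f : ℝ → ℝ} {K : ℝ}

lemma sm1_zero_of_even (hev : ∀ z, f (-z) = f z) (s : ℝ) :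
    sm1 (fun z => Real.exp (f z)) s 0 = 0 := by
  have hneg : MeasurePreserving (fun x : ℝ => -x) gam1 gam1 :=
    ⟨measurable_neg, by rw [gaussianReal_map_neg, neg_zero]⟩
  have h := hneg.integral_comp' (f := MeasurableEquiv.neg ℝ)
    (g := fun ξ => ξ * Real.exp (f (0 + s * ξ)))
  simp only [MeasurableEquiv.neg_apply] at h
  unfold sm1
  have e : (fun ξ : ℝ => -ξ * Real.exp (f (0 + s * -ξ))) =
      fun ξ => -(ξ * Real.exp (f (0 + s * ξ))) := funext fun ξ => by
    rw [mul_neg, zero_add, zero_add, hev]; ring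
  rw [e, integral_neg] at h
  linarith

/-- The second-order coefficient at reference overlap `q`. -/
def betaQ (f : ℝ → ℝ) (q : ℝ) : ℝ :=
  sm2 (fun z => Real.exp (f z)) (Real.sqrt (1 - q)) 0 /
    (2 * Real.sqrt (1 - q) ^ 2 * ∫ z, Real.exp (f z) ∂gam1)

lemma tendsto_betaQ (hf : Usable f K) : Tendsto (betaQ f) (𝓝 0) (𝓝 (curv f / 2)) := by
  have hfc := hf.continuous
  have ha := (Real.exp_pos _).trans_le (integral_exp_mem (π := gam1) hf.meas hf.bound).1
  have hnum : Continuous fun q : ℝ => sm2 (fun z => Real.exp (f z)) (Real.sqrt (1 - q)) 0 := by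
    refine continuous_of_dominated (bound := fun ξ => Real.exp K * env ξ)
      (fun q => ((by fun_prop : Measurable fun ξ : ℝ => ξ ^ 2 - 1).mul
        (hf.meas.comp (by fun_prop)).exp).aestronglyMeasurable)
      (fun q => Eventually.of_forall fun ξ => ?_) (integrable_env.const_mul _)
      (Eventually.of_forall fun ξ => continuous_const.mul
        (Real.continuous_exp.comp (hfc.comp (by fun_prop))))
    rw [Real.norm_eq_abs, abs_mul, mul_comm (Real.exp K)]
    refine mul_le_mul (le_trans ?_ (sq_le_env ξ)) (abs_exp_f_le hf.bound _) (abs_nonneg _)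
      (env_nonneg ξ)
    rw [abs_le]; constructor <;> nlinarith [sq_nonneg ξ]
  have hc : ContinuousAt (betaQ f) 0 := by
    refine ContinuousAt.div hnum.continuousAt (by fun_prop) ?_
    simp [ha.ne']
  have h0 : betaQ f 0 = curv f / 2 := by
    simp only [betaQ, curv, sm2, sub_zero, Real.sqrt_one, one_pow, mul_one, one_mul, zero_add]
    ring
  exact h0 ▸ hc.tendsto

set_option maxHeartbeats 1000000 in
/-- Second-order behaviour of `gardnerG` and first-order behaviour of `gardnerA`. -/
theorem small_overlap_bounds (hf : Usable f K) (hev : ∀ z, f (-z) = f z) :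
    ∃ C, 0 ≤ C ∧ ∀ t : ℝ, 0 < t → t ≤ 1 / 2 →
      gardnerG f (t ^ 2) ≤ Real.log (∫ z, Real.exp (f z) ∂gam1) - t ^ 4 * betaQ f (t ^ 2) ^ 2 +
        C * t ^ 5 ∧
      |gardnerA f (t ^ 2) - 4 * betaQ f (t ^ 2) ^ 2 * t ^ 2| ≤ C * t ^ 3 := by
  have hK := hf.nonneg
  set a0 := ∫ z, Real.exp (f z) ∂gam1
  obtain ⟨ha1, ha2⟩ := integral_exp_mem (π := gam1) hf.meas hf.bound
  have ha0 : 0 < a0 := (Real.exp_pos _).trans_le ha1
  set S := Real.exp (2 * K) * shiftC
  have hS : 0 ≤ S := mul_nonneg (Real.exp_pos _).le shiftC_nonneg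
  set B := 8 * S + 1
  have hB1 : 1 ≤ B := le_add_of_nonneg_left (by linarith)
  set I2 := ∫ z, envQ z ^ 2 ∂gam1
  set I3 := ∫ z, envQ z ^ 3 ∂gam1
  have hI2 : 0 ≤ I2 := integral_nonneg fun z => sq_nonneg _
  have hI3 : 0 ≤ I3 := integral_nonneg fun z => pow_nonneg (zero_le_one.trans (one_le_envQ z)) 3
  set C := (64 * K + 36) * B ^ 3 * I3 + 48 * B ^ 4 * I3 + 2 * B ^ 2 * I2
  refine ⟨C, by positivity, fun t ht ht2 => ?_⟩
  have ht1 : t ≤ 1 := by linarith
  have hq : t ^ 2 ≤ 1 / 4 := by nlinarith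
  obtain ⟨s, hsdef⟩ : ∃ s, s = Real.sqrt (1 - t ^ 2) := ⟨_, rfl⟩
  have hs2 : s ^ 2 = 1 - t ^ 2 := by rw [hsdef, Real.sq_sqrt]; linarith
  have hs0 : 0 < s := by rw [hsdef]; exact Real.sqrt_pos.2 (by linarith)
  have hshalf : 1 / 2 ≤ s := by
    by_contra h
    nlinarith [pow_le_pow_left₀ hs0.le (not_le.1 h).le 2]
  obtain ⟨β, hβ⟩ : ∃ β, β = betaQ f (t ^ 2) := ⟨_, rfl⟩
  have hst : Real.sqrt (t ^ 2) = t := Real.sqrt_sq ht.le
  set w : ℝ → ℝ := fun z => Real.exp (f z)
  set M2 := sm2 w s 0
  have hW : ∀ z, |w z| ≤ Real.exp K := abs_exp_f_le hf.bound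
  have hdiv : ∀ x c : ℝ, |x| ≤ Real.exp K * c → ∀ d, Real.exp (-K) ≤ d → |x / d| ≤ Real.exp (2 * K) * c := by
    intro x c hx d hd
    have hd0 := (Real.exp_pos _).trans_le hd
    have hc : 0 ≤ c := by
      have h := (abs_nonneg x).trans hx
      exact (mul_nonneg_iff_of_pos_left (Real.exp_pos K)).1 h
    rw [abs_div, abs_of_pos hd0, div_le_iff₀ hd0]
    calc |x| ≤ Real.exp K * c := hx
      _ = Real.exp (2 * K) * c * Real.exp (-K) := by
          rw [show Real.exp K = Real.exp (2 * K) * Real.exp (-K) by rw [← Real.exp_add]; ring_nf]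
          ring
      _ ≤ _ := mul_le_mul_of_nonneg_left hd (mul_nonneg (Real.exp_pos _).le hc)
  have hM2 : |M2 / a0| ≤ S := hdiv _ _ (abs_sm2_le hf.meas.exp hW s 0) _ ha1
  have hβe : β = M2 / a0 / (2 * s ^ 2) := by
    rw [hβ, betaQ, ← hsdef, div_div, mul_comm a0]
  have hβb : |β| ≤ B := by
    rw [hβe, abs_div, abs_of_pos (show 0 < 2 * s ^ 2 by positivity),
      div_le_iff₀ (by positivity)]
    calc |M2 / a0| ≤ S := hM2
      _ ≤ B * (1 / 2) := by simp only [B]; linarith
      _ ≤ B * (2 * s ^ 2) := mul_le_mul_of_nonneg_left (by rw [hs2]; linarith) (by linarith)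
  -- the relative increment of the smoothed weight
  set x : ℝ → ℝ := fun z => t * z
  set m0 : ℝ → ℝ := fun z => sw0 f s (x z)
  have hm0mem : ∀ z, Real.exp (-K) ≤ m0 z ∧ m0 z ≤ Real.exp K := fun z =>
    sw0_mem hf.meas hf.bound s (x z)
  have hm0p : ∀ z, 0 < m0 z := fun z => sw0_pos hf.meas hf.bound s (x z)
  have hm0m : Measurable m0 := (measurable_sw0 hf.meas s).comp (by fun_prop)
  have hm0i : Integrable m0 gam1 := integrable_of_abs_le hm0m (K := Real.exp K) fun z => by
    rw [abs_of_pos (hm0p z)]; exact (hm0mem z).2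
  have hmean : ∫ z, m0 z ∂gam1 = a0 := by
    have h := integral_combine (φ := w) hf.meas.exp t s
    rw [show Real.sqrt (t ^ 2 + s ^ 2) = 1 by rw [hs2]; simp,
      integral_prod (f := fun p : ℝ × ℝ => w (t * p.1 + s * p.2)) (integrable_exp_of_abs_le
        (G := fun p : ℝ × ℝ => f (t * p.1 + s * p.2)) (hf.meas.comp (by fun_prop))
        fun _ => hf.bound _)] at h
    simpa [m0, x, sw0, sm0, w] using h
  have hts : t / s ≤ 2 * t := by
    rw [div_le_iff₀ hs0]
    nlinarith
  set E0 : ℝ → ℝ := fun z => m0 z - sw0 f s 0 - (t * z / s) ^ 2 / 2 * M2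
  have hE0 : ∀ z, |E0 z| ≤ Real.exp K * shiftC * (8 * t ^ 3) * |z| ^ 3 := fun z => by
    have h := sm0_expansion hf.meas.exp hW hs0.ne' 0 (x z)
    rw [zero_add, sm1_zero_of_even hev, mul_zero, sub_zero] at h
    refine h.trans ?_
    rw [mul_assoc _ _ (|z| ^ 3)]
    refine mul_le_mul_of_nonneg_left ?_ (mul_nonneg (Real.exp_pos _).le shiftC_nonneg)
    simp only [x]
    rw [show t * z / s = t / s * z by ring, abs_mul, mul_pow,
      abs_of_pos (div_pos ht hs0)]
    calc (t / s) ^ 3 * |z| ^ 3 ≤ (2 * t) ^ 3 * |z| ^ 3 := by gcongr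
      _ = 8 * t ^ 3 * |z| ^ 3 := by ring
  have hsqi : Integrable (fun z : ℝ => z ^ 2) gam1 := IsGaussian.memLp_two_id.integrable_sq
  have hcube : Integrable (fun z : ℝ => |z| ^ 3) gam1 := (integrable_envQ_pow 1 (by norm_num)).mono'
    (by fun_prop) (Eventually.of_forall fun z => by
      rw [Real.norm_eq_abs, abs_pow, abs_abs, pow_one]
      linarith [(envQ_bounds z).2.2.2, mom9_nonneg])
  have hcube_le : ∫ z, |z| ^ 3 ∂gam1 ≤ mom9 := integral_mono hcube integrable_pow9 fun z =>
    (pow_le_pow_left₀ (abs_nonneg _) (le_add_of_nonneg_left zero_le_one) 3).trans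
      (pow_le_pow_right₀ (le_add_of_nonneg_right (abs_nonneg _)) (by norm_num))
  have hiE0 : Integrable E0 gam1 :=
    (hm0i.sub' (integrable_const _)).sub' ((hsqi.const_mul ((t / s) ^ 2 / 2 * M2)).congr
      (Eventually.of_forall fun z => by ring))
  have hE0int : ∫ z, E0 z ∂gam1 = a0 - sw0 f s 0 - (t / s) ^ 2 / 2 * M2 := by
    have e : (fun z : ℝ => (t * z / s) ^ 2 / 2 * M2) = fun z => (t / s) ^ 2 / 2 * M2 * z ^ 2 := by
      ext z; ring
    simp only [E0]
    rw [integral_sub (hm0i.sub' (integrable_const _)) (e ▸ hsqi.const_mul _),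
      integral_sub hm0i (integrable_const _), hmean, e, integral_const_mul, integral_sq_gam1]
    simp
  set u : ℝ → ℝ := fun z => m0 z / a0 - 1
  set E : ℝ → ℝ := fun z => u z - t ^ 2 * β * (z ^ 2 - 1)
  have hEb : ∀ z, |E z| ≤ B * t ^ 3 * envQ z := fun z => by
    have e : E z = (E0 z - ∫ y, E0 y ∂gam1) / a0 := by
      rw [hE0int]
      simp only [E, u, E0, hβe]
      field_simp
      ring
    have hint : |∫ y, E0 y ∂gam1| ≤ Real.exp K * shiftC * (8 * t ^ 3) * mom9 := by
      refine (abs_integral_le_integral_abs.trans (integral_mono hiE0.abs (hcube.const_mul _) hE0)).trans ?_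
      rw [integral_const_mul]
      exact mul_le_mul_of_nonneg_left hcube_le
        (mul_nonneg (mul_nonneg (Real.exp_pos _).le shiftC_nonneg) (by positivity))
    rw [e]
    refine (hdiv _ (shiftC * (8 * t ^ 3) * (|z| ^ 3 + mom9))
      ((abs_sub _ _).trans ((add_le_add (hE0 z) hint).trans (le_of_eq (by ring)))) _ ha1).trans ?_
    calc Real.exp (2 * K) * (shiftC * (8 * t ^ 3) * (|z| ^ 3 + mom9))
        = 8 * S * t ^ 3 * (|z| ^ 3 + mom9) := by simp only [S]; ring
      _ ≤ B * t ^ 3 * envQ z := by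
          refine mul_le_mul (mul_le_mul_of_nonneg_right (by simp only [B]; linarith) (by positivity))
            (envQ_bounds z).2.2.2 (add_nonneg (by positivity) mom9_nonneg) (by positivity)
  have hub : ∀ z, |u z| ≤ 2 * B * t ^ 2 * envQ z := fun z => by
    rw [show u z = E z + t ^ 2 * β * (z ^ 2 - 1) by simp only [E]; ring]
    refine (abs_add_le _ _).trans ?_
    rw [abs_mul, abs_mul, abs_of_nonneg (sq_nonneg t)]
    have h1 := hEb z
    have h2 := mul_le_mul (mul_le_mul_of_nonneg_left hβb (sq_nonneg t)) (envQ_bounds z).2.2.1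
      (abs_nonneg _) (by positivity)
    have h3 : B * t ^ 3 * envQ z ≤ B * t ^ 2 * envQ z := by
      refine mul_le_mul_of_nonneg_right (mul_le_mul_of_nonneg_left ?_ (by linarith))
        (zero_le_one.trans (one_le_envQ z))
      exact pow_le_pow_of_le_one ht.le ht1 (by norm_num)
    linarith
  have hpow : ∀ k ≤ 3, Integrable (fun z => envQ z ^ k) gam1 := integrable_envQ_pow
  have hQ1 : ∀ z, envQ z ≤ envQ z ^ 2 ∧ envQ z ^ 2 ≤ envQ z ^ 3 := fun z =>
    ⟨le_self_pow₀ (one_le_envQ z) (by norm_num), pow_le_pow_right₀ (one_le_envQ z) (by norm_num)⟩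
  constructor
  · -- the free energy
    have hlog : ∀ z, Real.log (m0 z) = Real.log a0 + Real.log (1 + u z) := fun z => by
      rw [← Real.log_mul ha0.ne' (by
        simp only [u, add_sub_cancel]; exact (div_pos (hm0p z) ha0).ne')]
      congr 1
      simp only [u]; field_simp; ring
    have hl : ∀ z, |Real.log (1 + u z)| ≤ 2 * K := fun z => by
      have h1 := abs_le.1 (abs_log_sw0_le hf.meas hf.bound s (x z))
      have h2 := abs_le.1 (abs_lint_le (π := gam1) hf.meas hf.bound)
      have h3 := hlog z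
      have h4 : lint gam1 f = Real.log a0 := rfl
      simp only [m0] at h3
      rw [abs_le]; constructor <;> linarith
    have hpt : ∀ z, Real.log (m0 z) ≤ Real.log a0 + u z -
        t ^ 4 * β ^ 2 / 2 * (z ^ 2 - 1) ^ 2 + B ^ 2 * t ^ 5 * envQ z ^ 2 +
          (16 * K + 8) * (4 * B ^ 3) * t ^ 5 * envQ z ^ 3 := fun z => by
      have h3 := (abs_le.1 (abs_log_third hK (hl z))).2
      have hsq : t ^ 4 * β ^ 2 * (z ^ 2 - 1) ^ 2 - 2 * B ^ 2 * t ^ 5 * envQ z ^ 2 ≤ u z ^ 2 := by
        have e : u z ^ 2 = t ^ 4 * β ^ 2 * (z ^ 2 - 1) ^ 2 +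
            2 * (t ^ 2 * β * (z ^ 2 - 1)) * E z + E z ^ 2 := by simp only [E]; ring
        have hc : |2 * (t ^ 2 * β * (z ^ 2 - 1)) * E z| ≤ 2 * B ^ 2 * t ^ 5 * envQ z ^ 2 := by
          rw [abs_mul, abs_mul, abs_two, abs_mul, abs_mul, abs_of_nonneg (sq_nonneg t)]
          refine (mul_le_mul (mul_le_mul_of_nonneg_left (mul_le_mul (mul_le_mul_of_nonneg_left hβb
            (sq_nonneg t)) (envQ_bounds z).2.2.1 (abs_nonneg _) (by positivity)) zero_le_two)
            (hEb z) (abs_nonneg _) (by have := one_le_envQ z; positivity)).trans (le_of_eq ?_)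
          ring
        nlinarith [abs_le.1 hc, sq_nonneg (E z)]
      have hu3 : |u z| ^ 3 ≤ 4 * B ^ 3 * t ^ 5 * envQ z ^ 3 := by
        refine (pow_le_pow_left₀ (abs_nonneg _) (hub z) 3).trans ?_
        rw [show (2 * B * t ^ 2 * envQ z) ^ 3 = (8 * t) * (B ^ 3 * t ^ 5 * envQ z ^ 3) by ring,
          show 4 * B ^ 3 * t ^ 5 * envQ z ^ 3 = 4 * (B ^ 3 * t ^ 5 * envQ z ^ 3) by ring]
        refine mul_le_mul_of_nonneg_right (by linarith) ?_
        have := one_le_envQ z; positivity
      have := mul_le_mul_of_nonneg_left hu3 (show 0 ≤ 16 * K + 8 by positivity)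
      rw [hlog]
      linarith
    have iu : Integrable u gam1 := (hm0i.div_const a0).sub (integrable_const 1)
    have i4 : Integrable (fun z : ℝ => (z ^ 2 - 1) ^ 2) gam1 := (hpow 2 (by norm_num)).mono'
      (by fun_prop) (Eventually.of_forall fun z => by
        rw [Real.norm_eq_abs, abs_pow]
        exact pow_le_pow_left₀ (abs_nonneg _) (envQ_bounds z).2.2.1 2)
    have hu0 : ∫ z, u z ∂gam1 = 0 := by
      simp only [u]
      rw [integral_sub (hm0i.div_const a0) (integrable_const 1), integral_div, hmean,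
        div_self ha0.ne']
      simp
    have hiL : Integrable (fun z => Real.log (m0 z)) gam1 :=
      integrable_of_abs_le (K := K) (Real.measurable_log.comp hm0m)
        fun z => abs_log_sw0_le hf.meas hf.bound s (x z)
    have hR : Integrable (fun z => Real.log a0 + u z - t ^ 4 * β ^ 2 / 2 * (z ^ 2 - 1) ^ 2 +
        B ^ 2 * t ^ 5 * envQ z ^ 2 + (16 * K + 8) * (4 * B ^ 3) * t ^ 5 * envQ z ^ 3) gam1 :=
      ((((integrable_const _).add iu).sub (i4.const_mul _)).add ((hpow 2 (by norm_num)).const_mul _)).add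
        ((hpow 3 le_rfl).const_mul _)
    have h := integral_mono hiL hR hpt
    rw [integral_add ((((integrable_const _).fun_add iu).sub' (i4.const_mul _)).fun_add
        ((hpow 2 (by norm_num)).const_mul _)) ((hpow 3 le_rfl).const_mul _),
      integral_add (((integrable_const _).fun_add iu).sub' (i4.const_mul _))
        ((hpow 2 (by norm_num)).const_mul _),
      integral_sub ((integrable_const _).fun_add iu) (i4.const_mul _),
      integral_add (integrable_const _) iu, hu0, integral_const_mul, integral_const_mul,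
      integral_const_mul, integral_sub_one_sq] at h
    simp only [integral_const, probReal_univ, smul_eq_mul, one_mul] at h
    rw [gardnerG_eq, hst, ← hsdef, ← hβ]
    refine h.trans ?_
    have p5 : 0 ≤ t ^ 5 := by positivity
    have : 0 ≤ (4 * B ^ 3 * I3 + 48 * B ^ 4 * I3 + B ^ 2 * I2) * t ^ 5 := by positivity
    simp only [C]
    linarith
  · -- the conjugate overlap
    set μ : ℝ → ℝ := fun z => sl1 f s (x z)
    set lin : ℝ → ℝ := fun z => 2 * β * s * t * z
    have hd : ∀ z, |μ z - lin z| ≤ 4 * B ^ 2 * t ^ 2 * envQ z ^ 2 := fun z => by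
      have h1 : |sm1 w s (x z) - t * z / s * M2| ≤ Real.exp K * (shiftC * (t * z / s) ^ 2) := by
        have h := sm1_expansion hf.meas.exp hW hs0.ne' 0 (x z)
        rw [zero_add, sm1_zero_of_even hev, sub_zero, mul_assoc] at h
        exact h
      have h1' := hdiv _ _ h1 _ (hm0mem z).1
      have hts2 : (t * z / s) ^ 2 ≤ 4 * t ^ 2 * envQ z := by
        rw [show t * z / s = t / s * z by ring, mul_pow]
        calc (t / s) ^ 2 * z ^ 2 ≤ (2 * t) ^ 2 * envQ z := by
              gcongr
              exact (envQ_bounds z).2.1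
          _ = _ := by ring
      have e : μ z - lin z = (sm1 w s (x z) - t * z / s * M2) / m0 z +
          t * z / s * (M2 / m0 z) * (-(u z)) := by
        simp only [μ, lin, sl1, hβe, u]
        rw [show sw0 f s (x z) = m0 z from rfl]
        have := (hm0p z).ne'
        field_simp
        ring
      rw [e]
      refine (abs_add_le _ _).trans ?_
      have h2 : |t * z / s * (M2 / m0 z) * -(u z)| ≤ 2 * t * envQ z * S * (2 * B * t ^ 2 * envQ z) := by
        rw [abs_mul, abs_mul, abs_neg]
        refine mul_le_mul (mul_le_mul ?_ (hdiv _ _ (abs_sm2_le hf.meas.exp hW s 0) _ (hm0mem z).1)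
          (abs_nonneg _) (by have := one_le_envQ z; positivity)) (hub z) (abs_nonneg _)
          (mul_nonneg (by have := one_le_envQ z; positivity) hS)
        rw [show t * z / s = t / s * z by ring, abs_mul, abs_of_pos (div_pos ht hs0)]
        exact mul_le_mul hts (envQ_bounds z).1 (abs_nonneg _) (by positivity)
      have hq1 := (hQ1 z).1
      calc |(sm1 w s (x z) - t * z / s * M2) / m0 z| + |t * z / s * (M2 / m0 z) * -(u z)|
          ≤ S * (4 * t ^ 2 * envQ z) + 2 * t * envQ z * S * (2 * B * t ^ 2 * envQ z) := by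
            refine add_le_add (h1'.trans ?_) h2
            rw [← mul_assoc]
            exact mul_le_mul_of_nonneg_left hts2 hS
        _ ≤ _ := by
            have g1 := mul_le_mul_of_nonneg_left hq1 (show 0 ≤ 4 * S * t ^ 2 by positivity)
            have g2 : t ^ 3 ≤ t ^ 2 := pow_le_pow_of_le_one ht.le ht1 (by norm_num)
            have g3 := mul_le_mul_of_nonneg_left g2 (show 0 ≤ 4 * S * B * envQ z ^ 2 by positivity)
            have g4 : 4 * S + 4 * S * B ≤ 4 * B ^ 2 := by
              have hh := mul_le_mul_of_nonneg_left hB1 (show 0 ≤ 4 * S by positivity)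
              simp only [B] at hh ⊢
              nlinarith
            have g5 := mul_le_mul_of_nonneg_right g4 (show 0 ≤ t ^ 2 * envQ z ^ 2 by positivity)
            linarith
    have hlin : ∀ z, |lin z| ≤ 2 * B * t * envQ z := fun z => by
      simp only [lin, abs_mul, abs_two, abs_of_pos hs0, abs_of_pos ht]
      have hs1 : s ≤ 1 := by nlinarith
      have g := mul_le_mul (mul_le_mul hβb hs1 hs0.le (by linarith)) (envQ_bounds z).1 (abs_nonneg _)
        (by linarith)
      have g' := mul_le_mul_of_nonneg_left g (show 0 ≤ 2 * t by positivity)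
      linarith
    have hsqd : ∀ z, |μ z ^ 2 - lin z ^ 2| ≤ 32 * B ^ 4 * t ^ 3 * envQ z ^ 3 + 0 * envQ z := fun z => by
      have hμ : |μ z + lin z| ≤ 4 * B * t * envQ z + 4 * B ^ 2 * t ^ 2 * envQ z ^ 2 := by
        rw [show μ z + lin z = (μ z - lin z) + 2 * lin z by ring]
        refine (abs_add_le _ _).trans ?_
        rw [abs_mul, abs_two]
        linarith [hd z, hlin z]
      have hμ2 : |μ z + lin z| ≤ 8 * B ^ 2 * t * envQ z := by
        have hmu : |μ z| ≤ S := by
          simpa [μ, S] using abs_sl1_le hf.meas hf.bound s (x z)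
        rcases le_or_gt (t * envQ z) 1 with h | h
        · refine hμ.trans ?_
          have g1 := mul_le_mul_of_nonneg_left h (show 0 ≤ 4 * B ^ 2 * t * envQ z by
            have := one_le_envQ z; positivity)
          have g2 := mul_le_mul_of_nonneg_left hB1 (show 0 ≤ 4 * B * t * envQ z by
            have := one_le_envQ z; positivity)
          linarith
        · refine (abs_add_le _ _).trans ?_
          have g1 := mul_le_mul_of_nonneg_left h.le hS
          have g2 := hlin z
          have g3 := mul_le_mul_of_nonneg_right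
            (show S + 2 * B ≤ 8 * B ^ 2 by simp only [B]; nlinarith)
            (show 0 ≤ t * envQ z by linarith)
          linarith
      rw [zero_mul, add_zero, sq_sub_sq, abs_mul]
      refine (mul_le_mul hμ2 (hd z) (abs_nonneg _) (by have := one_le_envQ z; positivity)).trans
        (le_of_eq ?_)
      ring
    have hμi : Integrable (fun z => μ z ^ 2) gam1 := by
      refine integrable_of_abs_le (K := S ^ 2) ((((measurable_sl1_uncurry hf.meas).comp
        (f := fun z => (s, x z)) (by fun_prop))).pow_const 2) fun z => ?_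
      rw [abs_pow]
      exact pow_le_pow_left₀ (abs_nonneg _) (abs_sl1_le hf.meas hf.bound _ _) 2
    have hli : Integrable (fun z => lin z ^ 2) gam1 :=
      (hsqi.const_mul ((2 * β * s * t) ^ 2)).congr (Eventually.of_forall fun z => by
        simp only [lin]; ring)
    have hlin2 : ∫ z, lin z ^ 2 ∂gam1 = 4 * β ^ 2 * s ^ 2 * t ^ 2 := by
      have e : (fun z => lin z ^ 2) = fun z => 4 * β ^ 2 * s ^ 2 * t ^ 2 * z ^ 2 := by
        ext z; simp only [lin]; ring
      rw [e, integral_const_mul, integral_sq_gam1, mul_one]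
    have hdiff : |∫ z, μ z ^ 2 ∂gam1 - 4 * β ^ 2 * s ^ 2 * t ^ 2| ≤ 32 * B ^ 4 * t ^ 3 * I3 := by
      rw [← hlin2, ← integral_sub hμi hli, ← integral_const_mul]
      exact abs_integral_le_integral_abs.trans (integral_mono (hμi.sub hli).abs
        ((hpow 3 le_rfl).const_mul _) fun z => (hsqd z).trans (le_of_eq (by ring)))
    rw [gardnerA_eq (by linarith : t ^ 2 < 1), hst, ← hsdef, ← hβ,
      show (∫ z, sl1 f s (t * z) ^ 2 ∂gam1) / s ^ 2 - 4 * β ^ 2 * t ^ 2 =
        ((∫ z, μ z ^ 2 ∂gam1) - 4 * β ^ 2 * s ^ 2 * t ^ 2) / s ^ 2 by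
        simp only [μ, x]; field_simp,
      abs_div, abs_of_pos (pow_pos hs0 2), div_le_iff₀ (pow_pos hs0 2)]
    refine hdiff.trans ?_
    have g1 : 3 / 4 ≤ s ^ 2 := by rw [hs2]; linarith
    have g2 : 32 * B ^ 4 * I3 * (4 / 3) ≤ C := by
      have : 0 ≤ (64 * K + 36) * B ^ 3 * I3 + 2 * B ^ 2 * I2 := by positivity
      have : 0 ≤ B ^ 4 * I3 := by positivity
      simp only [C]; linarith
    have g3 := mul_le_mul_of_nonneg_left g2 (show 0 ≤ t ^ 3 by positivity)
    have g4 := mul_le_mul_of_nonneg_left g1 (show 0 ≤ C * t ^ 3 by positivity)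
    linarith

end Vale.Agent.P157
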