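import Mathlib
import Vale.Agent.P157.SecondMoment
import Vale.Agent.P157.GardnerBound

/-!
The annealed gap: monotonicity in the density, and bounds below by a change of measure.
-/

noncomputable section

open MeasureTheory ProbabilityTheory Filter
open scoped Topology ENNReal

namespace Vale.Agent.P157

section general

variable {Y Ω : Type*} [MeasurableSpace Y] [MeasurableSpace Ω] {P : Measure Ω}
  [IsProbabilityMeasure P] {K : ℝ} {F : Ω → Y → ℝ}

/-- One more term raises the expected log-partition function by at most its annealed value. -/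
theorem Phi_succ_le (h : Nice K F) {a : ℝ} (M : ℕ) :
    ∀ π : Measure Y, IsProbabilityMeasure π →
      (∀ᵐ y ∂π, ∫ ω, Real.exp (F ω y) ∂P ≤ Real.exp a) →
      Phi P F π (M + 1) ≤ Phi P F π M + a := by
  induction M with
  | zero =>
    intro π hπ hy
    have e0 : ∀ ω, Phi P F (π.tilted (F ω)) 0 = 0 := fun ω => by
      have := isProb_tilted (π := π) (h.meas_left ω) (h.bound ω)
      exact Phi_zero
    rw [Phi_succ h, Phi_zero]
    simp only [e0, add_zero, zero_add]
    have hi : Integrable (fun q : Ω × Y => Real.exp (F q.1 q.2)) (P.prod π) :=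
      integrable_exp_of_abs_le h.meas fun q => h.bound q.1 q.2
    refine (integral_log_le_log_integral (π := P) (Real.exp_pos (-K))
      (h.meas.exp.stronglyMeasurable.integral_prod_right' (ν := π)).measurable
      (fun ω => integral_exp_mem (h.meas_left ω) (h.bound ω))).trans ?_
    change Real.log (∫ ω, ∫ y, Real.exp (F ω y) ∂π ∂P) ≤ a
    rw [integral_integral_swap hi]
    have hpos : 0 < ∫ y, ∫ ω, Real.exp (F ω y) ∂P ∂π := by
      refine (Real.exp_pos (-K)).trans_le ?_
      calc Real.exp (-K) = ∫ _, Real.exp (-K) ∂π := by simp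
        _ ≤ _ := integral_mono (integrable_const _) hi.integral_prod_right fun y =>
          (integral_exp_mem (π := P) (h.meas.comp (measurable_id.prodMk measurable_const))
            fun ω => h.bound ω y).1
    refine (Real.log_le_iff_le_exp hpos).2 ?_
    refine (integral_mono_ae hi.integral_prod_right (integrable_const (Real.exp a)) hy).trans_eq ?_
    simp
  | succ M ih =>
    intro π hπ hy
    rw [Phi_succ h, Phi_succ h M]
    have i1 := integrable_tilted_Phi (π := π) (P := P) P h h M
    have i2 := integrable_tilted_Phi (π := π) (P := P) P h h (M + 1)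
    refine (integral_mono i2 (i1.add (integrable_const a)) fun ω => ?_).trans_eq ?_
    · have hT := isProb_tilted (π := π) (h.meas_left ω) (h.bound ω)
      have := ih _ hT ((tilted_absolutelyContinuous _ _).ae_le hy)
      simp only [Pi.add_apply]
      linarith
    · simp only [Pi.add_apply]
      rw [integral_add i1 (integrable_const _)]
      simp

lemma Phi_le_add (h : Nice K F) {π : Measure Y} [IsProbabilityMeasure π] {a : ℝ}
    (hy : ∀ᵐ y ∂π, ∫ ω, Real.exp (F ω y) ∂P ≤ Real.exp a) (M d : ℕ) :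
    Phi P F π (M + d) ≤ Phi P F π M + d * a := by
  induction d with
  | zero => simp
  | succ d ih =>
    have := Phi_succ_le h (M + d) π inferInstance hy
    push_cast
    rw [← add_assoc]
    linarith

/-- Change of measure: a test function bounds the quenched value. -/
theorem Phi_le_test (h : Nice K F) {π : Measure Y} [IsProbabilityMeasure π] {M : ℕ}
    {T : (Fin M → Ω) → ℝ} {B E : ℝ} (hT : Measurable T) (hTB : ∀ ω, -B ≤ T ω)
    (hTi : Integrable T (Measure.pi fun _ => P))
    (hE : ∀ᵐ y ∂π, ∫ ω : Fin M → Ω, Real.exp (∑ a, F (ω a) y) * Real.exp (-T ω)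
      ∂Measure.pi (fun _ => P) ≤ Real.exp E) :
    Phi P F π M ≤ E + ∫ ω, T ω ∂Measure.pi fun _ => P := by
  have hs := h.sum M
  set Q := Measure.pi fun _ : Fin M => P
  set L : (Fin M → Ω) → ℝ := fun ω => lint π fun y => ∑ a, F (ω a) y
  have hLi : Integrable L Q := hs.integrable_lint _ _
  have hjoint : Integrable (fun q : (Fin M → Ω) × Y =>
      Real.exp (∑ a, F (q.1 a) q.2) * Real.exp (-T q.1)) (Q.prod π) := by
    refine integrable_of_abs_le (K := Real.exp (M * K) * Real.exp B)
      (hs.meas.exp.mul (hT.comp measurable_fst).neg.exp) fun q => ?_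
    rw [abs_mul, Real.abs_exp, Real.abs_exp]
    exact mul_le_mul (Real.exp_le_exp.2 ((le_abs_self _).trans (hs.bound _ _)))
      (Real.exp_le_exp.2 (by linarith [hTB q.1])) (Real.exp_pos _).le (Real.exp_pos _).le
  have e : ∀ ω, Real.exp (L ω - T ω) =
      ∫ y, Real.exp (∑ a, F (ω a) y) * Real.exp (-T ω) ∂π := fun ω => by
    rw [integral_mul_const, sub_eq_add_neg, Real.exp_add]
    congr 1
    exact Real.exp_log ((Real.exp_pos _).trans_le (integral_exp_mem (hs.meas_left ω) (hs.bound ω)).1)
  have hbound : ∫ ω, Real.exp (L ω - T ω) ∂Q ≤ Real.exp E := by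
    simp only [e]
    rw [integral_integral_swap hjoint]
    refine (integral_mono_ae hjoint.integral_prod_right (integrable_const (Real.exp E)) hE).trans_eq ?_
    simp
  have hei : Integrable (fun ω => Real.exp (L ω - T ω)) Q := by
    simp only [e]; exact hjoint.integral_prod_left
  have key : ∫ ω, (L ω - T ω) ∂Q ≤ E := by
    have hle : ∀ ω, L ω - T ω ≤ (E - 1) + Real.exp (L ω - T ω) * Real.exp (-E) := fun ω => by
      rw [← Real.exp_add]
      have := Real.add_one_le_exp (L ω - T ω + -E)
      linarith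
    refine (integral_mono (hLi.sub hTi) ((integrable_const _).add (hei.mul_const _)) hle).trans ?_
    simp only [Pi.add_apply]
    rw [integral_add (integrable_const _) (hei.mul_const _), integral_mul_const]
    simp only [integral_const, probReal_univ, smul_eq_mul, one_mul]
    have := mul_le_mul_of_nonneg_right hbound (Real.exp_pos (-E)).le
    rw [← Real.exp_add, add_neg_cancel, Real.exp_zero] at this
    linarith
  rw [integral_sub hLi hTi] at key
  change ∫ ω, L ω ∂Q ≤ _
  linarith

end general

variable {N : ℕ} {π : Measure (Fin N → ℝ)} [IsProbabilityMeasure π] {f : ℝ → ℝ} {K : ℝ}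

lemma sum_dir_sq_of_ne (hN : 0 < N) {y : Fin N → ℝ} (hy : ∀ i, y i ≠ 0) :
    ∑ i, dir y i ^ 2 = 1 := by
  simp only [dir, div_pow, ← Finset.sum_div, nrm]
  rw [Real.sq_sqrt (Finset.sum_nonneg fun i _ => sq_nonneg _), div_self]
  refine ne_of_gt (Finset.sum_pos' (fun i _ => sq_nonneg _) ⟨⟨0, hN⟩, Finset.mem_univ _, ?_⟩)
  exact lt_of_le_of_ne (sq_nonneg _) (Ne.symm (pow_ne_zero 2 (hy _)))

lemma term_mean_le (hf : Measurable f) (hb : ∀ z, |f z| ≤ K) (hN : 0 < N)
    (hne : ∀ᵐ y ∂π, ∀ i, y i ≠ 0) :
    ∀ᵐ y ∂π, ∫ g, Real.exp (term f dir g y) ∂gam (Fin N) ≤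
      Real.exp (Real.log (∫ z, Real.exp (f z) ∂gam1)) := by
  filter_upwards [hne] with y hy
  rw [Real.exp_log ((Real.exp_pos _).trans_le (integral_exp_mem (π := gam1) hf hb).1)]
  have hm : Measurable fun g : Fin N → ℝ => dot g (dir y) := by unfold dot; fun_prop
  have := integral_map (μ := gam (Fin N)) hm.aemeasurable (f := fun z => Real.exp (f z))
    hf.exp.aestronglyMeasurable
  rw [map_dot_unit (sum_dir_sq_of_ne hN hy)] at this
  exact this.symm.le

/-! ### Two functions of one Gaussian vector -/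

lemma integral_pair_eq {ι : Type*} [Fintype ι] {G : ℝ → ℝ → ℝ} (hG : Measurable (Function.uncurry G))
    {u u' : ι → ℝ} (h1 : ∑ i, u i ^ 2 = 1) (h2 : ∑ i, u' i ^ 2 = 1) :
    dot u u' ∈ Set.Icc (-1 : ℝ) 1 ∧
      ∫ g, G (dot g u) (dot g u') ∂gam ι = ∫ g : Fin 2 → ℝ,
        G (g 0) (dot u u' * g 0 + Real.sqrt (1 - dot u u' ^ 2) * g 1) ∂gam (Fin 2) := by
  set ρ := dot u u' with hρ
  have hp : 0 ≤ ∑ i, (u i + u' i) ^ 2 := Finset.sum_nonneg fun i _ => sq_nonneg _
  have hn : 0 ≤ ∑ i, (u i - u' i) ^ 2 := Finset.sum_nonneg fun i _ => sq_nonneg _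
  simp only [add_sq, sub_sq, Finset.sum_add_distrib, Finset.sum_sub_distrib, h1, h2, mul_assoc,
    ← Finset.mul_sum] at hp hn
  have hmem : ρ ∈ Set.Icc (-1 : ℝ) 1 := by
    constructor <;> simp only [hρ, dot] <;> linarith
  refine ⟨hmem, ?_⟩
  set r := Real.sqrt (1 - ρ ^ 2)
  have hr : r ^ 2 = 1 - ρ ^ 2 := Real.sq_sqrt (by nlinarith [hmem.1, hmem.2])
  set L : (ι → ℝ) → EuclideanSpace ℝ (Fin 2) := fun g => WithLp.toLp 2 ![dot g u, dot g u']
  set L' : (Fin 2 → ℝ) → EuclideanSpace ℝ (Fin 2) :=
    fun g => WithLp.toLp 2 ![g 0, ρ * g 0 + r * g 1]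
  have hL : Measurable L := by
    refine (WithLp.measurable_toLp 2 _).comp (measurable_pi_lambda _ fun i => ?_)
    fin_cases i
    · exact measurable_dot.comp (measurable_id.prodMk measurable_const)
    · exact measurable_dot.comp (measurable_id.prodMk measurable_const)
  have hL' : Measurable L' := by
    refine (WithLp.measurable_toLp 2 _).comp (measurable_pi_lambda _ fun i => ?_)
    fin_cases i
    · exact measurable_pi_apply 0
    · simp; fun_prop
  have hlaw : (gam ι).map L = (gam (Fin 2)).map L' := by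
    apply Measure.ext_of_charFun
    ext t
    rw [charFun_apply, charFun_apply, integral_map hL.aemeasurable (by fun_prop),
      integral_map hL'.aemeasurable (by fun_prop)]
    have e1 : ∀ g, inner ℝ (L g) t = dot g fun i => t 0 * u i + t 1 * u' i := fun g => by
      simp [L, PiLp.inner_apply, Fin.sum_univ_two, dot, Finset.mul_sum, mul_add,
        Finset.sum_add_distrib]
      congr 1 <;> exact Finset.sum_congr rfl fun i _ => by ring
    have e2 : ∀ g, inner ℝ (L' g) t = dot g ![t 0 + ρ * t 1, r * t 1] := fun g => by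
      simp [L', PiLp.inner_apply, Fin.sum_univ_two, dot]
      ring
    simp only [e1, e2, integral_cexp_dot]
    congr 3
    have : ∑ i, (t 0 * u i + t 1 * u' i) ^ 2 =
        t 0 ^ 2 * (∑ i, u i ^ 2) + 2 * (t 0 * t 1) * ρ + t 1 ^ 2 * (∑ i, u' i ^ 2) := by
      simp only [hρ, dot, Finset.mul_sum, ← Finset.sum_add_distrib]
      exact Finset.sum_congr rfl fun i _ => by ring
    rw [this, h1, h2]
    simp only [Fin.sum_univ_two, Matrix.cons_val_zero, Matrix.cons_val_one, mul_pow, hr]
    ring
  have hphi : Measurable fun x : EuclideanSpace ℝ (Fin 2) => G (x 0) (x 1) :=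
    hG.comp ((by fun_prop : Measurable fun x : EuclideanSpace ℝ (Fin 2) => (x 0, x 1)))
  calc ∫ g, G (dot g u) (dot g u') ∂gam ι = ∫ x, G (x 0) (x 1) ∂(gam ι).map L := by
        rw [integral_map hL.aemeasurable hphi.aestronglyMeasurable]
        simp [L]
    _ = _ := by
        rw [hlaw, integral_map hL'.aemeasurable hphi.aestronglyMeasurable]
        simp [L', r]

/-- `log ∫ exp G` is at least the mass of a set times the average there. -/
lemma neg_mul_lint_le {Y : Type*} [MeasurableSpace Y] {π : Measure Y} [IsProbabilityMeasure π]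
    {G : Y → ℝ} {B l : ℝ} (hm : Measurable G) (hb : ∀ y, |G y| ≤ B) (hl : 0 ≤ l) {A : Set Y}
    (hA : MeasurableSet A) (hA0 : 0 < π.real A) :
    Real.exp (-(l * lint π G)) ≤
      Real.exp (-(l * Real.log (π.real A))) * ∫ y, Real.exp (-(l * G y)) ∂π[|A] := by
  have hA' : π A ≠ 0 := fun h => hA0.ne' (by simp [measureReal_def, h])
  have : IsProbabilityMeasure π[|A] := cond_isProbabilityMeasure hA'
  set ν := π[|A]
  have hpos : ∀ σ : Measure Y, [IsProbabilityMeasure σ] → 0 < ∫ y, Real.exp (G y) ∂σ := fun σ _ =>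
    (Real.exp_pos _).trans_le (integral_exp_mem (π := σ) hm hb).1
  have h1 : Real.log (π.real A) + lint ν G ≤ lint π G := by
    rw [lint, lint, ← Real.log_mul hA0.ne' (hpos ν).ne']
    refine Real.log_le_log (mul_pos hA0 (hpos ν)) ?_
    have e : π.real A * ∫ y, Real.exp (G y) ∂ν = ∫ y in A, Real.exp (G y) ∂π := by
      simp only [ν, ProbabilityTheory.cond, integral_smul_measure, smul_eq_mul, ENNReal.toReal_inv,
        ← measureReal_def]
      field_simp
    rw [e]
    exact setIntegral_le_integral (integrable_exp_of_abs_le hm hb)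
      (Eventually.of_forall fun y => (Real.exp_pos _).le)
  have h2 : ∫ y, G y ∂ν ≤ lint ν G := by
    have := integral_log_le_log_integral (π := ν) (Real.exp_pos (-B)) hm.exp (b := Real.exp B)
      fun y => ⟨Real.exp_le_exp.2 (abs_le.1 (hb y)).1, Real.exp_le_exp.2 (abs_le.1 (hb y)).2⟩
    simpa [lint] using this
  have hlb : ∀ y, |(-(l * G y))| ≤ l * B := fun y => by
    rw [abs_neg, abs_mul, abs_of_nonneg hl]; exact mul_le_mul_of_nonneg_left (hb y) hl
  have h3 : -(l * ∫ y, G y ∂ν) ≤ Real.log (∫ y, Real.exp (-(l * G y)) ∂ν) := by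
    have := integral_log_le_log_integral (π := ν) (Real.exp_pos (-(l * B)))
      (hm.const_mul l).neg.exp (b := Real.exp (l * B))
      fun y => ⟨Real.exp_le_exp.2 (abs_le.1 (hlb y)).1, Real.exp_le_exp.2 (abs_le.1 (hlb y)).2⟩
    simp only [Pi.neg_apply, Real.log_exp] at this
    rwa [integral_neg, integral_const_mul] at this
  have h4 : Real.exp (-(l * ∫ y, G y ∂ν)) ≤ ∫ y, Real.exp (-(l * G y)) ∂ν := by
    rwa [← Real.le_log_iff_exp_le]
    exact (Real.exp_pos _).trans_le
      (integral_exp_mem (π := ν) (hm.const_mul l).neg (K := l * B) hlb).1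
  refine le_trans ?_ (mul_le_mul_of_nonneg_left h4 (Real.exp_pos _).le)
  rw [← Real.exp_add, Real.exp_le_exp]
  have := mul_le_mul_of_nonneg_left (h1.trans' (add_le_add le_rfl h2)) hl
  linarith

end Vale.Agent.P157
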