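import Mathlib
import Vale.Agent.P157.Defs
import Vale.Agent.P157.Criterion
import Vale.Agent.P157.Blocks
import Vale.Agent.P157.Limit
import Vale.Agent.P157.GardnerBound

/-!
Families satisfying the criterion: positive-definite profiles, their neighbourhoods, and small
amplitudes of profiles with positively correlated second derivatives.
-/

noncomputable section

open MeasureTheory ProbabilityTheory Filter
open scoped ENNReal Topology

namespace Vale.Agent.P157

/-- Embedding of frequencies with zero phase. -/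
def zeroEmb (t : ℝ) : ℝ × ℝ := (t, 0)

lemma measurable_zeroEmb : Measurable zeroEmb := measurable_id.prodMk measurable_const

variable {ν : Measure ℝ} [IsFiniteMeasure ν] {μ τ : Measure (ℝ × ℝ)} [IsFiniteMeasure μ]
  [IsFiniteMeasure τ]

lemma cosT_map_zeroEmb (z : ℝ) : cosT (ν.map zeroEmb) z = ∫ t, Real.cos (t * z) ∂ν := by
  rw [cosT, integral_map measurable_zeroEmb.aemeasurable (by fun_prop)]
  simp [zeroEmb]

lemma map_zeroEmb_compl : (ν.map zeroEmb) zeroPhaseᶜ = 0 := by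
  rw [Measure.map_apply measurable_zeroEmb measurableSet_zeroPhase.compl]
  simp [zeroEmb, zeroPhase]

lemma mass_map_zeroEmb : (ν.map zeroEmb).real Set.univ = ν.real Set.univ := by
  rw [map_measureReal_apply measurable_zeroEmb .univ, Set.preimage_univ]

theorem hasLimits_positiveDefinite (c : ℝ) {α : ℝ} (hν : ν.real Set.univ < 1) (hα : 0 < α) :
    HasLimitsBelow α fun z => c + Real.log (1 - ∫ t, Real.cos (t * z) ∂ν) := by
  have h := exists_limit_le_gardner (α := α)
    (usable_pot (ν := ν.map zeroEmb) (c := c) (by rwa [mass_map_zeroEmb]))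
    (blockConcave_of_zeroPhase (by rwa [mass_map_zeroEmb]) map_zeroEmb_compl c) hα
  unfold pot at h
  simp only [cosT_map_zeroEmb] at h
  exact h

/-- The two-replica kernel. -/
def kern (ρ : ℝ) (p q : ℝ × ℝ) : ℝ :=
  Real.cos (p.2 + q.2) * (p.1 * q.1) ^ 2 *
    Real.exp (-(p.1 ^ 2 + q.1 ^ 2 + 2 * ρ * (p.1 * q.1)) / 2)

lemma measurable_kern (ρ : ℝ) : Measurable (Function.uncurry (kern ρ)) := by
  unfold kern Function.uncurry; fun_prop

lemma abs_kern_le {ρ : ℝ} (h : ρ ∈ Set.Icc (-1 : ℝ) 1) (p q : ℝ × ℝ) :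
    |kern ρ p q| ≤ p.1 ^ 2 * q.1 ^ 2 := by
  have := abs_kernel_le h (fun l : Fin 2 => if l = 0 then p else q) ((p.1 * q.1) ^ 2)
  simp only [if_true, show ((1 : Fin 2) = 0) = False from by simp, if_false] at this
  rw [abs_of_nonneg (sq_nonneg (p.1 * q.1)), mul_pow] at this
  simpa [kern, mul_pow] using this

lemma integrable_kern {σ₁ σ₂ : Measure (ℝ × ℝ)} [IsFiniteMeasure σ₁] [IsFiniteMeasure σ₂]
    (h₁ : Integrable (fun p => p.1 ^ 2) σ₁) (h₂ : Integrable (fun p => p.1 ^ 2) σ₂) {ρ : ℝ}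
    (hρ : ρ ∈ Set.Icc (-1 : ℝ) 1) : Integrable (Function.uncurry (kern ρ)) (σ₁.prod σ₂) :=
  (h₁.mul_prod h₂).mono' (measurable_kern ρ).aestronglyMeasurable
    (Filter.Eventually.of_forall fun z => abs_kern_le hρ z.1 z.2)

/-- The kernel integrated against two measures. -/
def kernInt (σ₁ σ₂ : Measure (ℝ × ℝ)) (ρ : ℝ) : ℝ := ∫ p, ∫ q, kern ρ p q ∂σ₂ ∂σ₁

lemma psi2_eq_kernInt (hm : Integrable (fun p => p.1 ^ 2) μ) {ρ : ℝ}
    (hρ : ρ ∈ Set.Icc (-1 : ℝ) 1) : psi2 μ ρ = kernInt (symm μ) (symm μ) ρ := by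
  have h := measurePreserving_finTwoArrow (symm μ)
  rw [kernInt, integral_integral (integrable_kern (integrable_freqSq_symm hm)
    (integrable_freqSq_symm hm) hρ), ← h.integral_comp' (g := fun z : (ℝ × ℝ) × (ℝ × ℝ) => kern ρ z.1 z.2)]
  rfl

lemma abs_kernInt_le {σ₁ σ₂ : Measure (ℝ × ℝ)} [IsFiniteMeasure σ₁] [IsFiniteMeasure σ₂]
    (h₁ : Integrable (fun p => p.1 ^ 2) σ₁) (h₂ : Integrable (fun p => p.1 ^ 2) σ₂) {ρ : ℝ}
    (hρ : ρ ∈ Set.Icc (-1 : ℝ) 1) : |kernInt σ₁ σ₂ ρ| ≤ freqSq σ₁ * freqSq σ₂ := by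
  rw [kernInt, integral_integral (integrable_kern h₁ h₂ hρ), freqSq, freqSq, ← integral_prod_mul]
  exact abs_integral_le_integral_abs.trans (integral_mono (integrable_kern h₁ h₂ hρ).abs
    (h₁.mul_prod h₂) fun z => abs_kern_le hρ z.1 z.2)

lemma symm_add : symm (μ + τ) = symm μ + symm τ := by
  simp only [symm, Measure.map_add _ _ measurable_neg, smul_add]
  abel

lemma freqSq_add (h : Integrable (fun p => p.1 ^ 2) μ) (h' : Integrable (fun p => p.1 ^ 2) τ) :
    freqSq (μ + τ) = freqSq μ + freqSq τ := integral_add_measure h h'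

lemma psi2_add_ge (h : Integrable (fun p => p.1 ^ 2) μ) (h' : Integrable (fun p => p.1 ^ 2) τ)
    {ρ : ℝ} (hρ : ρ ∈ Set.Icc (-1 : ℝ) 1) :
    psi2 μ ρ - (2 * freqSq μ * freqSq τ + freqSq τ ^ 2) ≤ psi2 (μ + τ) ρ := by
  have a := integrable_freqSq_symm h
  have b := integrable_freqSq_symm h'
  rw [psi2_eq_kernInt (h.add_measure h') hρ, psi2_eq_kernInt h hρ, symm_add]
  have e : kernInt (symm μ + symm τ) (symm μ + symm τ) ρ =
      kernInt (symm μ) (symm μ) ρ + kernInt (symm μ) (symm τ) ρ +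
        (kernInt (symm τ) (symm μ) ρ + kernInt (symm τ) (symm τ) ρ) := by
    have hsec : ∀ (σ : Measure (ℝ × ℝ)) [IsFiniteMeasure σ], Integrable (fun q => q.1 ^ 2) σ →
        ∀ p, Integrable (fun q => kern ρ p q) σ := fun σ _ hσ p =>
      (hσ.const_mul (p.1 ^ 2)).mono'
        ((measurable_kern ρ).comp measurable_prodMk_left).aestronglyMeasurable
        (Filter.Eventually.of_forall fun q => abs_kern_le hρ p q)
    have hl : ∀ (σ σ' : Measure (ℝ × ℝ)) [IsFiniteMeasure σ] [IsFiniteMeasure σ'],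
        Integrable (fun q => q.1 ^ 2) σ → Integrable (fun q => q.1 ^ 2) σ' →
        Integrable (fun p => ∫ q, kern ρ p q ∂σ') σ := fun σ σ' _ _ h1 h2 =>
      (integrable_kern h1 h2 hρ).integral_prod_left
    have hA : Integrable (fun p => (∫ q, kern ρ p q ∂symm μ) + ∫ q, kern ρ p q ∂symm τ) (symm μ) :=
      (hl _ _ a a).add (hl _ _ a b)
    have hB : Integrable (fun p => (∫ q, kern ρ p q ∂symm μ) + ∫ q, kern ρ p q ∂symm τ) (symm τ) :=
      (hl _ _ b a).add (hl _ _ b b)
    unfold kernInt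
    simp only [integral_add_measure (hsec _ a _) (hsec _ b _)]
    rw [integral_add_measure hA hB, integral_add (hl _ _ a a) (hl _ _ a b),
      integral_add (hl _ _ b a) (hl _ _ b b)]
  rw [e]
  have h1 := (abs_le.1 (abs_kernInt_le a b hρ)).1
  have h2 := (abs_le.1 (abs_kernInt_le b a hρ)).1
  have h3 := (abs_le.1 (abs_kernInt_le b b hρ)).1
  rw [freqSq_symm h, freqSq_symm h'] at h1 h2
  rw [freqSq_symm h'] at h3
  linarith

lemma psi2_zeroEmb_ge (hm : Integrable (fun t => t ^ 2) ν) (hne : ν {t | t ≠ 0} ≠ 0) :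
    ∃ c, 0 < c ∧ ∀ ρ ∈ Set.Icc (-1 : ℝ) 1, c ≤ psi2 (ν.map zeroEmb) ρ := by
  set μ₀ := ν.map zeroEmb
  have hm0 : Integrable (fun p : ℝ × ℝ => p.1 ^ 2) μ₀ := by
    rw [integrable_map_measure (by fun_prop) measurable_zeroEmb.aemeasurable]
    exact hm
  set σ := symm μ₀
  have hmσ := integrable_freqSq_symm hm0
  let K : (ℝ × ℝ) × (ℝ × ℝ) → ℝ := fun z =>
    (z.1.1 * z.2.1) ^ 2 * Real.exp (-((|z.1.1| + |z.2.1|) ^ 2) / 2)
  have hKi : Integrable K (σ.prod σ) := by
    refine (hmσ.mul_prod hmσ).mono' (by fun_prop) (Filter.Eventually.of_forall fun z => ?_)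
    rw [Real.norm_eq_abs, abs_of_nonneg (mul_nonneg (sq_nonneg _) (Real.exp_pos _).le), ← mul_pow]
    refine mul_le_of_le_one_right (sq_nonneg _) (Real.exp_le_one_iff.2 ?_)
    have := sq_nonneg (|z.1.1| + |z.2.1|)
    linarith
  refine ⟨∫ z, K z ∂σ.prod σ, ?_, fun ρ hρ => ?_⟩
  · rw [integral_pos_iff_support_of_nonneg (fun z => mul_nonneg (sq_nonneg _) (Real.exp_pos _).le)
      hKi]
    have hsupp : Function.support K = {p : ℝ × ℝ | p.1 ≠ 0} ×ˢ {p : ℝ × ℝ | p.1 ≠ 0} := by
      ext z; simp [K, Function.mem_support, not_or, (Real.exp_pos _).ne']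
    have hpos : σ {p : ℝ × ℝ | p.1 ≠ 0} ≠ 0 := by
      have hset : MeasurableSet {p : ℝ × ℝ | p.1 ≠ 0} :=
        (measurableSet_eq_fun measurable_fst measurable_const).compl
      simp only [σ, symm, Measure.smul_apply, Measure.add_apply, smul_eq_mul, ne_eq, mul_eq_zero,
        ENNReal.inv_eq_zero, ENNReal.ofNat_ne_top, false_or, add_eq_zero, not_and]
      intro h
      rw [Measure.map_apply measurable_zeroEmb hset] at h
      exact absurd h (by simpa [zeroEmb] using hne)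
    rw [hsupp, Measure.prod_prod]
    exact ENNReal.mul_pos hpos hpos
  · rw [psi2_eq_kernInt hm0 hρ, kernInt, integral_integral (integrable_kern hmσ hmσ hρ)]
    refine integral_mono_ae hKi (integrable_kern hmσ hmσ hρ) ?_
    have h0 : ∀ᵐ p ∂σ, p ∈ zeroPhase := by
      rw [ae_iff]; exact symm_compl_zeroPhase map_zeroEmb_compl
    filter_upwards [(Measure.quasiMeasurePreserving_fst (μ := σ) (ν := σ)).ae h0,
      (Measure.quasiMeasurePreserving_snd (μ := σ) (ν := σ)).ae h0] with z h1 h2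
    simp only [zeroPhase, Set.mem_setOf_eq] at h1 h2
    simp only [K, kern, h1, h2, add_zero, Real.cos_zero, one_mul]
    refine mul_le_mul_of_nonneg_left (Real.exp_le_exp.2 ?_) (sq_nonneg _)
    have h3 : ρ * (z.1.1 * z.2.1) ≤ |z.1.1| * |z.2.1| := by
      refine (le_abs_self _).trans ?_
      rw [abs_mul, abs_mul]
      exact mul_le_of_le_one_left (by positivity) (abs_le.2 hρ)
    nlinarith [sq_abs z.1.1, sq_abs z.2.1]

lemma tailSum_mono {x y : ℝ} (hx : 0 ≤ x) (hxy : x ≤ y) (hy : y < 1) : tailSum x ≤ tailSum y := by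
  refine (summable_tailSum hx (hxy.trans_lt hy)).tsum_le_tsum (fun j => ?_)
    (summable_tailSum (hx.trans hxy) hy)
  gcongr

lemma tailSum_nonneg {x : ℝ} (hx : 0 ≤ x) : 0 ≤ tailSum x :=
  tsum_nonneg fun j => by positivity

theorem hasLimits_neighbourhood (hν : ν.real Set.univ < 1) (hm : Integrable (fun t => t ^ 2) ν)
    (hne : ν {t | t ≠ 0} ≠ 0) :
    ∃ δ > 0, ∀ (τ : Measure (ℝ × ℝ)) [IsFiniteMeasure τ],
      Integrable (fun p => p.1 ^ 2) τ → τ.real Set.univ ≤ δ → ∫ p, p.1 ^ 2 ∂τ ≤ δ →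
      ∀ c α : ℝ, 0 < α → HasLimitsBelow α fun z =>
        c + Real.log (1 - (∫ t, Real.cos (t * z) ∂ν) - ∫ p, Real.cos (p.1 * z + p.2) ∂τ) := by
  obtain ⟨c₀, hc₀, hc⟩ := psi2_zeroEmb_ge hm hne
  set μ₀ := ν.map zeroEmb
  have hm0 : Integrable (fun p : ℝ × ℝ => p.1 ^ 2) μ₀ := by
    rw [integrable_map_measure (by fun_prop) measurable_zeroEmb.aemeasurable]
    exact hm
  set m := ν.real Set.univ with hmdef
  set a := freqSq μ₀
  have hm0' : 0 ≤ m := measureReal_nonneg
  have ha : 0 ≤ a := integral_nonneg fun p => sq_nonneg _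
  set Λ := tailSum ((1 + m) / 2)
  have hΛ : 0 ≤ Λ := tailSum_nonneg (by linarith)
  set Kc := Λ * ((2 * a + 1) * 2 + (a + 1) ^ 2) + 2 * (2 * a + 1) with hKc
  have hKc0 : 0 < Kc := by positivity
  refine ⟨min (min 1 ((1 - m) / 3)) (2 * c₀ / Kc), by
    refine lt_min (lt_min one_pos (by linarith)) (by positivity), ?_⟩
  intro τ _ hτ hτm hτ2 c α hα
  set e := τ.real Set.univ
  set d := freqSq τ
  have hd0 : 0 ≤ d := integral_nonneg fun p => sq_nonneg _
  have he0 : 0 ≤ e := measureReal_nonneg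
  set δ := min (min 1 ((1 - m) / 3)) (2 * c₀ / Kc)
  have hd : d ≤ δ := hτ2
  have hδ1 : δ ≤ 1 := (min_le_left _ _).trans (min_le_left _ _)
  have hδ2 : δ ≤ (1 - m) / 3 := (min_le_left _ _).trans (min_le_right _ _)
  have hδ3 : δ * Kc ≤ 2 * c₀ := (le_div_iff₀ hKc0).1 (min_le_right _ _)
  have hmass : (μ₀ + τ).real Set.univ = m + e := by
    rw [measureReal_add_apply, mass_map_zeroEmb]
  have hlt : (μ₀ + τ).real Set.univ < 1 := by rw [hmass]; linarith
  have hfreq : freqSq (μ₀ + τ) = a + d := freqSq_add hm0 hτ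
  have hres : μ₀.restrict zeroPhase = μ₀ :=
    Measure.restrict_eq_self_of_ae_mem (by rw [ae_iff]; exact map_zeroEmb_compl)
  have hb : a ≤ freqSq ((μ₀ + τ).restrict zeroPhase) := by
    rw [Measure.restrict_add, hres]
    exact integral_mono_measure (Measure.le_add_right le_rfl)
      (Filter.Eventually.of_forall fun q => sq_nonneg _) (hm0.add_measure hτ.restrict)
  have hb' : freqSq ((μ₀ + τ).restrict zeroPhase) ≤ a + d := by
    rw [← hfreq]
    exact integral_mono_measure Measure.restrict_le_self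
      (Filter.Eventually.of_forall fun q => sq_nonneg _) (hm0.add_measure hτ)
  have hy : m ≤ (μ₀ + τ).real zeroPhase := by
    rw [measureReal_add_apply]
    have : μ₀.real zeroPhase = m := by
      rw [← measureReal_restrict_apply_univ, hres, mass_map_zeroEmb]
    rw [this]
    linarith [measureReal_nonneg (μ := τ) (s := zeroPhase)]
  have hy' : (μ₀ + τ).real zeroPhase ≤ m + e := by
    rw [← hmass]; exact measureReal_mono (Set.subset_univ _)
  have hmix : mixedSize (μ₀ + τ) ≤ δ * ((2 * a + 1) * 2 + (a + 1) ^ 2) := by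
    unfold mixedSize
    rw [hfreq, hmass]
    set b := freqSq ((μ₀ + τ).restrict zeroPhase)
    set y := (μ₀ + τ).real zeroPhase
    have b2 : a ^ 2 ≤ b ^ 2 := pow_le_pow_left₀ ha hb _
    have t1 : (a + d) ^ 2 - b ^ 2 ≤ δ * (2 * a + 1) := by
      nlinarith [mul_le_mul_of_nonneg_left (hd.trans hδ1) hd0, mul_le_mul_of_nonneg_left hd ha]
    have t1' : 0 ≤ (a + d) ^ 2 - b ^ 2 :=
      sub_nonneg.2 (pow_le_pow_left₀ (ha.trans hb) hb' _)
    have t2 : b ^ 2 ≤ (a + 1) ^ 2 := pow_le_pow_left₀ (ha.trans hb) (by linarith) _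
    have p1 : ((a + d) ^ 2 - b ^ 2) * (m + e) ≤ δ * (2 * a + 1) * 2 :=
      mul_le_mul t1 (by linarith) (by linarith) (mul_nonneg (hd0.trans hd) (by linarith))
    have p2 : b ^ 2 * (m + e - y) ≤ (a + 1) ^ 2 * δ :=
      mul_le_mul t2 (by linarith) (by linarith) (sq_nonneg _)
    linarith
  have hdom : Dominated (μ₀ + τ) := by
    refine ⟨hm0.add_measure hτ, c₀ - δ * (2 * a + 1), fun ρ hρ => ?_, ?_⟩
    · refine le_trans ?_ (psi2_add_ge hm0 hτ hρ)
      have := hc ρ hρ
      nlinarith [mul_le_mul_of_nonneg_left hd ha, mul_le_mul_of_nonneg_left (hd.trans hδ1) hd0]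
    · have h1 : tailSum ((μ₀ + τ).real Set.univ) ≤ Λ :=
        tailSum_mono measureReal_nonneg (by rw [hmass]; linarith) (by linarith)
      have hm0'' : 0 ≤ mixedSize (μ₀ + τ) := by
        unfold mixedSize
        rw [hfreq, hmass]
        exact add_nonneg (mul_nonneg (sub_nonneg.2 (pow_le_pow_left₀ (ha.trans hb) hb' _))
          (by linarith)) (mul_nonneg (sq_nonneg _) (by linarith))
      have h2 := mul_le_mul h1 hmix hm0'' hΛ
      rw [hKc] at hδ3
      linarith
  have h := exists_limit_le_gardner (α := α)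
    (usable_pot (ν := μ₀ + τ) (c := c) hlt) (blockConcave_of_dominated hlt hdom c) hα
  have e1 : ∀ z, cosT (μ₀ + τ) z =
      (∫ t, Real.cos (t * z) ∂ν) + ∫ p, Real.cos (p.1 * z + p.2) ∂τ := by
    intro z
    have hi : ∀ (σ : Measure (ℝ × ℝ)) [IsFiniteMeasure σ],
        Integrable (fun p : ℝ × ℝ => Real.cos (p.1 * z + p.2)) σ := fun σ _ =>
      integrable_of_abs_le (K := 1) (by fun_prop) fun p => Real.abs_cos_le_one _
    rw [← cosT_map_zeroEmb, cosT, cosT, integral_add_measure (hi _) (hi _)]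
  unfold pot at h
  simp only [e1, ← sub_sub] at h
  exact h

lemma secondDeriv_eq_cexp (hm : Integrable (fun p => p.1 ^ 2) τ) (z : ℝ) :
    ((secondDeriv τ z : ℝ) : ℂ) =
      -∫ p, ((p.1 ^ 2 : ℝ) : ℂ) * Complex.exp (((p.1 * z + p.2 : ℝ) : ℂ) * Complex.I) ∂symm τ := by
  have hms := integrable_freqSq_symm hm
  have hi : Integrable (fun p : ℝ × ℝ => ((p.1 ^ 2 : ℝ) : ℂ) *
      Complex.exp (((p.1 * z + p.2 : ℝ) : ℂ) * Complex.I)) (symm τ) :=
    hms.mono' (by fun_prop) (Filter.Eventually.of_forall fun p => by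
      rw [norm_mul, Complex.norm_exp_ofReal_mul_I, mul_one, Complex.norm_real, Real.norm_eq_abs,
        abs_of_nonneg (sq_nonneg _)])
  have hev : Measurable fun p : ℝ × ℝ => p.1 ^ 2 * Real.cos (p.1 * z + p.2) := by fun_prop
  have hodd : Measurable fun p : ℝ × ℝ => p.1 ^ 2 * Real.sin (p.1 * z + p.2) := by fun_prop
  apply Complex.ext
  · rw [Complex.neg_re, Complex.ofReal_re, ← Complex.reCLM_apply,
      ← ContinuousLinearMap.integral_comp_comm _ hi, secondDeriv, neg_inj]
    have e : ∀ p : ℝ × ℝ, Complex.reCLM (((p.1 ^ 2 : ℝ) : ℂ) *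
        Complex.exp (((p.1 * z + p.2 : ℝ) : ℂ) * Complex.I)) =
        p.1 ^ 2 * Real.cos (p.1 * z + p.2) := fun p => by
      rw [Complex.reCLM_apply, Complex.re_ofReal_mul, Complex.exp_ofReal_mul_I_re]
    simp only [e]
    refine (integral_symm_of_even hev (fun p => ?_) (hm.mono' hev.aestronglyMeasurable
      (Filter.Eventually.of_forall fun p => ?_))).symm
    · rw [Prod.fst_neg, Prod.snd_neg, neg_sq,
        show -p.1 * z + -p.2 = -(p.1 * z + p.2) by ring, Real.cos_neg]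
    · rw [Real.norm_eq_abs, abs_mul, abs_of_nonneg (sq_nonneg _)]
      exact mul_le_of_le_one_right (sq_nonneg _) (Real.abs_cos_le_one _)
  · rw [Complex.neg_im, Complex.ofReal_im, ← Complex.imCLM_apply,
      ← ContinuousLinearMap.integral_comp_comm _ hi]
    have e : ∀ p : ℝ × ℝ, Complex.imCLM (((p.1 ^ 2 : ℝ) : ℂ) *
        Complex.exp (((p.1 * z + p.2 : ℝ) : ℂ) * Complex.I)) =
        p.1 ^ 2 * Real.sin (p.1 * z + p.2) := fun p => by
      rw [Complex.imCLM_apply, Complex.im_ofReal_mul, Complex.exp_ofReal_mul_I_im]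
    simp only [e]
    set F := fun p : ℝ × ℝ => p.1 ^ 2 * Real.sin (p.1 * z + p.2) with hF
    have hFi : ∀ (σ : Measure (ℝ × ℝ)), Integrable (fun p => p.1 ^ 2) σ → Integrable F σ :=
      fun σ hσ => hσ.mono' hodd.aestronglyMeasurable (Filter.Eventually.of_forall fun p => by
        rw [Real.norm_eq_abs, abs_mul, abs_of_nonneg (sq_nonneg _)]
        exact mul_le_of_le_one_right (sq_nonneg _) (Real.abs_sin_le_one _))
    have hmn : Integrable (fun p : ℝ × ℝ => p.1 ^ 2) (τ.map Neg.neg) := by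
      rw [integrable_map_measure (by fun_prop) (by fun_prop)]
      exact hm.congr (Filter.Eventually.of_forall fun p => by simp)
    rw [symm, integral_smul_measure, integral_add_measure (hFi _ hm) (hFi _ hmn),
      integral_map (by fun_prop) hodd.aestronglyMeasurable, ← integral_add (hFi _ hm) ?_]
    · have e0 : ∀ p : ℝ × ℝ, F p + F (-p) = 0 := fun p => by
        simp only [hF, Prod.fst_neg, Prod.snd_neg, neg_sq,
          show -p.1 * z + -p.2 = -(p.1 * z + p.2) by ring, Real.sin_neg]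
        ring
      simp [e0]
    · exact (integrable_map_measure hodd.aestronglyMeasurable (by fun_prop)).1 (hFi _ hmn)

/-- `psi2` is the correlation of second derivatives under correlated standard Gaussians. -/
lemma psi2_eq_correlation (hm : Integrable (fun p => p.1 ^ 2) τ) {ρ : ℝ}
    (hρ : ρ ∈ Set.Icc (-1 : ℝ) 1) :
    psi2 τ ρ = ∫ g : Fin 2 → ℝ, secondDeriv τ (g 0) *
      secondDeriv τ (ρ * g 0 + Real.sqrt (1 - ρ ^ 2) * g 1)
        ∂Measure.pi (fun _ => gaussianReal 0 1) := by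
  set σ := symm τ
  set r := Real.sqrt (1 - ρ ^ 2)
  have hr : r ^ 2 = 1 - ρ ^ 2 := Real.sq_sqrt (by nlinarith [hρ.1, hρ.2])
  have hms := integrable_freqSq_symm hm
  let z : Fin 2 → (Fin 2 → ℝ) → ℝ := fun l g => if l = 0 then g 0 else ρ * g 0 + r * g 1
  let u : (Fin 2 → ℝ × ℝ) → Fin 2 → ℝ := fun t i =>
    if i = 0 then (t 0).1 + ρ * (t 1).1 else r * (t 1).1
  let w : (Fin 2 → ℝ × ℝ) → ℂ := fun t =>
    (((t 0).1 * (t 1).1) ^ 2 : ℝ) * Complex.exp ((((t 0).2 + (t 1).2 : ℝ) : ℂ) * Complex.I)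
  have hprod : ∀ g : Fin 2 → ℝ,
      ((secondDeriv τ (g 0) * secondDeriv τ (ρ * g 0 + r * g 1) : ℝ) : ℂ) =
      ∫ t : Fin 2 → ℝ × ℝ, w t * Complex.exp (((dot g (u t) : ℝ) : ℂ) * Complex.I)
        ∂Measure.pi fun _ => σ := by
    intro g
    rw [Complex.ofReal_mul, secondDeriv_eq_cexp hm, secondDeriv_eq_cexp hm, neg_mul_neg]
    have h := integral_fintype_prod_eq_prod (μ := fun _ : Fin 2 => σ)
      (fun l (p : ℝ × ℝ) => ((p.1 ^ 2 : ℝ) : ℂ) *
        Complex.exp (((p.1 * z l g + p.2 : ℝ) : ℂ) * Complex.I))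
    simp only [Fin.prod_univ_two] at h
    refine Eq.trans ?_ (h.symm.trans ?_)
    · simp [z, σ]
    · congr 1
      ext t
      simp only [w, u, z, dot, Fin.sum_univ_two, if_true, show ((1 : Fin 2) = 0) = False from by simp,
        if_false]
      rw [mul_mul_mul_comm, ← Complex.exp_add,
        mul_assoc _ (Complex.exp _) (Complex.exp _), ← Complex.exp_add]
      push_cast
      congr 1
      · ring
      · congr 1; ring
  have hwm : Measurable w := by
    refine (Complex.continuous_ofReal.measurable.comp (by fun_prop)).mul ?_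
    exact Complex.continuous_exp.measurable.comp
      ((Complex.continuous_ofReal.measurable.comp (by fun_prop)).mul_const _)
  have hwn : ∀ t, ‖w t‖ = ((t 0).1 * (t 1).1) ^ 2 := fun t => by
    simp only [w, norm_mul, Complex.norm_exp_ofReal_mul_I, mul_one, Complex.norm_real,
      Real.norm_eq_abs]
    exact abs_of_nonneg (sq_nonneg _)
  have hum : Measurable u := by
    refine measurable_pi_lambda _ fun i => ?_
    by_cases h : i = 0 <;> simp only [u, h, if_true, if_false] <;> fun_prop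
  have hint : Integrable (fun q : (Fin 2 → ℝ) × (Fin 2 → ℝ × ℝ) =>
      w q.2 * Complex.exp (((dot q.1 (u q.2) : ℝ) : ℂ) * Complex.I))
      ((gam (Fin 2)).prod (Measure.pi fun _ => σ)) := by
    refine ((integrable_sq_mul_sq hm).comp_snd (gam (Fin 2))).mono'
      (Measurable.aestronglyMeasurable ?_) (Filter.Eventually.of_forall fun q => ?_)
    · exact (hwm.comp measurable_snd).mul (Complex.continuous_exp.measurable.comp
        ((Complex.continuous_ofReal.measurable.comp (measurable_dot.comp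
          (measurable_fst.prodMk (hum.comp measurable_snd)))).mul_const _))
    · rw [norm_mul, Complex.norm_exp_ofReal_mul_I, mul_one, hwn]
  have hwgi : Integrable (fun t => w t * ((Real.exp (-(∑ i, u t i ^ 2) / 2) : ℝ) : ℂ))
      (Measure.pi fun _ => σ) := by
    refine (integrable_sq_mul_sq hm).mono' (Measurable.aestronglyMeasurable ?_)
      (Filter.Eventually.of_forall fun t => ?_)
    · exact hwm.mul (Complex.continuous_ofReal.measurable.comp
        ((Finset.measurable_sum _ fun i _ =>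
          ((measurable_pi_apply i).comp hum).pow_const 2).neg.div_const 2).exp)
    · rw [norm_mul, hwn, Complex.norm_real, Real.norm_eq_abs, Real.abs_exp]
      refine mul_le_of_le_one_right (sq_nonneg _) (Real.exp_le_one_iff.2 ?_)
      have : 0 ≤ ∑ i, u t i ^ 2 := Finset.sum_nonneg fun i _ => sq_nonneg _
      linarith
  have hc : ((∫ g : Fin 2 → ℝ, secondDeriv τ (g 0) * secondDeriv τ (ρ * g 0 + r * g 1)
        ∂gam (Fin 2) : ℝ) : ℂ) =
      ∫ t, w t * ((Real.exp (-(∑ i, u t i ^ 2) / 2) : ℝ) : ℂ) ∂Measure.pi fun _ => σ := by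
    rw [← integral_complex_ofReal]
    simp only [hprod]
    rw [integral_integral_swap hint]
    simp only [integral_const_mul, integral_cexp_dot]
  have hre := congrArg Complex.re hc
  rw [Complex.ofReal_re, ← Complex.reCLM_apply, ← ContinuousLinearMap.integral_comp_comm _ hwgi]
    at hre
  rw [hre, psi2]
  congr 1
  ext t
  have hu2 : ∑ i, u t i ^ 2 = (t 0).1 ^ 2 + (t 1).1 ^ 2 + 2 * ρ * ((t 0).1 * (t 1).1) := by
    simp only [u, Fin.sum_univ_two, if_true, show ((1 : Fin 2) = 0) = False from by simp, if_false]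
    rw [mul_pow, hr]
    ring
  simp only [hu2, w, Complex.reCLM_apply]
  rw [mul_assoc (((((t 0).1 * (t 1).1) ^ 2 : ℝ)) : ℂ), Complex.re_ofReal_mul, Complex.re_mul_ofReal,
    Complex.exp_ofReal_mul_I_re]
  ring

lemma continuousOn_psi2 (hm : Integrable (fun p => p.1 ^ 2) τ) :
    ContinuousOn (psi2 τ) (Set.Icc (-1 : ℝ) 1) := by
  refine continuousOn_of_dominated (bound := fun t : Fin 2 → ℝ × ℝ => ((t 0).1 * (t 1).1) ^ 2)
    (fun r _ => by fun_prop) (fun r hr => ?_) (integrable_sq_mul_sq hm)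
    (Filter.Eventually.of_forall fun t => by fun_prop)
  exact Filter.Eventually.of_forall fun t =>
    (abs_kernel_le hr t _).trans_eq (abs_of_nonneg (sq_nonneg _))

theorem hasLimits_smallAmplitude (hm : Integrable (fun p => p.1 ^ 2) τ)
    (hpos : ∀ ρ ∈ Set.Icc (-1 : ℝ) 1, 0 < ∫ g : Fin 2 → ℝ, secondDeriv τ (g 0) *
      secondDeriv τ (ρ * g 0 + Real.sqrt (1 - ρ ^ 2) * g 1)
        ∂Measure.pi (fun _ => gaussianReal 0 1)) :
    ∃ ε₀ > 0, ∀ ε : ℝ, 0 < ε → ε ≤ ε₀ → ∀ c α : ℝ, 0 < α → HasLimitsBelow α fun z =>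
      c + Real.log (1 - ε * ∫ p, Real.cos (p.1 * z + p.2) ∂τ) := by
  obtain ⟨ρ₀, hρ₀, hmin⟩ := isCompact_Icc.exists_isMinOn
    (Set.nonempty_Icc.2 (by norm_num : (-1 : ℝ) ≤ 1)) (continuousOn_psi2 hm)
  set c₀ := psi2 τ ρ₀
  have hc₀ : 0 < c₀ := by
    rw [show c₀ = psi2 τ ρ₀ from rfl, psi2_eq_correlation hm hρ₀]
    exact hpos ρ₀ hρ₀
  have hc : ∀ ρ ∈ Set.Icc (-1 : ℝ) 1, c₀ ≤ psi2 τ ρ := fun ρ hρ => hmin hρ
  set m := τ.real Set.univ with hmm
  set a := freqSq τ
  have hm0 : 0 ≤ m := measureReal_nonneg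
  set Kc := tailSum (1 / 2) * (a ^ 2 * m + a ^ 2 * m) + 1 with hKc
  have hT := tailSum_nonneg (show (0 : ℝ) ≤ 1 / 2 by norm_num)
  have hKc0 : 0 < Kc := by positivity
  refine ⟨min (1 / (2 * (m + 1))) (2 * c₀ / Kc), by positivity, fun ε hε hεle c α hα => ?_⟩
  have hε1 : ε * (2 * (m + 1)) ≤ 1 := (le_div_iff₀ (by positivity)).1 (hεle.trans (min_le_left _ _))
  have hε2 : ε * Kc ≤ 2 * c₀ := (le_div_iff₀ hKc0).1 (hεle.trans (min_le_right _ _))
  set με : Measure (ℝ × ℝ) := ENNReal.ofReal ε • τ with hμε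
  have : IsFiniteMeasure με := τ.smul_finite ENNReal.ofReal_ne_top
  have hmass : με.real Set.univ = ε * m := by
    simp [hμε, measureReal_ennreal_smul_apply, ENNReal.toReal_ofReal hε.le, hmm]
  have hhalf : ε * m ≤ 1 / 2 := by linarith
  have hlt : με.real Set.univ < 1 := by rw [hmass]; linarith
  have hmε : Integrable (fun p => p.1 ^ 2) με := hm.smul_measure ENNReal.ofReal_ne_top
  have hsymm : symm με = ENNReal.ofReal ε • symm τ := by
    simp only [hμε, symm, Measure.map_smul, ← smul_add, smul_comm (ENNReal.ofReal ε)]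
  have hψ : ∀ ρ ∈ Set.Icc (-1 : ℝ) 1, ε ^ 2 * c₀ ≤ psi2 με ρ := by
    intro ρ hρ
    have e : psi2 με ρ = ε ^ 2 * psi2 τ ρ := by
      rw [psi2_eq_kernInt hmε hρ, psi2_eq_kernInt hm hρ, hsymm]
      simp only [kernInt, integral_smul_measure, ENNReal.toReal_ofReal hε.le, smul_eq_mul,
        integral_const_mul]
      ring
    rw [e]
    exact mul_le_mul_of_nonneg_left (hc ρ hρ) (sq_nonneg _)
  have hfq : freqSq με = ε * a := by
    simp only [hμε, freqSq, integral_smul_measure, ENNReal.toReal_ofReal hε.le, smul_eq_mul]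
    rfl
  have hmix : mixedSize με ≤ ε ^ 3 * (a ^ 2 * m + a ^ 2 * m) := by
    unfold mixedSize
    rw [hfq, hmass]
    have h1 : freqSq (με.restrict zeroPhase) ^ 2 ≤ (ε * a) ^ 2 := by
      refine pow_le_pow_left₀ (integral_nonneg fun q => sq_nonneg _) ?_ _
      rw [← hfq]
      exact integral_mono_measure Measure.restrict_le_self
        (Filter.Eventually.of_forall fun q => sq_nonneg _) hmε
    have h2 : 0 ≤ με.real zeroPhase := measureReal_nonneg
    have h3 : 0 ≤ ε * m := by positivity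
    nlinarith [sq_nonneg (freqSq (με.restrict zeroPhase)), mul_le_mul_of_nonneg_right h1 h3]
  have hdom : Dominated με := by
    refine ⟨hmε, ε ^ 2 * c₀, hψ, ?_⟩
    have hT' : tailSum (με.real Set.univ) ≤ tailSum (1 / 2) :=
      tailSum_mono measureReal_nonneg (by rw [hmass]; exact hhalf) (by norm_num)
    have h1 := mul_le_mul_of_nonneg_left hmix (tailSum_nonneg (measureReal_nonneg (μ := με)
      (s := Set.univ)))
    have h2 := mul_le_mul_of_nonneg_right hT' (show 0 ≤ ε ^ 3 * (a ^ 2 * m + a ^ 2 * m) by positivity)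
    have h3 := mul_le_mul_of_nonneg_left hε2 (sq_nonneg ε)
    have h4 : 0 ≤ ε ^ 3 := by positivity
    rw [hKc] at h3
    linarith
  have h := exists_limit_le_gardner (α := α)
    (usable_pot (ν := με) (c := c) hlt) (blockConcave_of_dominated hlt hdom c) hα
  have e1 : ∀ z, cosT με z = ε * ∫ p, Real.cos (p.1 * z + p.2) ∂τ := fun z => by
    simp only [hμε, cosT, integral_smul_measure, ENNReal.toReal_ofReal hε.le, smul_eq_mul]
  unfold pot at h
  simp only [e1] at h
  exact h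

end Vale.Agent.P157
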