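import Mathlib
import Vale.Agent.P157.Threshold

/-!
The sharp annealed threshold, and the cosine family as an explicit example.
-/

noncomputable section

open MeasureTheory ProbabilityTheory Filter
open scoped Topology

namespace Vale.Agent.P157

lemma log_cosh_fifth :
    ∃ C, 0 ≤ C ∧ ∀ x : ℝ, |Real.log (Real.cosh x) - x ^ 2 / 2 + x ^ 4 / 12| ≤ C * |x| ^ 5 := by
  refine ⟨max (logC 1 1) 2, le_trans zero_le_two (le_max_right _ _), fun x => ?_⟩
  have hlc := log_cosh_mem x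
  have hp5 : 0 ≤ |x| ^ 5 := by positivity
  rcases le_or_gt |x| 1 with h | h
  · set X := Real.cosh x - 1
    set R := X - x ^ 2 / 2 - x ^ 4 / 24
    have hR : |R| ≤ 1 * |x ^ 2| ^ 3 * 1 := by
      have h1 := Real.exp_bound h (n := 6) (by norm_num)
      have h2 := Real.exp_bound (x := -x) (by rwa [abs_neg]) (n := 6) (by norm_num)
      simp only [abs_neg] at h2
      have e : R = ((Real.exp x - ∑ m ∈ Finset.range 6, x ^ m / (m.factorial : ℝ)) +
          (Real.exp (-x) - ∑ m ∈ Finset.range 6, (-x) ^ m / (m.factorial : ℝ))) / 2 := by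
        simp only [R, X, Real.cosh_eq, Finset.sum_range_succ, Finset.sum_range_zero, Nat.factorial,
          Nat.succ_eq_add_one]
        push_cast
        ring
      rw [e, abs_div, abs_two, one_mul, mul_one, abs_of_nonneg (sq_nonneg x), ← sq_abs, ← pow_mul]
      refine (div_le_div_of_nonneg_right ((abs_add_le _ _).trans (add_le_add h1 h2)) zero_le_two).trans ?_
      have : (0 : ℝ) ≤ |x| ^ 6 := by positivity
      norm_num [Nat.factorial]
      linarith
    have h' := log_second_order (K := 1) (B := 1) (T := 1) (a := x ^ 2) (m₁ := 1 / 2) (m₂ := 1 / 24)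
      (E := R) (X := X) zero_le_one le_rfl
      (by
        rw [show 1 + X = Real.cosh x by simp only [X]; ring, abs_of_nonneg hlc.1]
        linarith [hlc.2])
      (by norm_num) (by norm_num) hR (by simp only [R]; ring)
    rw [show 1 + X = Real.cosh x by simp only [X]; ring] at h'
    calc |Real.log (Real.cosh x) - x ^ 2 / 2 + x ^ 4 / 12|
        = |Real.log (Real.cosh x) - x ^ 2 * (1 / 2) -
            (x ^ 2) ^ 2 * (1 / 24 - (1 / 2) ^ 2 / 2)| := by congr 1; ring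
      _ ≤ logC 1 1 * |x ^ 2| ^ 3 * 1 ^ 3 := h'
      _ ≤ max (logC 1 1) 2 * |x| ^ 5 := by
          rw [one_pow, mul_one]
          refine mul_le_mul (le_max_left _ _) ?_ (by positivity) (le_trans zero_le_two (le_max_right _ _))
          rw [abs_pow, ← pow_mul]
          exact pow_le_pow_of_le_one (abs_nonneg x) h (by norm_num)
  · have p1 : |x| ≤ |x| ^ 5 := le_self_pow₀ h.le (by norm_num)
    have p2 : x ^ 2 ≤ |x| ^ 5 := by rw [← sq_abs]; exact pow_le_pow_right₀ h.le (by norm_num)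
    have p4 : x ^ 4 ≤ |x| ^ 5 := by
      rw [← Even.pow_abs (by decide : Even 4) x]; exact pow_le_pow_right₀ h.le (by norm_num)
    have := mul_le_mul_of_nonneg_right (le_max_right (logC 1 1) 2) hp5
    rw [abs_le]
    constructor <;> nlinarith [sq_nonneg x, sq_nonneg (x ^ 2)]

lemma exists_small {C d : ℝ} (hC : 0 ≤ C) (hd : d < 0) :
    ∀ᶠ t in 𝓝[>] (0 : ℝ), C * t + d < 0 := by
  have h : Tendsto (fun t : ℝ => C * t + d) (𝓝[>] 0) (𝓝 (C * 0 + d)) :=
    ((continuous_const.mul continuous_id).add continuous_const).tendsto 0 |>.mono_left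
      nhdsWithin_le_nhds
  exact h.eventually (gt_mem_nhds (by simpa using hd))

variable {f : ℝ → ℝ} {K α : ℝ}

lemma tendsto_betaQ_sq (hf : Usable f K) :
    Tendsto (fun t : ℝ => betaQ f (t ^ 2)) (𝓝[>] 0) (𝓝 (curv f / 2)) := by
  refine (tendsto_betaQ hf).comp (Tendsto.mono_left ?_ nhdsWithin_le_nhds)
  simpa using ((continuous_pow 2).tendsto (0 : ℝ))

/-- Above the threshold the sphere functional drops below the annealed value. -/
theorem exists_gardnerSphere_lt (hf : Usable f K) (hev : ∀ z, f (-z) = f z) (hα : 0 < α)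
    (hb : 1 < α * curv f ^ 2) :
    ∃ q ∈ Set.Ico (0 : ℝ) 1,
      gardnerSphere f α q < α * Real.log (∫ z, Real.exp (f z) ∂gaussianReal 0 1) := by
  obtain ⟨C, hC, hsm⟩ := small_overlap_bounds hf hev
  set d := (1 - α * curv f ^ 2) / 8
  have hd : d < 0 := by simp only [d]; linarith
  have hβ : ∀ᶠ t in 𝓝[>] (0 : ℝ), 1 / 4 - α * betaQ f (t ^ 2) ^ 2 < d := by
    refine (((tendsto_betaQ_sq hf).pow 2).const_mul α |>.const_sub (1 / 4)).eventually (gt_mem_nhds ?_)
    simp only [d]; nlinarith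
  have hIoo : ∀ᶠ t in 𝓝[>] (0 : ℝ), t ∈ Set.Ioo (0 : ℝ) (1 / 2) := Ioo_mem_nhdsGT (by norm_num)
  obtain ⟨t, ⟨⟨ht0, ht1⟩, hb'⟩, hs⟩ := ((hIoo.and hβ).and
    (exists_small (show 0 ≤ α * C + 1 by positivity) hd)).exists
  have ht2 : t ^ 2 ≤ 1 / 4 := by nlinarith
  refine ⟨t ^ 2, ⟨sq_nonneg t, by linarith⟩, ?_⟩
  obtain ⟨hG, -⟩ := hsm t ht0 ht1.le
  have hφ : t ^ 2 / (1 - t ^ 2) + Real.log (1 - t ^ 2) ≤ t ^ 4 / 2 + 2 * t ^ 6 := by
    have h1 : t ^ 2 / (1 - t ^ 2) ≤ t ^ 2 + t ^ 4 + 2 * t ^ 6 := by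
      rw [div_le_iff₀ (by linarith)]
      nlinarith [pow_nonneg ht0.le 6, mul_le_mul_of_nonneg_left ht2 (pow_nonneg ht0.le 6)]
    have h2 : Real.log (1 - t ^ 2) ≤ -t ^ 2 - t ^ 4 / 2 := by
      have h := Real.abs_log_sub_add_sum_range_le (x := t ^ 2) (by rw [abs_of_nonneg (sq_nonneg t)]; linarith) 3
      simp only [Finset.sum_range_succ, Finset.sum_range_zero, zero_add] at h
      norm_num at h
      have h' := (abs_le.1 h).2
      have h8 : |t ^ 2| ^ 4 / (1 - |t ^ 2|) ≤ (t ^ 2) ^ 3 / 3 := by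
        rw [abs_of_nonneg (sq_nonneg t), div_le_iff₀ (by linarith)]
        nlinarith [pow_nonneg (sq_nonneg t) 3, mul_le_mul_of_nonneg_left ht2 (pow_nonneg (sq_nonneg t) 3)]
      rw [abs_of_nonneg (sq_nonneg t)] at h8
      try simp only [abs_pow, sq_abs] at h'
      nlinarith [h', h8]
    linarith
  have h5 : t ^ 6 ≤ t ^ 5 := pow_le_pow_of_le_one ht0.le (by linarith) (by norm_num)
  have hG' := mul_le_mul_of_nonneg_left hG hα.le
  have p4 : 0 < t ^ 4 := pow_pos ht0 4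
  have h6 := mul_lt_mul_of_pos_left hb' p4
  have h7 := mul_lt_mul_of_pos_left hs p4
  simp only [gardnerSphere]
  linarith

/-- Above the threshold the cube functional drops below the annealed value. -/
theorem exists_gardnerIsing_lt (hf : Usable f K) (hev : ∀ z, f (-z) = f z) (hα : 0 < α)
    (hb : 1 < α * curv f ^ 2) :
    ∃ q ∈ Set.Ico (0 : ℝ) 1,
      gardnerIsing f α q < α * Real.log (∫ z, Real.exp (f z) ∂gaussianReal 0 1) := by
  obtain ⟨C, hC, hsm⟩ := small_overlap_bounds hf hev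
  obtain ⟨C5, hC5, hlc⟩ := log_cosh_fifth
  set b2 := curv f ^ 2 / 4
  have hb2 : 0 ≤ b2 := by simp only [b2]; positivity
  set d := α * b2 * (1 - α * curv f ^ 2) / 2
  have hd : d < 0 := by
    have hc2 : 0 < curv f ^ 2 := pos_of_mul_pos_right (lt_trans one_pos hb) hα.le
    have h1 : α * b2 * (1 - α * curv f ^ 2) < 0 :=
      mul_neg_of_pos_of_neg (mul_pos hα (div_pos hc2 four_pos)) (by linarith)
    simp only [d]; linarith
  set U := α * (4 * (b2 + 1) + C)
  set C' := α * C + α * C / 2 + 2 * α ^ 2 * (b2 + 1) * C + C5 * mom9 * U ^ 2 * (U + 1)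
  have hC' : 0 ≤ C' := by
    have := mom9_nonneg
    positivity
  have hβ : ∀ᶠ t in 𝓝[>] (0 : ℝ), α * betaQ f (t ^ 2) ^ 2 * (1 - 4 * α * betaQ f (t ^ 2) ^ 2) < d ∧
      betaQ f (t ^ 2) ^ 2 ≤ b2 + 1 := by
    refine Eventually.and ?_ ?_
    · have hs := ((tendsto_betaQ_sq hf).pow 2)
      refine ((hs.const_mul α).mul ((hs.const_mul (4 * α)).const_sub 1)).eventually (gt_mem_nhds ?_)
      simp only [d, b2] at hd ⊢
      linarith
    · refine ((tendsto_betaQ_sq hf).pow 2).eventually (ge_mem_nhds ?_)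
      simp only [b2]; linarith
  have hIoo : ∀ᶠ t in 𝓝[>] (0 : ℝ), t ∈ Set.Ioo (0 : ℝ) (1 / 2) := Ioo_mem_nhdsGT (by norm_num)
  obtain ⟨t, ⟨⟨ht0, ht1⟩, hb', hbb⟩, hs⟩ := ((hIoo.and hβ).and (exists_small hC' hd)).exists
  have ht2 : t ^ 2 ≤ 1 / 4 := by nlinarith
  refine ⟨t ^ 2, ⟨sq_nonneg t, by linarith⟩, ?_⟩
  obtain ⟨hG, hA⟩ := hsm t ht0 ht1.le
  set β2 := betaQ f (t ^ 2) ^ 2
  have hβ20 : 0 ≤ β2 := sq_nonneg _
  obtain ⟨r, hr⟩ : ∃ r, r = α * gardnerA f (t ^ 2) := ⟨_, rfl⟩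
  have hr0 : 0 ≤ r := hr ▸ mul_nonneg hα.le (gardnerA_nonneg (by linarith))
  have hA' := abs_le.1 hA
  have hrhi : r ≤ α * (4 * β2 * t ^ 2 + C * t ^ 3) := by
    rw [hr]; exact mul_le_mul_of_nonneg_left (by linarith [hA'.2]) hα.le
  have hrlo : α * (4 * β2 * t ^ 2 - C * t ^ 3) ≤ r := by
    rw [hr]; exact mul_le_mul_of_nonneg_left (by linarith [hA'.1]) hα.le
  have hrU : r ≤ U * t ^ 2 := by
    refine hrhi.trans ?_
    have h1 : t ^ 3 ≤ t ^ 2 := pow_le_pow_of_le_one ht0.le (by linarith) (by norm_num)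
    have g1 := mul_le_mul_of_nonneg_left h1 (mul_nonneg hα.le hC)
    have g2 := mul_le_mul_of_nonneg_right hbb (show 0 ≤ 4 * α * t ^ 2 by positivity)
    simp only [U]
    linarith
  have hint : ∫ z, Real.log (Real.cosh (Real.sqrt r * z)) ∂gam1 ≤
      r / 2 - r ^ 2 / 4 + C5 * mom9 * Real.sqrt r ^ 5 := by
    have hsq : Integrable (fun z : ℝ => z ^ 2) gam1 := IsGaussian.memLp_two_id.integrable_sq
    have hk : ∀ k ≤ 9, Integrable (fun z : ℝ => |z| ^ k) gam1 := fun k hk =>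
      integrable_pow9.mono' (by fun_prop) (Eventually.of_forall fun z => by
        rw [Real.norm_eq_abs, abs_pow, abs_abs]
        exact (pow_le_pow_left₀ (abs_nonneg _) (le_add_of_nonneg_left zero_le_one) k).trans
          (pow_le_pow_right₀ (le_add_of_nonneg_right (abs_nonneg _)) hk))
    have h4 : Integrable (fun z : ℝ => z ^ 4) gam1 := (hk 4 (by norm_num)).congr
      (Eventually.of_forall fun z => Even.pow_abs (by decide : Even 4) z)
    have e4 : ∫ z, z ^ 4 ∂gam1 = 3 := by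
      have h := integral_sub_one_sq
      have e : ∀ z : ℝ, (z ^ 2 - 1) ^ 2 = z ^ 4 - 2 * z ^ 2 + 1 := fun z => by ring
      simp only [e] at h
      rw [integral_add (h4.sub' (hsq.const_mul 2)) (integrable_const _),
        integral_sub h4 (hsq.const_mul 2), integral_const_mul, integral_sq_gam1] at h
      simp only [integral_const, probReal_univ, smul_eq_mul, one_mul] at h
      linarith
    have h5 : ∫ z, |z| ^ 5 ∂gam1 ≤ mom9 := integral_mono (hk 5 (by norm_num)) integrable_pow9 fun z =>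
      (pow_le_pow_left₀ (abs_nonneg _) (le_add_of_nonneg_left zero_le_one) 5).trans
        (pow_le_pow_right₀ (le_add_of_nonneg_right (abs_nonneg _)) (by norm_num))
    have hpt : ∀ z, Real.log (Real.cosh (Real.sqrt r * z)) ≤
        r / 2 * z ^ 2 - r ^ 2 / 12 * z ^ 4 + C5 * Real.sqrt r ^ 5 * |z| ^ 5 := fun z => by
      have := (abs_le.1 (hlc (Real.sqrt r * z))).2
      rw [abs_mul, abs_of_nonneg (Real.sqrt_nonneg r)] at this
      rw [mul_pow, mul_pow, Real.sq_sqrt hr0, show (4 : ℕ) = 2 * 2 by norm_num, pow_mul,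
        Real.sq_sqrt hr0] at this
      rw [mul_pow] at this
      linarith
    have hI : Integrable (fun z : ℝ =>
        r / 2 * z ^ 2 - r ^ 2 / 12 * z ^ 4 + C5 * Real.sqrt r ^ 5 * |z| ^ 5) gam1 :=
      ((hsq.const_mul _).sub (h4.const_mul _)).add ((hk 5 (by norm_num)).const_mul _)
    refine (integral_mono (integrable_log_cosh _) hI hpt).trans ?_
    rw [integral_add ((hsq.const_mul _).sub' (h4.const_mul _)) ((hk 5 (by norm_num)).const_mul _),
      integral_sub (hsq.const_mul _) (h4.const_mul _), integral_const_mul, integral_const_mul,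
      integral_const_mul, integral_sq_gam1, e4]
    have := mul_le_mul_of_nonneg_left h5 (mul_nonneg hC5 (pow_nonneg (Real.sqrt_nonneg r) 5))
    linarith
  have hs5 : Real.sqrt r ^ 5 ≤ U ^ 2 * (U + 1) * t ^ 5 := by
    have hU : 0 ≤ U := by simp only [U]; positivity
    have hsr : Real.sqrt r ≤ (U + 1) * t := by
      rw [Real.sqrt_le_left (by positivity)]
      refine hrU.trans ?_
      rw [mul_pow]
      exact mul_le_mul_of_nonneg_right (by nlinarith) (sq_nonneg t)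
    have e : Real.sqrt r ^ 5 = r ^ 2 * Real.sqrt r := by
      rw [show (5 : ℕ) = 2 * 2 + 1 by norm_num, pow_succ, pow_mul, Real.sq_sqrt hr0]
    rw [e]
    calc r ^ 2 * Real.sqrt r ≤ (U * t ^ 2) ^ 2 * ((U + 1) * t) :=
          mul_le_mul (pow_le_pow_left₀ hr0 hrU 2) hsr (Real.sqrt_nonneg r) (by positivity)
      _ = _ := by ring
  have hlow2 : (4 * α * β2 * t ^ 2) ^ 2 - 8 * α ^ 2 * (b2 + 1) * C * t ^ 5 ≤ r ^ 2 := by
    have hd' : 4 * α * β2 * t ^ 2 - α * C * t ^ 3 ≤ r := by linarith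
    have g1 : 0 ≤ 4 * α * β2 * t ^ 2 := by positivity
    have g2 := mul_le_mul_of_nonneg_left hd' g1
    have g3 := mul_le_mul_of_nonneg_right hbb (show 0 ≤ 8 * α ^ 2 * C * t ^ 5 by positivity)
    linarith [sq_nonneg (r - 4 * α * β2 * t ^ 2)]
  have hG' := mul_le_mul_of_nonneg_left hG hα.le
  have hrq := mul_le_mul_of_nonneg_right hrhi (show 0 ≤ t ^ 2 / 2 by positivity)
  have hm := mul_le_mul_of_nonneg_left hs5 (mul_nonneg hC5 mom9_nonneg)
  have p4 : 0 < t ^ 4 := pow_pos ht0 4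
  have h6 := mul_lt_mul_of_pos_left hb' p4
  have h7 := mul_lt_mul_of_pos_left hs p4
  simp only [gardnerIsing, ← hr]
  simp only [C', U] at h7 hm ⊢
  linarith

/-- The pressure is at most annealed. -/
lemma limit_le_annealed {ρ : Measure ℝ} [IsProbabilityMeasure ρ] (hρ0 : ρ {0} = 0)
    (hf : Measurable f) (hb : ∀ z, |f z| ≤ K) (hα : 0 < α) {L : ℝ}
    (hL : Tendsto (fun N : ℕ => logPart ρ f (Fin N) ⌊α * N⌋₊ / N) atTop (𝓝 L)) :
    L ≤ α * Real.log (∫ z, Real.exp (f z) ∂gaussianReal 0 1) := by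
  refine le_of_tendsto_of_tendsto hL ((tendsto_floor_div α hα.le).mul_const _) ?_
  filter_upwards [eventually_gt_atTop 0] with N hN
  rw [div_mul_eq_mul_div]
  gcongr
  have hne : ∀ᵐ y ∂(Measure.pi fun _ : Fin N => ρ), ∀ i, y i ≠ 0 := by
    rw [ae_all_iff]
    intro i
    have h0 : ∀ᵐ x ∂ρ, x ≠ 0 := by rw [ae_iff]; simpa using hρ0
    exact (measurePreserving_eval (fun _ : Fin N => ρ) i).quasiMeasurePreserving.ae h0
  exact (Phi_term_le_annealed hf hb hN hne _).2

lemma cond_of_threshold {lψ I b : ℝ} (hα : 0 ≤ α) (hb : α * b ≤ 1) (hI : 0 ≤ I) (h : lψ ≤ b * I) :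
    α * lψ ≤ I := by
  calc α * lψ ≤ α * (b * I) := mul_le_mul_of_nonneg_left h hα
    _ = α * b * I := by ring
    _ ≤ 1 * I := mul_le_mul_of_nonneg_right hb hI
    _ = I := one_mul I

/-- The exact threshold on the cube. -/
theorem sharp_ising (hf : Usable f K) (hcv : BlockConcave f) (hev : ∀ z, f (-z) = f z)
    (hc : ∀ r ∈ Set.Icc (-1 : ℝ) 1, Real.log (corrRatio f r) ≤ curv f ^ 2 * rateIsing r)
    (hα : 0 < α) :
    ∃ L, Tendsto (meanPressure isingLaw α f) atTop (𝓝 L) ∧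
      L ≤ α * Real.log (∫ z, Real.exp (f z) ∂gaussianReal 0 1) ∧
      (L = α * Real.log (∫ z, Real.exp (f z) ∂gaussianReal 0 1) ↔ α * curv f ^ 2 ≤ 1) := by
  obtain ⟨⟨L, hL, hq⟩, -⟩ := exists_limit_le_gardner hf hcv hα
  have hL' : Tendsto (fun N : ℕ => logPart rad f (Fin N) ⌊α * N⌋₊ / N) atTop (𝓝 L) :=
    hL.congr' ((eventually_gt_atTop 0).mono fun N hN =>
      meanPressure_eq hf.meas hN α (isingLaw_eq hN))
  refine ⟨L, hL, limit_le_annealed admissible_rad.zero hf.meas hf.bound hα hL', fun h => ?_, fun h => ?_⟩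
  · by_contra hb
    obtain ⟨q, hq0, hlt⟩ := exists_gardnerIsing_lt hf hev hα (not_le.1 hb)
    linarith [hq q hq0]
  · refine tendsto_nhds_unique hL (tendsto_annealed_ising hf.meas hf.bound hα fun r hr => ?_)
    refine cond_of_threshold hα.le h ?_ (hc r hr)
    rw [← rateIsing_abs, ← rateIsing_zero]
    exact monotoneOn_rateIsing (Set.left_mem_Icc.2 zero_le_one) ⟨abs_nonneg r, abs_le.2 hr⟩ (abs_nonneg r)

/-- The exact threshold on the sphere. -/
theorem sharp_sphere (hf : Usable f K) (hcv : BlockConcave f) (hev : ∀ z, f (-z) = f z)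
    (hc : ∀ r ∈ Set.Ioo (-1 : ℝ) 1, Real.log (corrRatio f r) ≤ curv f ^ 2 * rateSphere r)
    (hα : 0 < α) :
    ∃ L, Tendsto (meanPressure sphereLaw α f) atTop (𝓝 L) ∧
      L ≤ α * Real.log (∫ z, Real.exp (f z) ∂gaussianReal 0 1) ∧
      (L = α * Real.log (∫ z, Real.exp (f z) ∂gaussianReal 0 1) ↔ α * curv f ^ 2 ≤ 1) := by
  obtain ⟨-, ⟨L, hL, hq⟩⟩ := exists_limit_le_gardner hf hcv hα
  have hL' : Tendsto (fun N : ℕ => logPart gam1 f (Fin N) ⌊α * N⌋₊ / N) atTop (𝓝 L) :=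
    hL.congr' ((eventually_gt_atTop 0).mono fun N hN =>
      meanPressure_eq hf.meas hN α (sphereLaw_eq hN))
  refine ⟨L, hL, limit_le_annealed admissible_gaussian.zero hf.meas hf.bound hα hL', fun h => ?_,
    fun h => ?_⟩
  · by_contra hb
    obtain ⟨q, hq0, hlt⟩ := exists_gardnerSphere_lt hf hev hα (not_le.1 hb)
    linarith [hq q hq0]
  · refine tendsto_nhds_unique hL (tendsto_annealed_sphere hf.meas hf.bound hα fun r hr => ?_)
    refine cond_of_threshold hα.le h ?_ (hc r hr)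
    have h1 : r ^ 2 < 1 := (sq_lt_one_iff_abs_lt_one r).2 (abs_lt.2 hr)
    have := Real.log_nonpos (show 0 ≤ 1 - r ^ 2 by linarith) (by linarith [sq_nonneg r])
    simp only [rateSphere]
    linarith

end Vale.Agent.P157
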