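import Mathlib
import Vale.Agent.P157.Sharp
import Vale.Agent.P157.Families

/-!
Positive-definite profiles with bounded frequencies: closed form of the threshold.
-/

noncomputable section

open MeasureTheory ProbabilityTheory Filter
open scoped Topology ENNReal

namespace Vale.Agent.P157

/-! ### Scalar inequalities -/

lemma pow_le_factorial_even {u : ℝ} (h0 : 0 ≤ u) (h : u ≤ 2) (k : ℕ) :
    u ^ k ≤ ((2 * k).factorial : ℝ) := by
  induction k with
  | zero => simp
  | succ k ih =>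
    rw [show 2 * (k + 1) = (2 * k + 1) + 1 by ring, Nat.factorial_succ, Nat.factorial_succ,
      pow_succ']
    push_cast
    rw [← mul_assoc]
    refine mul_le_mul (h.trans ?_) ih (pow_nonneg h0 k) (by positivity)
    nlinarith [(Nat.cast_nonneg k : (0 : ℝ) ≤ k)]

lemma pow_le_factorial_odd {u : ℝ} (h0 : 0 ≤ u) (h : u ≤ 6) (k : ℕ) :
    u ^ k ≤ ((2 * k + 1).factorial : ℝ) := by
  induction k with
  | zero => simp
  | succ k ih =>
    rw [show 2 * (k + 1) + 1 = (2 * k + 1 + 1) + 1 by ring, Nat.factorial_succ (2 * k + 1 + 1),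
      Nat.factorial_succ (2 * k + 1), pow_succ']
    push_cast
    rw [← mul_assoc]
    refine mul_le_mul (h.trans ?_) ih (pow_nonneg h0 k) (by positivity)
    nlinarith [(Nat.cast_nonneg k : (0 : ℝ) ≤ k)]

lemma cosh_mul_le {τ r : ℝ} (hτ : τ ^ 2 ≤ 2) (hr : r ^ 2 < 1) :
    Real.cosh (τ * r) ≤ (1 - r ^ 2)⁻¹ := by
  rw [Real.cosh_eq_tsum, ← tsum_geometric_of_lt_one (sq_nonneg r) hr]
  refine Summable.tsum_le_tsum (fun k => ?_) (Real.hasSum_cosh _).summable
    (summable_geometric_of_lt_one (sq_nonneg r) hr)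
  rw [mul_pow, pow_mul τ, pow_mul r, mul_div_right_comm]
  refine mul_le_of_le_one_left (pow_nonneg (sq_nonneg r) k) ?_
  exact (div_le_one (by positivity)).2 (pow_le_factorial_even (sq_nonneg τ) hτ k)

lemma sinh_mul_le {τ r : ℝ} (hτ0 : 0 ≤ τ) (hτ : τ ^ 2 ≤ 6) (hr0 : 0 ≤ r) (hr : r ^ 2 < 1) :
    Real.sinh (τ * r) ≤ τ * r * (1 - r ^ 2)⁻¹ := by
  rw [Real.sinh_eq_tsum, ← tsum_geometric_of_lt_one (sq_nonneg r) hr, ← tsum_mul_left]
  refine Summable.tsum_le_tsum (fun k => ?_) (Real.hasSum_sinh _).summable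
    ((summable_geometric_of_lt_one (sq_nonneg r) hr).mul_left _)
  rw [pow_succ', mul_pow, pow_mul τ, pow_mul r, mul_div_assoc, mul_div_right_comm]
  refine mul_le_mul_of_nonneg_left ?_ (mul_nonneg hτ0 hr0)
  refine mul_le_of_le_one_left (pow_nonneg (sq_nonneg r) k) ?_
  exact (div_le_one (by positivity)).2 (pow_le_factorial_odd (sq_nonneg τ) hτ k)

lemma cosh_sub_one_le_rateIsing {τ : ℝ} (hτ : τ ^ 2 ≤ 2) {r : ℝ} (hr : r ∈ Set.Icc (-1 : ℝ) 1) :
    Real.cosh (τ * r) - 1 ≤ τ ^ 2 * rateIsing r := by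
  rw [← Real.cosh_abs, abs_mul, ← rateIsing_abs, ← sq_abs τ]
  rw [← sq_abs] at hτ
  obtain ⟨τ, hτ0, rfl⟩ : ∃ t, 0 ≤ t ∧ |τ| = t := ⟨_, abs_nonneg τ, rfl⟩
  set p := |τ|
  have hder : ∀ x ∈ Set.Ioo (0 : ℝ) 1,
      HasDerivAt (fun x => p ^ 2 * rateIsing x - (Real.cosh (p * x) - 1))
        (p * (p / 2 * (Real.log (1 + x) - Real.log (1 - x)) - Real.sinh (p * x))) x := by
    intro x hx
    have h := ((hasDerivAt_rateIsing ⟨by linarith [hx.1], hx.2⟩).const_mul (p ^ 2)).sub
      ((((hasDerivAt_id x).const_mul p).cosh).sub_const 1)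
    exact h.congr_deriv (by simp; ring)
  have hh : MonotoneOn (fun x => p / 2 * (Real.log (1 + x) - Real.log (1 - x)) - Real.sinh (p * x))
      (Set.Ico 0 1) := by
    refine monotoneOn_of_hasDerivWithinAt_nonneg (convex_Ico 0 1)
      (f' := fun x => p * (1 - x ^ 2)⁻¹ - p * Real.cosh (p * x)) ?_ ?_ ?_
    · intro x hx
      have h1 : 1 + x ≠ 0 := by linarith [hx.1]
      have h2 : 1 - x ≠ 0 := by linarith [hx.2]
      exact ContinuousAt.continuousWithinAt (by fun_prop (disch := assumption))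
    · intro x hx
      rw [interior_Ico] at hx
      have h1 : 1 + x ≠ 0 := by linarith [hx.1]
      have h2 : 1 - x ≠ 0 := by linarith [hx.2]
      refine HasDerivAt.hasDerivWithinAt ?_
      have h := (((((hasDerivAt_id x).const_add 1).log h1).sub
        (((hasDerivAt_id x).const_sub 1).log h2)).const_mul (p / 2)).sub
          (((hasDerivAt_id x).const_mul p).sinh)
      refine h.congr_deriv ?_
      simp only [id_eq, mul_one]
      rw [show 1 - x ^ 2 = (1 + x) * (1 - x) by ring]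
      field_simp
      ring
    · intro x hx
      rw [interior_Ico] at hx
      exact sub_nonneg.2 (mul_le_mul_of_nonneg_left (cosh_mul_le hτ (by nlinarith [hx.1, hx.2]))
        (abs_nonneg _))
  have hg : MonotoneOn (fun x => p ^ 2 * rateIsing x - (Real.cosh (p * x) - 1)) (Set.Icc 0 1) := by
    refine monotoneOn_of_hasDerivWithinAt_nonneg (convex_Icc 0 1)
      (f' := fun x => p * (p / 2 * (Real.log (1 + x) - Real.log (1 - x)) - Real.sinh (p * x))) ?_ ?_ ?_
    · exact ((continuous_rateIsing.const_mul _).sub (by fun_prop)).continuousOn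
    · intro x hx
      rw [interior_Icc] at hx
      exact (hder x hx).hasDerivWithinAt
    · intro x hx
      rw [interior_Icc] at hx
      refine mul_nonneg (abs_nonneg _) ?_
      have := hh ⟨le_rfl, one_pos⟩ ⟨hx.1.le, hx.2⟩ hx.1.le
      simpa using this
  have := hg (Set.left_mem_Icc.2 zero_le_one) ⟨abs_nonneg r, abs_le.2 hr⟩ (abs_nonneg r)
  simp [rateIsing_zero] at this
  linarith

lemma cosh_sub_one_le_rateSphere {τ : ℝ} (hτ : τ ^ 2 ≤ 6) {r : ℝ} (hr : r ∈ Set.Ioo (-1 : ℝ) 1) :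
    Real.cosh (τ * r) - 1 ≤ τ ^ 2 * rateSphere r := by
  rw [← Real.cosh_abs, abs_mul, ← rateSphere_abs, ← sq_abs τ]
  rw [← sq_abs] at hτ
  set p := |τ|
  have hp : 0 ≤ p := abs_nonneg τ
  have hg : MonotoneOn (fun x => p ^ 2 * rateSphere x - (Real.cosh (p * x) - 1)) (Set.Ico 0 1) := by
    refine monotoneOn_of_hasDerivWithinAt_nonneg (convex_Ico 0 1)
      (f' := fun x => p * (p * x * (1 - x ^ 2)⁻¹ - Real.sinh (p * x))) ?_ ?_ ?_
    · intro x hx
      have h1 : 1 - x ^ 2 ≠ 0 := by nlinarith [hx.1, hx.2]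
      unfold rateSphere
      exact ContinuousAt.continuousWithinAt (by fun_prop (disch := assumption))
    · intro x hx
      rw [interior_Ico] at hx
      have h1 : 1 - x ^ 2 ≠ 0 := by nlinarith [hx.1, hx.2]
      have h := (((((hasDerivAt_pow 2 x).const_sub 1).log h1).neg.div_const 2).const_mul (p ^ 2)).sub
        ((((hasDerivAt_id x).const_mul p).cosh).sub_const 1)
      refine (h.congr_deriv ?_).hasDerivWithinAt
      simp only [id_eq, mul_one, Nat.cast_ofNat]
      field_simp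
      ring
    · intro x hx
      rw [interior_Ico] at hx
      exact mul_nonneg hp (sub_nonneg.2
        (sinh_mul_le hp hτ hx.1.le (by nlinarith [hx.1, hx.2])))
  have := hg ⟨le_rfl, one_pos⟩ ⟨abs_nonneg r, abs_lt.2 hr⟩ (abs_nonneg r)
  simp [rateSphere_zero] at this
  linarith

/-! ### Gaussian integrals of cosines -/

lemma integral_cos_gam1 (t : ℝ) : ∫ z, Real.cos (t * z) ∂gam1 = Real.exp (-t ^ 2 / 2) := by
  have hi : Integrable (fun z : ℝ => Complex.exp (((t * z : ℝ) : ℂ) * Complex.I)) gam1 :=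
    Integrable.of_bound (by fun_prop : Continuous fun z : ℝ =>
      Complex.exp (((t * z : ℝ) : ℂ) * Complex.I)).aestronglyMeasurable 1
      (Eventually.of_forall fun z => (Complex.norm_exp_ofReal_mul_I _).le)
  have h : ∫ z, Complex.exp (((t * z : ℝ) : ℂ) * Complex.I) ∂gam1 =
      ((Real.exp (-t ^ 2 / 2) : ℝ) : ℂ) := by
    have h := charFun_gaussianReal (μ := 0) (v := 1) t
    rw [charFun_apply_real] at h
    push_cast
    convert h using 2
    simp; ring
  have h2 := congrArg Complex.re h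
  rw [Complex.ofReal_re, ← Complex.reCLM_apply, ← ContinuousLinearMap.integral_comp_comm _ hi] at h2
  simpa [← Complex.ofReal_mul, Complex.exp_ofReal_mul_I_re] using h2

lemma integral_herm_cos (t : ℝ) :
    ∫ z, (z ^ 2 - 1) * Real.cos (t * z) ∂gam1 = -(t ^ 2 * Real.exp (-t ^ 2 / 2)) := by
  have hg : ∀ k ≤ 9, Integrable (fun z : ℝ => z ^ k) gam1 := fun k hk =>
    integrable_pow9.mono' (by fun_prop) (Eventually.of_forall fun z => by
      rw [Real.norm_eq_abs, abs_pow]
      exact (pow_le_pow_left₀ (abs_nonneg _) (le_add_of_nonneg_left zero_le_one) k).trans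
        (pow_le_pow_right₀ (le_add_of_nonneg_right (abs_nonneg _)) hk))
  have hb : ∀ k ≤ 9, ∀ φ : ℝ → ℝ, Continuous φ → (∀ z, |φ z| ≤ 1) →
      Integrable (fun z => φ z * z ^ k) gam1 := fun k hk φ hc hφ =>
    (hg k hk).bdd_mul hc.aestronglyMeasurable (c := 1) (Eventually.of_forall hφ)
  have hc : Continuous fun z : ℝ => Real.cos (t * z) := by fun_prop
  have hs : Continuous fun z : ℝ => Real.sin (t * z) := by fun_prop
  have hc1 : ∀ z : ℝ, |Real.cos (t * z)| ≤ 1 := fun z => Real.abs_cos_le_one _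
  have hs1 : ∀ z : ℝ, |Real.sin (t * z)| ≤ 1 := fun z => Real.abs_sin_le_one _
  have hpdf : ∀ φ : ℝ → ℝ, Integrable φ gam1 →
      Integrable fun z => φ z * gaussianPDFReal 0 1 z := by
    intro φ hφ
    rw [gam1, gaussianReal_of_var_ne_zero _ one_ne_zero,
      integrable_withDensity_iff (measurable_gaussianPDF _ _)
        (Eventually.of_forall fun _ => gaussianPDF_lt_top)] at hφ
    exact hφ.congr (Eventually.of_forall fun z => by simp [toReal_gaussianPDF])
  have i0 := (hb 0 (by norm_num) _ hc hc1).congr (Eventually.of_forall fun z => by simp : _ =ᵐ[gam1] fun z => Real.cos (t * z))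
  have i1 := hb 1 (by norm_num) _ hs hs1
  have i1c := hb 1 (by norm_num) _ hc hc1
  have i2 := hb 2 (by norm_num) _ hc hc1
  have e1 : ∫ z, z * Real.sin (t * z) ∂gam1 = t * Real.exp (-t ^ 2 / 2) := by
    rw [integral_id_mul_gaussian (f := fun z => Real.sin (t * z))
      (f' := fun z => t * Real.cos (t * z)) (A := 1) (A' := |t|)
      (fun z => by
        have := (Real.hasDerivAt_sin (t * z)).comp z ((hasDerivAt_id z).const_mul t)
        exact this.congr_deriv (by simp; ring))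
      hs1 (fun z => by rw [abs_mul]; exact mul_le_of_le_one_right (abs_nonneg t) (hc1 z)),
      integral_const_mul, integral_cos_gam1]
  have hd : Integrable (fun z => Real.cos (t * z) - t * (z * Real.sin (t * z))) gam1 :=
    i0.sub ((i1.congr (Eventually.of_forall fun z => by
      simp [mul_comm] : _ =ᵐ[gam1] fun z => z * Real.sin (t * z))).const_mul t)
  have hibp := integral_mul_deriv_eq_deriv_mul_of_integrable
    (u := fun z : ℝ => z * Real.cos (t * z)) (v := fun z => -gaussianPDFReal 0 1 z)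
    (u' := fun z => Real.cos (t * z) - t * (z * Real.sin (t * z)))
    (v' := fun z => z * gaussianPDFReal 0 1 z)
    (fun z _ => by
      have := (hasDerivAt_id z).mul ((Real.hasDerivAt_cos (t * z)).comp z ((hasDerivAt_id z).const_mul t))
      exact this.congr_deriv (by simp; ring))
    (fun z _ => hasDerivAt_gaussianPDFReal z)
    ((hpdf _ i2).congr (Eventually.of_forall fun z => by simp only [Pi.mul_apply]; ring))
    ((hpdf _ hd).neg.congr (Eventually.of_forall fun z => by
      simp only [Pi.mul_apply, Pi.neg_apply]; ring))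
    ((hpdf _ i1c).neg.congr (Eventually.of_forall fun z => by
      simp only [Pi.mul_apply, Pi.neg_apply]; ring))
  have e2 : ∫ z, Real.cos (t * z) * z ^ 2 ∂gam1 =
      ∫ z, (Real.cos (t * z) - t * (z * Real.sin (t * z))) ∂gam1 := by
    rw [integral_gam1, integral_gam1]
    calc ∫ z, gaussianPDFReal 0 1 z * (Real.cos (t * z) * z ^ 2)
        = ∫ z, z * Real.cos (t * z) * (z * gaussianPDFReal 0 1 z) := by congr 1; ext z; ring
      _ = _ := hibp
      _ = _ := by rw [← integral_neg]; congr 1; ext z; ring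
  have i1' : Integrable (fun z => z * Real.sin (t * z)) gam1 :=
    i1.congr (Eventually.of_forall fun z => by simp [mul_comm])
  have e : ∀ z : ℝ, (z ^ 2 - 1) * Real.cos (t * z) = Real.cos (t * z) * z ^ 2 - Real.cos (t * z) :=
    fun z => by ring
  simp only [e]
  rw [integral_sub i2 i0, e2, integral_sub i0 (i1'.const_mul t), integral_const_mul, e1,
    integral_cos_gam1]
  ring

lemma corr2_cos (t s : ℝ) {r : ℝ} (hr : r ∈ Set.Icc (-1 : ℝ) 1) :
    ∫ g : Fin 2 → ℝ, Real.cos (t * g 0) * Real.cos (s * (r * g 0 + Real.sqrt (1 - r ^ 2) * g 1))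
      ∂gam (Fin 2) = Real.exp (-t ^ 2 / 2) * Real.exp (-s ^ 2 / 2) * Real.cosh (t * s * r) := by
  set w := Real.sqrt (1 - r ^ 2)
  have hw : w ^ 2 = 1 - r ^ 2 := Real.sq_sqrt (by nlinarith [hr.1, hr.2])
  have hcos : ∀ u : Fin 2 → ℝ,
      ∫ g, Real.cos (dot g u) ∂gam (Fin 2) = Real.exp (-(∑ i, u i ^ 2) / 2) := by
    intro u
    have hi : Integrable (fun g : Fin 2 → ℝ => Complex.exp (((dot g u : ℝ) : ℂ) * Complex.I))
        (gam (Fin 2)) :=
      Integrable.of_bound (by unfold dot; fun_prop : Continuous fun g : Fin 2 → ℝ =>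
        Complex.exp (((dot g u : ℝ) : ℂ) * Complex.I)).aestronglyMeasurable 1
        (Eventually.of_forall fun z => (Complex.norm_exp_ofReal_mul_I _).le)
    have h := congrArg Complex.re (integral_cexp_dot u)
    rw [Complex.ofReal_re, ← Complex.reCLM_apply, ← ContinuousLinearMap.integral_comp_comm _ hi] at h
    simpa [Complex.exp_ofReal_mul_I_re] using h
  have e : ∀ g : Fin 2 → ℝ, Real.cos (t * g 0) * Real.cos (s * (r * g 0 + w * g 1)) =
      (Real.cos (dot g ![t + s * r, s * w]) + Real.cos (dot g ![t - s * r, -(s * w)])) / 2 := by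
    intro g
    simp only [dot, Fin.sum_univ_two, Matrix.cons_val_zero, Matrix.cons_val_one,
      Matrix.cons_val_fin_one]
    rw [show g 0 * (t + s * r) + g 1 * (s * w) = t * g 0 + s * (r * g 0 + w * g 1) by ring,
      show g 0 * (t - s * r) + g 1 * -(s * w) = t * g 0 - s * (r * g 0 + w * g 1) by ring,
      Real.cos_add, Real.cos_sub]
    ring
  have hi : ∀ u : Fin 2 → ℝ, Integrable (fun g => Real.cos (dot g u)) (gam (Fin 2)) := fun u =>
    integrable_of_abs_le (K := 1) (by unfold dot; fun_prop) fun g => Real.abs_cos_le_one _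
  simp only [e]
  rw [integral_div, integral_add (hi _) (hi _), hcos, hcos, Real.cosh_eq]
  simp only [Fin.sum_univ_two, Matrix.cons_val_zero, Matrix.cons_val_one, Matrix.cons_val_fin_one,
    neg_sq, mul_pow, hw]
  rw [show -((t + s * r) ^ 2 + s ^ 2 * (1 - r ^ 2)) / 2 = -t ^ 2 / 2 + -s ^ 2 / 2 + -(t * s * r) by
      ring,
    show -((t - s * r) ^ 2 + s ^ 2 * (1 - r ^ 2)) / 2 = -t ^ 2 / 2 + -s ^ 2 / 2 + t * s * r by ring,
    Real.exp_add, Real.exp_add, Real.exp_add, Real.exp_add]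
  ring

/-! ### The family -/

variable {ν : Measure ℝ} [IsFiniteMeasure ν]

lemma pot_zeroEmb (c z : ℝ) :
    pot (ν.map zeroEmb) c z = c + Real.log (1 - ∫ t, Real.cos (t * z) ∂ν) := by
  rw [pot, cosT_map_zeroEmb]

lemma exp_pot_zeroEmb (hν : ν.real Set.univ < 1) (c z : ℝ) :
    Real.exp (pot (ν.map zeroEmb) c z) = Real.exp c * (1 - ∫ t, Real.cos (t * z) ∂ν) := by
  rw [exp_pot (by rwa [mass_map_zeroEmb]), cosT_map_zeroEmb]

lemma integrable_gauss_weight {φ : ℝ → ℝ} (hφ : Measurable φ) {C : ℝ}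
    (h : ∀ᵐ t ∂ν, |φ t| ≤ C) :
    Integrable (fun t => φ t * Real.exp (-t ^ 2 / 2)) ν := by
  refine Integrable.of_bound (hφ.mul (by fun_prop)).aestronglyMeasurable C ?_
  filter_upwards [h] with t ht
  rw [Real.norm_eq_abs, abs_mul, Real.abs_exp]
  exact (mul_le_of_le_one_right (abs_nonneg _)
    (Real.exp_le_one_iff.2 (by nlinarith [sq_nonneg t]))).trans ht

lemma gauss_mass_lt (hν : ν.real Set.univ < 1) : ∫ t, Real.exp (-t ^ 2 / 2) ∂ν < 1 := by
  refine lt_of_le_of_lt ?_ hν
  have hi : Integrable (fun t : ℝ => Real.exp (-t ^ 2 / 2)) ν := by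
    simpa using integrable_gauss_weight (ν := ν) (φ := fun _ => 1) measurable_const (C := 1)
      (Eventually.of_forall fun _ => by simp)
  refine (integral_mono hi (integrable_const (1 : ℝ)) fun t =>
    Real.exp_le_one_iff.2 (by nlinarith [sq_nonneg t])).trans_eq ?_
  simp

lemma integral_exp_pot_zeroEmb (hν : ν.real Set.univ < 1) (c : ℝ) :
    ∫ z, Real.exp (pot (ν.map zeroEmb) c z) ∂gam1 =
      Real.exp c * (1 - ∫ t, Real.exp (-t ^ 2 / 2) ∂ν) := by
  simp only [exp_pot_zeroEmb hν]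
  have hi : Integrable (fun p : ℝ × ℝ => Real.cos (p.2 * p.1)) (gam1.prod ν) :=
    integrable_of_abs_le (K := 1) (by fun_prop) fun p => Real.abs_cos_le_one _
  rw [integral_const_mul, integral_sub (integrable_const _) hi.integral_prod_left,
    integral_integral_swap hi]
  simp only [integral_const, probReal_univ, smul_eq_mul, one_mul, integral_cos_gam1]

lemma curv_pot_zeroEmb (hν : ν.real Set.univ < 1) (c : ℝ) :
    curv (pot (ν.map zeroEmb) c) =
      (∫ t, t ^ 2 * Real.exp (-t ^ 2 / 2) ∂ν) / (1 - ∫ t, Real.exp (-t ^ 2 / 2) ∂ν) := by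
  have hnum : ∫ z, (z ^ 2 - 1) * Real.exp (pot (ν.map zeroEmb) c z) ∂gam1 =
      Real.exp c * ∫ t, t ^ 2 * Real.exp (-t ^ 2 / 2) ∂ν := by
    simp only [exp_pot_zeroEmb hν]
    have hh : Integrable (fun z : ℝ => z ^ 2 - 1) gam1 :=
      (IsGaussian.memLp_two_id.integrable_sq).sub (integrable_const 1)
    have hi : Integrable (fun p : ℝ × ℝ => (p.1 ^ 2 - 1) * Real.cos (p.2 * p.1)) (gam1.prod ν) :=
      (hh.comp_fst ν).mul_bdd (by fun_prop) (c := 1)
        (Eventually.of_forall fun p => Real.abs_cos_le_one _)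
    have e : ∀ z : ℝ, (z ^ 2 - 1) * (Real.exp c * (1 - ∫ t, Real.cos (t * z) ∂ν)) =
        Real.exp c * (z ^ 2 - 1) - Real.exp c * ∫ t, (z ^ 2 - 1) * Real.cos (t * z) ∂ν := fun z => by
      rw [integral_const_mul]; ring
    simp only [e]
    rw [integral_sub (hh.const_mul _) (hi.integral_prod_left.const_mul _), integral_const_mul,
      integral_const_mul, integral_integral_swap hi]
    simp only [integral_herm_cos, integral_neg]
    have hsq : Integrable (fun z : ℝ => z ^ 2) gam1 := IsGaussian.memLp_two_id.integrable_sq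
    rw [integral_sub hsq (integrable_const _), integral_sq_gam1]
    simp
  rw [curv, hnum, integral_exp_pot_zeroEmb hν, mul_div_mul_left _ _ (Real.exp_pos c).ne']

lemma log_corrRatio_pot_le (hν : ν.real Set.univ < 1) (c : ℝ) {C I r : ℝ}
    (hr : r ∈ Set.Icc (-1 : ℝ) 1) (hC : ∀ᵐ t ∂ν, t ^ 4 ≤ C) (hC6 : C ≤ 6)
    (hI : ∀ τ : ℝ, τ ^ 2 ≤ C → Real.cosh (τ * r) - 1 ≤ τ ^ 2 * I) :
    Real.log (corrRatio (pot (ν.map zeroEmb) c) r) ≤ curv (pot (ν.map zeroEmb) c) ^ 2 * I := by
  set a := ∫ t, Real.exp (-t ^ 2 / 2) ∂ν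
  set b := ∫ t, t ^ 2 * Real.exp (-t ^ 2 / 2) ∂ν
  set w := Real.sqrt (1 - r ^ 2)
  have hw : w ^ 2 = 1 - r ^ 2 := Real.sq_sqrt (by nlinarith [hr.1, hr.2])
  have ha : a < 1 := gauss_mass_lt hν
  set V : ℝ → ℝ := fun z => ∫ t, Real.cos (t * z) ∂ν
  have hVm : Measurable V :=
    ((by fun_prop : Measurable fun p : ℝ × ℝ => Real.cos (p.2 * p.1)).stronglyMeasurable
      |>.integral_prod_right' (ν := ν)).measurable
  have hVb : ∀ z, |V z| ≤ 1 := fun z => by
    have h := norm_integral_le_of_norm_le_const (μ := ν) (f := fun t => Real.cos (t * z)) (C := 1)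
      (Eventually.of_forall fun p => Real.abs_cos_le_one _)
    rw [Real.norm_eq_abs, one_mul] at h
    exact h.trans hν.le
  -- the pair correlation
  have hcorr : corr2 (fun z => Real.exp (pot (ν.map zeroEmb) c z)) r =
      Real.exp c ^ 2 * (1 - 2 * a + ∫ t, ∫ s,
        Real.exp (-t ^ 2 / 2) * Real.exp (-s ^ 2 / 2) * Real.cosh (t * s * r) ∂ν ∂ν) := by
    set Z : (Fin 2 → ℝ) → ℝ := fun g => r * g 0 + w * g 1
    have hZm : Measurable Z := by fun_prop
    have hZ : (gam (Fin 2)).map Z = gam1 := by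
      have h := map_dot_unit (u := ![r, w]) (by
        simp [Fin.sum_univ_two, hw])
      convert h using 2
      ext g
      simp [Z, dot, Fin.sum_univ_two, mul_comm]
    have h0 : (gam (Fin 2)).map (fun g => g 0) = gam1 :=
      (measurePreserving_eval (fun _ : Fin 2 => gaussianReal 0 1) 0).map_eq
    have hV0 : ∀ X : (Fin 2 → ℝ) → ℝ, Measurable X → (gam (Fin 2)).map X = gam1 →
        ∫ g, V (X g) ∂gam (Fin 2) = a := fun X hX hmap => by
      rw [← integral_map hX.aemeasurable hVm.aestronglyMeasurable, hmap]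
      have hi : Integrable (fun p : ℝ × ℝ => Real.cos (p.2 * p.1)) (gam1.prod ν) :=
        integrable_of_abs_le (K := 1) (by fun_prop) fun p => Real.abs_cos_le_one _
      simp only [V]
      rw [integral_integral_swap hi]
      simp only [integral_cos_gam1]
      rfl
    have hVV : ∫ g, V (g 0) * V (Z g) ∂gam (Fin 2) = ∫ t, ∫ s,
        Real.exp (-t ^ 2 / 2) * Real.exp (-s ^ 2 / 2) * Real.cosh (t * s * r) ∂ν ∂ν := by
      have e : ∀ g : Fin 2 → ℝ, V (g 0) * V (Z g) =
          ∫ p : ℝ × ℝ, Real.cos (p.1 * g 0) * Real.cos (p.2 * Z g) ∂ν.prod ν :=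
        fun g => (integral_prod_mul _ _).symm
      simp only [e]
      rw [integral_integral_swap (integrable_of_abs_le (K := 1) (by fun_prop) fun q => by
        rw [Function.uncurry_apply_pair, abs_mul]
        exact mul_le_one₀ (Real.abs_cos_le_one _) (abs_nonneg _) (Real.abs_cos_le_one _))]
      simp only [Z, w, corr2_cos _ _ hr]
      rw [integral_prod]
      refine integrable_of_abs_le (K := Real.cosh (2 * 1)) (by fun_prop) fun p => ?_
      have h := corr2_cos p.1 p.2 hr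
      rw [← h]
      refine (abs_integral_le_integral_abs.trans ((integral_mono
        (integrable_of_abs_le (K := 1) (by fun_prop) fun q => ?_) (integrable_const (1 : ℝ))
          fun q => ?_).trans_eq (by simp))).trans (Real.one_le_cosh _)
      · rw [abs_abs, abs_mul]
        exact mul_le_one₀ (Real.abs_cos_le_one _) (abs_nonneg _) (Real.abs_cos_le_one _)
      · rw [abs_mul]
        exact mul_le_one₀ (Real.abs_cos_le_one _) (abs_nonneg _) (Real.abs_cos_le_one _)
    rw [← hVV]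
    simp only [corr2, exp_pot_zeroEmb hν]
    change ∫ g, Real.exp c * (1 - V (g 0)) * (Real.exp c * (1 - V (Z g))) ∂gam (Fin 2) = _
    have e : ∀ g, Real.exp c * (1 - V (g 0)) * (Real.exp c * (1 - V (Z g))) =
        Real.exp c ^ 2 * (1 - V (g 0) - V (Z g) + V (g 0) * V (Z g)) := fun g => by ring
    simp only [e]
    have i1 : ∀ X : (Fin 2 → ℝ) → ℝ, Measurable X → Integrable (fun g => V (X g)) (gam (Fin 2)) :=
      fun X hX => integrable_of_abs_le (hVm.comp hX) fun g => hVb _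
    have i2 : Integrable (fun g => V (g 0) * V (Z g)) (gam (Fin 2)) :=
      integrable_of_abs_le (K := 1) ((hVm.comp (measurable_pi_apply 0)).mul (hVm.comp hZm))
        fun g => by rw [abs_mul]; exact mul_le_one₀ (hVb _) (abs_nonneg _) (hVb _)
    rw [integral_const_mul, integral_add (((integrable_const (1 : ℝ)).sub'
        (i1 _ (measurable_pi_apply 0))).sub' (i1 _ hZm)) i2,
      integral_sub ((integrable_const (1 : ℝ)).sub' (i1 _ (measurable_pi_apply 0))) (i1 _ hZm),
      integral_sub (integrable_const (1 : ℝ)) (i1 _ (measurable_pi_apply 0)),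
      hV0 _ (measurable_pi_apply 0) h0, hV0 _ hZm hZ]
    simp
    ring
  -- comparison with the rate
  have hts : ∀ᵐ t ∂ν, ∀ᵐ s ∂ν, (t * s) ^ 2 ≤ C := by
    filter_upwards [hC] with t ht
    filter_upwards [hC] with s hs
    nlinarith [sq_nonneg (t ^ 2 - s ^ 2)]
  have hb2 : Integrable (fun t => t ^ 2 * Real.exp (-t ^ 2 / 2)) ν :=
    integrable_gauss_weight (by fun_prop) (C := 7) (by
      filter_upwards [hC] with t ht
      rw [abs_of_nonneg (sq_nonneg t)]
      nlinarith [sq_nonneg (t ^ 2 - 1)])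
  have ha2 : Integrable (fun t : ℝ => Real.exp (-t ^ 2 / 2)) ν := by
    simpa using integrable_gauss_weight (ν := ν) (φ := fun _ => 1) measurable_const (C := 1)
      (Eventually.of_forall fun _ => by simp)
  have hin : ∀ᵐ t ∂ν, ∫ s, Real.exp (-t ^ 2 / 2) * Real.exp (-s ^ 2 / 2) * Real.cosh (t * s * r) ∂ν ≤
      Real.exp (-t ^ 2 / 2) * a + t ^ 2 * Real.exp (-t ^ 2 / 2) * (b * I) := by
    filter_upwards [hts] with t ht
    refine (integral_mono_of_nonneg (Eventually.of_forall fun s => by positivity)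
      ((ha2.const_mul (Real.exp (-t ^ 2 / 2))).add
        (hb2.const_mul (t ^ 2 * Real.exp (-t ^ 2 / 2) * I))) ?_).trans_eq ?_
    · filter_upwards [ht] with s hs
      have h := hI _ hs
      have h' := mul_le_mul_of_nonneg_left h
        (show 0 ≤ Real.exp (-t ^ 2 / 2) * Real.exp (-s ^ 2 / 2) by positivity)
      simp only [Pi.add_apply]
      rw [mul_pow] at h'
      linarith
    · simp only [Pi.add_apply]
      rw [integral_add (ha2.const_mul _) (hb2.const_mul _), integral_const_mul, integral_const_mul]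
      ring
  have hD : (∫ t, ∫ s, Real.exp (-t ^ 2 / 2) * Real.exp (-s ^ 2 / 2) * Real.cosh (t * s * r) ∂ν ∂ν) ≤
      a * a + b * (b * I) := by
    refine (integral_mono_of_nonneg (Eventually.of_forall fun t => integral_nonneg fun s => by
      positivity) ((ha2.mul_const a).add (hb2.mul_const (b * I))) hin).trans_eq ?_
    simp only [Pi.add_apply]
    rw [integral_add (ha2.mul_const _) (hb2.mul_const _), integral_mul_const, integral_mul_const]
  have h1a : 0 < 1 - a := by linarith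
  have hpos := (corrRatio_mem (usable_pot (ν := ν.map zeroEmb) (c := c)
    (by rwa [mass_map_zeroEmb])).meas (usable_pot (by rwa [mass_map_zeroEmb])).bound r).1
  refine (Real.log_le_sub_one_of_pos hpos).trans ?_
  rw [curv_pot_zeroEmb hν, corrRatio, hcorr, integral_exp_pot_zeroEmb hν, div_pow]
  change Real.exp c ^ 2 * _ / (Real.exp c * (1 - a)) ^ 2 - 1 ≤ b ^ 2 / (1 - a) ^ 2 * I
  rw [mul_pow, mul_div_mul_left _ _ (pow_ne_zero 2 (Real.exp_pos c).ne'), div_sub_one (pow_ne_zero 2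
    h1a.ne'), div_mul_eq_mul_div]
  exact div_le_div_of_nonneg_right (by linarith) (sq_nonneg _)

lemma threshold_iff (hν : ν.real Set.univ < 1) (c α : ℝ) :
    (α * Real.log (∫ z, Real.exp (pot (ν.map zeroEmb) c z) ∂gam1) =
      α * (c + Real.log (1 - ∫ t, Real.exp (-t ^ 2 / 2) ∂ν))) ∧
    (α * curv (pot (ν.map zeroEmb) c) ^ 2 ≤ 1 ↔
      α * (∫ t, t ^ 2 * Real.exp (-t ^ 2 / 2) ∂ν) ^ 2 ≤
        (1 - ∫ t, Real.exp (-t ^ 2 / 2) ∂ν) ^ 2) := by
  have h1 := sub_pos.2 (gauss_mass_lt hν)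
  refine ⟨?_, ?_⟩
  · rw [integral_exp_pot_zeroEmb hν, Real.log_mul (Real.exp_pos c).ne' h1.ne', Real.log_exp]
  · rw [curv_pot_zeroEmb hν, div_pow, ← mul_div_assoc, div_le_one (pow_pos h1 2)]

/-- Closed-form threshold on the cube. -/
theorem sharp_cosFamily_ising (hν : ν.real Set.univ < 1) (hs : ∀ᵐ t ∂ν, t ^ 4 ≤ 2) (c : ℝ) {α : ℝ}
    (hα : 0 < α) :
    ∃ L, Tendsto (meanPressure isingLaw α fun z => c + Real.log (1 - ∫ t, Real.cos (t * z) ∂ν))
        atTop (𝓝 L) ∧
      L ≤ α * (c + Real.log (1 - ∫ t, Real.exp (-t ^ 2 / 2) ∂ν)) ∧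
      (L = α * (c + Real.log (1 - ∫ t, Real.exp (-t ^ 2 / 2) ∂ν)) ↔
        α * (∫ t, t ^ 2 * Real.exp (-t ^ 2 / 2) ∂ν) ^ 2 ≤
          (1 - ∫ t, Real.exp (-t ^ 2 / 2) ∂ν) ^ 2) := by
  have hν' : (ν.map zeroEmb).real Set.univ < 1 := by rwa [mass_map_zeroEmb]
  have hev : ∀ z, pot (ν.map zeroEmb) c (-z) = pot (ν.map zeroEmb) c z := fun z => by
    simp only [pot_zeroEmb, mul_neg, Real.cos_neg]
  obtain ⟨e1, e2⟩ := threshold_iff hν c α
  have h := sharp_ising (usable_pot (ν := ν.map zeroEmb) (c := c) hν')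
    (blockConcave_of_zeroPhase hν' map_zeroEmb_compl c) hev
    (fun r hr => log_corrRatio_pot_le hν c hr hs (by norm_num) fun τ hτ =>
      cosh_sub_one_le_rateIsing hτ hr) hα
  rw [e1, e2, funext (pot_zeroEmb c)] at h
  exact h

/-- Closed-form threshold on the sphere. -/
theorem sharp_cosFamily_sphere (hν : ν.real Set.univ < 1) (hs : ∀ᵐ t ∂ν, t ^ 4 ≤ 6) (c : ℝ) {α : ℝ}
    (hα : 0 < α) :
    ∃ L, Tendsto (meanPressure sphereLaw α fun z => c + Real.log (1 - ∫ t, Real.cos (t * z) ∂ν))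
        atTop (𝓝 L) ∧
      L ≤ α * (c + Real.log (1 - ∫ t, Real.exp (-t ^ 2 / 2) ∂ν)) ∧
      (L = α * (c + Real.log (1 - ∫ t, Real.exp (-t ^ 2 / 2) ∂ν)) ↔
        α * (∫ t, t ^ 2 * Real.exp (-t ^ 2 / 2) ∂ν) ^ 2 ≤
          (1 - ∫ t, Real.exp (-t ^ 2 / 2) ∂ν) ^ 2) := by
  have hν' : (ν.map zeroEmb).real Set.univ < 1 := by rwa [mass_map_zeroEmb]
  have hev : ∀ z, pot (ν.map zeroEmb) c (-z) = pot (ν.map zeroEmb) c z := fun z => by
    simp only [pot_zeroEmb, mul_neg, Real.cos_neg]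
  obtain ⟨e1, e2⟩ := threshold_iff hν c α
  have h := sharp_sphere (usable_pot (ν := ν.map zeroEmb) (c := c) hν')
    (blockConcave_of_zeroPhase hν' map_zeroEmb_compl c) hev
    (fun r hr => log_corrRatio_pot_le hν c (Set.Ioo_subset_Icc_self hr) hs le_rfl fun τ hτ =>
      cosh_sub_one_le_rateSphere hτ hr) hα
  rw [e1, e2, funext (pot_zeroEmb c)] at h
  exact h

end Vale.Agent.P157
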