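import Mathlib
import Vale.Agent.P157.AnnealedGap
import Vale.Agent.P157.Annealed
import Vale.Agent.P157.CosFamily

/-!
Quadratic second moment for weights with vanishing Gaussian mean; annealed value at small density.
-/

noncomputable section

open MeasureTheory ProbabilityTheory Filter
open scoped Topology

namespace Vale.Agent.P157

variable {f : ℝ → ℝ} {K : ℝ}

theorem exists_corr_quadratic (hf : Measurable f) (hb : ∀ z, |f z| ≤ K)
    (hμ : ∫ z, z * Real.exp (f z) ∂gam1 = 0) :
    ∃ C, 0 ≤ C ∧ ∀ r ∈ Set.Icc (-1 : ℝ) 1, corrRatio f r - 1 ≤ C * r ^ 2 := by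
  have hK : 0 ≤ K := (abs_nonneg _).trans (hb 0)
  set w : ℝ → ℝ := fun z => Real.exp (f z)
  set W := Real.exp K
  have hwm : Measurable w := hf.exp
  have hwb : ∀ z, |w z| ≤ W := fun z => by
    rw [Real.abs_exp]; exact Real.exp_le_exp.2 ((le_abs_self _).trans (hb z))
  set a := ∫ z, w z ∂gam1
  obtain ⟨ha1, ha2⟩ := integral_exp_mem (π := gam1) hf hb
  have ha : 0 < a := (Real.exp_pos _).trans_le ha1
  have hI : 0 ≤ ∫ z, env z ∂gam1 := integral_nonneg env_nonneg
  have hS := shiftC_nonneg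
  refine ⟨20 * W * W * shiftC * (∫ z, env z ∂gam1) / a ^ 2 + 4 * Real.exp (4 * K), by positivity,
    fun r hr => ?_⟩
  rcases le_or_gt |r| (1 / 2) with hsmall | hlarge
  swap
  · obtain ⟨hp, hl⟩ := corrRatio_mem hf hb r
    have h1 := Real.exp_le_exp.2 (abs_le.1 hl).2
    rw [Real.exp_log hp] at h1
    have hr2 : 1 / 4 ≤ r ^ 2 := by rw [← sq_abs]; nlinarith
    have h2 := mul_le_mul_of_nonneg_left hr2 (show 0 ≤ 4 * Real.exp (4 * K) by positivity)
    have h3 : 0 ≤ 20 * W * W * shiftC * (∫ z, env z ∂gam1) / a ^ 2 * r ^ 2 := by positivity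
    linarith
  obtain ⟨s, hs⟩ : ∃ s, s = Real.sqrt (1 - r ^ 2) := ⟨_, rfl⟩
  have hr2 : r ^ 2 ≤ 1 / 4 := by rw [← sq_abs]; nlinarith [abs_nonneg r]
  have hs2 : s ^ 2 = 1 - r ^ 2 := by rw [hs, Real.sq_sqrt]; linarith
  have hsnn : 0 ≤ s := hs ▸ Real.sqrt_nonneg _
  have hshalf : 1 / 2 ≤ s := by nlinarith
  have hs0 : s ≠ 0 := by linarith
  have hsm : Measurable fun x => sm0 w s (r * x) :=
    ((hwm.comp (by fun_prop : Measurable fun p : ℝ × ℝ => r * p.1 + s * p.2)).stronglyMeasurable
      |>.integral_prod_right' (ν := gam1)).measurable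
  have hpairi : ∀ v : ℝ → ℝ, Measurable v → (∀ z, |v z| ≤ W) →
      Integrable (fun p : ℝ × ℝ => v p.1 * w (r * p.1 + s * p.2)) (gam1.prod gam1) := fun v hv hvb =>
    integrable_of_abs_le (K := W * W) ((hv.comp measurable_fst).mul (hwm.comp (by fun_prop)))
      fun p => by rw [abs_mul]; exact mul_le_mul (hvb _) (hwb _) (abs_nonneg _) (Real.exp_pos _).le
  have hcorr : corr2 w r = ∫ x, w x * sm0 w s (r * x) ∂gam1 := by
    have e1 := measurePreserving_finTwoArrow (gaussianReal 0 1)
    simp only [sm0, ← integral_const_mul]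
    rw [← integral_prod (f := fun p : ℝ × ℝ => w p.1 * w (r * p.1 + s * p.2)) (hpairi w hwm hwb),
      ← e1.integral_comp' (g := fun p : ℝ × ℝ => w p.1 * w (r * p.1 + s * p.2))]
    simp [corr2, hs, MeasurableEquiv.finTwoArrow, MeasurableEquiv.piFinTwo]
  have hmean : a = ∫ x, sm0 w s (r * x) ∂gam1 := by
    have hi : Integrable (fun p : ℝ × ℝ => w (r * p.1 + s * p.2)) (gam1.prod gam1) :=
      integrable_of_abs_le (hwm.comp (by fun_prop)) fun p => hwb _
    simp only [sm0]
    rw [← integral_prod (f := fun p : ℝ × ℝ => w (r * p.1 + s * p.2)) hi, integral_combine hwm,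
      show r ^ 2 + s ^ 2 = 1 by linarith]
    simp [a]
  have isw : Integrable (fun x => sm0 w s (r * x)) gam1 :=
    integrable_of_abs_le hsm fun x => abs_sm0_le hwb _ _
  have iw : Integrable w gam1 := integrable_of_abs_le hwm hwb
  have iwsw : Integrable (fun x => w x * sm0 w s (r * x)) gam1 :=
    integrable_of_abs_le (K := W * W) (hwm.mul hsm) fun x => by
      rw [abs_mul]; exact mul_le_mul (hwb _) (abs_sm0_le hwb _ _) (abs_nonneg _) (Real.exp_pos _).le
  have ix : Integrable (fun x : ℝ => x) gam1 := IsGaussian.memLp_two_id.integrable one_le_two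
  have ixw : Integrable (fun x => x * w x) gam1 :=
    ix.mul_bdd hwm.aestronglyMeasurable (c := W) (Eventually.of_forall hwb)
  set c0 := sm0 w s 0
  set c1 := r / s * sm1 w s 0
  set R : ℝ → ℝ := fun x => sm0 w s (r * x) - c0 - x * c1
  have key : corr2 w r - a ^ 2 = ∫ x, (w x - a) * R x ∂gam1 := by
    have e : ∀ x, (w x - a) * R x = (w x * sm0 w s (r * x) - a * sm0 w s (r * x)) -
        (c0 * w x - c0 * a) - (c1 * (x * w x) - c1 * a * x) := fun x => by simp only [R]; ring
    simp only [e]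
    rw [integral_sub (((iwsw.sub' (isw.const_mul a))).sub' ((iw.const_mul c0).sub' (integrable_const _)))
        ((ixw.const_mul c1).sub' (ix.const_mul _)),
      integral_sub (iwsw.sub' (isw.const_mul a)) ((iw.const_mul c0).sub' (integrable_const _)),
      integral_sub iwsw (isw.const_mul a), integral_sub (iw.const_mul c0) (integrable_const _),
      integral_sub (ixw.const_mul c1) (ix.const_mul _), integral_const_mul, integral_const_mul,
      integral_const_mul, integral_const_mul, ← hcorr, ← hmean, hμ, integral_const_mul,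
      integral_id_gaussianReal]
    simp [a]
    ring
  have hR : ∀ x, |R x| ≤ 10 * r ^ 2 * (W * shiftC) * env x := by
    intro x
    have h := sm0_expansion hwm hwb hs0 0 (r * x)
    rw [zero_add] at h
    have hb2 : |(r * x / s) ^ 2 / 2 * sm2 w s 0| ≤ (r * x / s) ^ 2 / 2 * (W * shiftC) := by
      rw [abs_mul, abs_of_nonneg (show 0 ≤ (r * x / s) ^ 2 / 2 by positivity)]
      exact mul_le_mul_of_nonneg_left (abs_sm2_le hwm hwb s 0) (by positivity)
    have hd : |r * x / s| ≤ 2 * |r| * |x| := by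
      rw [abs_div, abs_mul, abs_of_nonneg hsnn, div_le_iff₀ (by linarith)]
      nlinarith [mul_nonneg (abs_nonneg r) (abs_nonneg x)]
    have hd2 : (r * x / s) ^ 2 ≤ 4 * r ^ 2 * x ^ 2 := by
      rw [← sq_abs (r * x / s), ← sq_abs r, ← sq_abs x]
      calc |r * x / s| ^ 2 ≤ (2 * |r| * |x|) ^ 2 := pow_le_pow_left₀ (abs_nonneg _) hd 2
        _ = _ := by ring
    have hd3 : |r * x / s| ^ 3 ≤ 4 * r ^ 2 * |x| ^ 3 := by
      calc |r * x / s| ^ 3 ≤ (2 * |r| * |x|) ^ 3 := pow_le_pow_left₀ (abs_nonneg _) hd 3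
        _ = 8 * |r| * (r ^ 2 * |x| ^ 3) := by rw [← sq_abs r]; ring
        _ ≤ 4 * (r ^ 2 * |x| ^ 3) := mul_le_mul_of_nonneg_right (by linarith) (by positivity)
        _ = _ := by ring
    have e1 : x ^ 2 ≤ env x := le_trans (le_add_of_nonneg_right zero_le_one) (sq_le_env x)
    have e2 : |x| ^ 3 ≤ env x := by
      refine le_trans ?_ (le_mul_of_one_le_right (by positivity) (Real.one_le_exp (by positivity)))
      exact (pow_le_pow_left₀ (abs_nonneg x) (by linarith) 3).trans
        (pow_le_pow_right₀ (by linarith [abs_nonneg x]) (by norm_num))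
    have hWS : 0 ≤ W * shiftC := by positivity
    have t1 := mul_le_mul_of_nonneg_right (hd2.trans (mul_le_mul_of_nonneg_left e1 (by positivity))) hWS
    have t2 := mul_le_mul_of_nonneg_right (hd3.trans (mul_le_mul_of_nonneg_left e2 (by positivity))) hWS
    have eR : R x = (sm0 w s (r * x) - sm0 w s 0 - r * x / s * sm1 w s 0 -
        (r * x / s) ^ 2 / 2 * sm2 w s 0) + (r * x / s) ^ 2 / 2 * sm2 w s 0 := by
      simp only [R, c0, c1]; ring
    rw [eR]
    refine (abs_add_le _ _).trans ((add_le_add h hb2).trans ?_)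
    have := mul_nonneg (mul_nonneg (sq_nonneg r) hWS) (env_nonneg x)
    linarith
  have hbound : corr2 w r - a ^ 2 ≤ 20 * W * W * shiftC * (∫ z, env z ∂gam1) * r ^ 2 := by
    rw [key]
    refine (integral_mono_of_nonneg (μ := gam1) (f := fun x => |(w x - a) * R x|)
      (g := fun x => 20 * W * W * shiftC * r ^ 2 * env x) (Eventually.of_forall fun x => abs_nonneg _)
      (integrable_env.const_mul _) (Eventually.of_forall fun x => ?_) |> fun h =>
        ((le_abs_self _).trans abs_integral_le_integral_abs).trans h).trans_eq ?_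
    · change |(w x - a) * R x| ≤ _
      have hwa : |w x - a| ≤ 2 * W := (abs_sub _ _).trans (by
        rw [abs_of_pos ha]; linarith [hwb x])
      rw [abs_mul]
      refine (mul_le_mul hwa (hR x) (abs_nonneg _) (by positivity)).trans (le_of_eq ?_)
      ring
    · rw [integral_const_mul]; ring
  have e : corrRatio f r - 1 = (corr2 w r - a ^ 2) / a ^ 2 := by
    rw [sub_div, div_self (pow_ne_zero 2 ha.ne')]; rfl
  rw [e, add_mul, div_mul_eq_mul_div]
  exact (div_le_div_of_nonneg_right hbound (sq_nonneg a)).trans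
    (le_add_of_nonneg_right (by positivity))

/-- Small density. -/
theorem exists_annealed_small (hf : Measurable f) (hb : ∀ z, |f z| ≤ K)
    (hμ : ∫ z, z * Real.exp (f z) ∂gam1 = 0) :
    ∃ α₀ > 0, ∀ α, 0 < α → α ≤ α₀ →
      Tendsto (meanPressure isingLaw α f) atTop
        (𝓝 (α * Real.log (∫ z, Real.exp (f z) ∂gaussianReal 0 1))) ∧
      Tendsto (meanPressure sphereLaw α f) atTop
        (𝓝 (α * Real.log (∫ z, Real.exp (f z) ∂gaussianReal 0 1))) := by
  obtain ⟨C, hC, hle⟩ := exists_corr_quadratic hf hb hμ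
  refine ⟨1 / (2 * (C + 1)), by positivity, fun α hα hαle => ?_⟩
  have hα' : α * (2 * (C + 1)) ≤ 1 := (le_div_iff₀ (by positivity)).1 hαle
  have hkey : ∀ r ∈ Set.Icc (-1 : ℝ) 1, α * Real.log (corrRatio f r) ≤ r ^ 2 / 2 := fun r hr => by
    have h := (Real.log_le_sub_one_of_pos (corrRatio_mem hf hb r).1).trans (hle r hr)
    have h2 := mul_le_mul_of_nonneg_left h hα.le
    have h3 := mul_le_mul_of_nonneg_right hα' (sq_nonneg r)
    have h4 := mul_nonneg hα.le (sq_nonneg r)
    linarith
  refine ⟨tendsto_annealed_ising hf hb hα fun r hr => (hkey r hr).trans ?_,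
    tendsto_annealed_sphere hf hb hα fun r hr => (hkey r (Set.Ioo_subset_Icc_self hr)).trans ?_⟩
  · have h := cosh_sub_one_le_rateIsing (τ := 1) (by norm_num) hr
    rw [one_mul, one_pow, one_mul] at h
    refine le_trans ?_ h
    have := Real.quadratic_le_exp_of_nonneg (abs_nonneg r)
    rw [← Real.cosh_abs, Real.cosh_eq]
    have h1 := Real.exp_bound' (x := |r|) (abs_nonneg r) (abs_le.2 hr) (n := 4) (by norm_num)
    have hc : 1 + r ^ 2 / 2 ≤ (Real.exp |r| + Real.exp (-|r|)) / 2 := by
      rw [← Real.cosh_eq, Real.cosh_eq_tsum]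
      refine le_trans (le_of_eq ?_) (Summable.sum_le_tsum (Finset.range 2) (fun k _ => ?_)
        (Real.hasSum_cosh _).summable)
      · simp [Finset.sum_range_succ, sq_abs]
      · rw [pow_mul]; positivity
    linarith
  · have h1 : r ^ 2 < 1 := (sq_lt_one_iff_abs_lt_one r).2 (abs_lt.2 hr)
    have := Real.log_le_sub_one_of_pos (show 0 < 1 - r ^ 2 by linarith)
    simp only [rateSphere]
    linarith

end Vale.Agent.P157
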