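import Mathlib
import Vale.Agent.P157.AnnealedGap
import Vale.Agent.P157.Laws

/-!
A non-constant weight forces a gap below the annealed value at large density.
-/

noncomputable section

open MeasureTheory ProbabilityTheory Filter
open scoped Topology ENNReal

namespace Vale.Agent.P157

/-- Every point has an exponentially massive cap around its direction. -/
def Capped (ρ : Measure ℝ) : Prop :=
  ∀ ε > (0 : ℝ), ∃ c ≥ (0 : ℝ), ∀ N : ℕ, 0 < N → ∀ᵐ y ∂(Measure.pi fun _ : Fin N => ρ),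
    (∀ i, y i ≠ 0) ∧ ∃ A : Set (Fin N → ℝ), MeasurableSet A ∧
      Real.exp (-(c * N)) ≤ (Measure.pi fun _ : Fin N => ρ).real A ∧
      ∀ y' ∈ A, (∀ i, y' i ≠ 0) ∧ 1 - ε ≤ dot (dir y) (dir y')

lemma capped_rad : Capped rad := by
  intro ε hε
  refine ⟨Real.log 2, (Real.log_pos one_lt_two).le, fun N hN => ?_⟩
  filter_upwards [ae_rad_sq] with y hy
  have hy0 : ∀ i, y i ≠ 0 := fun i h => by simpa [h] using hy i
  refine ⟨hy0, {y}, measurableSet_singleton y, ?_, fun y' hy' => ?_⟩
  · rw [← Set.univ_pi_singleton, measureReal_def, Measure.pi_pi, ENNReal.toReal_prod]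
    have h1 : ∀ i, (rad {y i}).toReal = 1 / 2 := fun i => by
      rcases sq_eq_one_iff.1 (hy i) with h | h <;>
        norm_num [h, rad, Measure.dirac_apply', Set.indicator]
    simp only [h1, Finset.prod_const, Finset.card_univ, Fintype.card_fin]
    rw [mul_comm, Real.exp_neg, Real.exp_nat_mul, Real.exp_log two_pos,
      one_div, inv_pow]
  · rw [Set.mem_singleton_iff] at hy'
    rw [hy']
    refine ⟨hy0, ?_⟩
    have : dot (dir y) (dir y) = 1 := by
      simpa [dot, ← sq] using sum_dir_sq_of_ne hN hy0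
    linarith

lemma gauss_Icc_ge {δ : ℝ} (hδ : 0 < δ) (b : ℝ) :
    Real.exp (Real.log (2 * δ / Real.sqrt (2 * Real.pi)) - b ^ 2 - δ ^ 2) ≤
      gam1.real (Set.Icc (b - δ) (b + δ)) := by
  rw [measureReal_def, gam1, gaussianReal_apply_eq_integral _ one_ne_zero,
    ENNReal.toReal_ofReal (setIntegral_nonneg measurableSet_Icc fun x _ => gaussianPDFReal_nonneg _ _ _)]
  have hconst : ∀ x ∈ Set.Icc (b - δ) (b + δ),
      (Real.sqrt (2 * Real.pi))⁻¹ * Real.exp (-(b ^ 2) - δ ^ 2) ≤ gaussianPDFReal 0 1 x := by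
    intro x hx
    simp only [gaussianPDFReal, NNReal.coe_one, mul_one, sub_zero]
    refine mul_le_mul_of_nonneg_left (Real.exp_le_exp.2 ?_) (by positivity)
    have h : |x - b| ≤ δ := abs_le.2 ⟨by linarith [hx.1], by linarith [hx.2]⟩
    have h2 := pow_le_pow_left₀ (abs_nonneg _) h 2
    rw [sq_abs] at h2
    nlinarith [sq_nonneg (x - 2 * b)]
  refine le_trans (le_of_eq ?_) (setIntegral_mono_on
    (integrableOn_const (measure_Icc_lt_top.ne)) (integrable_gaussianPDFReal 0 1).integrableOn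
    measurableSet_Icc hconst)
  rw [setIntegral_const, measureReal_def, Real.volume_Icc, ENNReal.toReal_ofReal (by linarith),
    smul_eq_mul, show Real.log (2 * δ / Real.sqrt (2 * Real.pi)) - b ^ 2 - δ ^ 2 =
      Real.log (2 * δ / Real.sqrt (2 * Real.pi)) + (-(b ^ 2) - δ ^ 2) by ring, Real.exp_add,
    Real.exp_log (by positivity)]
  ring

lemma capped_gauss : Capped (gaussianReal 0 1) := by
  intro ε hε
  set δ := Real.sqrt (min ε (1 / 2))
  have hm : 0 < min ε (1 / 2) := lt_min hε one_half_pos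
  have hδ : 0 < δ := Real.sqrt_pos.2 hm
  have hδ2 : δ ^ 2 = min ε (1 / 2) := Real.sq_sqrt hm.le
  set c := max (1 + δ ^ 2 - Real.log (2 * δ / Real.sqrt (2 * Real.pi))) 0
  refine ⟨c, le_max_right _ _, fun N hN => ?_⟩
  have hN' : (0 : ℝ) < N := by exact_mod_cast hN
  set π := Measure.pi fun _ : Fin N => gaussianReal 0 1
  have hne : ∀ᵐ y ∂π, ∀ i, y i ≠ 0 := by
    rw [ae_all_iff]
    intro i
    have h0 : ∀ᵐ x ∂gaussianReal 0 1, x ≠ 0 := by
      rw [ae_iff]; simpa using admissible_gaussian.zero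
    exact (measurePreserving_eval (fun _ : Fin N => gaussianReal 0 1) i).quasiMeasurePreserving.ae h0
  filter_upwards [hne] with y hy
  set b : Fin N → ℝ := fun i => Real.sqrt N * dir y i
  have hb : ∑ i, b i ^ 2 = N := by
    simp only [b, mul_pow, ← Finset.mul_sum, sum_dir_sq_of_ne hN hy, Real.sq_sqrt hN'.le, mul_one]
  set S : Set (Fin N → ℝ) := {y' | ∀ i, y' i ≠ 0}
  have hS : MeasurableSet S := by
    simp only [S, Set.setOf_forall]
    exact MeasurableSet.iInter fun i =>
      (measurableSet_eq_fun (measurable_pi_apply i) measurable_const).compl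
  refine ⟨hy, Set.univ.pi (fun i => Set.Icc (b i - δ) (b i + δ)) ∩ S,
    (MeasurableSet.univ_pi fun i => measurableSet_Icc).inter hS, ?_, fun y' hy' => ?_⟩
  · have hnull : π Sᶜ = 0 := by simpa [S, ae_iff, Set.compl_setOf] using hne
    rw [measureReal_def, measure_inter_conull hnull, Measure.pi_pi, ENNReal.toReal_prod]
    refine le_trans ?_ (Finset.prod_le_prod (fun i _ => (Real.exp_pos _).le)
      (fun i _ => gauss_Icc_ge hδ (b i)))
    rw [← Real.exp_sum, Real.exp_le_exp]
    simp only [Finset.sum_sub_distrib, hb, Finset.sum_const, Finset.card_univ, Fintype.card_fin,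
      nsmul_eq_mul]
    have := mul_le_mul_of_nonneg_right
      (le_max_left (1 + δ ^ 2 - Real.log (2 * δ / Real.sqrt (2 * Real.pi))) 0) hN'.le
    simp only [c]
    linarith
  · obtain ⟨hbox, hnz⟩ := hy'
    refine ⟨hnz, ?_⟩
    have hdist : ∑ i, (y' i - b i) ^ 2 ≤ N * δ ^ 2 := by
      calc ∑ i, (y' i - b i) ^ 2 ≤ ∑ _i : Fin N, δ ^ 2 := Finset.sum_le_sum fun i _ => by
            have h := hbox i (Set.mem_univ i)
            nlinarith [h.1, h.2]
        _ = _ := by simp
    obtain ⟨Q, hQ⟩ : ∃ Q, Q = ∑ i, y' i ^ 2 := ⟨_, rfl⟩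
    have hQ0 : 0 < Q := hQ ▸ Finset.sum_pos' (fun i _ => sq_nonneg _) ⟨⟨0, hN⟩, Finset.mem_univ _,
      lt_of_le_of_ne (sq_nonneg _) (Ne.symm (pow_ne_zero 2 (hnz _)))⟩
    obtain ⟨P, hP⟩ : ∃ P, P = dot (dir y) y' := ⟨_, rfl⟩
    have hexp : ∑ i, (y' i - b i) ^ 2 = Q - 2 * Real.sqrt N * P + N := by
      simp only [sub_sq, Finset.sum_add_distrib, Finset.sum_sub_distrib, hb, hQ, hP, dot, b,
        Finset.mul_sum]
      congr 2
      exact Finset.sum_congr rfl fun i _ => by ring
    have hd : dot (dir y) (dir y') = P / Real.sqrt Q := by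
      simp only [hP, hQ, dot, Finset.sum_div]
      exact Finset.sum_congr rfl fun i _ => by simp only [dir, nrm]; ring
    rw [hd, le_div_iff₀ (Real.sqrt_pos.2 hQ0)]
    have hε' : 1 - ε ≤ 1 - δ ^ 2 := by linarith [hδ2 ▸ min_le_left ε (1 / 2)]
    refine le_trans (mul_le_mul_of_nonneg_right hε' (Real.sqrt_nonneg _)) ?_
    have h1 : Q + N * (1 - δ ^ 2) ≤ 2 * Real.sqrt N * P := by linarith [hdist, hexp]
    have hq : 0 ≤ δ ^ 2 := sq_nonneg δ
    have hq' : δ ^ 2 ≤ 1 / 2 := hδ2 ▸ min_le_right _ _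
    have h2 : 2 * Real.sqrt N * ((1 - δ ^ 2) * Real.sqrt Q) ≤ Q + N * (1 - δ ^ 2) := by
      have e1 := Real.sq_sqrt hQ0.le
      have e2 := Real.sq_sqrt hN'.le
      have := mul_nonneg (show 0 ≤ 1 - δ ^ 2 by linarith) (sq_nonneg (Real.sqrt N - Real.sqrt Q))
      nlinarith [mul_nonneg hq (sq_nonneg (Real.sqrt Q))]
    have hsN : 0 < Real.sqrt N := Real.sqrt_pos.2 hN'
    nlinarith [h1.trans' h2]

/-- A continuous bounded statistic separating the weighted law from the Gaussian one. -/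
lemma exists_test {f : ℝ → ℝ} {K : ℝ} (hf : Measurable f) (hb : ∀ z, |f z| ≤ K)
    (hnc : ¬ ∃ c, f =ᵐ[gam1] fun _ => c) :
    ∃ (h : ℝ → ℝ) (H : ℝ), Continuous h ∧ (∀ z, |h z| ≤ H) ∧
      Real.log (∫ z, Real.exp (h z) ∂gam1) <
        (∫ z, Real.exp (f z) * h z ∂gam1) / ∫ z, Real.exp (f z) ∂gam1 := by
  set a := ∫ z, Real.exp (f z) ∂gam1 with hadef
  have ha : 0 < a := (Real.exp_pos _).trans_le (integral_exp_mem (π := gam1) hf hb).1
  have := isProb_tilted (π := gam1) hf hb
  have hex : ∃ u : BoundedContinuousFunction ℝ ℝ, ∫ z, u z ∂gam1.tilted f ≠ ∫ z, u z ∂gam1 := by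
    by_contra hcon
    simp only [not_exists, not_ne_iff] at hcon
    have heq : gam1.tilted f = gam1.withDensity fun _ => 1 := by
      rw [show (fun _ : ℝ => (1 : ℝ≥0∞)) = 1 from rfl, withDensity_one]
      exact ext_of_forall_integral_eq_of_IsFiniteMeasure hcon
    rw [Measure.tilted, ← hadef, withDensity_eq_iff_of_sigmaFinite (hf.exp.div_const a).ennreal_ofReal.aemeasurable
      aemeasurable_const] at heq
    refine hnc ⟨Real.log a, ?_⟩
    filter_upwards [heq] with z hz
    rw [ENNReal.ofReal_eq_one, div_eq_one_iff_eq ha.ne'] at hz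
    rw [← hz, Real.log_exp]
  obtain ⟨u, hu⟩ := hex
  set d := ∫ z, u z ∂gam1.tilted f - ∫ z, u z ∂gam1 with hd
  have hd0 : d ≠ 0 := sub_ne_zero.2 hu
  obtain ⟨U, hU0, hU⟩ : ∃ U, 0 < U ∧ ∀ z, |u z| ≤ U :=
    ⟨‖u‖ + 1, by positivity, fun z => (u.norm_coe_le_norm z).trans (le_add_of_nonneg_right zero_le_one)⟩
  obtain ⟨e, he, he1, he2⟩ : ∃ e : ℝ, 0 < e * d ∧ |e| * U ≤ 1 ∧ e ^ 2 * U ^ 2 < e * d := by
    refine ⟨d * min (1 / (|d| * U + 1)) (1 / (2 * U ^ 2)), ?_, ?_, ?_⟩
    · have : 0 < min (1 / (|d| * U + 1)) (1 / (2 * U ^ 2)) := by positivity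
      nlinarith [mul_pos this (lt_of_le_of_ne (sq_nonneg d) (Ne.symm (pow_ne_zero 2 hd0)))]
    · rw [abs_mul, abs_of_pos (show 0 < min (1 / (|d| * U + 1)) (1 / (2 * U ^ 2)) by positivity)]
      have := mul_le_mul_of_nonneg_left (min_le_left (1 / (|d| * U + 1)) (1 / (2 * U ^ 2)))
        (show 0 ≤ |d| * U by positivity)
      have h1 : |d| * U * (1 / (|d| * U + 1)) ≤ 1 := by
        rw [mul_one_div, div_le_one (by positivity)]; linarith
      linarith
    · obtain ⟨m, hm⟩ : ∃ m, m = min (1 / (|d| * U + 1)) (1 / (2 * U ^ 2)) := ⟨_, rfl⟩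
      rw [← hm]
      have hm0 : 0 < m := hm ▸ by positivity
      have hm2 : m * (2 * U ^ 2) ≤ 1 := (le_div_iff₀ (by positivity)).1 (hm ▸ min_le_right _ _)
      have h2 : 0 < d ^ 2 * m := mul_pos (lt_of_le_of_ne (sq_nonneg d) (Ne.symm (pow_ne_zero 2 hd0))) hm0
      nlinarith [mul_le_mul_of_nonneg_left hm2 h2.le]
  refine ⟨fun z => e * u z, |e| * U, u.continuous.const_mul e, fun z => ?_, ?_⟩
  · rw [abs_mul]; exact mul_le_mul_of_nonneg_left (hU z) (abs_nonneg e)
  have hui : Integrable (fun z => u z) gam1 := integrable_of_abs_le u.continuous.measurable hU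
  have hei : Integrable (fun z => Real.exp (e * u z)) gam1 :=
    integrable_exp_of_abs_le (u.continuous.measurable.const_mul e) (K := |e| * U) fun z => by
      rw [abs_mul]; exact mul_le_mul_of_nonneg_left (hU z) (abs_nonneg e)
  have h1 : ∫ z, Real.exp (e * u z) ∂gam1 ≤ 1 + e * (∫ z, u z ∂gam1) + e ^ 2 * U ^ 2 := by
    refine (integral_mono hei (((integrable_const 1).add (hui.const_mul e)).add
      (integrable_const (e ^ 2 * U ^ 2))) fun z => ?_).trans_eq ?_
    · have hx : |e * u z| ≤ 1 := by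
        rw [abs_mul]; exact (mul_le_mul_of_nonneg_left (hU z) (abs_nonneg e)).trans he1
      have := (abs_le.1 (Real.abs_exp_sub_one_sub_id_le hx)).2
      have h2 : (e * u z) ^ 2 ≤ e ^ 2 * U ^ 2 := by
        rw [mul_pow, ← sq_abs (u z)]
        exact mul_le_mul_of_nonneg_left (pow_le_pow_left₀ (abs_nonneg _) (hU z) 2) (sq_nonneg e)
      simp only [Pi.add_apply]
      linarith
    · simp only [Pi.add_apply]
      rw [integral_add ((integrable_const (1 : ℝ)).fun_add (hui.const_mul e)) (integrable_const _),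
        integral_add (integrable_const (1 : ℝ)) (hui.const_mul e), integral_const_mul]
      simp
  have hpos : 0 < ∫ z, Real.exp (e * u z) ∂gam1 :=
    (Real.exp_pos _).trans_le (integral_exp_mem (π := gam1) (K := |e| * U)
      (u.continuous.measurable.const_mul e) fun z => by
        rw [abs_mul]; exact mul_le_mul_of_nonneg_left (hU z) (abs_nonneg e)).1
  have h3 := Real.log_le_sub_one_of_pos hpos
  have h4 : (∫ z, Real.exp (f z) * (e * u z) ∂gam1) / a = e * ∫ z, u z ∂gam1.tilted f := by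
    rw [integral_tilted, ← hadef, ← integral_div, ← integral_const_mul]
    congr 1
    ext z
    rw [smul_eq_mul]
    ring
  rw [h4, show e * ∫ z, u z ∂gam1.tilted f = e * d + e * ∫ z, u z ∂gam1 by rw [hd]; ring]
  linarith

/-- Cap test. -/
theorem exists_gap_large {ρ : Measure ℝ} [IsProbabilityMeasure ρ] (hcap : Capped ρ) {f : ℝ → ℝ}
    {K : ℝ} (hf : Measurable f) (hb : ∀ z, |f z| ≤ K) (hnc : ¬ ∃ c, f =ᵐ[gam1] fun _ => c) :
    ∃ α₁ > (0 : ℝ), ∀ α : ℝ, α₁ ≤ α → ∃ δ > 0, ∀ᶠ N : ℕ in atTop,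
      logPart ρ f (Fin N) ⌊α * N⌋₊ / N ≤
        (⌊α * (N : ℝ)⌋₊ : ℝ) / N * Real.log (∫ z, Real.exp (f z) ∂gam1) - δ := by
  obtain ⟨h, H, hhc, hhb, hgap⟩ := exists_test hf hb hnc
  set a := ∫ z, Real.exp (f z) ∂gam1
  have ha : 0 < a := (Real.exp_pos _).trans_le (integral_exp_mem (π := gam1) hf hb).1
  have hH : 0 ≤ H := (abs_nonneg _).trans (hhb 0)
  set ah := Real.log (∫ z, Real.exp (h z) ∂gam1)
  set Δ := (∫ z, Real.exp (f z) * h z ∂gam1) / a - ah
  have hΔ : 0 < Δ := sub_pos.2 hgap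
  set C : ℝ → ℝ := fun r => ∫ g : Fin 2 → ℝ,
    Real.exp (f (g 0)) * h (r * g 0 + Real.sqrt (1 - r ^ 2) * g 1) ∂gam (Fin 2)
  have hCm : ∀ r, Measurable fun g : Fin 2 → ℝ =>
      Real.exp (f (g 0)) * h (r * g 0 + Real.sqrt (1 - r ^ 2) * g 1) := fun r =>
    (hf.comp (measurable_pi_apply 0)).exp.mul (hhc.measurable.comp (by fun_prop))
  have hCb : ∀ r (g : Fin 2 → ℝ),
      |Real.exp (f (g 0)) * h (r * g 0 + Real.sqrt (1 - r ^ 2) * g 1)| ≤ Real.exp K * H := fun r g => by
    rw [abs_mul, Real.abs_exp]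
    exact mul_le_mul (Real.exp_le_exp.2 ((le_abs_self _).trans (hb _))) (hhb _) (abs_nonneg _)
      (Real.exp_pos _).le
  have hCc : Continuous C := continuous_of_dominated (bound := fun _ => Real.exp K * H)
    (fun r => (hCm r).aestronglyMeasurable) (fun r => Eventually.of_forall fun g => hCb r g)
    (integrable_const _) (Eventually.of_forall fun g => continuous_const.mul (hhc.comp (by fun_prop)))
  have hC1 : C 1 = a * (ah + Δ) := by
    have e : C 1 = ∫ g : Fin 2 → ℝ, (fun z => Real.exp (f z) * h z) (g 0) ∂gam (Fin 2) := by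
      simp [C]
    rw [e, integral_comp_eval (μ := fun _ : Fin 2 => gaussianReal 0 1) (i := (0 : Fin 2))
      (f := fun z => Real.exp (f z) * h z) (hf.exp.mul hhc.measurable).aestronglyMeasurable]
    simp only [Δ]
    field_simp
    ring
  obtain ⟨ε, hε, hnear⟩ := Metric.continuousAt_iff.1 hCc.continuousAt (a * Δ / 4) (by positivity)
  obtain ⟨c, hc0, hc⟩ := hcap (ε / 2) (by positivity)
  refine ⟨4 * (c + 1) / Δ, by positivity, fun α hα => ?_⟩
  have hαpos : 0 < α := lt_of_lt_of_le (by positivity) hα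
  obtain ⟨l, hl0, hl1, hl2⟩ : ∃ l : ℝ, 0 < l ∧ l * H ≤ 1 ∧ l * H ^ 2 ≤ Δ / 4 := by
    obtain ⟨l, hl⟩ : ∃ l, l = min (1 / (H + 1)) (Δ / (4 * (H ^ 2 + 1))) := ⟨_, rfl⟩
    have hl0 : 0 < l := hl ▸ by positivity
    have t1 : l * (H + 1) ≤ 1 := (le_div_iff₀ (by positivity)).1 (hl ▸ min_le_left _ _)
    have t2 : l * (4 * (H ^ 2 + 1)) ≤ Δ := (le_div_iff₀ (by positivity)).1 (hl ▸ min_le_right _ _)
    exact ⟨l, hl0, by linarith, by linarith⟩
  refine ⟨l, hl0, ?_⟩
  have hM : ∀ᶠ N : ℕ in atTop, α / 2 ≤ (⌊α * (N : ℝ)⌋₊ : ℝ) / N :=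
    (tendsto_floor_div α hαpos.le).eventually (le_mem_nhds (half_lt_self hαpos))
  filter_upwards [hM, eventually_gt_atTop 0] with N hMN hN
  have hN' : (0 : ℝ) < N := by exact_mod_cast hN
  generalize ⌊α * (N : ℝ)⌋₊ = M at hMN ⊢
  set π := Measure.pi fun _ : Fin N => ρ with hπ
  have hne : ∀ᵐ y ∂π, ∀ i, y i ≠ 0 := (hc N hN).mono fun y hy => hy.1
  have hnh := nice_term hhc.measurable hhb (measurable_dir (ι := Fin N))
  have hsh := hnh.sum M
  have hnf := nice_term hf hb (measurable_dir (ι := Fin N))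
  have hsf := hnf.sum M
  set T : (Fin M → Fin N → ℝ) → ℝ := fun g => l * lint π fun y => ∑ b, term h dir (g b) y
  have hTb : ∀ g, |T g| ≤ l * (M * H) := fun g => by
    simp only [T, abs_mul, abs_of_pos hl0]
    exact mul_le_mul_of_nonneg_left (abs_lint_le (hsh.meas_left g) (hsh.bound g)) hl0.le
  have hTm : Measurable T := (measurable_lint π hsh.meas).const_mul l
  set E := l * (c * N) + M * (Real.log a - l * (ah + 3 * Δ / 4) + l ^ 2 * H ^ 2)
  have hE : ∀ᵐ y ∂π, ∫ g : Fin M → Fin N → ℝ, Real.exp (∑ b, term f dir (g b) y) * Real.exp (-T g)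
      ∂Measure.pi (fun _ => gam (Fin N)) ≤ Real.exp E := by
    filter_upwards [hc N hN] with y hy
    obtain ⟨hy0, A, hAm, hAmass, hA⟩ := hy
    have hA0 : 0 < π.real A := (Real.exp_pos _).trans_le hAmass
    have hA' : π A ≠ 0 := fun h0 => hA0.ne' (by simp [measureReal_def, h0])
    have : IsProbabilityMeasure π[|A] := cond_isProbabilityMeasure hA'
    set ν := π[|A]
    set G : (Fin M → Fin N → ℝ) × (Fin N → ℝ) → ℝ := fun p =>
      ∑ b, term f dir (p.1 b) y + -(l * ∑ b, term h dir (p.1 b) p.2)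
    have hGm : Measurable G := ((hsf.meas.comp (measurable_fst.prodMk measurable_const))).add
      ((hsh.meas.const_mul l).neg)
    have hGb : ∀ p, |G p| ≤ M * K + l * (M * H) := fun p => by
      refine (abs_add_le _ _).trans (add_le_add (hsf.bound _ _) ?_)
      rw [abs_neg, abs_mul, abs_of_pos hl0]
      exact mul_le_mul_of_nonneg_left (hsh.bound _ _) hl0.le
    have hGi : Integrable (fun p => Real.exp (G p))
        ((Measure.pi fun _ : Fin M => gam (Fin N)).prod ν) := integrable_exp_of_abs_le hGm hGb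
    have hpt : ∀ g, Real.exp (∑ b, term f dir (g b) y) * Real.exp (-T g) ≤
        Real.exp (l * (c * N)) * ∫ y', Real.exp (G (g, y')) ∂ν := fun g => by
      simp only [G, Real.exp_add, integral_const_mul]
      rw [mul_left_comm]
      refine mul_le_mul_of_nonneg_left ?_ (Real.exp_pos _).le
      refine (neg_mul_lint_le (hsh.meas_left g) (hsh.bound g) hl0.le hAm hA0).trans ?_
      refine mul_le_mul_of_nonneg_right (Real.exp_le_exp.2 ?_)
        (integral_nonneg fun _ => (Real.exp_pos _).le)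
      have := (Real.le_log_iff_exp_le hA0).2 hAmass
      nlinarith
    have hTi' : Integrable (fun g => Real.exp (∑ b, term f dir (g b) y) * Real.exp (-T g))
        (Measure.pi fun _ : Fin M => gam (Fin N)) := by
      simp only [← Real.exp_add]
      exact integrable_exp_of_abs_le ((hsf.meas.comp (measurable_id.prodMk measurable_const)).add
        hTm.neg) fun g => (abs_add_le _ _).trans (add_le_add (hsf.bound _ _) (by rw [abs_neg]; exact hTb g))
    refine (integral_mono hTi' (hGi.integral_prod_left.const_mul _) hpt).trans ?_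
    rw [integral_const_mul, integral_integral_swap hGi, Real.exp_add (l * (c * N))]
    refine mul_le_mul_of_nonneg_left ?_ (Real.exp_pos _).le
    refine (integral_mono_ae hGi.integral_prod_right (integrable_const (Real.exp
      (M * (Real.log a - l * (ah + 3 * Δ / 4) + l ^ 2 * H ^ 2)))) ?_).trans_eq (by simp)
    filter_upwards [ae_cond_mem hAm] with y' hy'
    obtain ⟨hy'0, hr⟩ := hA y' hy'
    have e : ∀ g : Fin M → Fin N → ℝ, Real.exp (G (g, y')) =
        ∏ b, (fun v : Fin N → ℝ => Real.exp (term f dir v y + -(l * term h dir v y'))) (g b) := fun g => by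
      simp only [G, ← Real.exp_sum, Finset.sum_add_distrib, Finset.mul_sum, Finset.sum_neg_distrib]
    simp only [e]
    rw [integral_fintype_prod_eq_pow (fun v : Fin N → ℝ =>
      Real.exp (term f dir v y + -(l * term h dir v y'))), Fintype.card_fin, Real.exp_nat_mul]
    refine pow_le_pow_left₀ (integral_nonneg fun v => (Real.exp_pos _).le) ?_ M
    obtain ⟨hmem, hpair⟩ := integral_pair_eq
      (G := fun s t => Real.exp (f s + -(l * h t)))
      ((hf.comp measurable_fst).add ((hhc.measurable.comp measurable_snd).const_mul l).neg).exp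
      (sum_dir_sq_of_ne hN hy0) (sum_dir_sq_of_ne hN hy'0)
    simp only [term]
    rw [hpair]
    set r := dot (dir y) (dir y')
    have hCr : a * (ah + 3 * Δ / 4) ≤ C r := by
      have hdist := hnear (show dist r 1 < ε by
        rw [Real.dist_eq, abs_lt]; constructor <;> linarith [hmem.2])
      rw [Real.dist_eq, hC1] at hdist
      linarith [(abs_lt.1 hdist).1]
    set Z : (Fin 2 → ℝ) → ℝ := fun g => r * g 0 + Real.sqrt (1 - r ^ 2) * g 1
    have i0 : Integrable (fun g : Fin 2 → ℝ => Real.exp (f (g 0))) (gam (Fin 2)) :=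
      integrable_exp_of_abs_le (hf.comp (measurable_pi_apply 0)) fun g => hb _
    have i1 : Integrable (fun g : Fin 2 → ℝ => Real.exp (f (g 0)) * h (Z g)) (gam (Fin 2)) :=
      integrable_of_abs_le (hCm r) (hCb r)
    have hai : ∫ g : Fin 2 → ℝ, Real.exp (f (g 0)) ∂gam (Fin 2) = a :=
      integral_comp_eval (μ := fun _ : Fin 2 => gaussianReal 0 1) (i := (0 : Fin 2))
        (f := fun z => Real.exp (f z)) hf.exp.aestronglyMeasurable
    refine (integral_mono (integrable_exp_of_abs_le ((hf.comp (measurable_pi_apply 0)).add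
      (((hhc.measurable.comp (by fun_prop : Measurable Z))).const_mul l).neg)
      fun g => (abs_add_le _ _).trans (add_le_add (hb _) (by
        simp only [Pi.neg_apply, Function.comp_apply]
        rw [abs_neg, abs_mul, abs_of_pos hl0]; exact mul_le_mul_of_nonneg_left (hhb _) hl0.le)))
      (((i0.const_mul (1 + l ^ 2 * H ^ 2)).sub (i1.const_mul l))) fun g => ?_).trans ?_
    · have hx : |(-(l * h (Z g)))| ≤ 1 := by
        rw [abs_neg, abs_mul, abs_of_pos hl0]
        exact (mul_le_mul_of_nonneg_left (hhb _) hl0.le).trans hl1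
      have h5 := (abs_le.1 (Real.abs_exp_sub_one_sub_id_le hx)).2
      have h6 : (-(l * h (Z g))) ^ 2 ≤ l ^ 2 * H ^ 2 := by
        rw [neg_sq, mul_pow, ← sq_abs (h (Z g))]
        exact mul_le_mul_of_nonneg_left (pow_le_pow_left₀ (abs_nonneg _) (hhb _) 2) (sq_nonneg l)
      have h7 := mul_le_mul_of_nonneg_left
        (show Real.exp (-(l * h (Z g))) ≤ 1 + l ^ 2 * H ^ 2 - l * h (Z g) by linarith)
        (Real.exp_pos (f (g 0))).le
      simp only [Pi.sub_apply, Pi.add_apply, Pi.neg_apply, Function.comp_apply, Real.exp_add, Z] at h7 ⊢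
      linarith
    · simp only [Pi.sub_apply]
      rw [integral_sub (i0.const_mul _) (i1.const_mul l), integral_const_mul, integral_const_mul, hai,
        Real.exp_add, Real.exp_sub, Real.exp_log ha]
      have h8 := mul_le_mul_of_nonneg_left hCr hl0.le
      have h9 := mul_le_mul_of_nonneg_left
        (Real.add_one_le_exp (-(l * (ah + 3 * Δ / 4)) + l ^ 2 * H ^ 2)) ha.le
      rw [Real.exp_add, Real.exp_neg] at h9
      simp only [C] at h8
      rw [div_mul_eq_mul_div, div_eq_mul_inv]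
      linarith
  have hΦ := Phi_le_test hnf (π := π) (P := gam (Fin N)) (M := M) hTm
    (fun g => (abs_le.1 (hTb g)).1) (integrable_of_abs_le hTm hTb) hE
  have hTmean : ∫ g, T g ∂Measure.pi (fun _ => gam (Fin N)) ≤ l * (M * ah) := by
    simp only [T, integral_const_mul]
    exact mul_le_mul_of_nonneg_left
      (Phi_term_le_annealed hhc.measurable hhb hN hne M).2 hl0.le
  unfold logPart
  rw [div_le_iff₀ hN']
  refine (hΦ.trans (add_le_add le_rfl hTmean)).trans ?_
  rw [le_div_iff₀ hN'] at hMN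
  rw [sub_mul, div_mul_eq_mul_div, div_mul_cancel₀ _ hN'.ne']
  have g1 := mul_le_mul_of_nonneg_left hl2 (show 0 ≤ (M : ℝ) * l by positivity)
  have hα' : 4 * (c + 1) ≤ α * Δ := (div_le_iff₀ hΔ).1 hα
  have g2 := mul_le_mul_of_nonneg_left hMN (show 0 ≤ l * Δ / 2 by positivity)
  have g3 := mul_le_mul_of_nonneg_left hα' (show 0 ≤ l * N / 4 by positivity)
  simp only [E]
  linarith

end Vale.Agent.P157
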