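import Mathlib
import Vale.Agent.P157.AnnealedGap

/-!
A non-zero Gaussian mean of the weight forces a linear gap below the annealed value.
-/

noncomputable section

open MeasureTheory ProbabilityTheory Filter
open scoped Topology

namespace Vale.Agent.P157

/-- Reflection across the hyperplane orthogonal to `w`. -/
def refl {ι : Type*} [Fintype ι] (w : ι → ℝ) (g : ι → ℝ) : ι → ℝ := fun j =>
  g j - 2 * dot g w / (∑ i, w i ^ 2) * w j

variable {ι : Type*} [Fintype ι]

lemma dot_refl (w g t : ι → ℝ) : dot (refl w g) t = dot g (refl w t) := by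
  simp only [dot, refl, sub_mul, mul_sub, Finset.sum_sub_distrib]
  congr 1
  have e1 : ∀ i, 2 * (∑ j, g j * w j) / (∑ j, w j ^ 2) * w i * t i =
      2 * (∑ j, g j * w j) / (∑ j, w j ^ 2) * (t i * w i) := fun i => by ring
  have e2 : ∀ i, g i * (2 * (∑ j, t j * w j) / (∑ j, w j ^ 2) * w i) =
      2 * (∑ j, t j * w j) / (∑ j, w j ^ 2) * (g i * w i) := fun i => by ring
  simp only [e1, e2, ← Finset.mul_sum]
  ring

lemma sum_refl_sq (w g : ι → ℝ) : ∑ i, refl w g i ^ 2 = ∑ i, g i ^ 2 := by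
  simp only [refl, sub_sq, mul_pow, Finset.sum_add_distrib, Finset.sum_sub_distrib]
  have e : ∀ i, 2 * g i * (2 * dot g w / (∑ j, w j ^ 2) * w i) =
      4 * dot g w / (∑ j, w j ^ 2) * (g i * w i) := fun i => by ring
  simp only [e, ← Finset.mul_sum]
  rw [show ∑ i, g i * w i = dot g w from rfl]
  rcases eq_or_ne (∑ j, w j ^ 2) 0 with h | h
  · simp [h]
  · field_simp
    ring

lemma measurePreserving_refl (w : ι → ℝ) : MeasurePreserving (refl w) (gam ι) (gam ι) := by
  have hm : Measurable (refl w) := by unfold refl dot; fun_prop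
  refine ⟨hm, ?_⟩
  have hL : (gam ι).map (fun g => WithLp.toLp 2 (refl w g)) = (gam ι).map (WithLp.toLp 2) := by
    apply Measure.ext_of_charFun
    ext t
    rw [charFun_apply, charFun_apply, integral_map (by fun_prop) (by fun_prop),
      integral_map (by fun_prop) (by fun_prop)]
    have e1 : ∀ g : ι → ℝ, inner ℝ (WithLp.toLp 2 g) t = dot g fun i => t i := fun g => by
      simp [PiLp.inner_apply, dot, mul_comm]
    simp only [e1, dot_refl, integral_cexp_dot, sum_refl_sq]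
  have h := congrArg (Measure.map (WithLp.ofLp : EuclideanSpace ℝ ι → ι → ℝ)) hL
  rw [Measure.map_map (WithLp.measurable_ofLp 2 _) (by fun_prop),
    Measure.map_map (WithLp.measurable_ofLp 2 _) (by fun_prop)] at h
  exact h.trans Measure.map_id

lemma exists_rotation [DecidableEq ι] {u : ι → ℝ} (hu : ∑ i, u i ^ 2 = 1) (i0 : ι) :
    ∃ w : ι → ℝ, ∀ g, refl w g i0 = dot g u := by
  set e : ι → ℝ := Pi.single i0 1
  refine ⟨fun i => u i - e i, fun g => ?_⟩
  have hge : dot g e = g i0 := by simp [dot, e, Pi.single_apply]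
  have hsum : ∑ i, (u i - e i) ^ 2 = 2 - 2 * u i0 := by
    simp only [sub_sq, Finset.sum_add_distrib, Finset.sum_sub_distrib, hu]
    simp [e, Pi.single_apply]
    ring
  have hdw : dot g (fun i => u i - e i) = dot g u - g i0 := by
    rw [← hge]; simp only [dot, mul_sub, Finset.sum_sub_distrib]
  simp only [refl, hdw, hsum]
  rcases eq_or_ne (2 - 2 * u i0) 0 with h | h
  · have hz : ∀ i, u i = e i := by
      intro i
      have := (Finset.sum_eq_zero_iff_of_nonneg fun j _ => sq_nonneg (u j - e j)).1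
        (hsum.trans h) i (Finset.mem_univ i)
      nlinarith [sq_nonneg (u i - e i)]
    rw [h, div_zero, zero_mul, sub_zero]
    rw [← hge, show u = e from funext hz]
  · simp only [e, Pi.single_eq_same]
    rw [show g i0 - 2 * (dot g u - g i0) / (2 - 2 * u i0) * (u i0 - 1) =
      g i0 + (dot g u - g i0) * ((2 - 2 * u i0) / (2 - 2 * u i0)) by ring, div_self h]
    ring

lemma integral_exp_neg_sq {d : ℝ} (hd : 0 ≤ d) (s : ℝ) :
    ∫ x, Real.exp (-(d * (s + x) ^ 2)) ∂gam1 =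
      Real.exp (-(d / (1 + 2 * d) * s ^ 2) - Real.log (1 + 2 * d) / 2) := by
  have e : ∀ x : ℝ, Real.exp (-(d * (s + x) ^ 2)) = Real.exp (-(d * s ^ 2)) *
      Real.exp (-2 * d * s * x + (1 - (1 + 2 * d)) * x ^ 2 / 2) := fun x => by
    rw [← Real.exp_add]; congr 1; ring
  simp only [e]
  rw [integral_const_mul, (integral_exp_linear_quadratic (lam := 1 + 2 * d) (by linarith) _).1,
    ← Real.exp_add]
  congr 1
  field_simp
  ring

lemma integral_column_product {ω : ℝ → ℝ} (hω : Integrable ω gam1) (n : ℕ) {c : ℝ} (hc : 0 ≤ c)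
    (M : ℕ) : ∀ s : Fin n → ℝ,
      ∫ g : Fin M → Fin (n + 1) → ℝ, (∏ a, ω (g a 0)) *
          Real.exp (-(c * ∑ i : Fin n, (s i + ∑ a, g a i.succ) ^ 2))
        ∂Measure.pi (fun _ => gam (Fin (n + 1))) =
      (∫ z, ω z ∂gam1) ^ M * Real.exp (-(c / (1 + 2 * c * M) * ∑ i, s i ^ 2) -
        n * (Real.log (1 + 2 * c * M) / 2)) := by
  induction M with
  | zero => intro s; simp
  | succ M ih =>
    intro s
    have e := measurePreserving_piFinSuccAbove (fun _ : Fin (M + 1) => gam (Fin (n + 1))) 0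
    set H : (Fin (n + 1) → ℝ) × (Fin M → Fin (n + 1) → ℝ) → ℝ := fun p =>
      ω (p.1 0) * ((∏ a, ω (p.2 a 0)) *
        Real.exp (-(c * ∑ i : Fin n, ((s i + p.1 i.succ) + ∑ a, p.2 a i.succ) ^ 2))) with hH
    have hHg : ∀ g : Fin (M + 1) → Fin (n + 1) → ℝ, (∏ a, ω (g a 0)) *
        Real.exp (-(c * ∑ i : Fin n, (s i + ∑ a, g a i.succ) ^ 2)) =
        H (MeasurableEquiv.piFinSuccAbove (fun _ => Fin (n + 1) → ℝ) 0 g) := fun g => by
      simp only [hH, Fin.prod_univ_succ, Fin.sum_univ_succ, MeasurableEquiv.piFinSuccAbove_apply,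
        Fin.insertNthEquiv_zero, Fin.consEquiv_symm_apply, Fin.tail]
      ring_nf
    have hev : Integrable (fun g : Fin (n + 1) → ℝ => ω (g 0)) (gam (Fin (n + 1))) :=
      (measurePreserving_eval (fun _ : Fin (n + 1) => gaussianReal 0 1) 0).integrable_comp_of_integrable hω
    have hHi : Integrable H ((gam (Fin (n + 1))).prod (Measure.pi fun _ : Fin M => gam (Fin (n + 1)))) := by
      have hbase := hev.mul_prod (Integrable.fintype_prod (μ := fun _ : Fin M => gam (Fin (n + 1)))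
        (f := fun (_ : Fin M) g => ω (g 0)) fun _ => hev)
      have hexp : Measurable fun p : (Fin (n + 1) → ℝ) × (Fin M → Fin (n + 1) → ℝ) =>
          Real.exp (-(c * ∑ i : Fin n, ((s i + p.1 i.succ) + ∑ a, p.2 a i.succ) ^ 2)) := by fun_prop
      refine (hbase.mul_bdd hexp.aestronglyMeasurable (c := 1)
        (Eventually.of_forall fun p => ?_)).congr
        (Eventually.of_forall fun p => by simp only [hH]; ring)
      rw [Real.norm_eq_abs, Real.abs_exp, Real.exp_le_one_iff, neg_nonpos]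
      positivity
    simp only [hHg]
    rw [e.integral_comp' H, integral_prod _ hHi]
    simp only [hH, integral_const_mul, ih]
    set d := c / (1 + 2 * c * M)
    have hden : 0 < 1 + 2 * c * M := by positivity
    have hd : 0 ≤ d := div_nonneg hc hden.le
    set q : Fin (n + 1) → ℝ → ℝ := Fin.cons ω fun i x => Real.exp (-(d * (s i + x) ^ 2))
    have hq : ∀ g : Fin (n + 1) → ℝ, ω (g 0) * ((∫ z, ω z ∂gam1) ^ M *
        Real.exp (-(d * ∑ i, (s i + g i.succ) ^ 2) - n * (Real.log (1 + 2 * c * M) / 2))) =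
        ((∫ z, ω z ∂gam1) ^ M * Real.exp (-(n * (Real.log (1 + 2 * c * M) / 2)))) *
          ∏ j, q j (g j) := fun g => by
      simp only [q, Fin.prod_univ_succ, Fin.cons_zero, Fin.cons_succ, ← Real.exp_sum, sub_eq_add_neg,
        Real.exp_add, Finset.sum_neg_distrib, Finset.mul_sum]
      ring
    simp only [hq]
    rw [integral_const_mul, integral_fintype_prod_eq_prod q, Fin.prod_univ_succ]
    simp only [q, Fin.cons_zero, Fin.cons_succ, integral_exp_neg_sq hd, ← Real.exp_sum]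
    rw [pow_succ, mul_assoc ((∫ z, ω z ∂gam1) ^ M), mul_assoc ((∫ z, ω z ∂gam1) ^ M),
      ← mul_assoc (Real.exp _) (∫ z, ω z ∂gam1), mul_comm (Real.exp _) (∫ z, ω z ∂gam1),
      mul_assoc (∫ z, ω z ∂gam1), ← Real.exp_add]
    congr 2
    congr 1
    have h1 : 1 + 2 * d = (1 + 2 * c * (M + 1 : ℕ)) / (1 + 2 * c * M) := by
      simp only [d]; push_cast; field_simp; ring
    have h2 : d / (1 + 2 * d) = c / (1 + 2 * c * (M + 1 : ℕ)) := by
      rw [h1]; simp only [d]; push_cast; field_simp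
    rw [h2, h1, Real.log_div (by positivity) hden.ne', Finset.sum_sub_distrib, Finset.sum_const,
      Finset.card_univ, Fintype.card_fin, nsmul_eq_mul, Finset.sum_neg_distrib, ← Finset.mul_sum]
    ring

lemma column_sq (n M : ℕ) (i : Fin (n + 1)) :
    Integrable (fun g : Fin M → Fin (n + 1) → ℝ => (∑ a, g a i) ^ 2)
        (Measure.pi fun _ => gam (Fin (n + 1))) ∧
      ∫ g : Fin M → Fin (n + 1) → ℝ, (∑ a, g a i) ^ 2
        ∂Measure.pi (fun _ => gam (Fin (n + 1))) = M := by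
  have hm := measurePreserving_pi (fun _ : Fin M => gam (Fin (n + 1))) (fun _ : Fin M => gam1)
    (f := fun _ (g : Fin (n + 1) → ℝ) => g i)
    fun _ => measurePreserving_eval (fun _ : Fin (n + 1) => gaussianReal 0 1) i
  have e : ∀ x : Fin M → ℝ, (∑ a, x a) ^ 2 = dot x (fun _ => 1) ^ 2 := fun x => by simp [dot]
  have hint : Integrable (fun x : Fin M → ℝ => (∑ a, x a) ^ 2) (gam (Fin M)) :=
    (memLp_finsetSum _ fun a _ => (IsGaussian.memLp_two_id (μ := gaussianReal 0 1)).comp_measurePreserving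
      (measurePreserving_eval _ a)).integrable_sq
  refine ⟨hm.integrable_comp_of_integrable hint, ?_⟩
  have h := integral_map (μ := Measure.pi fun _ : Fin M => gam (Fin (n + 1)))
    hm.measurable.aemeasurable (f := fun x : Fin M → ℝ => (∑ a, x a) ^ 2)
    (by fun_prop : Measurable fun x : Fin M → ℝ => (∑ a, x a) ^ 2).aestronglyMeasurable
  rw [hm.map_eq] at h
  rw [← h]
  simp only [e, integral_dot_sq]
  simp

lemma sum_refl (w : ι → ℝ) {M : ℕ} (g : Fin M → ι → ℝ) (i : ι) :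
    ∑ a, refl w (g a) i = refl w (fun j => ∑ a, g a j) i := by
  simp only [refl, dot, Finset.sum_sub_distrib, ← Finset.sum_mul, ← Finset.sum_div, ← Finset.mul_sum]
  rw [Finset.sum_comm]
  simp only [Finset.sum_mul]

lemma linear_tilt_le {f : ℝ → ℝ} {K : ℝ} (hf : Measurable f) (hb : ∀ z, |f z| ≤ K) {b : ℝ}
    (hb1 : |b| ≤ 1) :
    Integrable (fun z => Real.exp (f z) * Real.exp (b * z)) gam1 ∧
      ∫ z, Real.exp (f z) * Real.exp (b * z) ∂gam1 ≤ ∫ z, Real.exp (f z) ∂gam1 +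
        b * (∫ z, z * Real.exp (f z) ∂gam1) + 5 * b ^ 2 * (Real.exp K * ∫ z, env z ∂gam1) := by
  have hpt : ∀ z, Real.exp (b * z) ≤ 1 + b * z + 5 * b ^ 2 * env z := fun z => by
    have hbz : |b * z| ≤ |z| := by rw [abs_mul]; exact mul_le_of_le_one_left (abs_nonneg z) hb1
    have h3 := (abs_le.1 (abs_exp_third (b * z))).2
    have hz := abs_nonneg z
    have q1 : 1 ≤ Real.exp (|z| + 1) := Real.one_le_exp (by positivity)
    have q2 : Real.exp |b * z| ≤ Real.exp (|z| + 1) := Real.exp_le_exp.2 (by linarith)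
    have q3 : |b * z| ^ 3 = b ^ 2 * z ^ 2 * |b * z| := by rw [pow_succ, sq_abs, mul_pow]
    have q4 := mul_le_mul hbz q2 (Real.exp_pos _).le hz
    have q5 := mul_le_mul_of_nonneg_left q4 (show 0 ≤ 4 * (b ^ 2 * z ^ 2) by positivity)
    have p1 : z ^ 2 * |z| ≤ (|z| + 1) ^ 4 := by
      calc z ^ 2 * |z| = |z| ^ 3 := by rw [pow_succ |z| 2, sq_abs]
        _ ≤ (|z| + 1) ^ 3 := pow_le_pow_left₀ hz (by linarith) 3
        _ ≤ _ := pow_le_pow_right₀ (by linarith) (by norm_num)
    have p2 := mul_le_mul_of_nonneg_right p1 (Real.exp_pos (|z| + 1)).le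
    have p3 : z ^ 2 ≤ env z := le_trans (by linarith) (sq_le_env z)
    have p4 := mul_le_mul_of_nonneg_left p2 (show 0 ≤ 4 * b ^ 2 by positivity)
    have p5 := mul_le_mul_of_nonneg_left p3 (sq_nonneg b)
    have : 0 ≤ b ^ 2 * env z := mul_nonneg (sq_nonneg b) (env_nonneg z)
    unfold env at *
    rw [q3] at h3
    nlinarith
  have i0 : Integrable (fun z => Real.exp (f z)) gam1 := integrable_exp_of_abs_le hf hb
  have i1 : Integrable (fun z => z * Real.exp (f z)) gam1 := by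
    refine integrable_of_env (measurable_id.mul hf.exp) (C := Real.exp K) fun z => ?_
    rw [abs_mul, Real.abs_exp, mul_comm]
    exact mul_le_mul (Real.exp_le_exp.2 ((le_abs_self _).trans (hb z)))
      (le_trans (le_add_of_nonneg_right zero_le_one) (abs_id_le_env z)) (abs_nonneg _) (Real.exp_pos _).le
  have ib : Integrable (fun z => Real.exp (f z) * Real.exp (b * z)) gam1 := by
    refine integrable_of_env (hf.exp.mul (by fun_prop)) (C := Real.exp K) fun z => ?_
    rw [abs_mul, Real.abs_exp, Real.abs_exp]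
    refine mul_le_mul (Real.exp_le_exp.2 ((le_abs_self _).trans (hb z))) ?_ (Real.exp_pos _).le
      (Real.exp_pos _).le
    refine le_trans (Real.exp_le_exp.2 ?_)
      (le_mul_of_one_le_left (Real.exp_pos (|z| + 1)).le (one_le_pow₀ (by linarith [abs_nonneg z])))
    refine (le_abs_self _).trans ?_
    rw [abs_mul]
    nlinarith [abs_nonneg z, mul_le_of_le_one_left (abs_nonneg z) hb1]
  refine ⟨ib, ?_⟩
  have hi := (i0.fun_add (i1.const_mul b)).fun_add (integrable_env.const_mul (5 * b ^ 2 * Real.exp K))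
  refine (integral_mono ib hi fun z => ?_).trans_eq ?_
  · have hK : Real.exp (f z) ≤ Real.exp K := Real.exp_le_exp.2 ((le_abs_self _).trans (hb z))
    have h1 := mul_le_mul_of_nonneg_left (hpt z) (Real.exp_pos (f z)).le
    have h2 := mul_le_mul_of_nonneg_right hK (show 0 ≤ 5 * b ^ 2 * env z by
      have := env_nonneg z; positivity)
    linarith
  · rw [integral_add (i0.fun_add (i1.const_mul b)) (integrable_env.const_mul _),
      integral_add i0 (i1.const_mul b), integral_const_mul, integral_const_mul]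
    ring

lemma planted_linear_le {f : ℝ → ℝ} {K : ℝ} (hf : Measurable f) (hb : ∀ z, |f z| ≤ K) {n M : ℕ}
    (hM : 0 < M) {l μ : ℝ} (hl : 0 < l) (hlμ : 2 * l * |μ| ≤ 1) {y : Fin (n + 1) → ℝ}
    (hy : ∀ i, y i ≠ 0) :
    ∫ g : Fin M → Fin (n + 1) → ℝ, Real.exp (∑ a, term f dir (g a) y) *
        Real.exp (-(l / M * ∑ i, (∑ a, g a i) ^ 2))
      ∂Measure.pi (fun _ => gam (Fin (n + 1))) ≤
    Real.exp (l * μ ^ 2 * M) *
      ((∫ z, Real.exp (f z) * Real.exp (-(2 * l * μ) * z) ∂gam1) ^ M *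
        Real.exp (-(n * (Real.log (1 + 2 * l) / 2)))) := by
  have hMr : (0 : ℝ) < M := by exact_mod_cast hM
  obtain ⟨c, hc⟩ : ∃ c, c = l / M := ⟨_, rfl⟩
  have hc0 : 0 < c := hc ▸ div_pos hl hMr
  have e1 : c * (M : ℝ) = l := by rw [hc]; field_simp
  rw [← hc]
  obtain ⟨w, hw⟩ := exists_rotation (sum_dir_sq_of_ne (Nat.succ_pos n) hy) (0 : Fin (n + 1))
  have hR := measurePreserving_pi (fun _ : Fin M => gam (Fin (n + 1)))
    (fun _ : Fin M => gam (Fin (n + 1))) (f := fun _ => refl w) fun _ => measurePreserving_refl w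
  set S : (Fin M → Fin (n + 1) → ℝ) → ℝ := fun g =>
    (∏ a, Real.exp (f (g a 0))) * Real.exp (-(c * ∑ i, (∑ a, g a i) ^ 2))
  have hSm : Measurable S :=
    (Finset.measurable_prod _ fun a _ => (hf.comp (by fun_prop)).exp).mul
      ((by fun_prop : Measurable fun g : Fin M → Fin (n + 1) → ℝ => -(c * ∑ i, (∑ a, g a i) ^ 2))).exp
  have hrot : ∀ g : Fin M → Fin (n + 1) → ℝ, Real.exp (∑ a, term f dir (g a) y) *
      Real.exp (-(c * ∑ i, (∑ a, g a i) ^ 2)) = S (fun a => refl w (g a)) := fun g => by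
    simp only [S, term, hw, Real.exp_sum, sum_refl, sum_refl_sq]
  simp only [hrot]
  rw [← integral_map (μ := Measure.pi fun _ : Fin M => gam (Fin (n + 1))) (f := S)
    hR.measurable.aemeasurable hSm.aestronglyMeasurable, hR.map_eq]
  have hb1 : |-(2 * l * μ)| ≤ 1 := by
    rwa [abs_neg, abs_mul, abs_mul, abs_two, abs_of_pos hl]
  obtain ⟨hωi, -⟩ := linear_tilt_le hf hb hb1
  set ω : ℝ → ℝ := fun z => Real.exp (f z) * Real.exp (-(2 * l * μ) * z) with hωdef
  have hexpm : Measurable fun g : Fin M → Fin (n + 1) → ℝ =>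
      Real.exp (-(c * ∑ i : Fin n, ((0 : ℝ) + ∑ a, g a i.succ) ^ 2)) := by fun_prop
  have hprodi : Integrable (fun g : Fin M → Fin (n + 1) → ℝ => (∏ a, ω (g a 0)) *
      Real.exp (-(c * ∑ i : Fin n, ((0 : ℝ) + ∑ a, g a i.succ) ^ 2)))
      (Measure.pi fun _ => gam (Fin (n + 1))) := by
    refine (Integrable.fintype_prod (μ := fun _ : Fin M => gam (Fin (n + 1)))
      (f := fun (_ : Fin M) g => ω (g 0)) fun _ =>
      (measurePreserving_eval (fun _ : Fin (n + 1) => gaussianReal 0 1) 0).integrable_comp_of_integrable hωi).mul_bdd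
      hexpm.aestronglyMeasurable (c := 1) (Eventually.of_forall fun g => ?_)
    rw [Real.norm_eq_abs, Real.abs_exp, Real.exp_le_one_iff, neg_nonpos]
    positivity
  have hpt : ∀ g : Fin M → Fin (n + 1) → ℝ, S g ≤ Real.exp (l * μ ^ 2 * M) *
      ((∏ a, ω (g a 0)) * Real.exp (-(c * ∑ i : Fin n, ((0 : ℝ) + ∑ a, g a i.succ) ^ 2))) := fun g => by
    simp only [S, hωdef, zero_add, Fin.sum_univ_succ (n := n)]
    rw [Finset.prod_mul_distrib, ← Real.exp_sum _ (fun a => -(2 * l * μ) * g a 0), ← Finset.mul_sum,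
      mul_assoc (∏ a, Real.exp (f (g a 0))), mul_left_comm (Real.exp (l * μ ^ 2 * M))]
    refine mul_le_mul_of_nonneg_left ?_ (Finset.prod_nonneg fun a _ => (Real.exp_pos _).le)
    rw [← Real.exp_add, ← Real.exp_add, Real.exp_le_exp]
    set v := ∑ a, g a 0
    have h : 0 ≤ c * (v - M * μ) ^ 2 := by positivity
    have e : c * (v - M * μ) ^ 2 = c * v ^ 2 - 2 * l * μ * v + l * μ ^ 2 * M := by rw [← e1]; ring
    linarith
  refine (integral_mono_of_nonneg (Eventually.of_forall fun g => mul_nonneg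
    (Finset.prod_nonneg fun a _ => (Real.exp_pos _).le) (Real.exp_pos _).le)
    (hprodi.const_mul _) (Eventually.of_forall hpt)).trans_eq ?_
  rw [integral_const_mul, integral_column_product hωi n hc0.le M fun _ => 0]
  simp [show 2 * c * (M : ℝ) = 2 * l by rw [mul_assoc, e1]]

/-- Linear test. -/
theorem exists_gap_of_mean_ne_zero {ρ : Measure ℝ} [IsProbabilityMeasure ρ] (hρ0 : ρ {0} = 0)
    {f : ℝ → ℝ} {K α : ℝ} (hf : Measurable f) (hb : ∀ z, |f z| ≤ K) (hα : 0 < α)
    (hμ : ∫ z, z * Real.exp (f z) ∂gam1 ≠ 0) :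
    ∃ δ > 0, ∀ᶠ N : ℕ in atTop, logPart ρ f (Fin N) ⌊α * N⌋₊ / N ≤
      (⌊α * (N : ℝ)⌋₊ : ℝ) / N * Real.log (∫ z, Real.exp (f z) ∂gam1) - δ := by
  set a := ∫ z, Real.exp (f z) ∂gam1
  have ha : 0 < a := (Real.exp_pos _).trans_le (integral_exp_mem (π := gam1) hf hb).1
  obtain ⟨μ, hμdef⟩ : ∃ μ, μ = (∫ z, z * Real.exp (f z) ∂gam1) / a := ⟨_, rfl⟩
  have hμ0 : μ ≠ 0 := hμdef ▸ div_ne_zero hμ ha.ne'
  have hμ2 : 0 < μ ^ 2 := by positivity
  set C := Real.exp K * (∫ z, env z ∂gam1) / a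
  have hC : 0 ≤ C := div_nonneg (mul_nonneg (Real.exp_pos _).le (integral_nonneg env_nonneg)) ha.le
  obtain ⟨l, hl0, hl1, hl2, hl3⟩ : ∃ l : ℝ, 0 < l ∧ 2 * l * |μ| ≤ 1 ∧ 20 * l * C ≤ 1 / 2 ∧
      l ≤ μ ^ 2 * α / 16 := by
    obtain ⟨l, hldef⟩ : ∃ l, l = min (1 / (2 * (|μ| + 1))) (min (1 / (40 * (C + 1))) (μ ^ 2 * α / 16)) :=
      ⟨_, rfl⟩
    have hl0 : 0 < l := hldef ▸ by positivity
    have t1 : l * (2 * (|μ| + 1)) ≤ 1 := (le_div_iff₀ (by positivity)).1 (hldef ▸ min_le_left _ _)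
    have t2 : l * (40 * (C + 1)) ≤ 1 :=
      (le_div_iff₀ (by positivity)).1 (hldef ▸ (min_le_right _ _).trans (min_le_left _ _))
    exact ⟨l, hl0, by linarith, by linarith, hldef ▸ (min_le_right _ _).trans (min_le_right _ _)⟩
  refine ⟨l * μ ^ 2 * α / 16, by positivity, ?_⟩
  have hM : ∀ᶠ N : ℕ in atTop, α / 2 ≤ (⌊α * (N : ℝ)⌋₊ : ℝ) / N :=
    (tendsto_floor_div α hα.le).eventually (le_mem_nhds (half_lt_self hα))
  have hsmall : ∀ᶠ N : ℕ in atTop, 2 * l / (N : ℝ) ≤ l * μ ^ 2 * α / 16 :=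
    (tendsto_const_div_atTop_nhds_zero_nat (2 * l)).eventually (ge_mem_nhds (by positivity))
  filter_upwards [hM, hsmall, eventually_gt_atTop 0, eventually_floor_pos hα] with N hMN hsN hN hMpos
  obtain ⟨n, rfl⟩ : ∃ n, N = n + 1 := ⟨N - 1, by omega⟩
  generalize hMg : ⌊α * ((n + 1 : ℕ) : ℝ)⌋₊ = M at hMN hMpos ⊢
  have hMr : (0 : ℝ) < M := by exact_mod_cast hMpos
  have hne : ∀ᵐ y ∂(Measure.pi fun _ : Fin (n + 1) => ρ), ∀ i, y i ≠ 0 := by
    rw [ae_all_iff]
    intro i
    have h0 : ∀ᵐ x ∂ρ, x ≠ 0 := by rw [ae_iff]; simpa using hρ0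
    exact (measurePreserving_eval (fun _ : Fin (n + 1) => ρ) i).quasiMeasurePreserving.ae h0
  have hΦ := Phi_le_test (nice_term hf hb (measurable_dir (ι := Fin (n + 1))))
    (π := Measure.pi fun _ : Fin (n + 1) => ρ) (P := gam (Fin (n + 1))) (M := M)
    (T := fun g => l / M * ∑ i, (∑ a, g a i) ^ 2) (B := 0)
    (E := M * (Real.log a - l * μ ^ 2 + 20 * l ^ 2 * μ ^ 2 * C) - n * (Real.log (1 + 2 * l) / 2))
    (by fun_prop) (fun g => by rw [neg_zero]; positivity)
    ((integrable_finsetSum _ fun i _ => (column_sq n M i).1).const_mul _) (by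
      filter_upwards [hne] with y hy
      refine (planted_linear_le hf hb hMpos hl0 hl1 hy).trans ?_
      have hb1 : |-(2 * l * μ)| ≤ 1 := by
        rwa [abs_neg, abs_mul, abs_mul, abs_two, abs_of_pos hl0]
      have htilt := (linear_tilt_le hf hb hb1).2
      have hle : ∫ z, Real.exp (f z) * Real.exp (-(2 * l * μ) * z) ∂gam1 ≤
          a * Real.exp (-(2 * l * μ ^ 2) + 20 * l ^ 2 * μ ^ 2 * C) := by
        refine htilt.trans ?_
        have h := mul_le_mul_of_nonneg_left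
          (Real.add_one_le_exp (-(2 * l * μ ^ 2) + 20 * l ^ 2 * μ ^ 2 * C)) ha.le
        refine le_trans (le_of_eq ?_) h
        have e1 : ∫ z, z * Real.exp (f z) ∂gam1 = μ * a := by rw [hμdef]; field_simp
        have e2 : Real.exp K * ∫ z, env z ∂gam1 = C * a := by simp only [C]; field_simp
        rw [e1, e2]; ring
      have hp : 0 ≤ ∫ z, Real.exp (f z) * Real.exp (-(2 * l * μ) * z) ∂gam1 :=
        integral_nonneg fun z => by positivity
      refine (mul_le_mul_of_nonneg_left (mul_le_mul_of_nonneg_right (pow_le_pow_left₀ hp hle M)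
        (Real.exp_pos _).le) (Real.exp_pos _).le).trans (le_of_eq ?_)
      rw [mul_pow, ← Real.exp_nat_mul, show a ^ M = Real.exp (M * Real.log a) by
        rw [Real.exp_nat_mul, Real.exp_log ha], ← Real.exp_add, ← Real.exp_add, ← Real.exp_add]
      congr 1
      ring)
  rw [integral_const_mul, integral_finsetSum _ fun i _ => (column_sq n M i).1] at hΦ
  simp only [fun i => (column_sq n M i).2, Finset.sum_const, Finset.card_univ, Fintype.card_fin,
    nsmul_eq_mul] at hΦ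
  have hlog : 2 * l - 4 * l ^ 2 ≤ Real.log (1 + 2 * l) := by
    refine le_trans ?_ (Real.one_sub_inv_le_log_of_pos (show 0 < 1 + 2 * l by linarith))
    have h : (1 + 2 * l)⁻¹ ≤ 1 - 2 * l + 4 * l ^ 2 := by
      rw [inv_le_iff_one_le_mul₀ (by linarith)]
      linarith [pow_pos hl0 3]
    linarith
  unfold logPart
  rw [div_le_iff₀ (by positivity)]
  refine hΦ.trans ?_
  have hN' : (0 : ℝ) < ((n + 1 : ℕ) : ℝ) := by positivity
  rw [div_le_iff₀ hN'] at hsN
  rw [le_div_iff₀ hN'] at hMN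
  have e : l / (M : ℝ) * (((n + 1 : ℕ) : ℝ) * M) = l * ((n + 1 : ℕ) : ℝ) := by field_simp
  rw [e, sub_mul, mul_comm ((M : ℝ) / _) _, mul_assoc (Real.log a), div_mul_cancel₀ _ hN'.ne']
  push_cast at hsN hMN ⊢
  have g1 := mul_le_mul_of_nonneg_left hlog (show (0 : ℝ) ≤ n / 2 by positivity)
  have g2 := mul_le_mul_of_nonneg_left hl2 (show 0 ≤ (M : ℝ) * (l * μ ^ 2) by positivity)
  have g3 := mul_le_mul_of_nonneg_left hMN (show 0 ≤ l * μ ^ 2 / 2 by positivity)
  have g4 := mul_le_mul_of_nonneg_left hl3 (show 0 ≤ 2 * l * ((n : ℝ) + 1) by positivity)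
  linarith [sq_nonneg l]

end Vale.Agent.P157
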