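import Mathlib
import Vale.Agent.P157.TestLinear
import Vale.Agent.P157.TestCap
import Vale.Agent.P157.Centered

/-!
The set of densities at which the annealed formula holds.
-/

noncomputable section

open MeasureTheory ProbabilityTheory Filter
open scoped Topology

namespace Vale.Agent.P157

variable {ρ : Measure ℝ} [IsProbabilityMeasure ρ] {f : ℝ → ℝ} {K : ℝ}

/-- Downward closedness, closedness, and boundedness give a threshold. -/
theorem exists_threshold_aux (hρ0 : ρ {0} = 0) (hcap : Capped ρ) (hf : Measurable f)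
    (hb : ∀ z, |f z| ≤ K) (hnc : ¬ ∃ c, f =ᵐ[gam1] fun _ => c) {α₀ : ℝ} (hα₀ : 0 < α₀)
    (h0 : ∀ α, 0 < α → α ≤ α₀ → Tendsto (fun N : ℕ => logPart ρ f (Fin N) ⌊α * N⌋₊ / N) atTop
      (𝓝 (α * Real.log (∫ z, Real.exp (f z) ∂gam1)))) :
    ∃ αc > (0 : ℝ), ∀ α : ℝ, 0 < α →
      (Tendsto (fun N : ℕ => logPart ρ f (Fin N) ⌊α * N⌋₊ / N) atTop
        (𝓝 (α * Real.log (∫ z, Real.exp (f z) ∂gam1))) ↔ α ≤ αc) := by
  set a := Real.log (∫ z, Real.exp (f z) ∂gam1)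
  have hK : 0 ≤ K := (abs_nonneg _).trans (hb 0)
  set G : ℝ → ℕ → ℝ := fun α N => (⌊α * (N : ℝ)⌋₊ : ℝ) / N * a - logPart ρ f (Fin N) ⌊α * N⌋₊ / N
  have hne : ∀ N : ℕ, ∀ᵐ y ∂(Measure.pi fun _ : Fin N => ρ), ∀ i, y i ≠ 0 := fun N => by
    rw [ae_all_iff]
    intro i
    have hz : ∀ᵐ x ∂ρ, x ≠ 0 := by rw [ae_iff]; simpa using hρ0
    exact (measurePreserving_eval (fun _ : Fin N => ρ) i).quasiMeasurePreserving.ae hz
  have hmono : ∀ (N : ℕ) (M d : ℕ), 0 < N →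
      (M : ℝ) * a - logPart ρ f (Fin N) M ≤ ((M + d : ℕ) : ℝ) * a - logPart ρ f (Fin N) (M + d) := by
    intro N M d hN
    have h := Phi_le_add (P := gam (Fin N)) (nice_term hf hb (measurable_dir (ι := Fin N)))
      (π := Measure.pi fun _ : Fin N => ρ) (term_mean_le hf hb hN (hne N)) M d
    unfold logPart
    push_cast
    linarith
  have hG0 : ∀ α (N : ℕ), 0 < N → 0 ≤ G α N := fun α N hN => by
    simp only [G]
    rw [div_mul_eq_mul_div, ← sub_div]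
    exact div_nonneg (sub_nonneg.2 (Phi_term_le_annealed hf hb hN (hne N) _).2) (Nat.cast_nonneg N)
  have hGmono : ∀ α β (N : ℕ), α ≤ β → 0 < N → G α N ≤ G β N := fun α β N hαβ hN => by
    have hle : ⌊α * (N : ℝ)⌋₊ ≤ ⌊β * (N : ℝ)⌋₊ :=
      Nat.floor_le_floor (mul_le_mul_of_nonneg_right hαβ (Nat.cast_nonneg N))
    obtain ⟨d, hd⟩ := Nat.exists_eq_add_of_le hle
    simp only [G, hd]
    rw [div_mul_eq_mul_div, ← sub_div, div_mul_eq_mul_div, ← sub_div]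
    exact div_le_div_of_nonneg_right (hmono N _ d hN) (Nat.cast_nonneg N)
  have hiff : ∀ α : ℝ, 0 ≤ α → (Tendsto (fun N : ℕ => logPart ρ f (Fin N) ⌊α * N⌋₊ / N) atTop (𝓝 (α * a)) ↔
      Tendsto (G α) atTop (𝓝 0)) := fun α hα => by
    have hfl := (tendsto_floor_div α hα).mul_const a
    constructor
    · intro h; simpa [G] using hfl.sub h
    · intro h
      have := hfl.sub h
      simpa [G] using this
  set S := {α : ℝ | 0 < α ∧ Tendsto (G α) atTop (𝓝 0)}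
  have hdown : ∀ α β, 0 < α → α ≤ β → Tendsto (G β) atTop (𝓝 0) → Tendsto (G α) atTop (𝓝 0) :=
    fun α β hα hαβ h => squeeze_zero' ((eventually_gt_atTop 0).mono fun N hN => hG0 α N hN)
      ((eventually_gt_atTop 0).mono fun N hN => hGmono α β N hαβ hN) h
  have hα₀S : α₀ ∈ S := ⟨hα₀, (hiff α₀ hα₀.le).1 (h0 α₀ hα₀ le_rfl)⟩
  obtain ⟨α₁, hα₁, hlarge⟩ := exists_gap_large hcap hf hb hnc
  have hbdd : ∀ α ∈ S, α ≤ α₁ := by
    intro α hα
    by_contra hcon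
    obtain ⟨δ, hδ, hev⟩ := hlarge α (not_le.1 hcon).le
    have hlim : ∀ᶠ N : ℕ in atTop, G α N < δ := hα.2.eventually (gt_mem_nhds hδ)
    obtain ⟨N, h1, h2⟩ := (hev.and hlim).exists
    simp only [G] at h2
    linarith
  set αc := sSup S
  have hcb : BddAbove S := ⟨α₁, hbdd⟩
  have hαc : α₀ ≤ αc := le_csSup hcb hα₀S
  have hcpos : 0 < αc := lt_of_lt_of_le hα₀ hαc
  refine ⟨αc, hcpos, fun α hα => ⟨fun h => le_csSup hcb ⟨hα, (hiff α hα.le).1 h⟩, fun h => ?_⟩⟩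
  refine (hiff α hα.le).2 (hdown α αc hα h ?_)
  rw [Metric.tendsto_atTop]
  intro ε hε
  obtain ⟨β, hβS, hβ⟩ := exists_lt_of_lt_csSup ⟨α₀, hα₀S⟩
    (show αc - ε / (4 * (K + |a| + 1)) < αc by
      have : 0 < ε / (4 * (K + |a| + 1)) := by positivity
      linarith)
  have hev : ∀ᶠ N : ℕ in atTop, G β N < ε / 4 ∧ (K + |a|) / N < ε / 4 ∧ 0 < N :=
    (hβS.2.eventually (gt_mem_nhds (by positivity))).and
      (((tendsto_const_div_atTop_nhds_zero_nat (K + |a|)).eventually (gt_mem_nhds (by positivity))).and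
        (eventually_gt_atTop 0))
  obtain ⟨N₀, hN₀⟩ := eventually_atTop.1 hev
  refine ⟨N₀, fun N hN => ?_⟩
  obtain ⟨h1, h2, hN'⟩ := hN₀ N hN
  rw [Real.dist_eq, sub_zero, abs_of_nonneg (hG0 αc N hN')]
  have hNr : (0 : ℝ) < N := by exact_mod_cast hN'
  have hβc : β ≤ αc := le_csSup hcb hβS
  obtain ⟨d, hd⟩ := Nat.exists_eq_add_of_le
    (Nat.floor_le_floor (mul_le_mul_of_nonneg_right hβc (Nat.cast_nonneg N)) :
      ⌊β * (N : ℝ)⌋₊ ≤ ⌊αc * (N : ℝ)⌋₊)
  have hd' : (d : ℝ) ≤ (αc - β) * N + 1 := by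
    have e1 := Nat.floor_le (show 0 ≤ αc * (N : ℝ) by positivity)
    have e2 := Nat.lt_floor_add_one (β * (N : ℝ))
    rw [hd] at e1
    push_cast at e1
    linarith
  have hdiff : G αc N - G β N ≤ (d : ℝ) * (K + |a|) / N := by
    have h := abs_Phi_sub_le (P := gam (Fin N)) (nice_term hf hb (measurable_dir (ι := Fin N)))
      (Measure.pi fun _ : Fin N => ρ) ⌊β * (N : ℝ)⌋₊ (⌊β * (N : ℝ)⌋₊ + d)
    push_cast at h
    rw [show (⌊β * (N : ℝ)⌋₊ : ℝ) - ((⌊β * (N : ℝ)⌋₊ : ℝ) + d) = -(d : ℝ) by ring, abs_neg,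
      abs_of_nonneg (show (0 : ℝ) ≤ (d : ℝ) from Nat.cast_nonneg d)] at h
    simp only [G, hd, logPart]
    push_cast
    rw [div_mul_eq_mul_div, ← sub_div, div_mul_eq_mul_div, ← sub_div, ← sub_div]
    refine div_le_div_of_nonneg_right ?_ (Nat.cast_nonneg N)
    have := mul_le_mul_of_nonneg_left (le_abs_self a) (Nat.cast_nonneg (α := ℝ) d)
    linarith [(abs_le.1 h).2]
  have hfin : (d : ℝ) * (K + |a|) / N ≤ (αc - β) * (K + |a|) + (K + |a|) / N := by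
    rw [div_le_iff₀ hNr, add_mul, div_mul_cancel₀ _ hNr.ne']
    have := mul_le_mul_of_nonneg_right hd' (show 0 ≤ K + |a| by positivity)
    linarith
  have hsmall : (αc - β) * (K + |a|) ≤ ε / 4 := by
    have hlt : (αc - β) ≤ ε / (4 * (K + |a| + 1)) := by linarith
    have := (le_div_iff₀ (by positivity)).1 hlt
    nlinarith
  linarith

theorem logPart_tendsto_iff {law : (N : ℕ) → Measure (Fin N → ℝ)} (hf : Measurable f) (α L : ℝ)
    (hlaw : ∀ N, 0 < N →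
      law N = (Measure.pi fun _ : Fin N => ρ).map fun y i => Real.sqrt N * dir y i) :
    Tendsto (meanPressure law α f) atTop (𝓝 L) ↔
      Tendsto (fun N : ℕ => logPart ρ f (Fin N) ⌊α * N⌋₊ / N) atTop (𝓝 L) :=
  tendsto_congr' ((eventually_gt_atTop 0).mono fun N hN => meanPressure_eq hf hN α (hlaw N hN))

theorem gap_meanPressure {law : (N : ℕ) → Measure (Fin N → ℝ)} (hρ0 : ρ {0} = 0) (hf : Measurable f)
    (hb : ∀ z, |f z| ≤ K)
    (hlaw : ∀ N, 0 < N →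
      law N = (Measure.pi fun _ : Fin N => ρ).map fun y i => Real.sqrt N * dir y i)
    (hμ : ∫ z, z * Real.exp (f z) ∂gam1 ≠ 0) {α : ℝ} (hα : 0 < α) :
    ∃ δ > 0, ∀ᶠ N : ℕ in atTop,
      meanPressure law α f N ≤ α * Real.log (∫ z, Real.exp (f z) ∂gam1) - δ := by
  set a := Real.log (∫ z, Real.exp (f z) ∂gam1)
  obtain ⟨δ, hδ, h⟩ := exists_gap_of_mean_ne_zero (ρ := ρ) hρ0 hf hb hα hμ
  refine ⟨δ / 2, by positivity, ?_⟩
  filter_upwards [h, eventually_gt_atTop 0,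
    ((tendsto_floor_div α hα.le).mul_const a).eventually
      (gt_mem_nhds (show α * a < α * a + δ / 2 by linarith))] with N h1 hN h2
  rw [meanPressure_eq hf hN α (hlaw N hN)]
  linarith

/-- The annealed region on both spaces. -/
theorem annealed_region (hf : Measurable f) (hb : ∀ z, |f z| ≤ K) :
    (∫ z, z * Real.exp (f z) ∂gaussianReal 0 1 ≠ 0 → ∀ α : ℝ, 0 < α → ∃ δ > 0, ∀ᶠ N : ℕ in atTop,
      meanPressure isingLaw α f N ≤ α * Real.log (∫ z, Real.exp (f z) ∂gaussianReal 0 1) - δ ∧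
      meanPressure sphereLaw α f N ≤ α * Real.log (∫ z, Real.exp (f z) ∂gaussianReal 0 1) - δ) ∧
    (∫ z, z * Real.exp (f z) ∂gaussianReal 0 1 = 0 →
      (¬ ∃ c, f =ᵐ[gaussianReal 0 1] fun _ => c) →
      (∃ αc > (0 : ℝ), ∀ α : ℝ, 0 < α → (Tendsto (meanPressure isingLaw α f) atTop
          (𝓝 (α * Real.log (∫ z, Real.exp (f z) ∂gaussianReal 0 1))) ↔ α ≤ αc)) ∧
      ∃ αc > (0 : ℝ), ∀ α : ℝ, 0 < α → (Tendsto (meanPressure sphereLaw α f) atTop
          (𝓝 (α * Real.log (∫ z, Real.exp (f z) ∂gaussianReal 0 1))) ↔ α ≤ αc)) := by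
  refine ⟨fun hμ α hα => ?_, fun hμ hnc => ?_⟩
  · obtain ⟨δ1, h1, e1⟩ := gap_meanPressure (ρ := rad) admissible_rad.zero hf hb
      (fun N hN => isingLaw_eq hN) hμ hα
    obtain ⟨δ2, h2, e2⟩ := gap_meanPressure (ρ := gam1) admissible_gaussian.zero hf hb
      (fun N hN => sphereLaw_eq hN) hμ hα
    refine ⟨min δ1 δ2, lt_min h1 h2, ?_⟩
    filter_upwards [e1, e2] with N a1 a2
    exact ⟨a1.trans (by linarith [min_le_left δ1 δ2]), a2.trans (by linarith [min_le_right δ1 δ2])⟩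
  · obtain ⟨α₀, hα₀, h0⟩ := exists_annealed_small hf hb hμ
    constructor
    · obtain ⟨αc, hc, h⟩ := exists_threshold_aux (ρ := rad) admissible_rad.zero capped_rad hf hb hnc hα₀
        fun α hα hle => (logPart_tendsto_iff hf α _ fun N hN => isingLaw_eq hN).1 (h0 α hα hle).1
      exact ⟨αc, hc, fun α hα => (logPart_tendsto_iff hf α _ fun N hN => isingLaw_eq hN).trans (h α hα)⟩
    · obtain ⟨αc, hc, h⟩ := exists_threshold_aux (ρ := gam1) admissible_gaussian.zero capped_gauss hf hb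
        hnc hα₀
        fun α hα hle => (logPart_tendsto_iff hf α _ fun N hN => sphereLaw_eq hN).1 (h0 α hα hle).2
      exact ⟨αc, hc, fun α hα => (logPart_tendsto_iff hf α _ fun N hN => sphereLaw_eq hN).trans (h α hα)⟩

end Vale.Agent.P157
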