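import Mathlib
import Vale.Agent.P157.Annealed
import Vale.Agent.P157.AnnealedGap

/-!
Exponential moment of the averaged quadratic statistic of a configuration law.
-/

noncomputable section

open MeasureTheory ProbabilityTheory Filter
open scoped Topology

namespace Vale.Agent.P157

variable {N : ℕ}

/-- Mean squared overlap. -/
def ovlSq (π : Measure (Fin N → ℝ)) : ℝ := ∫ p, ovl p ^ 2 ∂π.prod π

/-- Averaged second Hermite statistic. -/
def quadStat (π : Measure (Fin N → ℝ)) (g : Fin N → ℝ) : ℝ := ∫ y, (dot g (dir y) ^ 2 - 1) ∂π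

lemma exists_diag (A : Matrix (Fin N) (Fin N) ℝ) (hA : ∀ i j, A i j = A j i) :
    ∃ (e : Fin N → Fin N → ℝ) (a : Fin N → ℝ),
      (∀ k l, ∑ i, e k i * e l i = if k = l then 1 else 0) ∧
      ∀ i j, A i j = ∑ k, a k * (e k i * e k j) := by
  have hH : A.IsHermitian := Matrix.IsHermitian.ext fun i j => by simpa using hA j i
  refine ⟨fun k i => hH.eigenvectorBasis k i, hH.eigenvalues, fun k l => ?_, fun i j => ?_⟩
  · have h := hH.eigenvectorBasis.inner_eq_ite k l
    rw [PiLp.inner_apply] at h
    simpa [mul_comm] using h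
  · conv_lhs => rw [hH.spectral_theorem]
    simp only [Unitary.conjStarAlgAut_apply, Matrix.mul_apply, Matrix.diagonal_apply, mul_ite,
      mul_zero, Finset.sum_ite_eq', Finset.mem_univ, if_true, Function.comp_apply,
      RCLike.ofReal_real_eq_id, id, Matrix.star_apply, star_trivial,
      Matrix.IsHermitian.eigenvectorUnitary_apply]
    exact Finset.sum_congr rfl fun k _ => by ring

/-- Coordinates in an orthonormal basis. -/
lemma measurePreserving_coords {e : Fin N → Fin N → ℝ}
    (he : ∀ k l, ∑ i, e k i * e l i = if k = l then 1 else 0) :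
    MeasurePreserving (fun (g : Fin N → ℝ) k => dot g (e k)) (gam (Fin N)) (gam (Fin N)) := by
  set R : (Fin N → ℝ) → Fin N → ℝ := fun g k => dot g (e k)
  have hR : Measurable R := by unfold R dot; fun_prop
  refine ⟨hR, ?_⟩
  have hdot : ∀ g t : Fin N → ℝ, dot (R g) t = dot g fun i => ∑ k, t k * e k i := fun g t => by
    simp only [R, dot, Finset.sum_mul, Finset.mul_sum]
    rw [Finset.sum_comm]
    exact Finset.sum_congr rfl fun i _ => Finset.sum_congr rfl fun k _ => by ring
  have hsq : ∀ t : Fin N → ℝ, ∑ i, (∑ k, t k * e k i) ^ 2 = ∑ k, t k ^ 2 := fun t => by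
    simp only [sq, Finset.sum_mul, Finset.mul_sum]
    rw [Finset.sum_comm]
    refine Finset.sum_congr rfl fun k _ => ?_
    rw [Finset.sum_comm]
    have h1 : ∀ l, ∑ i, t l * e l i * (t k * e k i) = t l * t k * ∑ i, e l i * e k i := fun l => by
      rw [Finset.mul_sum]; exact Finset.sum_congr rfl fun i _ => by ring
    simp only [h1, he, mul_ite, mul_one, mul_zero, Finset.sum_ite_eq', Finset.mem_univ, if_true]
  have hL : (gam (Fin N)).map (fun g => WithLp.toLp 2 (R g)) = (gam (Fin N)).map (WithLp.toLp 2) := by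
    apply Measure.ext_of_charFun
    ext t
    rw [charFun_apply, charFun_apply, integral_map (by fun_prop) (by fun_prop),
      integral_map (by fun_prop) (by fun_prop)]
    have e1 : ∀ g : Fin N → ℝ, inner ℝ (WithLp.toLp 2 g) t = dot g fun i => t i := fun g => by
      simp [PiLp.inner_apply, dot, mul_comm]
    simp only [e1, hdot, integral_cexp_dot, hsq]
  have h := congrArg (Measure.map (WithLp.ofLp : EuclideanSpace ℝ (Fin N) → Fin N → ℝ)) hL
  rw [Measure.map_map (WithLp.measurable_ofLp 2 _) (by fun_prop),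
    Measure.map_map (WithLp.measurable_ofLp 2 _) (by fun_prop)] at h
  exact h.trans Measure.map_id

lemma exp_square_le {x : ℝ} (hx : |x| ≤ 1 / 2) :
    Integrable (fun z => Real.exp (x / 2 * (z ^ 2 - 1))) gam1 ∧
      ∫ z, Real.exp (x / 2 * (z ^ 2 - 1)) ∂gam1 ≤ Real.exp (x ^ 2 / 4 * (1 + 4 * |x|)) := by
  have hx1 : x < 1 := by linarith [le_abs_self x]
  have e : ∀ z : ℝ, Real.exp (x / 2 * (z ^ 2 - 1)) =
      Real.exp (-(x / 2)) * Real.exp (0 * z + (1 - (1 - x)) * z ^ 2 / 2) := fun z => by
    rw [← Real.exp_add]; congr 1; ring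
  obtain ⟨hv, hi⟩ := integral_exp_linear_quadratic (lam := 1 - x) (by linarith) 0
  refine ⟨by simp only [e]; exact hi.const_mul _, ?_⟩
  simp only [e]
  rw [integral_const_mul, hv, ← Real.exp_add, Real.exp_le_exp, show (0 : ℝ) ^ 2 = 0 by norm_num,
    zero_div]
  have h := Real.abs_log_sub_add_sum_range_le (x := x) (by linarith) 2
  simp only [Finset.sum_range_succ, Finset.sum_range_zero, zero_add] at h
  norm_num at h
  have h' := (abs_le.1 h).1
  have h3 : |x| ^ 3 / (1 - |x|) ≤ 2 * (x ^ 2 * |x|) := by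
    rw [div_le_iff₀ (by linarith), pow_succ, sq_abs]
    nlinarith [mul_nonneg (sq_nonneg x) (abs_nonneg x)]
  linarith

variable {π : Measure (Fin N → ℝ)} [IsProbabilityMeasure π]

/-- Exponential moment of the quadratic statistic. -/
theorem exp_quadStat_le (hN : 0 < N) (hne : ∀ᵐ y ∂π, ∀ i, y i ≠ 0) {ε : ℝ}
    (hε : 4 * |ε| * Real.sqrt (ovlSq π) ≤ 1) :
    Integrable (fun g => Real.exp (ε * quadStat π g)) (gam (Fin N)) ∧
      ∫ g, Real.exp (ε * quadStat π g) ∂gam (Fin N) ≤
        Real.exp (ε ^ 2 * ovlSq π * (1 + 8 * |ε| * Real.sqrt (ovlSq π))) := by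
  have hdm : ∀ i : Fin N, Measurable fun y : Fin N → ℝ => dir y i := fun i =>
    (measurable_pi_apply i).comp measurable_dir
  set A : Matrix (Fin N) (Fin N) ℝ := fun i j => ∫ y, dir y i * dir y j ∂π with hAdef
  have hAi : ∀ i j, Integrable (fun y => dir y i * dir y j) π := fun i j =>
    integrable_of_abs_le (K := 1) ((hdm i).mul (hdm j)) fun y => by
      rw [abs_mul]
      exact mul_le_one₀ (abs_dir_le y i) (abs_nonneg _) (abs_dir_le y j)
  have htr : ∑ i, A i i = 1 := by
    simp only [hAdef]
    rw [← integral_finsetSum _ fun i _ => hAi i i]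
    calc ∫ y, ∑ i, dir y i * dir y i ∂π = ∫ _, (1 : ℝ) ∂π := integral_congr_ae <| by
          filter_upwards [hne] with y hy
          simpa [sq] using sum_dir_sq_of_ne hN hy
      _ = 1 := by simp
  have hT : ovlSq π = ∑ i, ∑ j, A i j ^ 2 := by
    have e : ∀ p : (Fin N → ℝ) × (Fin N → ℝ), ovl p ^ 2 =
        ∑ i, ∑ j, dir p.1 i * dir p.1 j * (dir p.2 i * dir p.2 j) := fun p => by
      rw [ovl, dot, sq, Finset.sum_mul_sum]
      exact Finset.sum_congr rfl fun i _ => Finset.sum_congr rfl fun j _ => by ring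
    simp only [ovlSq, e]
    rw [integral_finsetSum _ fun i _ => integrable_finsetSum _ fun j _ => (hAi i j).mul_prod (hAi i j)]
    refine Finset.sum_congr rfl fun i _ => ?_
    rw [integral_finsetSum _ fun j _ => (hAi i j).mul_prod (hAi i j)]
    refine Finset.sum_congr rfl fun j _ => ?_
    rw [integral_prod_mul (fun y => dir y i * dir y j) (fun y => dir y i * dir y j), sq]
  obtain ⟨e, a, he, hA⟩ := exists_diag A fun i j => by simp only [hAdef, mul_comm]
  have quad : ∀ w : Fin N → ℝ, ∑ i, ∑ j, w i * w j * A i j = ∑ k, a k * dot w (e k) ^ 2 := fun w => by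
    calc ∑ i, ∑ j, w i * w j * A i j = ∑ i, ∑ j, ∑ k, a k * ((w i * e k i) * (w j * e k j)) := by
          refine Finset.sum_congr rfl fun i _ => Finset.sum_congr rfl fun j _ => ?_
          rw [hA, Finset.mul_sum]
          exact Finset.sum_congr rfl fun k _ => by ring
      _ = ∑ k, ∑ i, ∑ j, a k * ((w i * e k i) * (w j * e k j)) := by
          rw [Finset.sum_comm (γ := Fin N)]
          refine (Finset.sum_congr rfl fun i _ => Finset.sum_comm).trans ?_
          rw [Finset.sum_comm]
          exact Finset.sum_congr rfl fun k _ => Finset.sum_comm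
      _ = _ := Finset.sum_congr rfl fun k _ => by
          rw [dot, sq, Finset.sum_mul_sum, Finset.mul_sum]
          exact Finset.sum_congr rfl fun i _ => (Finset.mul_sum _ _ _).symm
  have hQ : ∀ g, quadStat π g = ∑ k, a k * (dot g (e k) ^ 2 - 1) := fun g => by
    have h1 : ∀ y : Fin N → ℝ, dot g (dir y) ^ 2 = ∑ i, ∑ j, g i * g j * (dir y i * dir y j) := fun y => by
      rw [dot, sq, Finset.sum_mul_sum]
      exact Finset.sum_congr rfl fun i _ => Finset.sum_congr rfl fun j _ => by ring
    have hi : ∀ i j, Integrable (fun y => g i * g j * (dir y i * dir y j)) π := fun i j =>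
      (hAi i j).const_mul _
    have h2 : ∫ y, dot g (dir y) ^ 2 ∂π = ∑ i, ∑ j, g i * g j * A i j := by
      simp only [h1]
      rw [integral_finsetSum _ fun i _ => integrable_finsetSum _ fun j _ => hi i j]
      refine Finset.sum_congr rfl fun i _ => ?_
      rw [integral_finsetSum _ fun j _ => hi i j]
      exact Finset.sum_congr rfl fun j _ => by rw [integral_const_mul]
    have hsum : ∑ k, a k = 1 := by
      calc ∑ k, a k = ∑ k, a k * ∑ i, e k i * e k i := by simp only [he, if_true, mul_one]
        _ = ∑ i, ∑ k, a k * (e k i * e k i) := by simp only [Finset.mul_sum]; rw [Finset.sum_comm]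
        _ = 1 := by simp only [← hA]; exact htr
    have hi2 : Integrable (fun y => dot g (dir y) ^ 2) π := by
      simp only [h1]; exact integrable_finsetSum _ fun i _ => integrable_finsetSum _ fun j _ => hi i j
    rw [quadStat, integral_sub hi2 (integrable_const _), h2]
    simp only [integral_const, probReal_univ, smul_eq_mul, mul_one, mul_sub, Finset.sum_sub_distrib, hsum]
    congr 1
    exact quad g
  have hsq : ∑ k, a k ^ 2 = ovlSq π := by
    have h1 : ∀ k, ∑ i, ∑ j, e k i * e k j * A i j = a k := fun k => by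
      rw [quad (e k), Finset.sum_eq_single k]
      · simp [dot, he]
      · intro l _ hl; simp [dot, he, hl.symm]
      · simp
    rw [hT]
    calc ∑ k, a k ^ 2 = ∑ k, ∑ i, ∑ j, a k * (e k i * e k j * A i j) := by
          simp only [← Finset.mul_sum, h1, sq]
      _ = ∑ i, ∑ j, ∑ k, a k * (e k i * e k j * A i j) := by
          rw [Finset.sum_comm]; exact Finset.sum_congr rfl fun i _ => Finset.sum_comm
      _ = _ := Finset.sum_congr rfl fun i _ => Finset.sum_congr rfl fun j _ => by
          rw [sq]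
          nth_rw 2 [hA]
          rw [Finset.sum_mul]
          exact Finset.sum_congr rfl fun k _ => by ring
  have hak : ∀ k, |2 * ε * a k| ≤ 1 / 2 ∧ |2 * ε * a k| ≤ 2 * |ε| * Real.sqrt (ovlSq π) := fun k => by
    have h1 : |a k| ≤ Real.sqrt (ovlSq π) := by
      rw [← Real.sqrt_sq_eq_abs, ← hsq]
      exact Real.sqrt_le_sqrt (Finset.single_le_sum (f := fun k => a k ^ 2) (fun i _ => sq_nonneg _)
        (Finset.mem_univ k))
    rw [abs_mul, abs_mul, abs_two]
    have := mul_le_mul_of_nonneg_left h1 (show 0 ≤ 2 * |ε| by positivity)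
    exact ⟨by linarith, this⟩
  set G : (Fin N → ℝ) → ℝ := fun x => ∏ k, Real.exp (2 * ε * a k / 2 * (x k ^ 2 - 1))
  have hR := measurePreserving_coords he
  have heq : (fun g => Real.exp (ε * quadStat π g)) = fun g => G (fun k => dot g (e k)) := by
    ext g
    simp only [G, hQ, ← Real.exp_sum, Finset.mul_sum]
    congr 1
    exact Finset.sum_congr rfl fun k _ => by ring
  have hGi : Integrable G (gam (Fin N)) := Integrable.fintype_prod fun k => (exp_square_le (hak k).1).1
  rw [heq]
  refine ⟨hR.integrable_comp_of_integrable hGi, ?_⟩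
  have hS : ∀ k, (2 * ε * a k) ^ 2 / 4 * (1 + 4 * |2 * ε * a k|) ≤
      ε ^ 2 * (1 + 8 * |ε| * Real.sqrt (ovlSq π)) * a k ^ 2 := fun k => by
    have := (hak k).2
    nlinarith [mul_nonneg (sq_nonneg (ε * a k)) (abs_nonneg (2 * ε * a k)),
      mul_le_mul_of_nonneg_left this (sq_nonneg (ε * a k))]
  calc ∫ g, G (fun k => dot g (e k)) ∂gam (Fin N)
      = ∫ x, G x ∂gam (Fin N) := by
        have h := integral_map (μ := gam (Fin N)) hR.measurable.aemeasurable
          (f := G) (by rw [hR.map_eq]; exact hGi.aestronglyMeasurable)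
        rw [hR.map_eq] at h
        exact h.symm
    _ = ∏ k, ∫ z, Real.exp (2 * ε * a k / 2 * (z ^ 2 - 1)) ∂gam1 :=
        integral_fintype_prod_eq_prod (fun k z => Real.exp (2 * ε * a k / 2 * (z ^ 2 - 1)))
    _ ≤ ∏ k, Real.exp (ε ^ 2 * (1 + 8 * |ε| * Real.sqrt (ovlSq π)) * a k ^ 2) :=
        Finset.prod_le_prod (fun k _ => integral_nonneg fun z => (Real.exp_pos _).le)
          fun k _ => (exp_square_le (hak k).1).2.trans (Real.exp_le_exp.2 (hS k))
    _ = _ := by rw [← Real.exp_sum, ← Finset.mul_sum, hsq]; ring_nf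

end Vale.Agent.P157
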