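import Mathlib
import Vale.Agent.P157.PlantedQuad
import Vale.Agent.P157.Centered

/-!
Planted entropy of one pattern: comparison with a weight having a small odd signal.
-/

noncomputable section

open MeasureTheory ProbabilityTheory Filter
open scoped Topology

namespace Vale.Agent.P157

section general

variable {Y Ω : Type*} [MeasurableSpace Y] [MeasurableSpace Ω] {P : Measure Ω}
  [IsProbabilityMeasure P] {π : Measure Y} [IsProbabilityMeasure π] {K : ℝ} {H : Ω → Y → ℝ}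

/-- Planted entropy `E Z log Z`. -/
def ent (P : Measure Ω) (H : Ω → Y → ℝ) (π : Measure Y) : ℝ :=
  ∫ ω, Real.exp (lint π (H ω)) * lint π (H ω) ∂P

lemma exp_lint_eq (h : Nice K H) (ω : Ω) :
    Real.exp (lint π (H ω)) = ∫ y, Real.exp (H ω y) ∂π :=
  Real.exp_log ((Real.exp_pos _).trans_le (integral_exp_mem (h.meas_left ω) (h.bound ω)).1)

lemma abs_exp_lint_mul (h : Nice K H) (ω : Ω) :
    |Real.exp (lint π (H ω)) * lint π (H ω)| ≤ Real.exp K * K := by
  have hb := abs_lint_le (π := π) (h.meas_left ω) (h.bound ω)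
  rw [abs_mul, Real.abs_exp]
  exact mul_le_mul (Real.exp_le_exp.2 ((le_abs_self _).trans hb)) hb (abs_nonneg _) (Real.exp_pos _).le

lemma integrable_ent (h : Nice K H) :
    Integrable (fun ω => Real.exp (lint π (H ω)) * lint π (H ω)) P :=
  integrable_of_abs_le ((measurable_lint π h.meas).exp.mul (measurable_lint π h.meas))
    (abs_exp_lint_mul h)

lemma integrable_exp_lint (h : Nice K H) : Integrable (fun ω => Real.exp (lint π (H ω))) P :=
  integrable_exp_of_abs_le (measurable_lint π h.meas) fun ω => abs_lint_le (h.meas_left ω) (h.bound ω)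

lemma mass_one (h : Nice K H) (hy : ∀ᵐ y ∂π, ∫ ω, Real.exp (H ω y) ∂P = 1) :
    ∫ ω, Real.exp (lint π (H ω)) ∂P = 1 := by
  simp only [exp_lint_eq h]
  rw [integral_integral_swap (integrable_exp_of_abs_le h.meas fun p => h.bound p.1 p.2),
    integral_congr_ae hy]
  simp

/-- Duality bound. -/
lemma le_ent (h : Nice K H) (hy : ∀ᵐ y ∂π, ∫ ω, Real.exp (H ω y) ∂P = 1) {q : Ω → ℝ}
    (hq : Integrable (fun ω => Real.exp (q ω)) P)
    (hWq : Integrable (fun ω => Real.exp (lint π (H ω)) * q ω) P) :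
    (∫ ω, Real.exp (lint π (H ω)) * q ω ∂P) + 1 - ∫ ω, Real.exp (q ω) ∂P ≤ ent P H π := by
  have hpt : ∀ ω, Real.exp (lint π (H ω)) * q ω + Real.exp (lint π (H ω)) - Real.exp (q ω) ≤
      Real.exp (lint π (H ω)) * lint π (H ω) := fun ω => by
    have h1 := mul_le_mul_of_nonneg_left (Real.add_one_le_exp (q ω - lint π (H ω)))
      (Real.exp_pos (lint π (H ω))).le
    rw [← Real.exp_add, add_sub_cancel] at h1
    linarith
  refine le_trans (le_of_eq ?_)
    (integral_mono ((hWq.fun_add (integrable_exp_lint h)).sub hq) (integrable_ent h) hpt)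
  simp only [Pi.sub_apply]
  rw [integral_sub (hWq.fun_add (integrable_exp_lint h)) hq, integral_add hWq (integrable_exp_lint h),
    mass_one h hy]

end general

/-! ### Gaussian facts -/

lemma measurePreserving_neg_gam {ι : Type*} [Fintype ι] :
    MeasurePreserving (fun (g : ι → ℝ) i => -g i) (gam ι) (gam ι) :=
  measurePreserving_pi (fun _ : ι => gaussianReal 0 1) (fun _ : ι => gaussianReal 0 1)
    fun _ => ⟨measurable_neg, by simp [gaussianReal_map_neg]⟩

lemma integral_odd {ι : Type*} [Fintype ι] {F : (ι → ℝ) → ℝ} (hF : Measurable F)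
    (ho : ∀ g, F (fun i => -g i) = -F g) : ∫ g, F g ∂gam ι = 0 := by
  have h := measurePreserving_neg_gam (ι := ι)
  have e := integral_map (μ := gam ι) h.measurable.aemeasurable (f := F) hF.aestronglyMeasurable
  rw [h.map_eq] at e
  simp only [ho, integral_neg] at e
  linarith

lemma integral_cos_dot {ι : Type*} [Fintype ι] (u : ι → ℝ) :
    ∫ g, Real.cos (dot g u) ∂gam ι = Real.exp (-(∑ i, u i ^ 2) / 2) := by
  have hi : Integrable (fun g : ι → ℝ => Complex.exp (((dot g u : ℝ) : ℂ) * Complex.I)) (gam ι) :=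
    Integrable.of_bound (by unfold dot; fun_prop : Continuous fun g : ι → ℝ =>
      Complex.exp (((dot g u : ℝ) : ℂ) * Complex.I)).aestronglyMeasurable 1
      (Eventually.of_forall fun z => (Complex.norm_exp_ofReal_mul_I _).le)
  have h := congrArg Complex.re (integral_cexp_dot u)
  rw [Complex.ofReal_re, ← Complex.reCLM_apply, ← ContinuousLinearMap.integral_comp_comm _ hi] at h
  simpa [Complex.exp_ofReal_mul_I_re] using h

lemma integral_sin_sin {ι : Type*} [Fintype ι] {u u' : ι → ℝ} (h1 : ∑ i, u i ^ 2 = 1)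
    (h2 : ∑ i, u' i ^ 2 = 1) :
    ∫ g, Real.sin (dot g u) * Real.sin (dot g u') ∂gam ι =
      Real.exp (-1) * Real.sinh (dot u u') := by
  have e : ∀ g : ι → ℝ, Real.sin (dot g u) * Real.sin (dot g u') =
      (Real.cos (dot g fun i => u i - u' i) - Real.cos (dot g fun i => u i + u' i)) / 2 := fun g => by
    have a1 : dot g (fun i => u i - u' i) = dot g u - dot g u' := by
      simp only [dot, mul_sub, Finset.sum_sub_distrib]
    have a2 : dot g (fun i => u i + u' i) = dot g u + dot g u' := by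
      simp only [dot, mul_add, Finset.sum_add_distrib]
    rw [a1, a2, Real.cos_sub, Real.cos_add]; ring
  have hi : ∀ v : ι → ℝ, Integrable (fun g => Real.cos (dot g v)) (gam ι) := fun v =>
    integrable_of_abs_le (K := 1) (by unfold dot; fun_prop) fun g => Real.abs_cos_le_one _
  simp only [e]
  rw [integral_div, integral_sub (hi _) (hi _), integral_cos_dot, integral_cos_dot]
  simp only [sub_sq, add_sq, Finset.sum_add_distrib, Finset.sum_sub_distrib, h1, h2, mul_assoc,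
    ← Finset.mul_sum]
  rw [Real.sinh_eq]
  simp only [dot]
  rw [show -((1 : ℝ) - 2 * ∑ i, u i * u' i + 1) / 2 = -1 + ∑ i, u i * u' i by ring,
    show -((1 : ℝ) + 2 * ∑ i, u i * u' i + 1) / 2 = -1 + -∑ i, u i * u' i by ring,
    Real.exp_add, Real.exp_add]
  ring

lemma integral_two_mul {p q : ℝ → ℝ} (hp : Integrable p gam1) (hq : Integrable q gam1) :
    Integrable (fun g : Fin 2 → ℝ => p (g 0) * q (g 1)) (gam (Fin 2)) ∧
      ∫ g : Fin 2 → ℝ, p (g 0) * q (g 1) ∂gam (Fin 2) = (∫ z, p z ∂gam1) * ∫ z, q z ∂gam1 := by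
  have e := measurePreserving_finTwoArrow (gaussianReal 0 1)
  constructor
  · exact e.integrable_comp_of_integrable (hp.mul_prod hq)
  · rw [← integral_prod_mul p q, ← e.integral_comp' (g := fun z : ℝ × ℝ => p z.1 * q z.2)]
    rfl

variable {f : ℝ → ℝ} {K : ℝ}

lemma integrable_exp_mul (hf : Measurable f) (hb : ∀ z, |f z| ≤ K) {p : ℝ → ℝ}
    (hp : Integrable p gam1) : Integrable (fun z => Real.exp (f z) * p z) gam1 :=
  hp.bdd_mul hf.exp.aestronglyMeasurable (c := Real.exp K) (Eventually.of_forall fun z => by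
    rw [Real.norm_eq_abs, Real.abs_exp]; exact Real.exp_le_exp.2 ((le_abs_self _).trans (hb z)))

lemma weight_sq_pair {ι : Type*} [Fintype ι] (hf : Measurable f) (hb : ∀ z, |f z| ≤ K)
    {u u' : ι → ℝ} (h1 : ∑ i, u i ^ 2 = 1) (h2 : ∑ i, u' i ^ 2 = 1) :
    ∫ g, Real.exp (f (dot g u)) * (dot g u' ^ 2 - 1) ∂gam ι =
      dot u u' ^ 2 * ∫ z, (z ^ 2 - 1) * Real.exp (f z) ∂gam1 := by
  obtain ⟨hr, e⟩ := integral_pair_eq (G := fun a b => Real.exp (f a) * (b ^ 2 - 1))
    (by unfold Function.uncurry; fun_prop) h1 h2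
  rw [e]
  set r := dot u u'
  obtain ⟨s, hs⟩ : ∃ s, s = Real.sqrt (1 - r ^ 2) := ⟨_, rfl⟩
  have hs2 : s ^ 2 = 1 - r ^ 2 := by
    rw [hs, Real.sq_sqrt]; nlinarith [hr.1, hr.2]
  rw [← hs]
  have iz : Integrable (fun z : ℝ => z) gam1 := IsGaussian.memLp_two_id.integrable one_le_two
  have iz2 : Integrable (fun z : ℝ => z ^ 2) gam1 := IsGaussian.memLp_two_id.integrable_sq
  have i0 : Integrable (fun _ : ℝ => (1 : ℝ)) gam1 := integrable_const _
  have j0 := integrable_exp_mul hf hb i0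
  have j1 := integrable_exp_mul hf hb iz
  have j2 := integrable_exp_mul hf hb iz2
  obtain ⟨a1, b1⟩ := integral_two_mul j2 i0
  obtain ⟨a2, b2⟩ := integral_two_mul j1 iz
  obtain ⟨a3, b3⟩ := integral_two_mul j0 iz2
  obtain ⟨a4, b4⟩ := integral_two_mul j0 i0
  have e1 : ∀ g : Fin 2 → ℝ, Real.exp (f (g 0)) * ((r * g 0 + s * g 1) ^ 2 - 1) =
      r ^ 2 * (Real.exp (f (g 0)) * g 0 ^ 2 * 1) + 2 * r * s * (Real.exp (f (g 0)) * g 0 * g 1) +
        s ^ 2 * (Real.exp (f (g 0)) * 1 * g 1 ^ 2) - Real.exp (f (g 0)) * 1 * 1 := fun g => by ring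
  simp only [e1]
  rw [integral_sub (((a1.const_mul _).fun_add (a2.const_mul _)).fun_add (a3.const_mul _)) a4,
    integral_add ((a1.const_mul _).fun_add (a2.const_mul _)) (a3.const_mul _),
    integral_add (a1.const_mul _) (a2.const_mul _), integral_const_mul, integral_const_mul,
    integral_const_mul, b1, b2, b3, b4, integral_sq_gam1, integral_id_gaussianReal]
  have e2 : ∀ z, (z ^ 2 - 1) * Real.exp (f z) =
      Real.exp (f z) * z ^ 2 - Real.exp (f z) * 1 := fun z => by ring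
  simp only [e2]
  rw [integral_sub j2 j0]
  simp only [integral_const, probReal_univ, smul_eq_mul, mul_one, hs2]
  ring

/-! ### The two bounds -/

variable {N : ℕ} {π : Measure (Fin N → ℝ)} [IsProbabilityMeasure π]

lemma abs_ovl_le_one (p : (Fin N → ℝ) × (Fin N → ℝ)) : |ovl p ^ 2| ≤ 1 := by
  rw [abs_pow]; exact pow_le_one₀ (abs_nonneg _) (abs_ovl_le p)

lemma ovlSq_mem : ovlSq π ∈ Set.Icc (0 : ℝ) 1 := by
  refine ⟨integral_nonneg fun p => sq_nonneg _, ?_⟩
  refine (integral_mono (integrable_of_abs_le (measurable_ovl.pow_const 2) abs_ovl_le_one)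
    (integrable_const (1 : ℝ)) fun p => (le_abs_self _).trans (abs_ovl_le_one p)).trans_eq ?_
  simp

lemma mean_term_eq_one (hf : Measurable f) (h1 : ∫ z, Real.exp (f z) ∂gam1 = 1) (hN : 0 < N)
    {y : Fin N → ℝ} (hy : ∀ i, y i ≠ 0) :
    ∫ g, Real.exp (term f dir g y) ∂gam (Fin N) = 1 := by
  have hm : Measurable fun g : Fin N → ℝ => dot g (dir y) := by unfold dot; fun_prop
  have := integral_map (μ := gam (Fin N)) hm.aemeasurable (f := fun z => Real.exp (f z))
    hf.exp.aestronglyMeasurable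
  rw [map_dot_unit (sum_dir_sq_of_ne hN hy), h1] at this
  exact this.symm

/-- Lower bound from the second Hermite statistic. -/
theorem ent_ge_quad (hf : Measurable f) (hb : ∀ z, |f z| ≤ K) (h1 : ∫ z, Real.exp (f z) ∂gam1 = 1)
    (hN : 0 < N) (hne : ∀ᵐ y ∂π, ∀ i, y i ≠ 0) {ε : ℝ}
    (hε : 4 * |ε| * Real.sqrt (ovlSq π) ≤ 1) :
    ε * ((∫ z, (z ^ 2 - 1) * Real.exp (f z) ∂gam1) * ovlSq π) + 1 -
        Real.exp (ε ^ 2 * ovlSq π * (1 + 8 * |ε| * Real.sqrt (ovlSq π))) ≤
      ent (gam (Fin N)) (term f dir) π := by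
  have hn := nice_term hf hb (measurable_dir (ι := Fin N))
  obtain ⟨hei, hle⟩ := exp_quadStat_le hN hne hε
  set c := ∫ z, (z ^ 2 - 1) * Real.exp (f z) ∂gam1
  set D : (Fin N → ℝ) × ((Fin N → ℝ) × (Fin N → ℝ)) → ℝ := fun q =>
    Real.exp (term f dir q.1 q.2.1) * (dot q.1 (dir q.2.2) ^ 2 - 1)
  have hDm : Measurable D :=
    ((hn.meas.comp (measurable_fst.prodMk (measurable_fst.comp measurable_snd))).exp).mul
      (((measurable_dot.comp (measurable_fst.prodMk
        (measurable_dir.comp (measurable_snd.comp measurable_snd)))).pow_const 2).sub_const 1)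
  have hsq : Integrable (fun g : Fin N → ℝ => Real.exp K * (∑ i, g i ^ 2 + 1)) (gam (Fin N)) :=
    ((integrable_finsetSum _ fun i _ =>
      (measurePreserving_eval (fun _ : Fin N => gaussianReal 0 1) i).integrable_comp_of_integrable
        (IsGaussian.memLp_two_id (μ := gaussianReal 0 1)).integrable_sq).fun_add (integrable_const 1)).const_mul _
  have hDi : Integrable D ((gam (Fin N)).prod (π.prod π)) := by
    refine (hsq.comp_fst (π.prod π)).mono' hDm.aestronglyMeasurable (Eventually.of_forall fun q => ?_)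
    rw [Real.norm_eq_abs, abs_mul, Real.abs_exp]
    refine mul_le_mul (Real.exp_le_exp.2 ((le_abs_self _).trans (hb _))) ?_ (abs_nonneg _) (Real.exp_pos _).le
    have hcs : dot q.1 (dir q.2.2) ^ 2 ≤ ∑ i, q.1 i ^ 2 := by
      refine (Finset.sum_mul_sq_le_sq_mul_sq _ _ _).trans ?_
      exact mul_le_of_le_one_right (Finset.sum_nonneg fun i _ => sq_nonneg _) (sum_dir_sq_le _)
    rw [abs_le]
    constructor <;> linarith [sq_nonneg (dot q.1 (dir q.2.2))]
  have hWq : ∀ g, Real.exp (lint π (term f dir g)) * quadStat π g = ∫ p, D (g, p) ∂π.prod π := fun g => by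
    rw [exp_lint_eq hn, quadStat]
    exact (integral_prod_mul _ _).symm
  have hWqi : Integrable (fun g => Real.exp (lint π (term f dir g)) * (ε * quadStat π g)) (gam (Fin N)) := by
    simp only [mul_left_comm _ ε, hWq]
    exact hDi.integral_prod_left.const_mul ε
  have h := le_ent hn (hne.mono fun y hy => mean_term_eq_one hf h1 hN hy) hei hWqi
  have hval : ∫ g, Real.exp (lint π (term f dir g)) * (ε * quadStat π g) ∂gam (Fin N) =
      ε * (c * ovlSq π) := by
    simp only [mul_left_comm _ ε, hWq]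
    rw [integral_const_mul, integral_integral_swap hDi]
    congr 1
    rw [ovlSq, ← integral_const_mul]
    refine integral_congr_ae ?_
    filter_upwards [(Measure.quasiMeasurePreserving_fst (μ := π) (ν := π)).ae hne,
      (Measure.quasiMeasurePreserving_snd (μ := π) (ν := π)).ae hne] with p a1 a2
    refine (weight_sq_pair hf hb (sum_dir_sq_of_ne hN a1) (sum_dir_sq_of_ne hN a2)).trans ?_
    rw [mul_comm]; rfl
  rw [hval] at h
  linarith

/-- Log-weight with a small odd signal. -/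
def sideF (t z : ℝ) : ℝ := Real.log (1 + t * Real.sin z)

lemma sideF_facts {t : ℝ} (ht : |t| ≤ 1 / 2) :
    Measurable (sideF t) ∧ (∀ z, |sideF t z| ≤ 1) ∧ (∀ z, Real.exp (sideF t z) = 1 + t * Real.sin z) ∧
      ∫ z, Real.exp (sideF t z) ∂gam1 = 1 := by
  have hb : ∀ z, |t * Real.sin z| ≤ 1 / 2 := fun z => by
    rw [abs_mul]
    exact le_trans (mul_le_of_le_one_right (abs_nonneg _) (Real.abs_sin_le_one z)) ht
  have hp : ∀ z, 0 < 1 + t * Real.sin z := fun z => by linarith [(abs_le.1 (hb z)).1]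
  have he : ∀ z, Real.exp (sideF t z) = 1 + t * Real.sin z := fun z => Real.exp_log (hp z)
  have hm : Measurable (sideF t) := Real.measurable_log.comp (by fun_prop)
  refine ⟨hm, fun z => ?_, he, ?_⟩
  · have h1 := Real.log_le_sub_one_of_pos (hp z)
    have h2 := Real.one_sub_inv_le_log_of_pos (hp z)
    have h3 : (1 + t * Real.sin z)⁻¹ ≤ 2 := by
      rw [inv_le_iff_one_le_mul₀ (hp z)]; linarith [(abs_le.1 (hb z)).1]
    rw [sideF, abs_le]
    constructor <;> linarith [(abs_le.1 (hb z)).2]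
  · simp only [he]
    have hs : Integrable Real.sin gam1 :=
      integrable_of_abs_le Real.measurable_sin Real.abs_sin_le_one
    rw [integral_add (integrable_const _) (hs.const_mul t), integral_const_mul]
    have : ∫ z, Real.sin z ∂gam1 = 0 := by
      have h : MeasurePreserving (fun z : ℝ => -z) gam1 gam1 := ⟨measurable_neg, by simp [gaussianReal_map_neg]⟩
      have e := integral_map (μ := gam1) h.measurable.aemeasurable (f := Real.sin)
        Real.measurable_sin.aestronglyMeasurable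
      rw [h.map_eq] at e
      simp only [Real.sin_neg, integral_neg] at e
      linarith
    simp [this]

lemma one_add_mul_log_le {x : ℝ} (hx : |x| ≤ 1 / 2) :
    (1 + x) * Real.log (1 + x) ≤ x + x ^ 2 / 2 * (1 + 7 * |x|) := by
  have h := Real.abs_log_sub_add_sum_range_le (x := -x) (by rw [abs_neg]; linarith) 2
  simp only [Finset.sum_range_succ, Finset.sum_range_zero, zero_add, sub_neg_eq_add, abs_neg] at h
  norm_num at h
  have h' := (abs_le.1 h).2
  have h3 : |x| ^ 3 / (1 - |x|) ≤ 2 * (x ^ 2 * |x|) := by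
    rw [div_le_iff₀ (by linarith), pow_succ, sq_abs]
    nlinarith [mul_nonneg (sq_nonneg x) (abs_nonneg x)]
  have hlog : Real.log (1 + x) ≤ x - x ^ 2 / 2 + 2 * (x ^ 2 * |x|) := by linarith
  have hpos : 0 ≤ 1 + x := by linarith [(abs_le.1 hx).1]
  refine (mul_le_mul_of_nonneg_left hlog hpos).trans ?_
  have a1 := mul_le_mul_of_nonneg_left (neg_le_abs x) (sq_nonneg x)
  have a2 := mul_le_mul_of_nonneg_left (le_trans (le_abs_self x) hx)
    (mul_nonneg (sq_nonneg x) (abs_nonneg x))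
  nlinarith

/-- Average of the odd signal. -/
def sinStat (π : Measure (Fin N → ℝ)) (g : Fin N → ℝ) : ℝ := ∫ y, Real.sin (dot g (dir y)) ∂π

lemma measurable_sin_dot {α : Type*} [MeasurableSpace α] {a b : α → Fin N → ℝ} (ha : Measurable a)
    (hb : Measurable b) : Measurable fun q => Real.sin (dot (a q) (dir (b q))) :=
  Real.measurable_sin.comp (measurable_dot.comp (ha.prodMk (measurable_dir.comp hb)))

lemma sinStat_facts :
    Measurable (sinStat π) ∧ (∀ g, |sinStat π g| ≤ 1) ∧ ∫ g, sinStat π g ∂gam (Fin N) = 0 := by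
  have hm : Measurable (sinStat π) :=
    ((measurable_sin_dot (measurable_fst (β := Fin N → ℝ)) measurable_snd).stronglyMeasurable.integral_prod_right'
      (ν := π)).measurable
  refine ⟨hm, fun g => ?_, integral_odd hm fun g => ?_⟩
  · have := norm_integral_le_of_norm_le_const (μ := π) (f := fun y => Real.sin (dot g (dir y))) (C := 1)
      (Eventually.of_forall fun y => Real.abs_sin_le_one _)
    simpa [sinStat] using this
  · simp only [sinStat, dot, neg_mul, Finset.sum_neg_distrib, Real.sin_neg, integral_neg]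

lemma sinStat_sq_eq (hN : 0 < N) (hne : ∀ᵐ y ∂π, ∀ i, y i ≠ 0) :
    ∫ g, sinStat π g ^ 2 ∂gam (Fin N) = ∫ p, Real.exp (-1) * Real.sinh (ovl p) ∂π.prod π := by
  have e : ∀ g, sinStat π g ^ 2 =
      ∫ p, Real.sin (dot g (dir p.1)) * Real.sin (dot g (dir p.2)) ∂π.prod π := fun g => by
    rw [sq]
    exact (integral_prod_mul (fun y => Real.sin (dot g (dir y))) fun y => Real.sin (dot g (dir y))).symm
  simp only [e]
  rw [integral_integral_swap
    (f := fun g (p : (Fin N → ℝ) × (Fin N → ℝ)) => Real.sin (dot g (dir p.1)) * Real.sin (dot g (dir p.2)))]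
  · refine integral_congr_ae ?_
    filter_upwards [(Measure.quasiMeasurePreserving_fst (μ := π) (ν := π)).ae hne,
      (Measure.quasiMeasurePreserving_snd (μ := π) (ν := π)).ae hne] with p a1 a2
    exact integral_sin_sin (sum_dir_sq_of_ne hN a1) (sum_dir_sq_of_ne hN a2)
  · refine integrable_of_abs_le (K := 1) ?_ fun q => ?_
    · exact (measurable_sin_dot measurable_fst (measurable_fst.comp measurable_snd)).mul
        (measurable_sin_dot measurable_fst (measurable_snd.comp measurable_snd))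
    · change |Real.sin _ * Real.sin _| ≤ 1
      rw [abs_mul]
      exact mul_le_one₀ (Real.abs_sin_le_one _) (abs_nonneg _) (Real.abs_sin_le_one _)

lemma integral_abs_ovl_le : ∫ p, |ovl p| ∂π.prod π ≤ Real.sqrt (ovlSq π) := by
  have iR : Integrable (fun p : (Fin N → ℝ) × (Fin N → ℝ) => |ovl p|) (π.prod π) :=
    integrable_of_abs_le (continuous_abs.measurable.comp measurable_ovl) fun p => by
      rw [abs_abs]; exact abs_ovl_le p
  have iR2 : Integrable (fun p : (Fin N → ℝ) × (Fin N → ℝ) => ovl p ^ 2) (π.prod π) :=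
    integrable_of_abs_le (measurable_ovl.pow_const 2) abs_ovl_le_one
  refine Real.le_sqrt_of_sq_le ?_
  set m := ∫ p, |ovl p| ∂π.prod π with hm
  have h0 : 0 ≤ ∫ p, (ovl p ^ 2 - 2 * m * |ovl p| + m ^ 2) ∂π.prod π := integral_nonneg fun p => by
    simp only [Pi.zero_apply]
    rw [← sq_abs (ovl p)]
    nlinarith [sq_nonneg (|ovl p| - m)]
  rw [integral_add (iR2.sub' (iR.const_mul _)) (integrable_const _),
    integral_sub iR2 (iR.const_mul _), integral_const_mul, ← hm] at h0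
  simp only [integral_const, probReal_univ, smul_eq_mul, one_mul] at h0
  rw [ovlSq]
  linarith

lemma integral_sinh_ovl_le :
    ∫ p, Real.sinh (ovl p) ∂π.prod π ≤ Real.sqrt (ovlSq π) + ovlSq π := by
  have iR : Integrable (fun p : (Fin N → ℝ) × (Fin N → ℝ) => |ovl p|) (π.prod π) :=
    integrable_of_abs_le (continuous_abs.measurable.comp measurable_ovl) fun p => by
      rw [abs_abs]; exact abs_ovl_le p
  have iR2 : Integrable (fun p : (Fin N → ℝ) × (Fin N → ℝ) => ovl p ^ 2) (π.prod π) :=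
    integrable_of_abs_le (measurable_ovl.pow_const 2) abs_ovl_le_one
  refine le_trans (integral_mono ?_ (iR.fun_add iR2) fun p => ?_) ?_
  · refine integrable_of_abs_le (K := Real.exp 1) (Real.measurable_sinh.comp measurable_ovl) fun p => ?_
    rw [Real.sinh_eq, abs_le]
    have := Real.exp_le_exp.2 (le_of_abs_le (abs_ovl_le p))
    have := Real.exp_le_exp.2 (le_trans (neg_le_abs _) (abs_ovl_le p))
    constructor <;> linarith [Real.exp_pos (ovl p), Real.exp_pos (-ovl p), Real.exp_pos 1]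
  · have a := abs_le.1 (Real.abs_exp_sub_one_sub_id_le (abs_ovl_le p))
    have b := abs_le.1 (Real.abs_exp_sub_one_sub_id_le (x := -ovl p) (by rw [abs_neg]; exact abs_ovl_le p))
    rw [Real.sinh_eq]
    have := le_abs_self (ovl p)
    rw [neg_sq] at b
    linarith [a.2, b.1]
  · rw [integral_add iR iR2]
    exact add_le_add integral_abs_ovl_le le_rfl

/-- Upper bound for the weight with a small odd signal. -/
theorem ent_side_le (hN : 0 < N) (hne : ∀ᵐ y ∂π, ∀ i, y i ≠ 0) {t : ℝ} (ht0 : 0 ≤ t) (ht : t ≤ 1 / 2) :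
    ent (gam (Fin N)) (term (sideF t) dir) π ≤
      t ^ 2 * (1 + 7 * t) / (2 * Real.exp 1) * (Real.sqrt (ovlSq π) + ovlSq π) := by
  obtain ⟨hm, hb, he, h1⟩ := sideF_facts (show |t| ≤ 1 / 2 by rwa [abs_of_nonneg ht0])
  have hn := nice_term hm hb (measurable_dir (ι := Fin N))
  obtain ⟨hSm, hSb, hS0⟩ := sinStat_facts (π := π)
  have hZ : ∀ g, Real.exp (lint π (term (sideF t) dir g)) = 1 + t * sinStat π g := fun g => by
    have hi : Integrable (fun y => Real.sin (dot g (dir y))) π :=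
      integrable_of_abs_le (measurable_sin_dot measurable_const measurable_id) fun y =>
        Real.abs_sin_le_one _
    rw [exp_lint_eq hn, sinStat]
    calc ∫ y, Real.exp (term (sideF t) dir g y) ∂π = ∫ y, (1 + t * Real.sin (dot g (dir y))) ∂π :=
          integral_congr_ae (Eventually.of_forall fun y => he _)
      _ = _ := by rw [integral_add (integrable_const _) (hi.const_mul t), integral_const_mul]; simp
  have hSi : Integrable (fun g => sinStat π g) (gam (Fin N)) := integrable_of_abs_le hSm hSb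
  have hS2i : Integrable (fun g => sinStat π g ^ 2) (gam (Fin N)) :=
    integrable_of_abs_le (K := 1) (hSm.pow_const 2) fun g => by
      rw [abs_pow]; exact pow_le_one₀ (abs_nonneg _) (hSb g)
  have hpt : ∀ g, Real.exp (lint π (term (sideF t) dir g)) * lint π (term (sideF t) dir g) ≤
      t * sinStat π g + t ^ 2 * (1 + 7 * t) / 2 * sinStat π g ^ 2 := fun g => by
    have hx : |t * sinStat π g| ≤ t := by
      rw [abs_mul, abs_of_nonneg ht0]; exact mul_le_of_le_one_right ht0 (hSb g)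
    have h := one_add_mul_log_le (hx.trans ht)
    rw [← hZ g, Real.log_exp] at h
    refine h.trans ?_
    have := mul_le_mul_of_nonneg_left hx (show 0 ≤ (t * sinStat π g) ^ 2 / 2 by positivity)
    linarith
  refine (integral_mono (integrable_ent hn) ((hSi.const_mul t).fun_add (hS2i.const_mul _)) hpt).trans ?_
  rw [integral_add (hSi.const_mul t) (hS2i.const_mul _), integral_const_mul, integral_const_mul, hS0,
    sinStat_sq_eq hN hne, integral_const_mul]
  refine le_trans (le_of_eq ?_) ((mul_le_mul_of_nonneg_left integral_sinh_ovl_le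
    (show 0 ≤ t ^ 2 * (1 + 7 * t) / (2 * Real.exp 1) by positivity)))
  rw [Real.exp_neg]
  ring

/-- Comparison near zero overlap. -/
lemma small_overlap_arith {c δ x T L U G : ℝ} (hc2 : 0 < c ^ 2) (hδ0 : 0 < δ) (hδ1 : δ < 1 / 2)
    (hx : 0 ≤ x) (hxsq : x ^ 2 = T) (g1 : 4 * |c| * x + c ^ 2 * T ≤ δ) (hL : L / 2 ≤ δ * c ^ 2 / 4)
    (hU : U ≤ L / 2 * (x + T))
    (hG : c / 2 * (c * T) + 1 - Real.exp ((c / 2) ^ 2 * T * (1 + 8 * (|c| / 2) * x)) ≤ G) :
    U ≤ G + L ^ 2 / (4 * c ^ 2 * (1 - 2 * δ)) := by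
  have hT : 0 ≤ T := hxsq ▸ sq_nonneg x
  have hA : 0 ≤ c ^ 2 * T := mul_nonneg hc2.le hT
  have hB : 0 ≤ 4 * |c| * x := by positivity
  obtain ⟨z, hz⟩ : ∃ z, z = c ^ 2 * T / 4 * (1 + 4 * |c| * x) := ⟨_, rfl⟩
  rw [show (c / 2) ^ 2 * T * (1 + 8 * (|c| / 2) * x) = z by rw [hz]; ring] at hG
  have hz0 : 0 ≤ z := hz ▸ mul_nonneg (by linarith) (by linarith)
  have hz2 : z ≤ c ^ 2 * T / 2 := by
    rw [hz]
    nlinarith [mul_le_mul_of_nonneg_left (show 4 * |c| * x ≤ 1 by linarith) hA]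
  have hz1 : z ≤ 1 := by linarith
  have hexp := (abs_le.1 (Real.abs_exp_sub_one_sub_id_le (show |z| ≤ 1 by rwa [abs_of_nonneg hz0]))).2
  have g2 := mul_le_mul hz2 hz2 hz0 (by linarith)
  have g3 := mul_le_mul_of_nonneg_left g1 (show 0 ≤ c ^ 2 * T / 4 by linarith)
  have g4 := mul_le_mul_of_nonneg_right hL hT
  have key : L / 2 * x - c ^ 2 * (1 - 2 * δ) / 4 * T ≤ L ^ 2 / (4 * c ^ 2 * (1 - 2 * δ)) := by
    rw [le_div_iff₀ (mul_pos (by linarith) (by linarith)), ← hxsq]
    linarith [sq_nonneg (c ^ 2 * (1 - 2 * δ) * x - L)]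
  linarith

/-- Comparison away from zero overlap. -/
lemma large_overlap_arith {c s η x T L U G : ℝ} (hs0 : 0 < s) (hs1 : s ≤ 1 / 8)
    (hs2 : 8 * s * (|c| + c ^ 2) ≤ 1) (hx : 0 ≤ x) (hx1 : x ≤ 1) (hT0 : 0 ≤ T) (hT1 : T ≤ 1)
    (hη : η ≤ T) (hL0 : 0 ≤ L) (hL : L ≤ s * c ^ 2 * η / 2)
    (hU : U ≤ L / 2 * (x + T))
    (hG : s * c * (c * T) + 1 - Real.exp ((s * c) ^ 2 * T * (1 + 8 * (s * |c|) * x)) ≤ G) :
    U ≤ G := by
  have hc2 := sq_nonneg c
  have hsc : 0 ≤ s * |c| := by positivity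
  have g5 : s * c ^ 2 ≤ 1 / 8 := by linarith
  have g0 : 8 * (s * |c|) * x ≤ 1 := by
    have := mul_le_mul_of_nonneg_left hx1 (show 0 ≤ 8 * (s * |c|) by positivity)
    linarith [mul_nonneg hs0.le hc2]
  obtain ⟨z, hz⟩ : ∃ z, z = (s * c) ^ 2 * T * (1 + 8 * (s * |c|) * x) := ⟨_, rfl⟩
  rw [← hz] at hG
  have hw : 0 ≤ (s * c) ^ 2 * T := by positivity
  have hz2 : z ≤ 2 * ((s * c) ^ 2 * T) := by rw [hz]; linarith [mul_le_mul_of_nonneg_left g0 hw]
  have hz0 : 0 ≤ z := hz ▸ by positivity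
  have a := mul_le_mul hs1 g5 (by positivity) (by norm_num)
  have b := mul_le_mul_of_nonneg_left hT1 (sq_nonneg (s * c))
  have hz1 : z ≤ 1 := by linarith
  have hexp := (abs_le.1 (Real.abs_exp_sub_one_sub_id_le (show |z| ≤ 1 by rwa [abs_of_nonneg hz0]))).2
  have g7 : z ^ 2 ≤ z := by rw [sq]; exact mul_le_of_le_one_left hz0 hz1
  have g8 := mul_le_mul_of_nonneg_left hs1 (show 0 ≤ s * c ^ 2 * T by positivity)
  have g9 := mul_le_mul_of_nonneg_left hη (show 0 ≤ s * c ^ 2 by positivity)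
  have g10 := mul_le_mul_of_nonneg_left (show x + T ≤ 2 by linarith) (show 0 ≤ L / 2 by linarith)
  linarith

/-- Swapping one weight for the side weight costs a quadratically small amount. -/
theorem exists_swap_loss (hf : Measurable f) (hb : ∀ z, |f z| ≤ K)
    (h1 : ∫ z, Real.exp (f z) ∂gam1 = 1) (hc : ∫ z, (z ^ 2 - 1) * Real.exp (f z) ∂gam1 ≠ 0)
    {δ : ℝ} (hδ : δ ∈ Set.Ioo (0 : ℝ) (1 / 2)) :
    ∃ t₀ ∈ Set.Ioc (0 : ℝ) (1 / 2), ∀ t ∈ Set.Ioc 0 t₀, ∀ (N : ℕ) (π : Measure (Fin N → ℝ)),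
      IsProbabilityMeasure π → 0 < N → (∀ᵐ y ∂π, ∀ i, y i ≠ 0) →
      ent (gam (Fin N)) (term (sideF t) dir) π ≤ ent (gam (Fin N)) (term f dir) π +
        (t ^ 2 * (1 + 7 * t) / Real.exp 1) ^ 2 /
          (4 * (∫ z, (z ^ 2 - 1) * Real.exp (f z) ∂gam1) ^ 2 * (1 - 2 * δ)) := by
  obtain ⟨c, hcdef⟩ : ∃ c, c = ∫ z, (z ^ 2 - 1) * Real.exp (f z) ∂gam1 := ⟨_, rfl⟩
  rw [← hcdef]
  have hc' : c ≠ 0 := hcdef ▸ hc
  obtain ⟨hδ0, hδ1⟩ := hδ
  have hc2 : 0 < c ^ 2 := by positivity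
  obtain ⟨s, hs0, hs1, hs2⟩ : ∃ s : ℝ, 0 < s ∧ s ≤ 1 / 8 ∧ 8 * s * (|c| + c ^ 2) ≤ 1 := by
    obtain ⟨s, hsd⟩ : ∃ s, s = 1 / (8 * (|c| + c ^ 2 + 1)) := ⟨_, rfl⟩
    have h0 : 0 < s := hsd ▸ by positivity
    have h : s * (8 * (|c| + c ^ 2 + 1)) = 1 := by rw [hsd]; field_simp
    refine ⟨s, h0, ?_, by linarith⟩
    nlinarith [mul_nonneg h0.le (show 0 ≤ |c| + c ^ 2 by positivity)]
  obtain ⟨η, hη0, hη1, hη2, hη3⟩ : ∃ η : ℝ, 0 < η ∧ η ≤ 1 ∧ 4 * |c| * Real.sqrt η + c ^ 2 * η ≤ δ ∧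
      c ^ 2 * η ≤ 1 := by
    obtain ⟨η, hηd⟩ : ∃ η, η = (δ / (4 * |c| + c ^ 2 + 1)) ^ 2 := ⟨_, rfl⟩
    have hq : 0 < δ / (4 * |c| + c ^ 2 + 1) := by positivity
    have h : δ / (4 * |c| + c ^ 2 + 1) * (4 * |c| + c ^ 2 + 1) = δ := by field_simp
    have hq1 : δ / (4 * |c| + c ^ 2 + 1) ≤ 1 := by
      nlinarith [mul_nonneg hq.le (show 0 ≤ 4 * |c| + c ^ 2 by positivity)]
    have hηq : η ≤ δ / (4 * |c| + c ^ 2 + 1) := by rw [hηd, sq]; exact mul_le_of_le_one_left hq.le hq1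
    have hk : 4 * |c| * Real.sqrt η + c ^ 2 * η ≤ δ := by
      rw [hηd, Real.sqrt_sq hq.le]
      rw [hηd] at hηq
      nlinarith [mul_le_mul_of_nonneg_left hηq hc2.le]
    refine ⟨η, hηd ▸ by positivity, hηq.trans hq1, hk, ?_⟩
    linarith [show 0 ≤ 4 * |c| * Real.sqrt η by positivity]
  obtain ⟨t₀, ht0, ht1, htA, htB⟩ : ∃ t₀ : ℝ, 0 < t₀ ∧ t₀ ≤ 1 / 2 ∧
      5 * t₀ ≤ δ * c ^ 2 / 2 ∧ 5 * t₀ ≤ s * c ^ 2 * η / 2 := by
    obtain ⟨v, hv⟩ : ∃ v, v = min (δ * c ^ 2 / 10) (s * c ^ 2 * η / 10) := ⟨_, rfl⟩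
    have hv0 : 0 < v := hv ▸ by positivity
    refine ⟨min (1 / 2) v, by positivity, min_le_left _ _, ?_, ?_⟩ <;>
      linarith [min_le_right (1 / 2 : ℝ) v, hv ▸ min_le_left (δ * c ^ 2 / 10) (s * c ^ 2 * η / 10),
        hv ▸ min_le_right (δ * c ^ 2 / 10) (s * c ^ 2 * η / 10)]
  refine ⟨t₀, ⟨ht0, ht1⟩, fun t ⟨htp, htle⟩ N π hπ hN hne => ?_⟩
  obtain ⟨hT0, hT1⟩ := ovlSq_mem (π := π)
  have hU := ent_side_le (π := π) hN hne htp.le (htle.trans ht1)
  obtain ⟨T, hTdef⟩ : ∃ T, T = ovlSq π := ⟨_, rfl⟩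
  rw [← hTdef] at hU hT0 hT1
  obtain ⟨x, hx0, hxT, hxsq⟩ : ∃ x, 0 ≤ x ∧ x = Real.sqrt T ∧ x ^ 2 = T :=
    ⟨_, Real.sqrt_nonneg _, rfl, Real.sq_sqrt hT0⟩
  rw [← hxT] at hU
  obtain ⟨L, hL⟩ : ∃ L, L = t ^ 2 * (1 + 7 * t) / Real.exp 1 := ⟨_, rfl⟩
  have hU' : ent (gam (Fin N)) (term (sideF t) dir) π ≤ L / 2 * (x + T) :=
    hU.trans (le_of_eq (by rw [hL]; ring))
  rw [← hL]
  have hL0 : 0 ≤ L := hL ▸ by positivity
  have hLt : L ≤ 5 * t := by
    rw [hL, div_le_iff₀ (Real.exp_pos 1)]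
    have h1e : (1 : ℝ) ≤ Real.exp 1 := Real.one_le_exp zero_le_one
    nlinarith [mul_le_mul_of_nonneg_left h1e htp.le, htle.trans ht1]
  have hd : 0 < 4 * c ^ 2 * (1 - 2 * δ) := mul_pos (by linarith) (by linarith)
  rcases le_or_gt T η with hsmall | hlarge
  · have g1 : 4 * |c| * x + c ^ 2 * T ≤ δ := by
      linarith [mul_le_mul_of_nonneg_left (hxT ▸ Real.sqrt_le_sqrt hsmall : x ≤ Real.sqrt η) (abs_nonneg c),
        mul_le_mul_of_nonneg_left hsmall hc2.le]
    have he : |c / 2| = |c| / 2 := by rw [abs_div, abs_two]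
    have hG := ent_ge_quad (π := π) hf hb h1 hN hne (ε := c / 2) (by
      rw [← hTdef, ← hxT, he]
      linarith [mul_nonneg hc2.le hT0, mul_nonneg (abs_nonneg c) hx0])
    rw [← hTdef, ← hxT, he, ← hcdef] at hG
    exact small_overlap_arith hc2 hδ0 hδ1 hx0 hxsq g1 (by linarith) hU' hG
  · have he : |s * c| = s * |c| := by rw [abs_mul, abs_of_pos hs0]
    have hx1 : x ≤ 1 := hxT ▸ Real.sqrt_le_one.2 hT1
    have hG := ent_ge_quad (π := π) hf hb h1 hN hne (ε := s * c) (by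
      rw [← hTdef, ← hxT, he]
      linarith [mul_le_mul_of_nonneg_left hx1 (mul_nonneg hs0.le (abs_nonneg c)),
        mul_nonneg hs0.le hc2.le, mul_nonneg hs0.le (abs_nonneg c)])
    rw [← hTdef, ← hxT, he, ← hcdef] at hG
    exact (large_overlap_arith hs0 hs1 hs2 hx0 hx1 hT0 hT1 hlarge.le hL0 (by linarith) hU' hG).trans
      (le_add_of_nonneg_right (div_nonneg (sq_nonneg L) hd.le))

end Vale.Agent.P157
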