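import Mathlib
import Vale.Agent.P157.PlantedGain

/-!
Planted entropy of many patterns: slot-by-slot comparison with an odd signal and a test on column sums.
-/

noncomputable section

open MeasureTheory ProbabilityTheory Filter
open scoped Topology

namespace Vale.Agent.P157

section general

variable {Y Ω Ω' : Type*} [MeasurableSpace Y] [MeasurableSpace Ω] [MeasurableSpace Ω']
  {P : Measure Ω} [IsProbabilityMeasure P] {P' : Measure Ω'} [IsProbabilityMeasure P']
  {π : Measure Y} [IsProbabilityMeasure π] {K K' : ℝ} {H : Ω → Y → ℝ} {H' : Ω' → Y → ℝ}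

lemma ent_add (h : Nice K H) (h' : Nice K' H') (hy : ∀ᵐ y ∂π, ∫ ω, Real.exp (H ω y) ∂P = 1) :
    Integrable (fun ω' => Real.exp (lint π (H' ω')) *
        (lint π (H' ω') + ent P H (π.tilted (H' ω')))) P' ∧
      ent (P.prod P') (fun p y => H p.1 y + H' p.2 y) π =
        ∫ ω', Real.exp (lint π (H' ω')) * (lint π (H' ω') + ent P H (π.tilted (H' ω'))) ∂P' := by
  have hadd := h.add h'
  have hi := integrable_ent (P := P.prod P') (π := π) hadd
  have key : ∀ ω', ∫ ω, Real.exp (lint π fun y => H ω y + H' ω' y) *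
      lint π (fun y => H ω y + H' ω' y) ∂P =
      Real.exp (lint π (H' ω')) * (lint π (H' ω') + ent P H (π.tilted (H' ω'))) := fun ω' => by
    have hT := isProb_tilted (π := π) (h'.meas_left ω') (h'.bound ω')
    have e : ∀ ω, lint π (fun y => H ω y + H' ω' y) =
        lint π (H' ω') + lint (π.tilted (H' ω')) (H ω) := fun ω => by
      rw [← lint_add (h'.meas_left ω') (h'.bound ω') (h.meas_left ω) (h.bound ω)]
      simp only [add_comm]
    have h1 := mass_one (P := P) (π := π.tilted (H' ω')) h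
      ((tilted_absolutelyContinuous _ _).ae_le hy)
    have i1 := integrable_exp_lint (P := P) (π := π.tilted (H' ω')) h
    have i2 := integrable_ent (P := P) (π := π.tilted (H' ω')) h
    have e2 : ∀ ω, Real.exp (lint π fun y => H ω y + H' ω' y) * lint π (fun y => H ω y + H' ω' y) =
        Real.exp (lint π (H' ω')) *
          (lint π (H' ω') * Real.exp (lint (π.tilted (H' ω')) (H ω)) +
            Real.exp (lint (π.tilted (H' ω')) (H ω)) * lint (π.tilted (H' ω')) (H ω)) := fun ω => by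
      rw [e, Real.exp_add]; ring
    simp only [e2]
    rw [integral_const_mul, integral_add (i1.const_mul _) i2, integral_const_mul, h1, mul_one]
    rfl
  refine ⟨hi.integral_prod_right.congr (Eventually.of_forall key), ?_⟩
  rw [ent, integral_prod_symm _ hi]
  exact integral_congr_ae (Eventually.of_forall key)

lemma sum_moments {h : Ω → ℝ} {w : Ω → ℝ} (h0 : Integrable w P) (h1 : Integrable (fun x => w x * h x) P)
    (h2 : Integrable (fun x => w x * h x ^ 2) P) (hw : ∫ x, w x ∂P = 1) (M : ℕ) :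
    (Integrable (fun ω : Fin M → Ω => ∏ a, w (ω a)) (Measure.pi fun _ => P) ∧
      ∫ ω : Fin M → Ω, ∏ a, w (ω a) ∂(Measure.pi fun _ => P) = 1) ∧
    (Integrable (fun ω : Fin M → Ω => (∏ a, w (ω a)) * ∑ a, h (ω a)) (Measure.pi fun _ => P) ∧
      ∫ ω : Fin M → Ω, (∏ a, w (ω a)) * ∑ a, h (ω a) ∂(Measure.pi fun _ => P) =
        M * ∫ x, w x * h x ∂P) ∧
    (Integrable (fun ω : Fin M → Ω => (∏ a, w (ω a)) * (∑ a, h (ω a)) ^ 2) (Measure.pi fun _ => P) ∧
      ∫ ω : Fin M → Ω, (∏ a, w (ω a)) * (∑ a, h (ω a)) ^ 2 ∂(Measure.pi fun _ => P) =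
        M * ∫ x, w x * h x ^ 2 ∂P + M * (M - 1) * (∫ x, w x * h x ∂P) ^ 2) := by
  induction M with
  | zero => simp
  | succ M ih =>
    obtain ⟨⟨a0, b0⟩, ⟨a1, b1⟩, a2, b2⟩ := ih
    have e := measurePreserving_piFinSuccAbove (fun _ : Fin (M + 1) => P) 0
    have tr : ∀ {G : (Fin (M + 1) → Ω) → ℝ} {G' : Ω × (Fin M → Ω) → ℝ},
        (∀ ω, G ω = G' (ω 0, fun a => ω a.succ)) →
        Integrable G' (P.prod (Measure.pi fun _ => P)) →
        Integrable G (Measure.pi fun _ => P) ∧
          ∫ ω, G ω ∂(Measure.pi fun _ => P) = ∫ z, G' z ∂P.prod (Measure.pi fun _ => P) := by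
      intro G G' hG hi
      have hG' : G = fun ω => G' (MeasurableEquiv.piFinSuccAbove (fun _ => Ω) 0 ω) := by
        ext ω; rw [hG]; rfl
      rw [hG']
      exact ⟨e.integrable_comp_of_integrable hi, e.integral_comp' _⟩
    have p00 := h0.mul_prod a0
    have p10 := h1.mul_prod a0
    have p01 := h0.mul_prod a1
    have p20 := h2.mul_prod a0
    have p11 := h1.mul_prod a1
    have p02 := h0.mul_prod a2
    refine ⟨?_, ?_, ?_⟩
    · obtain ⟨u, v⟩ := tr (G := fun ω => ∏ a, w (ω a)) (G' := fun z => w z.1 * ∏ a, w (z.2 a))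
        (fun ω => Fin.prod_univ_succ _) p00
      refine ⟨u, v.trans ?_⟩
      rw [integral_prod_mul w fun ω : Fin M → Ω => ∏ a, w (ω a), hw, b0, one_mul]
    · obtain ⟨u, v⟩ := tr (G := fun ω => (∏ a, w (ω a)) * ∑ a, h (ω a))
        (G' := fun z => w z.1 * h z.1 * ∏ a, w (z.2 a) + w z.1 * ((∏ a, w (z.2 a)) * ∑ a, h (z.2 a)))
        (fun ω => by simp only [Fin.prod_univ_succ, Fin.sum_univ_succ]; ring) (p10.fun_add p01)
      refine ⟨u, v.trans ?_⟩
      rw [integral_add p10 p01,
        integral_prod_mul (fun x => w x * h x) (fun ω : Fin M → Ω => ∏ a, w (ω a)),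
        integral_prod_mul w (fun ω : Fin M → Ω => (∏ a, w (ω a)) * ∑ a, h (ω a)), hw, b0, b1]
      push_cast; ring
    · obtain ⟨u, v⟩ := tr (G := fun ω => (∏ a, w (ω a)) * (∑ a, h (ω a)) ^ 2)
        (G' := fun z => (w z.1 * h z.1 ^ 2 * ∏ a, w (z.2 a) +
          2 * (w z.1 * h z.1 * ((∏ a, w (z.2 a)) * ∑ a, h (z.2 a)))) +
          w z.1 * ((∏ a, w (z.2 a)) * (∑ a, h (z.2 a)) ^ 2))
        (fun ω => by simp only [Fin.prod_univ_succ, Fin.sum_univ_succ]; ring)
        ((p20.fun_add (p11.const_mul 2)).fun_add p02)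
      refine ⟨u, v.trans ?_⟩
      rw [integral_add (p20.fun_add (p11.const_mul 2)) p02, integral_add p20 (p11.const_mul 2),
        integral_const_mul,
        integral_prod_mul (fun x => w x * h x ^ 2) (fun ω : Fin M → Ω => ∏ a, w (ω a)),
        integral_prod_mul (fun x => w x * h x) (fun ω : Fin M → Ω => (∏ a, w (ω a)) * ∑ a, h (ω a)),
        integral_prod_mul w (fun ω : Fin M → Ω => (∏ a, w (ω a)) * (∑ a, h (ω a)) ^ 2), hw, b0, b1, b2]
      push_cast; ring

end general

variable {N M : ℕ} {π : Measure (Fin N → ℝ)} [IsProbabilityMeasure π] {f : ℝ → ℝ} {K : ℝ}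

/-- Sum of pattern terms with a weight for each slot. -/
def slots (F : Fin M → ℝ → ℝ) (g : Fin M → Fin N → ℝ) (y : Fin N → ℝ) : ℝ :=
  ∑ a, term (F a) dir (g a) y

lemma nice_slots {F : Fin M → ℝ → ℝ} (hF : ∀ a, Measurable (F a)) (hb : ∀ a z, |F a z| ≤ K) :
    Nice (M * K) (slots (N := N) F) := by
  refine ⟨?_, fun g y => ?_⟩
  · unfold slots Function.uncurry
    exact Finset.measurable_sum _ fun a _ => (nice_term (hF a) (hb a) measurable_dir).meas.comp
      (f := fun z : (Fin M → Fin N → ℝ) × (Fin N → ℝ) => (z.1 a, z.2))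
        (((measurable_pi_apply a).comp measurable_fst).prodMk measurable_snd)
  refine (Finset.abs_sum_le_sum_abs _ _).trans ?_
  calc ∑ a, |term (F a) dir (g a) y| ≤ ∑ _a : Fin M, K := Finset.sum_le_sum fun a _ => hb a _
    _ = M * K := by simp

lemma mean_slots_eq_one {F : Fin M → ℝ → ℝ} (hF : ∀ a, Measurable (F a))
    (h1 : ∀ a, ∫ z, Real.exp (F a z) ∂gam1 = 1) (hN : 0 < N) {y : Fin N → ℝ} (hy : ∀ i, y i ≠ 0) :
    ∫ g, Real.exp (slots F g y) ∂Measure.pi (fun _ : Fin M => gam (Fin N)) = 1 := by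
  simp only [slots, Real.exp_sum]
  rw [integral_fintype_prod_eq_prod (fun a g => Real.exp (term (F a) dir g y))]
  simp only [mean_term_eq_one (hF _) (h1 _) hN hy, Finset.prod_const_one]

lemma slot_swap {m : ℕ} (a : Fin (m + 1)) {F F' : Fin (m + 1) → ℝ → ℝ}
    (hF : ∀ b, Measurable (F b)) (hF' : ∀ b, Measurable (F' b))
    (hb : ∀ b z, |F b z| ≤ K) (hb' : ∀ b z, |F' b z| ≤ K)
    (h1 : ∀ b, ∫ z, Real.exp (F b z) ∂gam1 = 1) (h1' : ∀ b, ∫ z, Real.exp (F' b z) ∂gam1 = 1)
    (heq : ∀ b, F' (a.succAbove b) = F (a.succAbove b)) (hN : 0 < N)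
    (hne : ∀ᵐ y ∂π, ∀ i, y i ≠ 0) {e : ℝ}
    (hstep : ∀ σ : Measure (Fin N → ℝ), IsProbabilityMeasure σ → (∀ᵐ y ∂σ, ∀ i, y i ≠ 0) →
      ent (gam (Fin N)) (term (F' a) dir) σ ≤ ent (gam (Fin N)) (term (F a) dir) σ + e) :
    ent (Measure.pi fun _ => gam (Fin N)) (slots F') π ≤
      ent (Measure.pi fun _ => gam (Fin N)) (slots F) π + e := by
  have hmp := measurePreserving_piFinSuccAbove (fun _ : Fin (m + 1) => gam (Fin N)) a
  have hsplit : ∀ G : Fin (m + 1) → ℝ → ℝ, ent (Measure.pi fun _ => gam (Fin N)) (slots G) π =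
      ent ((gam (Fin N)).prod (Measure.pi fun _ : Fin m => gam (Fin N)))
        (fun p y => term (G a) dir p.1 y + slots (fun b => G (a.succAbove b)) p.2 y) π := fun G => by
    simp only [ent]
    rw [← hmp.integral_comp' (g := fun p : (Fin N → ℝ) × (Fin m → Fin N → ℝ) =>
      Real.exp (lint π fun y => term (G a) dir p.1 y + slots (fun b => G (a.succAbove b)) p.2 y) *
        lint π fun y => term (G a) dir p.1 y + slots (fun b => G (a.succAbove b)) p.2 y)]
    congr 1
    ext g
    have e1 : ∀ y, slots G g y = term (G a) dir (g a) y +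
        slots (fun b => G (a.succAbove b)) (fun b => g (a.succAbove b)) y := fun y =>
      Fin.sum_univ_succAbove _ a
    simp only [MeasurableEquiv.piFinSuccAbove_apply, Fin.insertNthEquiv_symm_apply, Fin.removeNth]
    rw [funext e1]
    rfl
  have hr : ∀ b, Measurable (F (a.succAbove b)) := fun b => hF _
  have hnr := nice_slots (N := N) hr (fun b => hb (a.succAbove b))
  obtain ⟨i1, e1⟩ := ent_add (P' := Measure.pi fun _ : Fin m => gam (Fin N)) (π := π)
    (nice_term (hF a) (hb a) (measurable_dir (ι := Fin N))) hnr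
    (hne.mono fun y hy => mean_term_eq_one (hF a) (h1 a) hN hy)
  obtain ⟨i2, e2⟩ := ent_add (P' := Measure.pi fun _ : Fin m => gam (Fin N)) (π := π)
    (nice_term (hF' a) (hb' a) (measurable_dir (ι := Fin N))) hnr
    (hne.mono fun y hy => mean_term_eq_one (hF' a) (h1' a) hN hy)
  rw [hsplit F, hsplit F', show (fun b => F' (a.succAbove b)) = fun b => F (a.succAbove b) from funext heq,
    e1, e2]
  have im := integrable_exp_lint (P := Measure.pi fun _ : Fin m => gam (Fin N)) (π := π) hnr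
  refine (integral_mono i2 (i1.fun_add (im.const_mul e)) fun r => ?_).trans_eq ?_
  · have hT := isProb_tilted (π := π) (hnr.meas_left r) (hnr.bound r)
    have := mul_le_mul_of_nonneg_left (hstep _ hT ((tilted_absolutelyContinuous _ _).ae_le hne))
      (Real.exp_pos (lint π (slots (fun b => F (a.succAbove b)) r))).le
    linarith
  · rw [integral_add i1 (im.const_mul e), integral_const_mul,
      mass_one hnr (hne.mono fun y hy => mean_slots_eq_one hr (fun b => h1 _) hN hy), mul_one]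

lemma slots_hybrid {g : ℝ → ℝ} (hf : Measurable f) (hg : Measurable g) (hb : ∀ z, |f z| ≤ K)
    (hgb : ∀ z, |g z| ≤ K) (h1 : ∫ z, Real.exp (f z) ∂gam1 = 1)
    (h1g : ∫ z, Real.exp (g z) ∂gam1 = 1) (hN : 0 < N) (hne : ∀ᵐ y ∂π, ∀ i, y i ≠ 0) {e : ℝ}
    (hstep : ∀ σ : Measure (Fin N → ℝ), IsProbabilityMeasure σ → (∀ᵐ y ∂σ, ∀ i, y i ≠ 0) →
      ent (gam (Fin N)) (term g dir) σ ≤ ent (gam (Fin N)) (term f dir) σ + e) (M : ℕ) :
    ent (Measure.pi fun _ => gam (Fin N)) (slots fun _ : Fin M => g) π ≤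
      ent (Measure.pi fun _ => gam (Fin N)) (slots fun _ : Fin M => f) π + M * e := by
  suffices h : ∀ k ≤ M,
      ent (Measure.pi fun _ => gam (Fin N)) (slots fun a : Fin M => if (a : ℕ) < k then g else f) π ≤
        ent (Measure.pi fun _ => gam (Fin N)) (slots fun _ : Fin M => f) π + k * e by
    simpa [Fin.is_lt] using h M le_rfl
  intro k
  induction k with
  | zero => intro _; simp
  | succ k ih =>
    intro hk
    obtain ⟨m, rfl⟩ : ∃ m, M = m + 1 := ⟨M - 1, by omega⟩
    set a : Fin (m + 1) := ⟨k, by omega⟩ with ha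
    have h := slot_swap (π := π) a
      (F := fun b : Fin (m + 1) => if (b : ℕ) < k then g else f)
      (F' := fun b : Fin (m + 1) => if (b : ℕ) < k + 1 then g else f) (K := K)
      (fun b => by split <;> assumption) (fun b => by split <;> assumption)
      (fun b => by split <;> assumption) (fun b => by split <;> assumption)
      (fun b => by split <;> assumption) (fun b => by split <;> assumption)
      (fun b => by
        have hne' : ((a.succAbove b : Fin (m + 1)) : ℕ) ≠ k := fun h =>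
          Fin.succAbove_ne a b (Fin.ext h)
        simp only [show ((a.succAbove b : Fin (m + 1)) : ℕ) < k + 1 ↔
          ((a.succAbove b : Fin (m + 1)) : ℕ) < k by omega])
      hN hne (e := e) (fun σ hσ hσ' => by simpa [ha] using hstep σ hσ hσ')
    have := ih (by omega)
    push_cast
    linarith

/-! ### The test on column sums -/

/-- Normalised column sums. -/
def colMap (g : Fin M → Fin N → ℝ) (i : Fin N) : ℝ := (∑ a, g a i) / Real.sqrt M

lemma measurePreserving_colMap (hM : 0 < M) :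
    MeasurePreserving (colMap (M := M) (N := N)) (Measure.pi fun _ => gam (Fin N)) (gam (Fin N)) := by
  have hm : Measurable (colMap (M := M) (N := N)) := by unfold colMap; fun_prop
  refine ⟨hm, ?_⟩
  have hM' : (0 : ℝ) < M := by exact_mod_cast hM
  have hL : (Measure.pi fun _ : Fin M => gam (Fin N)).map (fun g => WithLp.toLp 2 (colMap g)) =
      (gam (Fin N)).map (WithLp.toLp 2) := by
    apply Measure.ext_of_charFun
    ext t
    rw [charFun_apply, charFun_apply, integral_map (by fun_prop) (by fun_prop),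
      integral_map (by fun_prop) (by fun_prop)]
    have e1 : ∀ g : Fin N → ℝ, inner ℝ (WithLp.toLp 2 g) t = dot g fun i => t i := fun g => by
      simp [PiLp.inner_apply, dot, mul_comm]
    have e2 : ∀ g : Fin M → Fin N → ℝ, dot (colMap g) (fun i => t i) =
        ∑ a, dot (g a) fun i => t i / Real.sqrt M := fun g => by
      simp only [dot, colMap]
      rw [Finset.sum_comm]
      refine Finset.sum_congr rfl fun i _ => ?_
      rw [← Finset.sum_mul, div_mul_eq_mul_div, mul_div_assoc]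
    simp only [e1, e2, Complex.ofReal_sum, Finset.sum_mul, Complex.exp_sum]
    rw [integral_fintype_prod_eq_prod
      (fun (_ : Fin M) g => Complex.exp ((dot g fun i => t i / Real.sqrt M : ℝ) * Complex.I))]
    simp only [integral_cexp_dot, Finset.prod_const, Finset.card_univ, Fintype.card_fin,
      ← Complex.ofReal_pow, ← Real.exp_nat_mul]
    congr 2
    simp only [div_pow, Real.sq_sqrt hM'.le, ← Finset.sum_div]
    field_simp
  have h := congrArg (Measure.map (WithLp.ofLp : EuclideanSpace ℝ (Fin N) → Fin N → ℝ)) hL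
  rw [Measure.map_map (WithLp.measurable_ofLp 2 _) (by fun_prop),
    Measure.map_map (WithLp.measurable_ofLp 2 _) (by fun_prop)] at h
  exact h.trans Measure.map_id

lemma integral_mul_sin_gam1 : ∫ z, z * Real.sin z ∂gam1 = Real.exp (-1 / 2) := by
  rw [integral_id_mul_gaussian (f := Real.sin) (f' := Real.cos) (A := 1) (A' := 1)
    Real.hasDerivAt_sin Real.abs_sin_le_one Real.abs_cos_le_one]
  simpa using integral_cos_gam1 1

lemma side_moments {t : ℝ} (ht : |t| ≤ 1 / 2) {u : Fin N → ℝ} (hu : ∑ i, u i ^ 2 = 1) (i : Fin N) :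
    (Integrable (fun g : Fin N → ℝ => (1 + t * Real.sin (dot g u)) * g i) (gam (Fin N)) ∧
      ∫ g : Fin N → ℝ, (1 + t * Real.sin (dot g u)) * g i ∂gam (Fin N) =
        t * Real.exp (-1 / 2) * u i) ∧
    (Integrable (fun g : Fin N → ℝ => (1 + t * Real.sin (dot g u)) * g i ^ 2) (gam (Fin N)) ∧
      ∫ g : Fin N → ℝ, (1 + t * Real.sin (dot g u)) * g i ^ 2 ∂gam (Fin N) = 1) := by
  have hev := measurePreserving_eval (fun _ : Fin N => gaussianReal 0 1) i
  have iz : Integrable (fun g : Fin N → ℝ => g i) (gam (Fin N)) :=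
    hev.integrable_comp_of_integrable (IsGaussian.memLp_two_id.integrable one_le_two)
  have iz2 : Integrable (fun g : Fin N → ℝ => g i ^ 2) (gam (Fin N)) :=
    hev.integrable_comp_of_integrable (IsGaussian.memLp_two_id (μ := gaussianReal 0 1)).integrable_sq
  have hsm : Measurable fun g : Fin N → ℝ => Real.sin (dot g u) := by unfold dot; fun_prop
  have hsb : ∀ᵐ g ∂gam (Fin N), ‖Real.sin (dot g u)‖ ≤ 1 :=
    Eventually.of_forall fun g => Real.abs_sin_le_one _
  have is1 : Integrable (fun g : Fin N → ℝ => Real.sin (dot g u) * g i) (gam (Fin N)) :=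
    iz.bdd_mul hsm.aestronglyMeasurable hsb
  have is2 : Integrable (fun g : Fin N → ℝ => Real.sin (dot g u) * g i ^ 2) (gam (Fin N)) :=
    iz2.bdd_mul hsm.aestronglyMeasurable hsb
  have e : ∀ (g : Fin N → ℝ) (p : ℝ), (1 + t * Real.sin (dot g u)) * p =
      p + t * (Real.sin (dot g u) * p) := fun g p => by ring
  have h1 : ∫ g : Fin N → ℝ, g i ∂gam (Fin N) = 0 := by
    rw [integral_comp_eval (μ := fun _ : Fin N => gaussianReal 0 1) (i := i) (f := fun z : ℝ => z)
      measurable_id.aestronglyMeasurable, integral_id_gaussianReal]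
  have h2 : ∫ g : Fin N → ℝ, g i ^ 2 ∂gam (Fin N) = 1 := by
    rw [integral_comp_eval (μ := fun _ : Fin N => gaussianReal 0 1) (i := i) (f := fun z : ℝ => z ^ 2)
      (by fun_prop : Measurable fun z : ℝ => z ^ 2).aestronglyMeasurable]
    exact integral_sq_gam1
  have h3 : ∫ g : Fin N → ℝ, Real.sin (dot g u) * g i ^ 2 ∂gam (Fin N) = 0 :=
    integral_odd (hsm.mul ((measurable_pi_apply i).pow_const 2)) fun g => by
      simp only [dot, neg_mul, Finset.sum_neg_distrib, Real.sin_neg, neg_sq]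
  have h4 : ∫ g : Fin N → ℝ, Real.sin (dot g u) * g i ∂gam (Fin N) = Real.exp (-1 / 2) * u i := by
    set v : Fin N → ℝ := Pi.single i 1
    have hv : ∑ j, v j ^ 2 = 1 := by simp [v, Pi.single_apply]
    have hd : ∀ g : Fin N → ℝ, dot g v = g i := fun g => by simp [dot, v, Pi.single_apply]
    obtain ⟨-, e'⟩ := integral_pair_eq (G := fun a b => Real.sin a * b)
      (by unfold Function.uncurry; fun_prop) hu hv
    simp only [hd] at e'
    rw [e']
    have jz : Integrable (fun z : ℝ => z) gam1 := IsGaussian.memLp_two_id.integrable one_le_two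
    have js : Integrable Real.sin gam1 := integrable_of_abs_le Real.measurable_sin Real.abs_sin_le_one
    obtain ⟨a1, b1⟩ := integral_two_mul (jz.bdd_mul Real.measurable_sin.aestronglyMeasurable
      (c := 1) (Eventually.of_forall Real.abs_sin_le_one)) (integrable_const (1 : ℝ))
    obtain ⟨a2, b2⟩ := integral_two_mul js jz
    have e2 : ∀ g : Fin 2 → ℝ, Real.sin (g 0) * (u i * g 0 + Real.sqrt (1 - u i ^ 2) * g 1) =
        u i * (Real.sin (g 0) * g 0 * 1) + Real.sqrt (1 - u i ^ 2) * (Real.sin (g 0) * g 1) :=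
      fun g => by ring
    simp only [e2]
    rw [integral_add (a1.const_mul _) (a2.const_mul _), integral_const_mul, integral_const_mul, b1, b2,
      integral_id_gaussianReal, mul_zero, mul_zero, add_zero]
    simp only [integral_const, probReal_univ, smul_eq_mul, mul_one]
    rw [show (fun z => Real.sin z * z) = fun z => z * Real.sin z from funext fun z => mul_comm _ _,
      integral_mul_sin_gam1, mul_comm]
  simp only [e]
  exact ⟨⟨iz.fun_add (is1.const_mul t), by
      rw [integral_add iz (is1.const_mul t), integral_const_mul, h1, h4]; ring⟩,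
    ⟨iz2.fun_add (is2.const_mul t), by
      rw [integral_add iz2 (is2.const_mul t), integral_const_mul, h2, h3]; ring⟩⟩

lemma colMap_sq (g : Fin M → Fin N → ℝ) (i : Fin N) : colMap g i ^ 2 = (∑ a, g a i) ^ 2 / M := by
  rw [colMap, div_pow, Real.sq_sqrt (Nat.cast_nonneg M)]

/-- Planted mean of the column test. -/
lemma column_test_mean (hM : 0 < M) (hN : 0 < N) {t : ℝ} (ht : |t| ≤ 1 / 2) {y : Fin N → ℝ}
    (hy : ∀ i, y i ≠ 0) :
    ∫ g : Fin M → Fin N → ℝ, Real.exp (slots (fun _ => sideF t) g y) * ∑ i, (colMap g i ^ 2 - 1)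
      ∂Measure.pi (fun _ => gam (Fin N)) = ((M : ℝ) - 1) * (t ^ 2 * Real.exp (-1)) := by
  have hM' : (0 : ℝ) < M := by exact_mod_cast hM
  obtain ⟨hm, hb, he, h1⟩ := sideF_facts ht
  have hu := sum_dir_sq_of_ne hN hy
  set w : (Fin N → ℝ) → ℝ := fun g => 1 + t * Real.sin (dot g (dir y))
  have hwm : Measurable w := by unfold w dot; fun_prop
  have hwi : Integrable w (gam (Fin N)) := integrable_of_abs_le (K := 2) hwm fun g => by
    have := mul_le_mul_of_nonneg_left (Real.abs_sin_le_one (dot g (dir y))) (abs_nonneg t)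
    rw [← abs_mul] at this
    exact (abs_add_le _ _).trans (by rw [abs_one]; linarith)
  have hw1 : ∫ g, w g ∂gam (Fin N) = 1 := by
    have := mean_term_eq_one hm h1 hN hy
    simpa [term, he, w] using this
  have hexp : ∀ g : Fin M → Fin N → ℝ, Real.exp (slots (fun _ => sideF t) g y) = ∏ a, w (g a) :=
    fun g => by simp only [slots, Real.exp_sum, term, he, w]
  have hper : ∀ i : Fin N,
      Integrable (fun g : Fin M → Fin N → ℝ => (∏ a, w (g a)) * (colMap g i ^ 2 - 1))
        (Measure.pi fun _ => gam (Fin N)) ∧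
      ∫ g : Fin M → Fin N → ℝ, (∏ a, w (g a)) * (colMap g i ^ 2 - 1)
        ∂(Measure.pi fun _ => gam (Fin N)) = ((M : ℝ) - 1) * (t ^ 2 * Real.exp (-1)) * dir y i ^ 2 := by
    intro i
    obtain ⟨⟨j1, k1⟩, j2, k2⟩ := side_moments ht hu i
    obtain ⟨⟨a0, b0⟩, -, a2, b2⟩ := sum_moments (P := gam (Fin N)) (h := fun g : Fin N → ℝ => g i)
      hwi j1 j2 hw1 M
    have e : ∀ g : Fin M → Fin N → ℝ, (∏ a, w (g a)) * (colMap g i ^ 2 - 1) =
        1 / (M : ℝ) * ((∏ a, w (g a)) * (∑ a, g a i) ^ 2) - ∏ a, w (g a) := fun g => by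
      rw [colMap_sq]; ring
    simp only [e]
    refine ⟨(a2.const_mul _).sub a0, ?_⟩
    rw [integral_sub (a2.const_mul _) a0, integral_const_mul, b2, b0]
    change 1 / (M : ℝ) * (M * (∫ g : Fin N → ℝ, (1 + t * Real.sin (dot g (dir y))) * g i ^ 2 ∂gam (Fin N)) +
      M * (M - 1) * (∫ g : Fin N → ℝ, (1 + t * Real.sin (dot g (dir y))) * g i ∂gam (Fin N)) ^ 2) - 1 = _
    rw [k1, k2, show Real.exp (-1) = Real.exp (-1 / 2) ^ 2 by rw [← Real.exp_nat_mul]; norm_num]
    field_simp
    ring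
  simp only [hexp, Finset.mul_sum]
  rw [integral_finsetSum _ fun i _ => (hper i).1]
  simp only [(hper _).2, ← Finset.mul_sum, hu, mul_one]

/-- Lower bound for the odd signal in every slot. -/
theorem ent_side_slots_ge (hM : 0 < M) (hN : 0 < N) (hne : ∀ᵐ y ∂π, ∀ i, y i ≠ 0) {t l : ℝ}
    (ht : |t| ≤ 1 / 2) (hl0 : 0 ≤ l) (hl : l ≤ 1 / 4) :
    l * (((M : ℝ) - 1) * (t ^ 2 * Real.exp (-1))) - N * (l ^ 2 * (1 + 8 * l)) ≤
      ent (Measure.pi fun _ => gam (Fin N)) (slots fun _ : Fin M => sideF t) π := by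
  obtain ⟨hm, hb, he, h1⟩ := sideF_facts ht
  have hns := nice_slots (N := N) (M := M) (F := fun _ => sideF t) (fun _ => hm) fun _ => hb
  set C := (N : ℝ) * (l ^ 2 * (1 + 8 * l))
  set E : (Fin N → ℝ) → ℝ := fun x => (∏ i, Real.exp (2 * l / 2 * (x i ^ 2 - 1))) * Real.exp (-C)
  have h2l : |2 * l| ≤ 1 / 2 := by rw [abs_of_nonneg (by linarith)]; linarith
  have hmp := measurePreserving_colMap (N := N) hM
  have hEi : Integrable E (gam (Fin N)) :=
    (Integrable.fintype_prod fun _ => (exp_square_le h2l).1).mul_const _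
  have hE1 : ∫ x, E x ∂gam (Fin N) ≤ 1 := by
    simp only [E]
    rw [integral_mul_const, integral_fintype_prod_eq_prod
      (fun (_ : Fin N) z => Real.exp (2 * l / 2 * (z ^ 2 - 1)))]
    refine (mul_le_mul_of_nonneg_right (Finset.prod_le_prod
      (fun i _ => integral_nonneg fun z => (Real.exp_pos _).le) fun i _ => (exp_square_le h2l).2)
      (Real.exp_pos _).le).trans (le_of_eq ?_)
    rw [Finset.prod_const, Finset.card_univ, Fintype.card_fin, ← Real.exp_nat_mul, ← Real.exp_add,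
      abs_of_nonneg (show 0 ≤ 2 * l by linarith)]
    rw [show (N : ℝ) * ((2 * l) ^ 2 / 4 * (1 + 4 * (2 * l))) + -C = 0 by simp only [C]; ring,
      Real.exp_zero]
  set q : (Fin M → Fin N → ℝ) → ℝ := fun g => l * ∑ i, (colMap g i ^ 2 - 1) - C
  have hqe : (fun g => Real.exp (q g)) = fun g => E (colMap g) := by
    ext g
    simp only [q, E, ← Real.exp_sum, ← Real.exp_add, Finset.mul_sum]
    rw [sub_eq_add_neg]
    congr 2
    exact Finset.sum_congr rfl fun i _ => by ring
  have hq : Integrable (fun g => Real.exp (q g)) (Measure.pi fun _ : Fin M => gam (Fin N)) := by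
    rw [hqe]; exact hmp.integrable_comp_of_integrable hEi
  have hq1 : ∫ g, Real.exp (q g) ∂(Measure.pi fun _ : Fin M => gam (Fin N)) ≤ 1 := by
    rw [hqe]
    have h := integral_map (μ := Measure.pi fun _ : Fin M => gam (Fin N)) hmp.measurable.aemeasurable
      (f := E) (by rw [hmp.map_eq]; exact hEi.aestronglyMeasurable)
    rw [hmp.map_eq] at h
    exact h.symm.trans_le hE1
  have hqm : Measurable q := by unfold q colMap; fun_prop
  have hSi : Integrable (fun g => q g) (Measure.pi fun _ : Fin M => gam (Fin N)) := by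
    refine (((integrable_finsetSum _ fun i _ =>
      (hmp.integrable_comp_of_integrable (g := fun x : Fin N → ℝ => x i ^ 2 - 1)
        (((measurePreserving_eval (fun _ : Fin N => gaussianReal 0 1) i).integrable_comp_of_integrable
          (IsGaussian.memLp_two_id (μ := gaussianReal 0 1)).integrable_sq).sub' (integrable_const 1))))).const_mul l).sub'
      (integrable_const C)
  set D : (Fin M → Fin N → ℝ) × (Fin N → ℝ) → ℝ := fun p =>
    Real.exp (slots (fun _ => sideF t) p.1 p.2) * q p.1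
  have hDi : Integrable D ((Measure.pi fun _ : Fin M => gam (Fin N)).prod π) := by
    refine ((hSi.comp_fst π).bdd_mul hns.meas.exp.aestronglyMeasurable (c := Real.exp (M * 1))
      (Eventually.of_forall fun p => ?_))
    rw [Real.norm_eq_abs]
    change |Real.exp _| ≤ _
    rw [Real.abs_exp]
    exact Real.exp_le_exp.2 ((le_abs_self _).trans (hns.bound p.1 p.2))
  have hW : ∀ g, Real.exp (lint π (slots (fun _ => sideF t) g)) * q g = ∫ y, D (g, y) ∂π := fun g => by
    rw [exp_lint_eq hns, ← integral_mul_const]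
  have hWqi : Integrable (fun g => Real.exp (lint π (slots (fun _ => sideF t) g)) * q g)
      (Measure.pi fun _ : Fin M => gam (Fin N)) := by
    simp only [hW]; exact hDi.integral_prod_left
  have hy1 : ∀ᵐ y ∂π, ∫ g, Real.exp (slots (fun _ => sideF t) g y)
      ∂(Measure.pi fun _ : Fin M => gam (Fin N)) = 1 :=
    hne.mono fun y hy => mean_slots_eq_one (fun _ => hm) (fun _ => h1) hN hy
  have h := le_ent hns hy1 hq hWqi
  have hval : ∫ g, Real.exp (lint π (slots (fun _ => sideF t) g)) * q g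
      ∂(Measure.pi fun _ : Fin M => gam (Fin N)) =
      l * (((M : ℝ) - 1) * (t ^ 2 * Real.exp (-1))) - C := by
    simp only [hW]
    rw [integral_integral_swap hDi]
    refine (integral_congr_ae (g := fun _ => l * (((M : ℝ) - 1) * (t ^ 2 * Real.exp (-1))) - C) ?_).trans
      (by simp)
    filter_upwards [hne, hy1, hDi.prod_left_ae] with y hy hy' hDy
    have ic : Integrable (fun g => C * Real.exp (slots (fun _ => sideF t) g y))
        (Measure.pi fun _ : Fin M => gam (Fin N)) :=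
      (integrable_exp_of_abs_le hns.meas.of_uncurry_right fun g => hns.bound g y).const_mul C
    have e : ∀ g, l * (Real.exp (slots (fun _ => sideF t) g y) * ∑ i, (colMap g i ^ 2 - 1)) =
        D (g, y) + C * Real.exp (slots (fun _ => sideF t) g y) := fun g => by simp only [D, q]; ring
    have h' := congrArg (l * ·) (column_test_mean hM hN ht hy)
    simp only [← integral_const_mul, e] at h'
    rw [integral_add hDy ic, integral_const_mul, hy', mul_one] at h'
    linarith
  rw [hval] at h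
  linarith

/-- A linear planted gain above `1 / curv²`. -/
theorem exists_planted_gain (hf : Measurable f) (hb : ∀ z, |f z| ≤ K)
    (h1 : ∫ z, Real.exp (f z) ∂gam1 = 1) {α : ℝ} (hα : 0 < α)
    (hc : 1 < α * (∫ z, (z ^ 2 - 1) * Real.exp (f z) ∂gam1) ^ 2) :
    ∃ ε > 0, ∀ᶠ N : ℕ in atTop, ∀ π : Measure (Fin N → ℝ), IsProbabilityMeasure π →
      (∀ᵐ y ∂π, ∀ i, y i ≠ 0) →
      ε * N ≤ ent (Measure.pi fun _ => gam (Fin N)) (slots fun _ : Fin ⌊α * (N : ℝ)⌋₊ => f) π := by
  obtain ⟨c, hcdef⟩ : ∃ c, c = ∫ z, (z ^ 2 - 1) * Real.exp (f z) ∂gam1 := ⟨_, rfl⟩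
  rw [← hcdef] at hc
  have hc0 : c ≠ 0 := by rintro rfl; norm_num at hc
  obtain ⟨δ, hδ⟩ : ∃ δ, δ = (1 - 1 / (α * c ^ 2)) / 4 := ⟨_, rfl⟩
  have hinv : 1 / (α * c ^ 2) < 1 := by rw [div_lt_one (by linarith)]; exact hc
  have hinv0 : 0 < 1 / (α * c ^ 2) := by positivity
  have hδ' : δ ∈ Set.Ioo (0 : ℝ) (1 / 2) := ⟨by rw [hδ]; linarith, by rw [hδ]; linarith⟩
  obtain ⟨β, hβ⟩ : ∃ β, β = α * c ^ 2 * (1 - 2 * δ) := ⟨_, rfl⟩
  have hβe : β = (α * c ^ 2 + 1) / 2 := by rw [hβ, hδ]; field_simp; ring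
  have hβ1 : 1 < β := by linarith
  obtain ⟨b, hb0, hbdef⟩ : ∃ b, 0 < b ∧ b = (1 - 1 / β) / 2 := by
    refine ⟨_, ?_, rfl⟩
    have : 1 / β < 1 := by rw [div_lt_one (by linarith)]; exact hβ1
    linarith
  obtain ⟨t₀, ⟨ht00, ht01⟩, hloss⟩ := exists_swap_loss hf hb h1 (hcdef ▸ hc0) hδ'
  obtain ⟨t, ht0, htt, htb⟩ : ∃ t : ℝ, 0 < t ∧ t ≤ t₀ ∧ t * (4 * α + 63) ≤ b := by
    refine ⟨min t₀ (b / (4 * α + 63)), lt_min ht00 (by positivity), min_le_left _ _, ?_⟩
    refine (mul_le_mul_of_nonneg_right (min_le_right t₀ _) (by positivity)).trans (le_of_eq ?_)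
    field_simp
  have ht : |t| ≤ 1 / 2 := by rw [abs_of_pos ht0]; linarith
  obtain ⟨ν, hν⟩ : ∃ ν, ν = t ^ 2 * Real.exp (-1) := ⟨_, rfl⟩
  have hν0 : 0 < ν := hν ▸ by positivity
  have hνt : ν ≤ t := by
    rw [hν, sq]
    refine (mul_le_of_le_one_right (by positivity) (Real.exp_le_one_iff.2 (by norm_num))).trans ?_
    exact mul_le_of_le_one_right ht0.le (by linarith)
  have hL : t ^ 2 * (1 + 7 * t) / Real.exp 1 = ν * (1 + 7 * t) := by
    rw [hν, Real.exp_neg]; ring
  obtain ⟨l, hl⟩ : ∃ l, l = α * ν / 2 := ⟨_, rfl⟩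
  have hl0 : 0 ≤ l := by rw [hl]; positivity
  have hαt : 4 * α * t ≤ 1 / 2 := by
    have : b ≤ 1 / 2 := by linarith [show 0 < 1 / β by positivity]
    linarith
  have hαν := mul_le_mul_of_nonneg_left hνt hα.le
  have hl4 : l ≤ 1 / 4 := by linarith
  have hB : b ≤ 1 - 8 * l - (1 + 7 * t) ^ 2 / β := by
    have h7 : (1 + 7 * t) ^ 2 ≤ 1 + 63 * t := by nlinarith
    have h8 : (1 + 7 * t) ^ 2 / β ≤ 1 / β + 63 * t := by
      refine (div_le_div_of_nonneg_right h7 (by linarith)).trans ?_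
      rw [add_div]
      exact add_le_add le_rfl (div_le_self (by linarith) hβ1.le)
    linarith
  refine ⟨α ^ 2 * ν ^ 2 * b / 8, by positivity, ?_⟩
  filter_upwards [eventually_floor_pos hα, eventually_gt_atTop 0,
    eventually_ge_atTop ⌈8 / (α * b)⌉₊] with N hM hN hNb π hπ hne
  have hNb' : 8 / (α * b) ≤ (N : ℝ) := (Nat.le_ceil _).trans (by exact_mod_cast hNb)
  rw [div_le_iff₀ (by positivity)] at hNb'
  have hM1 := Nat.floor_le (show 0 ≤ α * (N : ℝ) by positivity)
  have hM2 := Nat.lt_floor_add_one (α * (N : ℝ))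
  generalize ⌊α * (N : ℝ)⌋₊ = M at hM hM1 hM2 ⊢
  obtain ⟨hsm, hsb, -, hs1⟩ := sideF_facts ht
  have h := slots_hybrid (π := π) (K := max K 1) hf hsm (fun z => (hb z).trans (le_max_left _ _))
    (fun z => (hsb z).trans (le_max_right _ _)) h1 hs1 hN hne
    (fun σ hσ hσne => hloss t ⟨ht0, htt⟩ N σ hσ hN hσne) M
  have h2 := ent_side_slots_ge (π := π) hM hN hne ht hl0 hl4
  rw [← hν] at h2
  rw [← hcdef, hL] at h
  obtain ⟨d, hd, hd0⟩ : ∃ d, d = (ν * (1 + 7 * t)) ^ 2 / (4 * c ^ 2 * (1 - 2 * δ)) ∧ 0 ≤ d := by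
    refine ⟨_, rfl, div_nonneg (sq_nonneg _) (mul_nonneg (by positivity) ?_)⟩
    linarith [hδ'.2]
  rw [← hd] at h
  have hdβ : α * d = α ^ 2 * ν ^ 2 / 4 * ((1 + 7 * t) ^ 2 / β) := by
    have : (1 : ℝ) - 2 * δ ≠ 0 := by linarith [hδ'.2]
    rw [hd, hβ]; field_simp
  have g1 := mul_le_mul_of_nonneg_right hM1 hd0
  have g2 := mul_le_mul_of_nonneg_left (show α * (N : ℝ) - 2 ≤ (M : ℝ) - 1 by linarith)
    (mul_nonneg hl0 hν0.le)
  have g3 := mul_le_mul_of_nonneg_left hB (show 0 ≤ (N : ℝ) * (α ^ 2 * ν ^ 2 / 4) by positivity)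
  have g4 := mul_le_mul_of_nonneg_left hNb' (show 0 ≤ α * ν ^ 2 / 8 by positivity)
  have g5 : (N : ℝ) * (α * d) = (N : ℝ) * (α ^ 2 * ν ^ 2 / 4) * ((1 + 7 * t) ^ 2 / β) := by
    rw [hdβ]; ring
  rw [hl] at g2 g3 h2
  linarith

end Vale.Agent.P157
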