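import Mathlib
import Vale.Agent.P157.PlantedSlots
import Vale.Agent.P157.AnnealedRegion

/-!
From a planted gain to a quenched gap below the annealed value.
-/

noncomputable section

open MeasureTheory ProbabilityTheory Filter
open scoped Topology ENNReal

namespace Vale.Agent.P157

variable {N M : ℕ} {π : Measure (Fin N → ℝ)} [IsProbabilityMeasure π] {f : ℝ → ℝ} {K : ℝ}

/-- Almost every two configurations are exchanged by a symmetry of prior and disorder. -/
def PairSym (π : Measure (Fin N → ℝ)) : Prop :=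
  ∀ᵐ y ∂π, ∀ᵐ y' ∂π, ∃ R : (Fin N → ℝ) → Fin N → ℝ, MeasurePreserving R (gam (Fin N)) (gam (Fin N)) ∧
    MeasurePreserving R π π ∧ (∀ g z, dot (R g) (dir z) = dot g (dir (R z))) ∧ dir (R y) = dir y'

lemma pairSym_rad : PairSym (Measure.pi fun _ : Fin N => rad) := by
  have hsq := ae_rad_sq (ι := Fin N)
  filter_upwards [hsq] with y hy
  filter_upwards [hsq] with y' hy'
  set s : Fin N → ℝ := fun i => y i * y' i
  have hs : ∀ i, s i = 1 ∨ s i = -1 := fun i => by
    have : (s i) ^ 2 = 1 := by simp only [s, mul_pow, hy i, hy' i, mul_one]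
    exact sq_eq_one_iff.1 this
  refine ⟨fun g i => s i * g i, measurePreserving_pi (fun _ : Fin N => gaussianReal 0 1)
      (fun _ : Fin N => gaussianReal 0 1) fun i => ⟨measurable_const_mul _, ?_⟩,
    measurePreserving_pi (fun _ : Fin N => rad) (fun _ : Fin N => rad)
      fun i => ⟨measurable_const_mul _, ?_⟩, fun g z => ?_, ?_⟩
  · rcases hs i with h | h
    · simp only [h]
      rw [show (HMul.hMul (1 : ℝ)) = id from funext one_mul, Measure.map_id]
    · simp only [h]
      rw [show (HMul.hMul (-1 : ℝ)) = Neg.neg from funext neg_one_mul]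
      simp [gaussianReal_map_neg]
  · rcases hs i with h | h
    · simp only [h]
      rw [show (HMul.hMul (1 : ℝ)) = id from funext one_mul, Measure.map_id]
    · simp only [h, rad]
      rw [show (HMul.hMul (-1 : ℝ)) = Neg.neg from funext neg_one_mul]
      rw [Measure.map_smul, Measure.map_add _ _ measurable_neg, Measure.map_dirac, Measure.map_dirac,
        neg_neg, add_comm]
  · have e : nrm (fun i => s i * z i) = nrm z := by
      simp only [nrm, mul_pow]
      congr 1
      exact Finset.sum_congr rfl fun i _ => by rcases hs i with h | h <;> simp [h]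
    simp only [dot, dir, e]
    exact Finset.sum_congr rfl fun i _ => by ring
  · have e : (fun i => s i * y i) = y' := funext fun i => by
      simp only [s]; rw [mul_right_comm, ← sq, hy i, one_mul]
    simp only [e]

lemma refl_dir (w z : Fin N → ℝ) : refl w (dir z) = dir (refl w z) := by
  have e : nrm (refl w z) = nrm z := by simp only [nrm, sum_refl_sq]
  funext i
  simp only [dir, e, refl, dot, div_mul_eq_mul_div, ← Finset.sum_div]
  ring

lemma pairSym_gauss : PairSym (Measure.pi fun _ : Fin N => gaussianReal 0 1) := by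
  rcases Nat.eq_zero_or_pos N with hN | hN
  · subst hN
    refine Eventually.of_forall fun y => Eventually.of_forall fun y' =>
      ⟨id, MeasurePreserving.id _, MeasurePreserving.id _, fun g z => rfl, ?_⟩
    funext i; exact i.elim0
  have hne : ∀ᵐ y ∂(Measure.pi fun _ : Fin N => gaussianReal 0 1), ∀ i, y i ≠ 0 := by
    rw [ae_all_iff]
    intro i
    have hz : ∀ᵐ x ∂gaussianReal 0 1, x ≠ 0 := by
      rw [ae_iff]; simpa using admissible_gaussian.zero
    exact (measurePreserving_eval (fun _ : Fin N => gaussianReal 0 1) i).quasiMeasurePreserving.ae hz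
  filter_upwards [hne] with y hy
  filter_upwards [hne] with y' hy'
  set u := dir y
  set u' := dir y'
  have hu : ∑ i, u i ^ 2 = 1 := sum_dir_sq_of_ne hN hy
  have hu' : ∑ i, u' i ^ 2 = 1 := sum_dir_sq_of_ne hN hy'
  refine ⟨refl fun i => u i - u' i, measurePreserving_refl _, measurePreserving_refl _,
    fun g z => by rw [dot_refl, refl_dir], ?_⟩
  rw [← refl_dir]
  have hw : ∑ i, (u i - u' i) ^ 2 = 2 - 2 * dot u u' := by
    simp only [sub_sq, Finset.sum_add_distrib, Finset.sum_sub_distrib, hu, hu', mul_assoc,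
      ← Finset.mul_sum, dot]
    ring
  have hd : dot u (fun i => u i - u' i) = 1 - dot u u' := by
    simp only [dot, mul_sub, Finset.sum_sub_distrib, ← sq, hu]
  funext i
  simp only [refl]
  rw [hw, hd]
  rcases eq_or_ne (2 - 2 * dot u u') 0 with h | h
  · have := (Finset.sum_eq_zero_iff_of_nonneg fun j _ => sq_nonneg (u j - u' j)).1
      (hw.trans h) i (Finset.mem_univ i)
    rw [sq_eq_zero_iff, sub_eq_zero] at this
    rw [h, div_zero, zero_mul, sub_zero]
    exact this
  · rw [show 2 * (1 - dot u u') = 2 - 2 * dot u u' by ring, div_self h]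
    ring

lemma pi_tilted_eq {Ω : Type*} [MeasurableSpace Ω] {P : Measure Ω} [IsProbabilityMeasure P]
    {h : Ω → ℝ} {B : ℝ} (hm : Measurable h) (hb : ∀ x, |h x| ≤ B)
    (h1 : ∫ x, Real.exp (h x) ∂P = 1) (M : ℕ) :
    (Measure.pi fun _ : Fin M => P.tilted h) =
      (Measure.pi fun _ : Fin M => P).tilted fun ω => ∑ a, h (ω a) := by
  have := isProb_tilted (π := P) hm hb
  refine Measure.pi_eq fun s hs => ?_
  have hden : ∫ ω : Fin M → Ω, Real.exp (∑ a, h (ω a)) ∂(Measure.pi fun _ => P) = 1 := by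
    simp only [Real.exp_sum]
    rw [integral_fintype_prod_eq_pow (fun x => Real.exp (h x)), h1, one_pow]
  rw [tilted_apply_eq_ofReal_integral' _ (MeasurableSet.univ_pi hs), hden]
  simp only [div_one, Real.exp_sum]
  rw [show ((Measure.pi fun _ : Fin M => P).restrict (Set.univ.pi s)) =
      Measure.pi fun a => P.restrict (s a) from Measure.restrict_pi_pi _ _, integral_fintype_prod_eq_prod (fun _ x => Real.exp (h x)),
    ENNReal.ofReal_prod_of_nonneg fun a _ => integral_nonneg fun x => (Real.exp_pos _).le]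
  refine Finset.prod_congr rfl fun a _ => ?_
  rw [tilted_apply_eq_ofReal_integral' _ (hs a), h1]
  simp only [div_one]

/-- The planted free energy does not depend on the planted configuration. -/
lemma planted_const (hf : Measurable f) (hb : ∀ z, |f z| ≤ K) (hsym : PairSym π) :
    ∀ᵐ y ∂π, ∫ g, Real.exp (slots (fun _ : Fin M => f) g y) * lint π (slots (fun _ : Fin M => f) g)
        ∂Measure.pi (fun _ => gam (Fin N)) =
      ent (Measure.pi fun _ => gam (Fin N)) (slots fun _ : Fin M => f) π := by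
  have hn := nice_slots (N := N) (M := M) (F := fun _ => f) (fun _ => hf) fun _ => hb
  set Q := Measure.pi fun _ : Fin M => gam (Fin N)
  set P1 : (Fin N → ℝ) → ℝ := fun y =>
    ∫ g, Real.exp (slots (fun _ : Fin M => f) g y) * lint π (slots (fun _ : Fin M => f) g) ∂Q
  have hswap : ent Q (slots fun _ : Fin M => f) π = ∫ y, P1 y ∂π := by
    simp only [ent, exp_lint_eq hn, ← integral_mul_const]
    refine integral_integral_swap (integrable_of_abs_le
      (K := Real.exp (M * K) * (M * K)) (hn.meas.exp.mul ((measurable_lint π hn.meas).comp measurable_fst))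
      fun q => ?_)
    have hl := abs_lint_le (π := π) (hn.meas_left q.1) (hn.bound q.1)
    change |Real.exp _ * lint π (slots (fun _ : Fin M => f) q.1)| ≤ _
    rw [abs_mul, Real.abs_exp]
    exact mul_le_mul (Real.exp_le_exp.2 ((le_abs_self _).trans (hn.bound q.1 q.2))) hl (abs_nonneg _)
      (Real.exp_pos _).le
  rw [hswap]
  filter_upwards [hsym] with y hy
  have hc : ∀ᵐ y' ∂π, P1 y' = P1 y := by
    filter_upwards [hy] with y' ⟨R, hRg, hRπ, hRd, hRy⟩
    have hpi := measurePreserving_pi (fun _ : Fin M => gam (Fin N)) (fun _ : Fin M => gam (Fin N))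
      (f := fun _ => R) fun _ => hRg
    have hs : ∀ g z, slots (fun _ : Fin M => f) (fun a => R (g a)) z =
        slots (fun _ : Fin M => f) g (R z) := fun g z => by simp only [slots, term, hRd]
    have hl : ∀ g, lint π (slots (fun _ : Fin M => f) fun a => R (g a)) =
        lint π (slots (fun _ : Fin M => f) g) := fun g => by
      rw [show slots (fun _ : Fin M => f) (fun a => R (g a)) =
        fun z => slots (fun _ : Fin M => f) g (R z) from funext (hs g), ← lint_map hRπ.measurable
          (hn.meas_left g), hRπ.map_eq]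
    have h := integral_map (μ := Q) hpi.measurable.aemeasurable
      (f := fun g => Real.exp (slots (fun _ : Fin M => f) g y) * lint π (slots (fun _ : Fin M => f) g))
      ((hn.meas.of_uncurry_right.exp.mul (measurable_lint π hn.meas)).aestronglyMeasurable)
    rw [hpi.map_eq] at h
    simp only [P1]
    rw [h]
    simp only [hs, hl]
    simp only [slots, term, hRy]
  change P1 y = _
  rw [integral_congr_ae hc]
  simp

/-- Quenched value from the planted gain. -/
theorem Phi_le_of_planted (hf : Measurable f) (hb : ∀ z, |f z| ≤ K)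
    (h1 : ∫ z, Real.exp (f z) ∂gam1 = 1) (hN : 0 < N) (hne : ∀ᵐ y ∂π, ∀ i, y i ≠ 0)
    (hsym : PairSym π) {G l : ℝ} (hl0 : 0 ≤ l) (hl1 : l < 1)
    (hG : G ≤ ent (Measure.pi fun _ => gam (Fin N)) (slots fun _ : Fin M => f) π)
    (hE : -(l * G) + M * (l ^ 2 * K ^ 2 / 2) ≤ 0) :
    Phi (gam (Fin N)) (term f dir) π M ≤ -(l * G) + M * (l ^ 2 * K ^ 2 / 2) := by
  have hn := nice_term hf hb (measurable_dir (ι := Fin N))
  have hs := hn.sum M
  set T : (Fin M → Fin N → ℝ) → ℝ := fun g => l * lint π fun y => ∑ a, term f dir (g a) y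
  have hTb : ∀ g, |T g| ≤ l * (M * K) := fun g => by
    simp only [T, abs_mul, abs_of_nonneg hl0]
    exact mul_le_mul_of_nonneg_left (abs_lint_le (hs.meas_left g) (hs.bound g)) hl0
  have hTm : Measurable T := (measurable_lint π hs.meas).const_mul l
  have hEy : ∀ᵐ y ∂π, ∫ g : Fin M → Fin N → ℝ, Real.exp (∑ a, term f dir (g a) y) * Real.exp (-T g)
      ∂Measure.pi (fun _ => gam (Fin N)) ≤ Real.exp (-(l * G) + M * (l ^ 2 * K ^ 2 / 2)) := by
    filter_upwards [planted_const (M := M) hf hb hsym, hne] with y hy hy0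
    have hm : Measurable fun g : Fin N → ℝ => term f dir g y := hn.meas.of_uncurry_right
    have hh1 := mean_term_eq_one hf h1 hN hy0
    have := isProb_tilted (π := gam (Fin N)) hm fun g => hn.bound g y
    have heq := pi_tilted_eq (P := gam (Fin N)) hm (fun g => hn.bound g y) hh1 M
    have hden : ∫ g : Fin M → Fin N → ℝ, Real.exp (∑ a, term f dir (g a) y)
        ∂(Measure.pi fun _ => gam (Fin N)) = 1 := by
      simp only [Real.exp_sum]
      rw [integral_fintype_prod_eq_pow (fun g => Real.exp (term f dir g y)), hh1, one_pow]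
    have hint : ∀ φ : (Fin M → Fin N → ℝ) → ℝ,
        ∫ g, φ g ∂(Measure.pi fun _ => (gam (Fin N)).tilted fun g => term f dir g y) =
          ∫ g : Fin M → Fin N → ℝ, Real.exp (∑ a, term f dir (g a) y) * φ g
            ∂(Measure.pi fun _ => gam (Fin N)) := fun φ => by
      rw [heq, integral_tilted, hden]
      simp only [div_one, smul_eq_mul]
    have hmgf := mgf_lint_le (P := (gam (Fin N)).tilted fun g => term f dir g y) hn (-l) M π inferInstance
    rw [hint] at hmgf
    have hPhi : Phi ((gam (Fin N)).tilted fun g => term f dir g y) (term f dir) π M =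
        ent (Measure.pi fun _ => gam (Fin N)) (slots fun _ : Fin M => f) π := by
      rw [Phi, hint]; exact hy
    rw [hPhi] at hmgf
    simp only [T, neg_mul, neg_sq] at hmgf ⊢
    exact hmgf.trans (Real.exp_le_exp.2 (by linarith [mul_le_mul_of_nonneg_left hG hl0]))
  have h := Phi_le_test hn (π := π) (P := gam (Fin N)) (M := M) (T := T) hTm
    (fun g => (abs_le.1 (hTb g)).1) (integrable_of_abs_le hTm hTb) hEy
  simp only [T, integral_const_mul] at h
  change _ ≤ _ + l * Phi (gam (Fin N)) (term f dir) π M at h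
  by_contra hcon
  have := mul_lt_mul_of_pos_left (not_le.1 hcon) (show 0 < 1 - l by linarith)
  nlinarith [mul_nonpos_of_nonneg_of_nonpos hl0 hE]

/-- Above `1 / curv²` the quenched value stays linearly below the annealed one. -/
theorem exists_gap_curv {ρ : Measure ℝ} [IsProbabilityMeasure ρ] (hρ0 : ρ {0} = 0)
    (hsym : ∀ N : ℕ, PairSym (Measure.pi fun _ : Fin N => ρ)) (hf : Measurable f)
    (hb : ∀ z, |f z| ≤ K) {α : ℝ} (hα : 0 < α) (hc : 1 < α * curv f ^ 2) :
    ∃ δ > 0, ∀ᶠ N : ℕ in atTop, logPart ρ f (Fin N) ⌊α * N⌋₊ / N ≤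
      (⌊α * (N : ℝ)⌋₊ : ℝ) / N * Real.log (∫ z, Real.exp (f z) ∂gam1) - δ := by
  obtain ⟨ha1, ha2⟩ := integral_exp_mem (π := gam1) hf hb
  have ha0 := (Real.exp_pos _).trans_le ha1
  obtain ⟨a, ha⟩ : ∃ a, a = Real.log (∫ z, Real.exp (f z) ∂gam1) := ⟨_, rfl⟩
  have hab : |a| ≤ K := ha ▸ abs_lint_le (π := gam1) hf hb
  rw [← ha]
  set f₀ : ℝ → ℝ := fun z => f z - a
  obtain ⟨B, hB⟩ : ∃ B, B = 2 * K + 1 := ⟨_, rfl⟩
  have hK : 0 ≤ K := (abs_nonneg _).trans (hb 0)
  have hf₀ : Measurable f₀ := hf.sub_const a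
  have hb₀ : ∀ z, |f₀ z| ≤ B := fun z => (abs_sub _ _).trans (by linarith [hb z])
  have hexp : ∀ z, Real.exp (f₀ z) = Real.exp (f z) / ∫ z, Real.exp (f z) ∂gam1 := fun z => by
    simp only [f₀, Real.exp_sub, ha, Real.exp_log ha0]
  have h1 : ∫ z, Real.exp (f₀ z) ∂gam1 = 1 := by
    simp only [hexp, integral_div]; exact div_self ha0.ne'
  have hcurv : ∫ z, (z ^ 2 - 1) * Real.exp (f₀ z) ∂gam1 = curv f := by
    simp only [hexp, curv, ← mul_div_assoc, integral_div]
  obtain ⟨ε, hε, hev⟩ := exists_planted_gain hf₀ hb₀ h1 hα (by rw [hcurv]; exact hc)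
  obtain ⟨l, hl0, hl1, hl2⟩ : ∃ l : ℝ, 0 < l ∧ l < 1 ∧ l * (α * B ^ 2) ≤ ε := by
    obtain ⟨l, hl⟩ : ∃ l, l = min (1 / 2) (ε / (α * B ^ 2)) := ⟨_, rfl⟩
    have hB0 : 0 < α * B ^ 2 := mul_pos hα (pow_pos (by linarith) 2)
    refine ⟨l, hl ▸ lt_min (by norm_num) (div_pos hε hB0), ?_,
      (le_div_iff₀ hB0).1 (hl ▸ min_le_right _ _)⟩
    rw [hl]; exact (min_le_left _ _).trans_lt (by norm_num)
  refine ⟨l * ε / 2, by positivity, ?_⟩
  filter_upwards [hev, eventually_gt_atTop 0] with N hgain hN
  have hN' : (0 : ℝ) < N := by exact_mod_cast hN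
  have hne : ∀ᵐ y ∂(Measure.pi fun _ : Fin N => ρ), ∀ i, y i ≠ 0 := by
    rw [ae_all_iff]
    intro i
    have hz : ∀ᵐ x ∂ρ, x ≠ 0 := by rw [ae_iff]; simpa using hρ0
    exact (measurePreserving_eval (fun _ : Fin N => ρ) i).quasiMeasurePreserving.ae hz
  have hM := Nat.floor_le (show 0 ≤ α * (N : ℝ) by positivity)
  have hgain' := hgain (Measure.pi fun _ : Fin N => ρ) inferInstance hne
  generalize ⌊α * (N : ℝ)⌋₊ = M at hM hgain' ⊢
  have hE : -(l * (ε * N)) + M * (l ^ 2 * B ^ 2 / 2) ≤ -(l * ε / 2 * N) := by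
    have g1 := mul_le_mul_of_nonneg_right hM (show 0 ≤ l ^ 2 * B ^ 2 / 2 by positivity)
    have g2 := mul_le_mul_of_nonneg_left hl2 (show 0 ≤ l * (N : ℝ) / 2 by positivity)
    linarith
  have hneg : 0 ≤ l * ε / 2 * N := by positivity
  have h := Phi_le_of_planted (π := Measure.pi fun _ : Fin N => ρ) hf₀ hb₀ h1 hN hne (hsym N) hl0.le hl1
    hgain' (by linarith)
  have hshift : Phi (gam (Fin N)) (term f₀ dir) (Measure.pi fun _ : Fin N => ρ) M =
      logPart ρ f (Fin N) M - M * a := by
    have hn := (nice_term hf hb (measurable_dir (ι := Fin N))).sum M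
    have e : ∀ g : Fin M → Fin N → ℝ,
        lint (Measure.pi fun _ : Fin N => ρ) (fun y => ∑ b, term f₀ dir (g b) y) =
          lint (Measure.pi fun _ : Fin N => ρ) (fun y => ∑ b, term f dir (g b) y) - M * a := fun g => by
      have hp := (Real.exp_pos _).trans_le
        (integral_exp_mem (π := Measure.pi fun _ : Fin N => ρ) (hn.meas_left g) (hn.bound g)).1
      simp only [lint, term, f₀, Finset.sum_sub_distrib, Finset.sum_const, Finset.card_univ,
        Fintype.card_fin, nsmul_eq_mul, Real.exp_sub, integral_div]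
      rw [Real.log_div (by simpa [term] using hp.ne') (Real.exp_pos _).ne', Real.log_exp]
    simp only [Phi, e]
    rw [integral_sub (hn.integrable_lint _ _) (integrable_const _)]
    simp [logPart, Phi]
  rw [hshift] at h
  rw [div_mul_eq_mul_div, div_le_iff₀ hN', sub_mul, div_mul_cancel₀ _ hN'.ne']
  linarith

/-- Both spaces. -/
theorem gap_above_curv (hf : Measurable f) (hb : ∀ z, |f z| ≤ K) {α : ℝ} (hα : 0 < α)
    (hc : 1 < α * curv f ^ 2) :
    ∃ δ > 0, ∀ᶠ N : ℕ in atTop,
      meanPressure isingLaw α f N ≤ α * Real.log (∫ z, Real.exp (f z) ∂gaussianReal 0 1) - δ ∧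
      meanPressure sphereLaw α f N ≤ α * Real.log (∫ z, Real.exp (f z) ∂gaussianReal 0 1) - δ := by
  obtain ⟨d1, h1, e1⟩ := exists_gap_curv (ρ := rad) admissible_rad.zero (fun N => pairSym_rad) hf hb hα hc
  obtain ⟨d2, h2, e2⟩ :=
    exists_gap_curv (ρ := gaussianReal 0 1) admissible_gaussian.zero (fun N => pairSym_gauss) hf hb hα hc
  set a := Real.log (∫ z, Real.exp (f z) ∂gam1)
  refine ⟨min d1 d2 / 2, by positivity, ?_⟩
  filter_upwards [e1, e2, eventually_gt_atTop 0, ((tendsto_floor_div α hα.le).mul_const a).eventually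
      (gt_mem_nhds (show α * a < α * a + min d1 d2 / 2 by
        linarith [lt_min h1 h2]))] with N a1 a2 hN h3
  refine ⟨?_, ?_⟩
  · rw [meanPressure_eq hf hN α (isingLaw_eq hN)]
    linarith [min_le_left d1 d2]
  · rw [meanPressure_eq hf hN α (sphereLaw_eq hN)]
    linarith [min_le_right d1 d2]

end Vale.Agent.P157
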