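import Mathlib
import Vale.Agent.P157.PlantedTransfer
import Vale.Agent.P157.AnnealedRegion
import Vale.Agent.P157.Threshold

/-!
The critical density is at most `1 / curv²`, with equality under a second-moment condition.
-/

noncomputable section

open MeasureTheory ProbabilityTheory Filter
open scoped Topology

namespace Vale.Agent.P157

variable {f : ℝ → ℝ} {K : ℝ}

lemma rateIsing_nonneg {r : ℝ} (hr : r ∈ Set.Icc (-1 : ℝ) 1) : 0 ≤ rateIsing r := by
  rw [← rateIsing_abs, ← rateIsing_zero]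
  exact monotoneOn_rateIsing ⟨le_rfl, zero_le_one⟩ ⟨abs_nonneg r, abs_le.2 hr⟩ (abs_nonneg r)

lemma rateSphere_nonneg {r : ℝ} (hr : r ∈ Set.Ioo (-1 : ℝ) 1) : 0 ≤ rateSphere r := by
  have h1 : r ^ 2 < 1 := (sq_lt_one_iff_abs_lt_one r).2 (abs_lt.2 hr)
  have := Real.log_le_sub_one_of_pos (show 0 < 1 - r ^ 2 by linarith)
  simp only [rateSphere]
  linarith [sq_nonneg r]

lemma not_tendsto_of_gap {u : ℕ → ℝ} {A δ : ℝ} (hδ : 0 < δ) (h : ∀ᶠ N in atTop, u N ≤ A - δ) :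
    ¬ Tendsto u atTop (𝓝 A) := fun ht => by
  have := le_of_tendsto ht h
  linarith

/-- The annealed formula fails for `α > 1 / curv²`, so the threshold is at most `1 / curv²`. -/
theorem annealed_region_bounded (hf : Measurable f) (hb : ∀ z, |f z| ≤ K)
    (hμ : ∫ z, z * Real.exp (f z) ∂gaussianReal 0 1 = 0)
    (hnc : ¬ ∃ c, f =ᵐ[gaussianReal 0 1] fun _ => c) :
    (∃ αc > (0 : ℝ), αc * curv f ^ 2 ≤ 1 ∧ ∀ α : ℝ, 0 < α → (Tendsto (meanPressure isingLaw α f) atTop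
        (𝓝 (α * Real.log (∫ z, Real.exp (f z) ∂gaussianReal 0 1))) ↔ α ≤ αc)) ∧
    ∃ αc > (0 : ℝ), αc * curv f ^ 2 ≤ 1 ∧ ∀ α : ℝ, 0 < α → (Tendsto (meanPressure sphereLaw α f) atTop
        (𝓝 (α * Real.log (∫ z, Real.exp (f z) ∂gaussianReal 0 1))) ↔ α ≤ αc) := by
  obtain ⟨⟨a, ha, hia⟩, b, hb', hib⟩ := (annealed_region hf hb).2 hμ hnc
  refine ⟨⟨a, ha, ?_, hia⟩, b, hb', ?_, hib⟩
  · by_contra hcon
    obtain ⟨δ, hδ, h⟩ := gap_above_curv hf hb ha (not_le.1 hcon)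
    exact not_tendsto_of_gap hδ (h.mono fun N hN => hN.1) ((hia a ha).2 le_rfl)
  · by_contra hcon
    obtain ⟨δ, hδ, h⟩ := gap_above_curv hf hb hb' (not_le.1 hcon)
    exact not_tendsto_of_gap hδ (h.mono fun N hN => hN.2) ((hib b hb').2 le_rfl)

/-- Exact threshold for weights dominated by the second Hermite coefficient. -/
theorem annealed_iff_curv (hf : Measurable f) (hb : ∀ z, |f z| ≤ K) {α : ℝ} (hα : 0 < α) :
    ((∀ r ∈ Set.Icc (-1 : ℝ) 1, Real.log (corrRatio f r) ≤ curv f ^ 2 * rateIsing r) →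
      (Tendsto (meanPressure isingLaw α f) atTop
        (𝓝 (α * Real.log (∫ z, Real.exp (f z) ∂gaussianReal 0 1))) ↔ α * curv f ^ 2 ≤ 1)) ∧
    ((∀ r ∈ Set.Ioo (-1 : ℝ) 1, Real.log (corrRatio f r) ≤ curv f ^ 2 * rateSphere r) →
      (Tendsto (meanPressure sphereLaw α f) atTop
        (𝓝 (α * Real.log (∫ z, Real.exp (f z) ∂gaussianReal 0 1))) ↔ α * curv f ^ 2 ≤ 1)) := by
  constructor <;> intro hc <;> constructor
  · intro ht
    by_contra hcon
    obtain ⟨δ, hδ, h⟩ := gap_above_curv hf hb hα (not_le.1 hcon)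
    exact not_tendsto_of_gap hδ (h.mono fun N hN => hN.1) ht
  · intro hle
    refine tendsto_annealed_ising hf hb hα fun r hr => ?_
    refine (mul_le_mul_of_nonneg_left (hc r hr) hα.le).trans ?_
    rw [← mul_assoc]
    exact mul_le_of_le_one_left (rateIsing_nonneg hr) hle
  · intro ht
    by_contra hcon
    obtain ⟨δ, hδ, h⟩ := gap_above_curv hf hb hα (not_le.1 hcon)
    exact not_tendsto_of_gap hδ (h.mono fun N hN => hN.2) ht
  · intro hle
    refine tendsto_annealed_sphere hf hb hα fun r hr => ?_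
    refine (mul_le_mul_of_nonneg_left (hc r hr) hα.le).trans ?_
    rw [← mul_assoc]
    exact mul_le_of_le_one_left (rateSphere_nonneg hr) hle

end Vale.Agent.P157
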