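import Mathlib
import Vale.Agent.P157.Potential
import Vale.Agent.P157.Interp
import Vale.Agent.P157.Smooth
import Vale.Agent.P157.Limit
import Vale.Agent.P157.Families

/-!
Smooth log-potentials at high temperature, at every density.
-/

noncomputable section

open MeasureTheory ProbabilityTheory Filter
open scoped Topology

namespace Vale.Agent.P157

/-- `exp (β φ)` with its derivatives. -/
def expWeight {φ φ1 φ2 φ3 : ℝ → ℝ} {A β : ℝ} (d1 : ∀ x, HasDerivAt φ (φ1 x) x)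
    (d2 : ∀ x, HasDerivAt φ1 (φ2 x) x) (d3 : ∀ x, HasDerivAt φ2 (φ3 x) x)
    (b0 : ∀ x, |φ x| ≤ A) (b1 : ∀ x, |φ1 x| ≤ A) (b2 : ∀ x, |φ2 x| ≤ A) (b3 : ∀ x, |φ3 x| ≤ A)
    (hA : 1 ≤ A) (hβ : |β| ≤ 1) : SmoothWeight where
  U := fun x => Real.exp (β * φ x)
  U1 := fun x => β * φ1 x * Real.exp (β * φ x)
  U2 := fun x => (β * φ2 x + β ^ 2 * φ1 x ^ 2) * Real.exp (β * φ x)
  U3 := fun x => (β * φ3 x + 3 * β ^ 2 * (φ1 x * φ2 x) + β ^ 3 * φ1 x ^ 3) * Real.exp (β * φ x)
  a := Real.exp (-A)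
  A := 5 * A ^ 3 * Real.exp A
  apos := Real.exp_pos _
  lower := fun x => Real.exp_le_exp.2 (by
    have h := mul_le_mul hβ (b0 x) (abs_nonneg _) zero_le_one
    rw [← abs_mul, one_mul] at h
    exact (abs_le.1 h).1)
  d1 := fun x => ((d1 x).const_mul β).exp.congr_deriv (by ring)
  d2 := fun x => (((d2 x).const_mul β).mul ((d1 x).const_mul β).exp).congr_deriv (by ring)
  d3 := fun x => ((((d3 x).const_mul β).add (((d2 x).pow 2).const_mul (β ^ 2))).mul
    ((d1 x).const_mul β).exp).congr_deriv (by simp; ring)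
  b0 := fun x => by
    have h := mul_le_mul hβ (b0 x) (abs_nonneg _) zero_le_one
    rw [← abs_mul, one_mul] at h
    rw [Real.abs_exp]
    have h3 : 1 ≤ A ^ 3 := one_le_pow₀ hA
    have := mul_le_mul_of_nonneg_right (show (1 : ℝ) ≤ 5 * A ^ 3 by linarith) (Real.exp_pos A).le
    linarith [Real.exp_le_exp.2 ((le_abs_self _).trans h)]
  b1 := fun x => by
    have h := mul_le_mul hβ (b0 x) (abs_nonneg _) zero_le_one
    rw [← abs_mul, one_mul] at h
    rw [abs_mul, abs_mul, Real.abs_exp]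
    refine mul_le_mul ?_ (Real.exp_le_exp.2 ((le_abs_self _).trans h)) (Real.exp_pos _).le
      (by positivity)
    have h3 : A ≤ A ^ 3 := le_self_pow₀ hA (by norm_num)
    have := mul_le_mul hβ (b1 x) (abs_nonneg _) zero_le_one
    linarith [show 0 ≤ A by linarith]
  b2 := fun x => by
    have h := mul_le_mul hβ (b0 x) (abs_nonneg _) zero_le_one
    rw [← abs_mul, one_mul] at h
    rw [abs_mul, Real.abs_exp]
    refine mul_le_mul ?_ (Real.exp_le_exp.2 ((le_abs_self _).trans h)) (Real.exp_pos _).le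
      (by positivity)
    refine (abs_add_le _ _).trans ?_
    rw [abs_mul, abs_mul, abs_pow, abs_pow]
    have h2 : A ^ 2 ≤ A ^ 3 := pow_le_pow_right₀ hA (by norm_num)
    have h3 : A ≤ A ^ 3 := le_self_pow₀ hA (by norm_num)
    have t1 := mul_le_mul hβ (b2 x) (abs_nonneg _) zero_le_one
    have t2 := mul_le_mul (pow_le_one₀ (n := 2) (abs_nonneg β) hβ)
      (pow_le_pow_left₀ (abs_nonneg _) (b1 x) 2) (by positivity) zero_le_one
    have : 0 ≤ A ^ 3 := by positivity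
    linarith
  b3 := fun x => by
    have h := mul_le_mul hβ (b0 x) (abs_nonneg _) zero_le_one
    rw [← abs_mul, one_mul] at h
    rw [abs_mul, Real.abs_exp]
    refine mul_le_mul ?_ (Real.exp_le_exp.2 ((le_abs_self _).trans h)) (Real.exp_pos _).le
      (by positivity)
    refine (abs_add_three _ _ _).trans ?_
    simp only [abs_mul, abs_pow, Nat.abs_ofNat]
    have h3 : A ≤ A ^ 3 := le_self_pow₀ hA (by norm_num)
    have h2 : A ^ 2 ≤ A ^ 3 := pow_le_pow_right₀ hA (by norm_num)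
    have t1 := mul_le_mul hβ (b3 x) (abs_nonneg _) zero_le_one
    have t2 := mul_le_mul (pow_le_one₀ (n := 2) (abs_nonneg β) hβ)
      (mul_le_mul (b1 x) (b2 x) (abs_nonneg _) (by linarith)) (by positivity) zero_le_one
    have t3 := mul_le_mul (pow_le_one₀ (n := 3) (abs_nonneg β) hβ)
      (pow_le_pow_left₀ (abs_nonneg _) (b1 x) 3) (by positivity) zero_le_one
    have : A * A = A ^ 2 := (sq A).symm
    linarith

lemma usable_of_deriv_bound {f f' : ℝ → ℝ} {K L : ℝ} (hd : ∀ x, HasDerivAt f (f' x) x)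
    (hb : ∀ x, |f x| ≤ K) (hb' : ∀ x, |f' x| ≤ L) : Usable f K := by
  refine ⟨(continuous_iff_continuousAt.2 fun x => (hd x).continuousAt).measurable, hb,
    fun ε hε => ⟨L, (abs_nonneg _).trans (hb' 0), fun a b => ?_⟩⟩
  have h := Convex.norm_image_sub_le_of_norm_hasDerivWithin_le (s := Set.univ)
    (fun x _ => (hd x).hasDerivWithinAt) (fun x _ => (Real.norm_eq_abs _).trans_le (hb' x))
    convex_univ (Set.mem_univ b) (Set.mem_univ a)
  simp only [Real.norm_eq_abs] at h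
  linarith

theorem blockConcave_smallBeta {φ φ1 φ2 φ3 : ℝ → ℝ} {A : ℝ} (d1 : ∀ x, HasDerivAt φ (φ1 x) x)
    (d2 : ∀ x, HasDerivAt φ1 (φ2 x) x) (d3 : ∀ x, HasDerivAt φ2 (φ3 x) x)
    (b0 : ∀ x, |φ x| ≤ A) (b1 : ∀ x, |φ1 x| ≤ A) (b2 : ∀ x, |φ2 x| ≤ A) (b3 : ∀ x, |φ3 x| ≤ A)
    (hA : 1 ≤ A) (hpos : ∀ ρ ∈ Set.Icc (-1 : ℝ) 1, 0 < corr2 φ2 ρ) :
    ∃ β₀ > 0, ∀ β : ℝ, |β| ≤ β₀ →
      Usable (fun z => β * φ z) (|β| * A) ∧ BlockConcave fun z => β * φ z := by
  have c2 : Continuous φ2 := continuous_iff_continuousAt.2 fun x => (d3 x).continuousAt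
  have c1 : Continuous φ1 := continuous_iff_continuousAt.2 fun x => (d2 x).continuousAt
  have c0 : Continuous φ := continuous_iff_continuousAt.2 fun x => (d1 x).continuousAt
  have hA0 : 0 ≤ A := zero_le_one.trans hA
  have hcont : Continuous (corr2 φ2) := by
    refine continuous_of_dominated (bound := fun _ => A * A) (fun r => ?_) (fun r => ?_)
      (integrable_const _) (Eventually.of_forall fun g => ?_)
    · exact ((c2.measurable.comp (measurable_pi_apply 0)).mul (c2.measurable.comp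
        (by fun_prop : Measurable fun g : Fin 2 → ℝ =>
          r * g 0 + Real.sqrt (1 - r ^ 2) * g 1))).aestronglyMeasurable
    · refine Eventually.of_forall fun g => ?_
      rw [Real.norm_eq_abs, abs_mul]
      exact mul_le_mul (b2 _) (b2 _) (abs_nonneg _) hA0
    · exact continuous_const.mul (c2.comp (by fun_prop))
  obtain ⟨ρ₀, hρ₀, hmin⟩ := isCompact_Icc.exists_isMinOn
    (Set.nonempty_Icc.2 (by norm_num : (-1 : ℝ) ≤ 1)) hcont.continuousOn
  set c₀ := corr2 φ2 ρ₀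
  have hc₀ : 0 < c₀ := hpos ρ₀ hρ₀
  set C₁ := 3 * (4 * A ^ 2) * A + (4 * A ^ 2) ^ 2 with hC₁
  set D := 10 * (2 * A) * (6 * A ^ 2) ^ 2 + 32 * (6 * A ^ 2) ^ 3 + C₁ with hD
  have hD0 : 0 < D := by positivity
  refine ⟨min (1 / (4 * A)) (c₀ / D), by positivity, fun β hβ => ?_⟩
  set b := |β|
  have hb0 : 0 ≤ b := abs_nonneg β
  have hbA : b * (4 * A) ≤ 1 := (le_div_iff₀ (by positivity)).1 (hβ.trans (min_le_left _ _))
  have hbD : b * D ≤ c₀ := (le_div_iff₀ hD0).1 (hβ.trans (min_le_right _ _))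
  have hb1 : b ≤ 1 := by nlinarith
  set W := expWeight (β := β) d1 d2 d3 b0 b1 b2 b3 hA hb1
  have hx : ∀ z, |β * φ z| ≤ b * A := fun z => by
    rw [abs_mul]; exact mul_le_mul_of_nonneg_left (b0 z) hb0
  have hexp : ∀ z, |Real.exp (β * φ z) - 1| ≤ 2 * A * b := fun z => by
    refine (Real.abs_exp_sub_one_le ((hx z).trans (by nlinarith))).trans ?_
    have := hx z
    linarith
  have hexp2 : ∀ z, Real.exp (β * φ z) ≤ 2 := fun z => by
    have := (abs_le.1 (hexp z)).2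
    nlinarith
  set r : ℝ → ℝ := fun z => W.U2 z - β * φ2 z with hrdef
  have hr : ∀ z, |r z| ≤ 4 * A ^ 2 * b ^ 2 := fun z => by
    have e : r z = β * φ2 z * (Real.exp (β * φ z) - 1) +
        β ^ 2 * φ1 z ^ 2 * Real.exp (β * φ z) := by
      simp only [hrdef, W, expWeight]; ring
    rw [e]
    refine (abs_add_le _ _).trans ?_
    have t1 : |β * φ2 z * (Real.exp (β * φ z) - 1)| ≤ b * A * (2 * A * b) := by
      rw [abs_mul, abs_mul]
      exact mul_le_mul (mul_le_mul_of_nonneg_left (b2 z) hb0) (hexp z) (abs_nonneg _) (by positivity)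
    have t2 : |β ^ 2 * φ1 z ^ 2 * Real.exp (β * φ z)| ≤ b ^ 2 * A ^ 2 * 2 := by
      rw [abs_mul, abs_mul, abs_pow, abs_pow, Real.abs_exp]
      exact mul_le_mul (mul_le_mul_of_nonneg_left (pow_le_pow_left₀ (abs_nonneg _) (b1 z) 2)
        (sq_nonneg _)) (hexp2 z) (Real.exp_pos _).le (by positivity)
    linarith [show b * A * (2 * A * b) = 2 * A ^ 2 * b ^ 2 by ring,
      show b ^ 2 * A ^ 2 * 2 = 2 * A ^ 2 * b ^ 2 by ring]
  have hW : Gentle W (6 * A ^ 2 * b) (2 * A * b) (b ^ 2 * (c₀ - C₁ * b)) := by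
    refine ⟨fun z => ?_, fun z => ?_, fun z => hexp z, by nlinarith, fun ρ hρ => ?_, ?_⟩
    · simp only [W, expWeight, abs_mul, Real.abs_exp]
      refine (mul_le_mul (mul_le_mul_of_nonneg_left (b1 z) hb0) (hexp2 z) (Real.exp_pos _).le
        (by positivity)).trans ?_
      nlinarith [mul_le_mul_of_nonneg_left hA (mul_nonneg hb0 hA0)]
    · have e : W.U2 z = β * φ2 z + r z := by simp only [hrdef]; ring
      rw [e]
      refine (abs_add_le _ _).trans ?_
      rw [abs_mul]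
      have := mul_le_mul_of_nonneg_left (b2 z) hb0
      have := hr z
      have h1 : b * A ≤ 2 * A ^ 2 * b := by nlinarith [mul_le_mul_of_nonneg_left hA (mul_nonneg hb0 hA0)]
      have h2 : 4 * A ^ 2 * b ^ 2 ≤ 4 * A ^ 2 * b := by
        nlinarith [mul_le_mul_of_nonneg_left hb1 hb0, sq_nonneg A]
      linarith
    · set g1 : (Fin 2 → ℝ) → ℝ := fun g => g 0
      set g2 : (Fin 2 → ℝ) → ℝ := fun g => ρ * g 0 + Real.sqrt (1 - ρ ^ 2) * g 1
      have hm1 : Measurable g1 := measurable_pi_apply 0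
      have hm2 : Measurable g2 := (by fun_prop : Measurable fun g : Fin 2 → ℝ =>
        ρ * g 0 + Real.sqrt (1 - ρ ^ 2) * g 1)
      have hW2 : Measurable W.U2 := W.cont2.measurable
      have hlow : ∀ g, β ^ 2 * (φ2 (g1 g) * φ2 (g2 g)) - C₁ * b ^ 3 ≤
          W.U2 (g1 g) * W.U2 (g2 g) := by
        intro g
        have e : ∀ z, W.U2 z = β * φ2 z + r z := fun z => by simp only [hrdef]; ring
        rw [e, e]
        have ht : ∀ x y, |β * φ2 x * r y| ≤ b * A * (4 * A ^ 2 * b ^ 2) := fun x y => by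
          rw [abs_mul, abs_mul]
          exact mul_le_mul (mul_le_mul_of_nonneg_left (b2 x) hb0) (hr y) (abs_nonneg _) (by positivity)
        have t1 := abs_le.1 (ht (g1 g) (g2 g))
        have t2 := abs_le.1 (ht (g2 g) (g1 g))
        have t3 : |r (g1 g) * r (g2 g)| ≤ (4 * A ^ 2) ^ 2 * b ^ 3 := by
          rw [abs_mul]
          refine (mul_le_mul (hr _) (hr _) (abs_nonneg _) (by positivity)).trans ?_
          have := mul_le_mul_of_nonneg_left hb1 (show 0 ≤ (4 * A ^ 2) ^ 2 * b ^ 3 by positivity)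
          linarith
        have t3' := abs_le.1 t3
        have : 0 ≤ 4 * A ^ 2 * A * b ^ 3 := by positivity
        rw [hC₁]
        linarith
      have iW : Integrable (fun g => W.U2 (g1 g) * W.U2 (g2 g)) (gam (Fin 2)) :=
        integrable_of_abs_le (K := W.A * W.A) ((hW2.comp hm1).mul (hW2.comp hm2)) fun g => by
          rw [abs_mul]; exact mul_le_mul (W.b2 _) (W.b2 _) (abs_nonneg _) W.A_nonneg
      have iφ : Integrable (fun g => φ2 (g1 g) * φ2 (g2 g)) (gam (Fin 2)) :=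
        integrable_of_abs_le (K := A * A) ((c2.measurable.comp hm1).mul (c2.measurable.comp hm2))
          fun g => by rw [abs_mul]; exact mul_le_mul (b2 _) (b2 _) (abs_nonneg _) hA0
      have h := integral_mono ((iφ.const_mul (β ^ 2)).sub (integrable_const (C₁ * b ^ 3))) iW hlow
      simp only [Pi.sub_apply] at h
      rw [integral_sub (iφ.const_mul (β ^ 2)) (integrable_const _), integral_const_mul] at h
      simp only [integral_const, probReal_univ, smul_eq_mul, one_mul] at h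
      have hρc : c₀ ≤ corr2 φ2 ρ := hmin hρ
      have h2 : b ^ 2 * c₀ ≤ β ^ 2 * corr2 φ2 ρ := by
        rw [show b ^ 2 = β ^ 2 from sq_abs β]
        exact mul_le_mul_of_nonneg_left hρc (sq_nonneg β)
      refine le_trans ?_ h
      refine le_trans (le_of_eq (by ring : b ^ 2 * (c₀ - C₁ * b) = b ^ 2 * c₀ - C₁ * b ^ 3)) ?_
      exact sub_le_sub_right h2 _
    · have := mul_le_mul_of_nonneg_left hbD (sq_nonneg b)
      rw [hD] at this
      linarith
  have hf : Usable (fun z => β * φ z) (b * A) :=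
    usable_of_deriv_bound (fun x => (d1 x).const_mul β) hx (L := b * A) fun x => by
      rw [abs_mul]; exact mul_le_mul_of_nonneg_left (b1 x) hb0
  exact ⟨hf, blockConcave_of_gentle hf W (fun z => rfl) hW⟩

theorem hasLimits_smallBeta_aux {φ φ1 φ2 φ3 : ℝ → ℝ} {A : ℝ} (d1 : ∀ x, HasDerivAt φ (φ1 x) x)
    (d2 : ∀ x, HasDerivAt φ1 (φ2 x) x) (d3 : ∀ x, HasDerivAt φ2 (φ3 x) x)
    (b0 : ∀ x, |φ x| ≤ A) (b1 : ∀ x, |φ1 x| ≤ A) (b2 : ∀ x, |φ2 x| ≤ A) (b3 : ∀ x, |φ3 x| ≤ A)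
    (hA : 1 ≤ A) (hpos : ∀ ρ ∈ Set.Icc (-1 : ℝ) 1, 0 < corr2 φ2 ρ) :
    ∃ β₀ > 0, ∀ β : ℝ, |β| ≤ β₀ → ∀ α : ℝ, 0 < α → HasLimitsBelow α fun z => β * φ z := by
  obtain ⟨β₀, h0, h⟩ := blockConcave_smallBeta d1 d2 d3 b0 b1 b2 b3 hA hpos
  exact ⟨β₀, h0, fun β hβ α hα => exists_limit_le_gardner (h β hβ).1 (h β hβ).2 hα⟩

theorem hasLimits_smallBeta {φ : ℝ → ℝ} (hφ : ContDiff ℝ 3 φ)
    (hb : ∃ A, ∀ j ≤ 3, ∀ x, |iteratedDeriv j φ x| ≤ A)
    (hpos : ∀ ρ ∈ Set.Icc (-1 : ℝ) 1, 0 < corr2 (deriv (deriv φ)) ρ) :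
    ∃ β₀ > 0, ∀ β : ℝ, |β| ≤ β₀ → ∀ α : ℝ, 0 < α → HasLimitsBelow α fun z => β * φ z := by
  obtain ⟨A, hA⟩ := hb
  have hd : ∀ j : ℕ, j < 3 → ∀ x, HasDerivAt (iteratedDeriv j φ) (iteratedDeriv (j + 1) φ x) x := by
    intro j hj x
    rw [iteratedDeriv_succ]
    exact (hφ.differentiable_iteratedDeriv j (by exact_mod_cast hj) x).hasDerivAt
  have d1 := hd 0 (by norm_num)
  have d2 := hd 1 (by norm_num)
  have d3 := hd 2 (by norm_num)
  rw [iteratedDeriv_zero] at d1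
  have e2 : iteratedDeriv 2 φ = deriv (deriv φ) := by
    rw [iteratedDeriv_succ, iteratedDeriv_one]
  have h0 : ∀ x, |φ x| ≤ max A 1 := fun x => by
    have := hA 0 (by norm_num) x
    rw [iteratedDeriv_zero] at this
    exact this.trans (le_max_left _ _)
  exact hasLimits_smallBeta_aux d1 d2 d3 h0 (fun x => (hA 1 (by norm_num) x).trans (le_max_left _ _))
    (fun x => (hA 2 (by norm_num) x).trans (le_max_left _ _))
    (fun x => (hA 3 le_rfl x).trans (le_max_left _ _)) (le_max_right _ _)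
    (fun ρ hρ => by rw [e2]; exact hpos ρ hρ)

end Vale.Agent.P157
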