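import Mathlib
import Vale.Agent.P157.SmallBeta

/-!
For even profiles the correlation of second derivatives is at least its squared mean.
-/

noncomputable section

open MeasureTheory ProbabilityTheory Filter

namespace Vale.Agent.P157

lemma corr2_neg {h : ℝ → ℝ} (hh : Measurable h) (hev : ∀ z, h (-z) = h z) (r : ℝ) :
    corr2 h (-r) = corr2 h r := by
  set T : (Fin 2 → ℝ) → (Fin 2 → ℝ) := fun g i => if i = 0 then g i else -g i
  have hT : MeasurePreserving T (gam (Fin 2)) (gam (Fin 2)) := by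
    refine measurePreserving_pi _ _ (f := fun i x => if i = 0 then x else -x) fun i => ?_
    fin_cases i
    · exact MeasurePreserving.id _
    · exact ⟨by simp; fun_prop, by simp [gaussianReal_map_neg]⟩
  change ∫ g, _ ∂gam (Fin 2) = ∫ g, _ ∂gam (Fin 2)
  conv_lhs => rw [← hT.map_eq, integral_map hT.measurable.aemeasurable
    (f := fun g : Fin 2 → ℝ => h (g 0) * h (-r * g 0 + Real.sqrt (1 - (-r) ^ 2) * g 1))
    ((hh.comp (measurable_pi_apply 0)).mul (hh.comp (by fun_prop))).aestronglyMeasurable]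
  congr 1
  ext g
  simp only [T, if_true, show ((1 : Fin 2) = 0) = False from by simp, if_false, neg_sq, mul_neg,
    neg_mul]
  rw [← hev (r * g 0 + Real.sqrt (1 - r ^ 2) * g 1)]
  congr 2
  ring

/-- `E h(X) h(Y)` as a mean square, for a non-negative correlation. -/
lemma corr2_eq_sq {h : ℝ → ℝ} {A : ℝ} (hh : Measurable h) (hb : ∀ z, |h z| ≤ A) {r : ℝ}
    (hr : r ∈ Set.Icc (0 : ℝ) 1) :
    corr2 h r = ∫ z, (∫ ξ, h (z * Real.sqrt r + ξ * Real.sqrt (1 - r)) ∂gam1) ^ 2 ∂gam1 := by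
  set s := Real.sqrt r
  set t := Real.sqrt (1 - r)
  have hs : s ^ 2 = r := Real.sq_sqrt hr.1
  have ht : t ^ 2 = 1 - r := Real.sq_sqrt (by linarith [hr.2])
  have hA : 0 ≤ A := (abs_nonneg _).trans (hb 0)
  have hu : ∑ i, (![s, t, 0] : Fin 3 → ℝ) i ^ 2 = 1 := by
    simp [Fin.sum_univ_three, hs, ht]
  have hu' : ∑ i, (![s, 0, t] : Fin 3 → ℝ) i ^ 2 = 1 := by
    simp [Fin.sum_univ_three, hs, ht]
  obtain ⟨-, e⟩ := integral_pair_eq_corr2 hh hu hu'
  have hd : dot ![s, t, 0] ![s, 0, t] = r := by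
    simp [dot, Fin.sum_univ_three, ← sq, hs]
  rw [hd] at e
  rw [← e]
  have e0 := measurePreserving_piFinSuccAbove (fun _ : Fin 3 => gaussianReal 0 1) 0
  have e1 := measurePreserving_finTwoArrow (gaussianReal 0 1)
  set F : ℝ × (ℝ × ℝ) → ℝ := fun p => h (p.1 * s + p.2.1 * t) * h (p.1 * s + p.2.2 * t)
  have hcomp := ((MeasurePreserving.id gam1).prod e1).comp e0
  have hM : (fun g : Fin 3 → ℝ => (g 0, (g 1, g 2))) =
      Prod.map id (MeasurableEquiv.finTwoArrow (α := ℝ)) ∘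
        (MeasurableEquiv.piFinSuccAbove (fun _ : Fin 3 => ℝ) 0) := by
    ext g <;> simp [MeasurableEquiv.finTwoArrow, MeasurableEquiv.piFinTwo,
      MeasurableEquiv.piFinSuccAbove, Fin.removeNth, Fin.tail]
  have hF : ∀ g : Fin 3 → ℝ, h (dot g ![s, t, 0]) * h (dot g ![s, 0, t]) = F (g 0, (g 1, g 2)) :=
    fun g => by simp [F, dot, Fin.sum_univ_three]
  simp only [hF]
  change ∫ g, F ((fun g : Fin 3 → ℝ => (g 0, (g 1, g 2))) g) ∂gam (Fin 3) = _
  rw [hM, ← integral_map (μ := gam (Fin 3)) hcomp.measurable.aemeasurable (f := F)]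
  swap
  · exact ((hh.comp (by fun_prop)).mul (hh.comp (by fun_prop))).aestronglyMeasurable
  rw [hcomp.map_eq, integral_prod F (integrable_of_abs_le (K := A * A)
    ((hh.comp (by fun_prop)).mul (hh.comp (by fun_prop))) fun p => by
      rw [abs_mul]; exact mul_le_mul (hb _) (hb _) (abs_nonneg _) hA)]
  congr 1
  ext z
  rw [sq]
  exact integral_prod_mul (fun ξ => h (z * s + ξ * t)) (fun ξ => h (z * s + ξ * t))

lemma corr2_ge_sq_mean {h : ℝ → ℝ} {A : ℝ} (hh : Measurable h) (hb : ∀ z, |h z| ≤ A) {r : ℝ}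
    (hr : r ∈ Set.Icc (0 : ℝ) 1) : (∫ z, h z ∂gaussianReal 0 1) ^ 2 ≤ corr2 h r := by
  set s := Real.sqrt r
  set t := Real.sqrt (1 - r)
  have hs : s ^ 2 = r := Real.sq_sqrt hr.1
  have ht : t ^ 2 = 1 - r := Real.sq_sqrt (by linarith [hr.2])
  have hA : 0 ≤ A := (abs_nonneg _).trans (hb 0)
  have hu : ∑ i, (![s, t, 0] : Fin 3 → ℝ) i ^ 2 = 1 := by
    simp [Fin.sum_univ_three, hs, ht]
  have hu' : ∑ i, (![s, 0, t] : Fin 3 → ℝ) i ^ 2 = 1 := by
    simp [Fin.sum_univ_three, hs, ht]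
  obtain ⟨-, e⟩ := integral_pair_eq_corr2 hh hu hu'
  have hd : dot ![s, t, 0] ![s, 0, t] = r := by
    simp [dot, Fin.sum_univ_three, ← sq, hs]
  rw [hd] at e
  set G : ℝ → ℝ := fun z => ∫ ξ, h (z * s + ξ * t) ∂gam1
  have hGm : Measurable G :=
    ((hh.comp (by fun_prop : Measurable fun p : ℝ × ℝ => p.1 * s + p.2 * t)).stronglyMeasurable
      |>.integral_prod_right' (ν := gam1)).measurable
  have hGb : ∀ z, |G z| ≤ A := fun z => by
    simpa using norm_integral_le_of_norm_le_const (μ := gam1) (f := fun ξ => h (z * s + ξ * t))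
      (Eventually.of_forall fun ξ => hb _)
  have hmean : ∫ z, G z ∂gam1 = ∫ z, h z ∂gaussianReal 0 1 := by
    have hi : Integrable (fun p : ℝ × ℝ => h (p.1 * s + p.2 * t)) (gam1.prod gam1) :=
      integrable_of_abs_le (hh.comp (by fun_prop)) fun p => hb _
    rw [← integral_prod _ hi]
    have hc := integral_combine (φ := h) hh s t
    rw [show Real.sqrt (s ^ 2 + t ^ 2) = 1 by rw [hs, ht]; simp] at hc
    simp only [one_mul] at hc
    convert hc using 3
    ring_nf
  have hval : corr2 h r = ∫ z, G z ^ 2 ∂gam1 := corr2_eq_sq hh hb hr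
  rw [hval, ← hmean]
  have hi : Integrable G gam1 := integrable_of_abs_le hGm hGb
  have hi2 : Integrable (fun z => G z ^ 2) gam1 :=
    integrable_of_abs_le (hGm.pow_const 2) (K := A ^ 2) fun z => by
      rw [abs_pow]; exact pow_le_pow_left₀ (abs_nonneg _) (hGb z) 2
  set m := ∫ z, G z ∂gam1
  have h0 : 0 ≤ ∫ z, (G z - m) ^ 2 ∂gam1 := integral_nonneg fun z => sq_nonneg _
  have e2 : ∀ z, (G z - m) ^ 2 = G z ^ 2 - 2 * m * G z + m ^ 2 := fun z => by ring
  simp only [e2] at h0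
  rw [integral_add (hi2.sub' (hi.const_mul _)) (integrable_const _), integral_sub hi2 (hi.const_mul _),
    integral_const_mul] at h0
  simp only [integral_const, probReal_univ, smul_eq_mul, one_mul] at h0
  nlinarith

lemma deriv_of_even {φ : ℝ → ℝ} (hev : ∀ z, φ (-z) = φ z) (z : ℝ) :
    deriv (deriv φ) (-z) = deriv (deriv φ) z := by
  have e : (fun x => φ (-x)) = φ := funext hev
  have h1 : ∀ x, deriv φ (-x) = -deriv φ x := fun x => by
    have := deriv_comp_neg (f := φ) (x := x)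
    rw [e] at this
    linarith
  have e2 : (fun x => deriv φ (-x)) = fun x => -deriv φ x := funext h1
  have := deriv_comp_neg (f := deriv φ) (x := z)
  rw [e2, deriv.fun_neg] at this
  linarith

/-- Every smooth even profile with non-degenerate mean curvature, at high temperature. -/
theorem hasLimits_smallBeta_even {φ : ℝ → ℝ} (hφ : ContDiff ℝ 3 φ)
    (hb : ∃ A, ∀ j ≤ 3, ∀ x, |iteratedDeriv j φ x| ≤ A) (hev : ∀ z, φ (-z) = φ z)
    (hne : ∫ z, deriv (deriv φ) z ∂gaussianReal 0 1 ≠ 0) :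
    ∃ β₀ > 0, ∀ β : ℝ, |β| ≤ β₀ → ∀ α : ℝ, 0 < α → HasLimitsBelow α fun z => β * φ z := by
  refine hasLimits_smallBeta hφ hb fun ρ hρ => ?_
  obtain ⟨A, hA⟩ := hb
  have hm : Measurable (deriv (deriv φ)) := measurable_deriv _
  have hb2 : ∀ z, |deriv (deriv φ) z| ≤ A := fun z => by
    have := hA 2 (by norm_num) z
    rwa [iteratedDeriv_succ, iteratedDeriv_one] at this
  have hpos : 0 < (∫ z, deriv (deriv φ) z ∂gaussianReal 0 1) ^ 2 :=
    lt_of_le_of_ne (sq_nonneg _) (Ne.symm (pow_ne_zero 2 hne))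
  rcases le_total 0 ρ with h | h
  · exact hpos.trans_le (corr2_ge_sq_mean hm hb2 ⟨h, hρ.2⟩)
  · rw [← neg_neg ρ, corr2_neg hm (deriv_of_even hev)]
    exact hpos.trans_le (corr2_ge_sq_mean hm hb2 ⟨by linarith, by linarith [hρ.1]⟩)

end Vale.Agent.P157
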