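import Mathlib
import Vale.Agent.P157.EvenPos
import Vale.Agent.P157.AnnealedGap

/-!
The correlation `r ↦ E h(X) h(Y)`: derivative, monotonicity and convexity on `[0,1]`.
-/

noncomputable section

open MeasureTheory ProbabilityTheory Filter
open scoped Topology

namespace Vale.Agent.P157

/-- A differentiable function, bounded together with its derivative. -/
def C1b (h h1 : ℝ → ℝ) (A : ℝ) : Prop :=
  (∀ x, HasDerivAt h (h1 x) x) ∧ (∀ x, |h x| ≤ A) ∧ (∀ x, |h1 x| ≤ A) ∧ Measurable h1

variable {h h1 : ℝ → ℝ} {A : ℝ}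

lemma C1b.continuous (hh : C1b h h1 A) : Continuous h :=
  continuous_iff_continuousAt.2 fun x => (hh.1 x).continuousAt

lemma C1b.nonneg (hh : C1b h h1 A) : 0 ≤ A := (abs_nonneg _).trans (hh.2.1 0)

lemma continuous_corr2 (hc : Continuous h) (hb : ∀ x, |h x| ≤ A) : Continuous (corr2 h) := by
  have hA : 0 ≤ A := (abs_nonneg _).trans (hb 0)
  refine continuous_of_dominated (bound := fun _ => A * A) (fun r => ?_) (fun r => ?_)
    (integrable_const _) (Eventually.of_forall fun g => ?_)
  · exact ((hc.measurable.comp (measurable_pi_apply 0)).mul (hc.measurable.comp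
      (by fun_prop : Measurable fun g : Fin 2 → ℝ =>
        r * g 0 + Real.sqrt (1 - r ^ 2) * g 1))).aestronglyMeasurable
  · refine Eventually.of_forall fun g => ?_
    rw [Real.norm_eq_abs, abs_mul]
    exact mul_le_mul (hb _) (hb _) (abs_nonneg _) hA
  · exact continuous_const.mul (hc.comp (by fun_prop))

lemma corr2_one (hm : Measurable h) :
    corr2 h 1 = ∫ z, h z ^ 2 ∂gaussianReal 0 1 := by
  have e : corr2 h 1 = ∫ g : Fin 2 → ℝ, (fun z => h z ^ 2) (g 0) ∂gam (Fin 2) := by
    unfold corr2; simp [sq]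
  rw [e, integral_comp_eval (μ := fun _ : Fin 2 => gaussianReal 0 1) (i := (0 : Fin 2))
    (f := fun z => h z ^ 2) (hm.pow_const 2).aestronglyMeasurable]

lemma corr2_zero (hm : Measurable h) : corr2 h 0 = (∫ z, h z ∂gaussianReal 0 1) ^ 2 := by
  unfold corr2
  simp only [zero_mul, zero_add, ne_eq, OfNat.ofNat_ne_zero, not_false_eq_true, zero_pow, sub_zero,
    Real.sqrt_one, one_mul]
  have e1 := measurePreserving_finTwoArrow (gaussianReal 0 1)
  rw [sq, ← integral_prod_mul (μ := gaussianReal 0 1) (ν := gaussianReal 0 1) h h,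
    ← e1.integral_comp' (g := fun p : ℝ × ℝ => h p.1 * h p.2)]
  simp [MeasurableEquiv.finTwoArrow, MeasurableEquiv.piFinTwo]

/-- The derivative is the correlation of the derivatives. -/
theorem hasDerivAt_corr2 (hh : C1b h h1 A) {r : ℝ} (hr : r ∈ Set.Ioo (-1 : ℝ) 1) :
    HasDerivAt (corr2 h) (corr2 h1 r) r := by
  obtain ⟨hd, hb, hb1, hm1⟩ := hh
  have hc : Continuous h := continuous_iff_continuousAt.2 fun x => (hd x).continuousAt
  have hA : 0 ≤ A := (abs_nonneg _).trans (hb 0)
  obtain ⟨ρ, hrρ, hρ⟩ := exists_between (abs_lt.2 hr)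
  have hρ0 : 0 ≤ ρ := (abs_nonneg r).trans hrρ.le
  set c := Real.sqrt (1 - ρ ^ 2)
  have hc0 : 0 < c := Real.sqrt_pos.2 (by nlinarith)
  set F : ℝ → (Fin 2 → ℝ) → ℝ := fun x g => h (g 0) * h (x * g 0 + Real.sqrt (1 - x ^ 2) * g 1)
  set F' : ℝ → (Fin 2 → ℝ) → ℝ := fun x g =>
    h (g 0) * (h1 (x * g 0 + Real.sqrt (1 - x ^ 2) * g 1) * (g 0 - x / Real.sqrt (1 - x ^ 2) * g 1))
  have hin : ∀ x : ℝ, |x| ≤ ρ → c ≤ Real.sqrt (1 - x ^ 2) := fun x hx => by
    refine Real.sqrt_le_sqrt ?_
    have := pow_le_pow_left₀ (abs_nonneg x) hx 2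
    rw [sq_abs] at this
    linarith
  have hs : Set.Ioo (-ρ) ρ ∈ 𝓝 r := Ioo_mem_nhds (abs_lt.1 hrρ).1 (abs_lt.1 hrρ).2
  have hlip := hasDerivAt_integral_of_dominated_loc_of_deriv_le (μ := gam (Fin 2)) (F := F)
    (F' := F') (x₀ := r) (bound := fun g => A * (A * (|g 0| + ρ / c * |g 1|))) hs
    (Eventually.of_forall fun x =>
      ((hc.measurable.comp (measurable_pi_apply 0)).mul (hc.measurable.comp (by fun_prop))).aestronglyMeasurable)
    (integrable_of_abs_le (K := A * A)
      ((hc.measurable.comp (measurable_pi_apply 0)).mul (hc.measurable.comp (by fun_prop))) fun g => by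
        rw [abs_mul]; exact mul_le_mul (hb _) (hb _) (abs_nonneg _) hA)
    (((hc.measurable.comp (measurable_pi_apply 0)).mul ((hm1.comp (by fun_prop)).mul
      (by fun_prop))).aestronglyMeasurable)
    (Eventually.of_forall fun g x hx => by
      have hx' : |x| ≤ ρ := (abs_lt.2 hx).le
      rw [Real.norm_eq_abs, abs_mul, abs_mul]
      refine mul_le_mul (hb _) (mul_le_mul (hb1 _) ?_ (abs_nonneg _) hA) (by positivity) hA
      refine (abs_sub _ _).trans (add_le_add le_rfl ?_)
      rw [abs_mul, abs_div, abs_of_pos (hc0.trans_le (hin x hx'))]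
      exact mul_le_mul_of_nonneg_right (div_le_div₀ hρ0 hx' hc0 (hin x hx')) (abs_nonneg _))
    ((((integrable_abs_coord (0 : Fin 2)).fun_add
      ((integrable_abs_coord (1 : Fin 2)).const_mul (ρ / c))).const_mul A).const_mul A)
    (Eventually.of_forall fun g x hx => by
      have hx2 : (1 : ℝ) - x ^ 2 ≠ 0 := by
        have := hin x (abs_lt.2 hx).le
        intro h0
        rw [h0, Real.sqrt_zero] at this
        linarith
      have hz : HasDerivAt (fun x : ℝ => x * g 0 + Real.sqrt (1 - x ^ 2) * g 1)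
          (g 0 - x / Real.sqrt (1 - x ^ 2) * g 1) x := by
        have h2 := ((hasDerivAt_pow 2 x).const_sub 1).sqrt hx2
        refine (((hasDerivAt_id x).mul_const (g 0)).add (h2.mul_const (g 1))).congr_deriv ?_
        simp only [id_eq, one_mul, Nat.cast_ofNat, show (2 : ℕ) - 1 = 1 from rfl, pow_one]
        ring
      exact ((hd _).comp x hz).const_mul (h (g 0)))
  refine hlip.2.congr_deriv ?_
  -- rotate the pair so that the derivative falls on one Gaussian only
  obtain ⟨s, hsdef⟩ : ∃ s, s = Real.sqrt (1 - r ^ 2) := ⟨_, rfl⟩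
  have hspos : 0 < s := hsdef ▸ hc0.trans_le (hin r hrρ.le)
  have hs2 : s ^ 2 = 1 - r ^ 2 := by rw [hsdef, Real.sq_sqrt]; nlinarith [hr.1, hr.2]
  set G : ℝ → ℝ → ℝ := fun x y => h (r * x + s * y) * (h1 x * (y / s))
  have hGm : Measurable (Function.uncurry G) :=
    (hc.measurable.comp (by fun_prop)).mul ((hm1.comp measurable_fst).mul (by fun_prop))
  obtain ⟨-, hpair⟩ := integral_pair_eq (G := G) hGm (u := ![r, s]) (u' := ![s, -r])
    (by simp [hs2]) (by simp [hs2])
  have hd0 : dot ![r, s] ![s, -r] = 0 := by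
    simp only [dot, Fin.sum_univ_two, Matrix.cons_val_zero, Matrix.cons_val_one,
      Matrix.cons_val_fin_one]
    ring
  rw [hd0] at hpair
  simp only [zero_mul, zero_add, ne_eq, OfNat.ofNat_ne_zero, not_false_eq_true, zero_pow, sub_zero,
    Real.sqrt_one, one_mul] at hpair
  have eF : ∀ g : Fin 2 → ℝ, F' r g = G (dot g ![r, s]) (dot g ![s, -r]) := fun g => by
    simp only [F', G, dot, Fin.sum_univ_two, Matrix.cons_val_zero, Matrix.cons_val_one,
      Matrix.cons_val_fin_one, ← hsdef]
    rw [show r * (g 0 * r + g 1 * s) + s * (g 0 * s + g 1 * -r) = g 0 * (r ^ 2 + s ^ 2) by ring,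
      show r ^ 2 + s ^ 2 = 1 by linarith, mul_one,
      show g 0 - r / s * g 1 = (g 0 * s + g 1 * -r) / s by field_simp; ring,
      mul_comm (g 0) r, mul_comm (g 1) s]
  simp only [eF]
  rw [hpair]
  have e1 := measurePreserving_finTwoArrow (gaussianReal 0 1)
  have hGi : Integrable (fun p : ℝ × ℝ => G p.1 p.2) (gam1.prod gam1) := by
    have hy : Integrable (fun p : ℝ × ℝ => |p.2|) (gam1.prod gam1) :=
      ((IsGaussian.memLp_two_id (μ := gam1)).integrable one_le_two).abs.comp_snd gam1
    refine (hy.const_mul (A * (A / s))).mono' hGm.aestronglyMeasurable (Eventually.of_forall fun p => ?_)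
    rw [Real.norm_eq_abs, show A * (A / s) * |p.2| = A * (A * (|p.2| / s)) by ring]
    simp only [G, abs_mul, abs_div, abs_of_pos hspos]
    exact mul_le_mul (hb _) (mul_le_mul_of_nonneg_right (hb1 _) (by positivity)) (by positivity) hA
  have hH : Integrable (fun p : ℝ × ℝ => h1 p.1 * h1 (r * p.1 + s * p.2)) (gam1.prod gam1) :=
    integrable_of_abs_le (K := A * A) ((hm1.comp measurable_fst).mul (hm1.comp (by fun_prop)))
      fun p => by rw [abs_mul]; exact mul_le_mul (hb1 _) (hb1 _) (abs_nonneg _) hA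
  have hL : ∫ g : Fin 2 → ℝ, G (g 0) (g 1) ∂gam (Fin 2) = ∫ x, ∫ y, G x y ∂gam1 ∂gam1 := by
    rw [← integral_prod _ hGi, ← e1.integral_comp' (g := fun p : ℝ × ℝ => G p.1 p.2)]
    simp [MeasurableEquiv.finTwoArrow, MeasurableEquiv.piFinTwo]
  have hR : corr2 h1 r = ∫ x, ∫ y, h1 x * h1 (r * x + s * y) ∂gam1 ∂gam1 := by
    rw [← integral_prod (f := fun p : ℝ × ℝ => h1 p.1 * h1 (r * p.1 + s * p.2)) hH,
      ← e1.integral_comp' (g := fun p : ℝ × ℝ => h1 p.1 * h1 (r * p.1 + s * p.2))]
    simp [corr2, hsdef, MeasurableEquiv.finTwoArrow, MeasurableEquiv.piFinTwo]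
  rw [hL, hR]
  refine integral_congr_ae (Eventually.of_forall fun x => ?_)
  simp only [G]
  rw [show (fun y => h (r * x + s * y) * (h1 x * (y / s))) =
    fun y => h1 x / s * (y * h (r * x + s * y)) from funext fun y => by ring, integral_const_mul,
    integral_id_mul_gaussian (f := fun y => h (r * x + s * y)) (f' := fun y => s * h1 (r * x + s * y))
      (A := A) (A' := s * A) (fun y => by
        have hl : HasDerivAt (fun y => r * x + s * y) s y := by
          simpa using ((hasDerivAt_id y).const_mul s).const_add (r * x)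
        exact ((hd _).comp y hl).congr_deriv (by ring))
      (fun y => hb _) (fun y => by
        rw [abs_mul, abs_of_pos hspos]; exact mul_le_mul_of_nonneg_left (hb1 _) hspos.le),
    integral_const_mul, integral_const_mul]
  field_simp

/-- Monotonicity of the correlation of a bounded function. -/
theorem monotoneOn_corr2 (hm : Measurable h) (hb : ∀ x, |h x| ≤ A) :
    MonotoneOn (corr2 h) (Set.Icc 0 1) := by
  intro r hr r' hr' hle
  rcases eq_or_lt_of_le (hr.1.trans hle) with h0 | hpos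
  · rw [← h0, le_antisymm (hle.trans h0.ge) hr.1]
  have hA : 0 ≤ A := (abs_nonneg _).trans (hb 0)
  rw [corr2_eq_sq hm hb hr, corr2_eq_sq hm hb hr']
  set U : ℝ → ℝ := fun x => ∫ ξ, h (x * Real.sqrt r' + ξ * Real.sqrt (1 - r')) ∂gam1
  have hUm : Measurable U :=
    ((hm.comp (by fun_prop : Measurable fun p : ℝ × ℝ =>
      p.1 * Real.sqrt r' + p.2 * Real.sqrt (1 - r'))).stronglyMeasurable
      |>.integral_prod_right' (ν := gam1)).measurable
  have hUb : ∀ x, |U x| ≤ A := fun x => by
    simpa using norm_integral_le_of_norm_le_const (μ := gam1)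
      (f := fun ξ => h (x * Real.sqrt r' + ξ * Real.sqrt (1 - r'))) (Eventually.of_forall fun ξ => hb _)
  set a := Real.sqrt (r / r')
  set b := Real.sqrt (1 - r / r')
  have hq : r / r' ≤ 1 := (div_le_one hpos).2 hle
  have ha : a ^ 2 = r / r' := Real.sq_sqrt (div_nonneg hr.1 hpos.le)
  have hb' : b ^ 2 = 1 - r / r' := Real.sq_sqrt (by linarith)
  have hsa : Real.sqrt r = a * Real.sqrt r' := by
    rw [← Real.sqrt_mul (div_nonneg hr.1 hpos.le), div_mul_cancel₀ _ hpos.ne']
  have hsplit : ∀ z, (∫ ξ, h (z * Real.sqrt r + ξ * Real.sqrt (1 - r)) ∂gam1) =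
      ∫ η, U (a * z + b * η) ∂gam1 := fun z => by
    have hi : Integrable (fun p : ℝ × ℝ =>
        h ((a * z + b * p.1) * Real.sqrt r' + p.2 * Real.sqrt (1 - r'))) (gam1.prod gam1) :=
      integrable_of_abs_le (hm.comp (by fun_prop)) fun p => hb _
    simp only [U]
    rw [← integral_prod (f := fun p : ℝ × ℝ =>
      h ((a * z + b * p.1) * Real.sqrt r' + p.2 * Real.sqrt (1 - r'))) hi]
    have hc := integral_combine (φ := fun u => h (z * Real.sqrt r + u)) (hm.comp (by fun_prop))
      (b * Real.sqrt r') (Real.sqrt (1 - r'))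
    have hvar : Real.sqrt ((b * Real.sqrt r') ^ 2 + Real.sqrt (1 - r') ^ 2) = Real.sqrt (1 - r) := by
      congr 1
      rw [mul_pow, hb', Real.sq_sqrt hpos.le, Real.sq_sqrt (by linarith [hr'.2])]
      field_simp
      ring
    rw [hvar] at hc
    simp only [mul_comm (Real.sqrt (1 - r))] at hc
    rw [← hc]
    congr 1
    ext p
    rw [hsa]
    congr 1
    ring
  simp only [hsplit]
  have hUi : ∀ z, Integrable (fun η => U (a * z + b * η)) gam1 := fun z =>
    integrable_of_abs_le (hUm.comp (by fun_prop)) fun η => hUb _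
  have hU2 : Integrable (fun p : ℝ × ℝ => U (a * p.1 + b * p.2) ^ 2) (gam1.prod gam1) :=
    integrable_of_abs_le (K := A ^ 2) ((hUm.comp (by fun_prop)).pow_const 2) fun p => by
      rw [abs_pow]; exact pow_le_pow_left₀ (abs_nonneg _) (hUb _) 2
  have hjen : ∀ z, (∫ η, U (a * z + b * η) ∂gam1) ^ 2 ≤ ∫ η, U (a * z + b * η) ^ 2 ∂gam1 := fun z => by
    set m := ∫ η, U (a * z + b * η) ∂gam1
    have h2 : Integrable (fun η => U (a * z + b * η) ^ 2) gam1 :=
      integrable_of_abs_le (K := A ^ 2) ((hUm.comp (by fun_prop)).pow_const 2) fun p => by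
        rw [abs_pow]; exact pow_le_pow_left₀ (abs_nonneg _) (hUb _) 2
    have h0 : 0 ≤ ∫ η, (U (a * z + b * η) - m) ^ 2 ∂gam1 := integral_nonneg fun η => sq_nonneg _
    have e2 : ∀ η, (U (a * z + b * η) - m) ^ 2 =
        U (a * z + b * η) ^ 2 - 2 * m * U (a * z + b * η) + m ^ 2 := fun η => by ring
    simp only [e2] at h0
    rw [integral_add (h2.sub' ((hUi z).const_mul _)) (integrable_const _),
      integral_sub h2 ((hUi z).const_mul _), integral_const_mul] at h0
    simp only [integral_const, probReal_univ, smul_eq_mul, one_mul] at h0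
    nlinarith
  refine (integral_mono_of_nonneg (Eventually.of_forall fun z => sq_nonneg _) hU2.integral_prod_left
    (Eventually.of_forall hjen)).trans_eq ?_
  rw [← integral_prod (f := fun p : ℝ × ℝ => U (a * p.1 + b * p.2) ^ 2) hU2,
    integral_combine (φ := fun x => U x ^ 2) (hUm.pow_const 2),
    show a ^ 2 + b ^ 2 = 1 by linarith]
  simp [U]

/-- Convexity of the correlation of a bounded differentiable function. -/
theorem convexOn_corr2 (hh : C1b h h1 A) : ConvexOn ℝ (Set.Icc 0 1) (corr2 h) := by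
  have hd : ∀ x ∈ interior (Set.Icc (0 : ℝ) 1), HasDerivAt (corr2 h) (corr2 h1 x) x := fun x hx => by
    rw [interior_Icc] at hx
    exact hasDerivAt_corr2 hh ⟨by linarith [hx.1], hx.2⟩
  refine MonotoneOn.convexOn_of_deriv (convex_Icc 0 1)
    (continuous_corr2 hh.continuous hh.2.1).continuousOn
    (fun x hx => (hd x hx).differentiableAt.differentiableWithinAt) ?_
  intro x hx y hy hxy
  rw [(hd x hx).deriv, (hd y hy).deriv]
  exact monotoneOn_corr2 hh.2.2.2 hh.2.2.1 (interior_subset hx) (interior_subset hy) hxy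

/-- A chord bound for a mean-zero function. -/
lemma corr2_le_chord (hh : C1b h h1 A) (h0 : ∫ z, h z ∂gaussianReal 0 1 = 0) {r : ℝ}
    (hr : r ∈ Set.Icc (0 : ℝ) 1) : corr2 h r ≤ r * ∫ z, h z ^ 2 ∂gaussianReal 0 1 := by
  have hc := (convexOn_corr2 hh).2 (Set.left_mem_Icc.2 zero_le_one) (Set.right_mem_Icc.2 zero_le_one)
    (sub_nonneg.2 hr.2) hr.1 (sub_add_cancel 1 r)
  simp only [smul_eq_mul, mul_zero, zero_add, mul_one, corr2_zero hh.continuous.measurable, h0,
    corr2_one hh.continuous.measurable, ne_eq, OfNat.ofNat_ne_zero, not_false_eq_true, zero_pow] at hc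
  exact hc

end Vale.Agent.P157
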