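import Mathlib
import Vale.Agent.P157.Corr2Deriv
import Vale.Agent.P157.CosFamily

/-!
The exact threshold for smooth even log-potentials of small amplitude.
-/

noncomputable section

open MeasureTheory ProbabilityTheory Filter
open scoped Topology

namespace Vale.Agent.P157

lemma deriv_parity {w w1 : ℝ → ℝ} {s : ℝ} (hs : s * s = 1) (hd : ∀ x, HasDerivAt w (w1 x) x)
    (hev : ∀ x, w (-x) = s * w x) (x : ℝ) : w1 (-x) = -s * w1 x := by
  have h1 : HasDerivAt (fun y => w (-y)) (w1 (-x) * -1) x := (hd (-x)).comp x (hasDerivAt_neg x)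
  have h2 : HasDerivAt (fun y => w (-y)) (s * w1 x) x :=
    ((hd x).const_mul s).congr_of_eventuallyEq (Eventually.of_forall hev)
  have := h1.unique h2
  linarith

lemma integral_odd_eq_zero {v : ℝ → ℝ} (hodd : ∀ x, v (-x) = -v x) :
    ∫ z, v z ∂gaussianReal 0 1 = 0 := by
  have hneg : MeasurePreserving (fun x : ℝ => -x) gam1 gam1 :=
    ⟨measurable_neg, by rw [gaussianReal_map_neg, neg_zero]⟩
  have h := hneg.integral_comp' (f := MeasurableEquiv.neg ℝ) (g := v)
  simp only [MeasurableEquiv.neg_apply, hodd, integral_neg] at h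
  linarith

lemma le_of_hasDerivAt_le {G G' B B' : ℝ → ℝ} (hG : ContinuousOn G (Set.Icc 0 1))
    (hB : ContinuousOn B (Set.Icc 0 1)) (hGd : ∀ x ∈ Set.Ioo (0 : ℝ) 1, HasDerivAt G (G' x) x)
    (hBd : ∀ x ∈ Set.Ioo (0 : ℝ) 1, HasDerivAt B (B' x) x)
    (h : ∀ x ∈ Set.Ioo (0 : ℝ) 1, G' x ≤ B' x) (h0 : G 0 ≤ B 0) {r : ℝ} (hr : r ∈ Set.Icc (0 : ℝ) 1) :
    G r ≤ B r := by
  have hm : MonotoneOn (fun x => B x - G x) (Set.Icc 0 1) := by
    refine monotoneOn_of_hasDerivWithinAt_nonneg (convex_Icc 0 1) (hB.sub hG)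
      (f' := fun x => B' x - G' x) (fun x hx => ?_) (fun x hx => ?_) <;> rw [interior_Icc] at hx
    · exact ((hBd x hx).sub (hGd x hx)).hasDerivWithinAt
    · exact sub_nonneg.2 (h x hx)
  have := hm (Set.left_mem_Icc.2 zero_le_one) hr hr.1
  simp only at this
  linarith

/-- Second Hermite moment of a smooth bounded function. -/
lemma integral_herm_eq {w w1 w2 : ℝ → ℝ} {A : ℝ} (h0 : C1b w w1 A) (h1 : C1b w1 w2 A) :
    ∫ z, (z ^ 2 - 1) * w z ∂gaussianReal 0 1 = ∫ z, w2 z ∂gaussianReal 0 1 := by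
  have hg : ∀ k ≤ 9, Integrable (fun z : ℝ => z ^ k) gam1 := fun k hk =>
    integrable_pow9.mono' (by fun_prop) (Eventually.of_forall fun z => by
      rw [Real.norm_eq_abs, abs_pow]
      exact (pow_le_pow_left₀ (abs_nonneg _) (le_add_of_nonneg_left zero_le_one) k).trans
        (pow_le_pow_right₀ (le_add_of_nonneg_right (abs_nonneg _)) hk))
  have hw := h0.continuous
  have hw1 := h1.continuous
  have i2 : Integrable (fun z => w z * z ^ 2) gam1 :=
    (hg 2 (by norm_num)).bdd_mul hw.aestronglyMeasurable (c := A) (Eventually.of_forall h0.2.1)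
  have i1 : Integrable (fun z => w z * z) gam1 :=
    ((hg 1 (by norm_num)).bdd_mul hw.aestronglyMeasurable (c := A) (Eventually.of_forall h0.2.1)).congr
      (Eventually.of_forall fun z => by simp)
  have i1' : Integrable (fun z => z * w1 z) gam1 :=
    ((hg 1 (by norm_num)).bdd_mul hw1.aestronglyMeasurable (c := A) (Eventually.of_forall h1.2.1)).congr
      (Eventually.of_forall fun z => by simp [mul_comm])
  have i0 : Integrable w gam1 := integrable_of_abs_le hw.measurable h0.2.1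
  have hpdf : ∀ φ : ℝ → ℝ, Integrable φ gam1 →
      Integrable fun z => φ z * gaussianPDFReal 0 1 z := by
    intro φ hφ
    rw [gam1, gaussianReal_of_var_ne_zero _ one_ne_zero,
      integrable_withDensity_iff (measurable_gaussianPDF _ _)
        (Eventually.of_forall fun _ => gaussianPDF_lt_top)] at hφ
    exact hφ.congr (Eventually.of_forall fun z => by simp [toReal_gaussianPDF])
  have hd : Integrable (fun z => w z + z * w1 z) gam1 := i0.fun_add i1'
  have hibp := integral_mul_deriv_eq_deriv_mul_of_integrable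
    (u := fun z : ℝ => z * w z) (v := fun z => -gaussianPDFReal 0 1 z)
    (u' := fun z => w z + z * w1 z) (v' := fun z => z * gaussianPDFReal 0 1 z)
    (fun z _ => ((hasDerivAt_id z).mul (h0.1 z)).congr_deriv (by simp))
    (fun z _ => hasDerivAt_gaussianPDFReal z)
    ((hpdf _ i2).congr (Eventually.of_forall fun z => by simp only [Pi.mul_apply]; ring))
    ((hpdf _ hd).neg.congr (Eventually.of_forall fun z => by
      simp only [Pi.mul_apply, Pi.neg_apply]; ring))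
    ((hpdf _ i1).neg.congr (Eventually.of_forall fun z => by
      simp only [Pi.mul_apply, Pi.neg_apply]; ring))
  have e2 : ∫ z, w z * z ^ 2 ∂gam1 = ∫ z, (w z + z * w1 z) ∂gam1 := by
    rw [integral_gam1, integral_gam1]
    calc ∫ z, gaussianPDFReal 0 1 z * (w z * z ^ 2)
        = ∫ z, z * w z * (z * gaussianPDFReal 0 1 z) := by congr 1; ext z; ring
      _ = _ := hibp
      _ = _ := by rw [← integral_neg]; congr 1; ext z; ring
  have e : ∀ z : ℝ, (z ^ 2 - 1) * w z = w z * z ^ 2 - w z := fun z => by ring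
  simp only [e]
  rw [integral_sub i2 i0, e2, integral_add i0 i1', integral_id_mul_gaussian h1.1 h1.2.1 h1.2.2.1]
  ring

/-- Fourth-order bound on the correlation of an even weight. -/
theorem corr2_le_of_even {w w1 w2 w3 w4 : ℝ → ℝ} {A c : ℝ} (h0 : C1b w w1 A) (h1 : C1b w1 w2 A)
    (h2 : C1b w2 w3 A) (h3 : C1b w3 w4 A) (hev : ∀ x, w (-x) = w x)
    (hc : ∫ z, w3 z ^ 2 ∂gaussianReal 0 1 ≤ c * (∫ z, w2 z ∂gaussianReal 0 1) ^ 2) {r : ℝ}
    (hr : r ∈ Set.Icc (-1 : ℝ) 1) :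
    corr2 w r - (∫ z, w z ∂gaussianReal 0 1) ^ 2 ≤
      (∫ z, w2 z ∂gaussianReal 0 1) ^ 2 * (r ^ 2 / 2 + c * r ^ 4 / 24) := by
  obtain ⟨t, ht, e, e2, e4⟩ : ∃ t ∈ Set.Icc (0 : ℝ) 1,
      corr2 w r = corr2 w t ∧ r ^ 2 = t ^ 2 ∧ r ^ 4 = t ^ 4 := by
    rcases le_total 0 r with h | h
    · exact ⟨r, ⟨h, hr.2⟩, rfl, rfl, rfl⟩
    · refine ⟨-r, ⟨by linarith, by linarith [hr.1]⟩, ?_, by ring, by ring⟩
      rw [corr2_neg h0.continuous.measurable hev]
  rw [e, e2, e4]
  set b := (∫ z, w2 z ∂gaussianReal 0 1) ^ 2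
  set P := ∫ z, w3 z ^ 2 ∂gaussianReal 0 1
  have hev' : ∀ x, w (-x) = 1 * w x := fun x => by rw [one_mul]; exact hev x
  have o1 : ∀ x, w1 (-x) = -1 * w1 x := deriv_parity (one_mul _) h0.1 hev'
  have o2 : ∀ x, w2 (-x) = - -1 * w2 x := deriv_parity (by ring) h1.1 o1
  have o3 : ∀ x, w3 (-x) = - - -1 * w3 x := deriv_parity (by ring) h2.1 o2
  have z1 := integral_odd_eq_zero (v := w1) fun x => by rw [o1]; ring
  have z3 := integral_odd_eq_zero (v := w3) fun x => by rw [o3]; ring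
  have hd : ∀ {v v1 : ℝ → ℝ}, C1b v v1 A → ∀ x ∈ Set.Ioo (0 : ℝ) 1,
      HasDerivAt (corr2 v) (corr2 v1 x) x := fun hv x hx =>
    hasDerivAt_corr2 hv ⟨by linarith [hx.1], hx.2⟩
  have hcon : ∀ {v v1 : ℝ → ℝ}, C1b v v1 A → ContinuousOn (corr2 v) (Set.Icc 0 1) := fun hv =>
    (continuous_corr2 hv.continuous hv.2.1).continuousOn
  have k2 : ∀ x ∈ Set.Icc (0 : ℝ) 1, corr2 w2 x ≤ b + P * x ^ 2 / 2 := fun x hx =>
    le_of_hasDerivAt_le (B := fun x => b + P * x ^ 2 / 2) (B' := fun x => P * x)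
      (hcon h2) (by fun_prop) (hd h2)
      (fun y _ => by
        have := (((hasDerivAt_pow 2 y).const_mul P).div_const 2).const_add b
        exact this.congr_deriv (by simp; ring))
      (fun y hy => (corr2_le_chord h3 z3 (Set.Ioo_subset_Icc_self hy)).trans_eq (mul_comm y P))
      (by simp [corr2_zero h2.continuous.measurable, b]) hx
  have k1 : ∀ x ∈ Set.Icc (0 : ℝ) 1, corr2 w1 x ≤ b * x + P * x ^ 3 / 6 := fun x hx =>
    le_of_hasDerivAt_le (B := fun x => b * x + P * x ^ 3 / 6) (B' := fun x => b + P * x ^ 2 / 2)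
      (hcon h1) (by fun_prop) (hd h1)
      (fun y _ => by
        have := ((hasDerivAt_id y).const_mul b).add (((hasDerivAt_pow 3 y).const_mul P).div_const 6)
        exact this.congr_deriv (by simp; ring))
      (fun y hy => k2 y (Set.Ioo_subset_Icc_self hy))
      (by simp [corr2_zero h1.continuous.measurable, z1]) hx
  have k0 := le_of_hasDerivAt_le
      (B := fun x => (∫ z, w z ∂gaussianReal 0 1) ^ 2 + b * x ^ 2 / 2 + P * x ^ 4 / 24)
      (B' := fun x => b * x + P * x ^ 3 / 6)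
      (hcon h0) (by fun_prop) (hd h0)
      (fun y _ => by
        have := ((((hasDerivAt_pow 2 y).const_mul b).div_const 2).const_add
          ((∫ z, w z ∂gaussianReal 0 1) ^ 2)).add (((hasDerivAt_pow 4 y).const_mul P).div_const 24)
        exact this.congr_deriv (by simp; ring))
      (fun y hy => k1 y (Set.Ioo_subset_Icc_self hy))
      (by simp [corr2_zero h0.continuous.measurable]) ht
  have hp := mul_le_mul_of_nonneg_right hc (show 0 ≤ t ^ 4 / 24 by positivity)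
  linarith

lemma rateIsing_ge {r : ℝ} (hr : r ∈ Set.Icc (-1 : ℝ) 1) :
    r ^ 2 / 2 + r ^ 4 / 12 ≤ rateIsing r := by
  have hs : Real.sqrt 2 ^ 2 = 2 := Real.sq_sqrt (by norm_num)
  have h := cosh_sub_one_le_rateIsing (τ := Real.sqrt 2) hs.le hr
  rw [hs, Real.cosh_eq_tsum] at h
  have h2 := Summable.sum_le_tsum (Finset.range 3) (fun k _ => by rw [pow_mul]; positivity)
    (Real.hasSum_cosh (Real.sqrt 2 * r)).summable
  simp only [mul_pow, pow_mul, hs] at h
  simp [Finset.sum_range_succ, pow_mul, mul_pow, hs, Nat.factorial] at h2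
  linarith

lemma rateSphere_ge {r : ℝ} (hr : r ∈ Set.Ioo (-1 : ℝ) 1) :
    r ^ 2 / 2 + r ^ 4 / 4 ≤ rateSphere r := by
  have hs : Real.sqrt 6 ^ 2 = 6 := Real.sq_sqrt (by norm_num)
  have h := cosh_sub_one_le_rateSphere (τ := Real.sqrt 6) hs.le hr
  rw [hs, Real.cosh_eq_tsum] at h
  have h2 := Summable.sum_le_tsum (Finset.range 3) (fun k _ => by rw [pow_mul]; positivity)
    (Real.hasSum_cosh (Real.sqrt 6 * r)).summable
  simp only [mul_pow, pow_mul, hs] at h
  simp [Finset.sum_range_succ, pow_mul, mul_pow, hs, Nat.factorial] at h2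
  linarith

/-- The comparison with the rate. -/
lemma log_corrRatio_le_of_even {w1 w2 w3 w4 : ℝ → ℝ} {f : ℝ → ℝ} {K A c I r : ℝ}
    (hf : Measurable f) (hfb : ∀ z, |f z| ≤ K) (h0 : C1b (fun z => Real.exp (f z)) w1 A)
    (h1 : C1b w1 w2 A) (h2 : C1b w2 w3 A) (h3 : C1b w3 w4 A) (hev : ∀ x, f (-x) = f x)
    (hc : ∫ z, w3 z ^ 2 ∂gaussianReal 0 1 ≤ c * (∫ z, w2 z ∂gaussianReal 0 1) ^ 2)
    (hr : r ∈ Set.Icc (-1 : ℝ) 1) (hI : r ^ 2 / 2 + c * r ^ 4 / 24 ≤ I) :
    Real.log (corrRatio f r) ≤ curv f ^ 2 * I := by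
  set a := ∫ z, Real.exp (f z) ∂gaussianReal 0 1
  have ha : 0 < a := (Real.exp_pos _).trans_le (integral_exp_mem (π := gam1) hf hfb).1
  have h := corr2_le_of_even h0 h1 h2 h3 (fun x => by rw [hev]) hc hr
  refine (Real.log_le_sub_one_of_pos (corrRatio_mem hf hfb r).1).trans ?_
  rw [curv, integral_herm_eq h0 h1, corrRatio, div_pow, div_sub_one (pow_ne_zero 2 ha.ne'),
    div_mul_eq_mul_div]
  exact div_le_div_of_nonneg_right (h.trans (mul_le_mul_of_nonneg_left hI (sq_nonneg _))) (sq_nonneg _)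

/-- Critical density `1 / curv²` for smooth even profiles at high temperature. -/
theorem smallBeta_threshold {φ : ℝ → ℝ} (hφ : ContDiff ℝ 4 φ)
    (hb : ∃ A, ∀ j ≤ 4, ∀ x, |iteratedDeriv j φ x| ≤ A) (hev : ∀ z, φ (-z) = φ z) :
    (∫ z, iteratedDeriv 3 φ z ^ 2 ∂gaussianReal 0 1 <
        2 * (∫ z, iteratedDeriv 2 φ z ∂gaussianReal 0 1) ^ 2 →
      ∃ β₀ > (0 : ℝ), ∀ β : ℝ, |β| ≤ β₀ → ∀ α : ℝ, 0 < α →
        ∃ L, Tendsto (meanPressure isingLaw α fun z => β * φ z) atTop (𝓝 L) ∧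
          L ≤ α * Real.log (∫ z, Real.exp (β * φ z) ∂gaussianReal 0 1) ∧
          (L = α * Real.log (∫ z, Real.exp (β * φ z) ∂gaussianReal 0 1) ↔
            α * ((∫ z, (z ^ 2 - 1) * Real.exp (β * φ z) ∂gaussianReal 0 1) /
              ∫ z, Real.exp (β * φ z) ∂gaussianReal 0 1) ^ 2 ≤ 1)) ∧
    (∫ z, iteratedDeriv 3 φ z ^ 2 ∂gaussianReal 0 1 <
        6 * (∫ z, iteratedDeriv 2 φ z ∂gaussianReal 0 1) ^ 2 →
      ∃ β₀ > (0 : ℝ), ∀ β : ℝ, |β| ≤ β₀ → ∀ α : ℝ, 0 < α →
        ∃ L, Tendsto (meanPressure sphereLaw α fun z => β * φ z) atTop (𝓝 L) ∧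
          L ≤ α * Real.log (∫ z, Real.exp (β * φ z) ∂gaussianReal 0 1) ∧
          (L = α * Real.log (∫ z, Real.exp (β * φ z) ∂gaussianReal 0 1) ↔
            α * ((∫ z, (z ^ 2 - 1) * Real.exp (β * φ z) ∂gaussianReal 0 1) /
              ∫ z, Real.exp (β * φ z) ∂gaussianReal 0 1) ^ 2 ≤ 1)) := by
  obtain ⟨A₀, hA₀⟩ := hb
  obtain ⟨A, hA1, hA⟩ : ∃ A, 1 ≤ A ∧ ∀ j ≤ 4, ∀ x, |iteratedDeriv j φ x| ≤ A :=
    ⟨max A₀ 1, le_max_right _ _, fun j hj x => (hA₀ j hj x).trans (le_max_left _ _)⟩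
  have hA0 : 0 ≤ A := zero_le_one.trans hA1
  set p1 := iteratedDeriv 1 φ
  set p2 := iteratedDeriv 2 φ
  set p3 := iteratedDeriv 3 φ
  set p4 := iteratedDeriv 4 φ
  have hd : ∀ j : ℕ, j < 4 → ∀ x, HasDerivAt (iteratedDeriv j φ) (iteratedDeriv (j + 1) φ x) x := by
    intro j hj x
    rw [iteratedDeriv_succ]
    exact (hφ.differentiable_iteratedDeriv j (by exact_mod_cast hj) x).hasDerivAt
  have d1 : ∀ x, HasDerivAt φ (p1 x) x := fun x => by
    have := hd 0 (by norm_num) x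
    rwa [iteratedDeriv_zero] at this
  have d2 : ∀ x, HasDerivAt p1 (p2 x) x := hd 1 (by norm_num)
  have d3 : ∀ x, HasDerivAt p2 (p3 x) x := hd 2 (by norm_num)
  have d4 : ∀ x, HasDerivAt p3 (p4 x) x := hd 3 (by norm_num)
  have c0 : Continuous φ := hφ.continuous
  have c1 : Continuous p1 := hφ.continuous_iteratedDeriv 1 (by norm_num)
  have c2 : Continuous p2 := hφ.continuous_iteratedDeriv 2 (by norm_num)
  have c3 : Continuous p3 := hφ.continuous_iteratedDeriv 3 (by norm_num)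
  have c4 : Continuous p4 := hφ.continuous_iteratedDeriv 4 le_rfl
  have b0 : ∀ x, |φ x| ≤ A := fun x => by simpa using hA 0 (by norm_num) x
  have b1 : ∀ x, |p1 x| ≤ A := hA 1 (by norm_num)
  have b2 : ∀ x, |p2 x| ≤ A := hA 2 (by norm_num)
  have b3 : ∀ x, |p3 x| ≤ A := hA 3 (by norm_num)
  have b4 : ∀ x, |p4 x| ≤ A := hA 4 le_rfl
  -- derivatives of the weight, with one factor of `β` removed
  set u1 : ℝ → ℝ → ℝ := fun β x => p1 x * Real.exp (β * φ x) with hu1
  set u2 : ℝ → ℝ → ℝ := fun β x => (p2 x + β * p1 x ^ 2) * Real.exp (β * φ x) with hu2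
  set u3 : ℝ → ℝ → ℝ := fun β x =>
    (p3 x + 3 * β * (p1 x * p2 x) + β ^ 2 * p1 x ^ 3) * Real.exp (β * φ x) with hu3
  set u4 : ℝ → ℝ → ℝ := fun β x =>
    (p4 x + β * (4 * (p1 x * p3 x) + 3 * p2 x ^ 2) + 6 * β ^ 2 * (p1 x ^ 2 * p2 x) +
      β ^ 3 * p1 x ^ 4) * Real.exp (β * φ x) with hu4
  obtain ⟨B, hB⟩ : ∃ B, B = 15 * A ^ 4 * Real.exp A := ⟨_, rfl⟩
  have hexp : ∀ β x, |β| ≤ 1 → Real.exp (β * φ x) ≤ Real.exp A := fun β x hβ => by
    refine Real.exp_le_exp.2 ((le_abs_self _).trans ?_)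
    rw [abs_mul]
    exact (mul_le_mul hβ (b0 x) (abs_nonneg _) zero_le_one).trans_eq (one_mul A)
  have hbnd : ∀ β x, |β| ≤ 1 → Real.exp (β * φ x) ≤ B ∧ |u1 β x| ≤ B ∧ |u2 β x| ≤ B ∧
      |u3 β x| ≤ B ∧ |u4 β x| ≤ B := by
    intro β x hβ
    have he := hexp β x hβ
    have e2 : A ≤ A ^ 4 := le_self_pow₀ hA1 (by norm_num)
    have e3 : A ^ 2 ≤ A ^ 4 := pow_le_pow_right₀ hA1 (by norm_num)
    have e5 : A ^ 3 ≤ A ^ 4 := pow_le_pow_right₀ hA1 (by norm_num)
    have hp : ∀ {q : ℝ}, |q| ≤ 15 * A ^ 4 → |q * Real.exp (β * φ x)| ≤ B := fun {q} hq => by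
      rw [abs_mul, Real.abs_exp, hB]
      exact mul_le_mul hq he (Real.exp_pos _).le (by positivity)
    have q1 := pow_le_pow_left₀ (abs_nonneg _) (b1 x)
    have hb2' : |β| ^ 2 ≤ 1 := pow_le_one₀ (abs_nonneg β) hβ
    have hb3' : |β| ^ 3 ≤ 1 := pow_le_one₀ (abs_nonneg β) hβ
    refine ⟨?_, hp ((b1 x).trans (by linarith)), hp ?_, hp ?_, hp ?_⟩
    · rw [hB]; refine he.trans (le_mul_of_one_le_left (Real.exp_pos _).le ?_); linarith
    · refine (abs_add_le _ _).trans ?_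
      rw [abs_mul, abs_pow]
      have := mul_le_mul hβ (q1 2) (by positivity) zero_le_one
      linarith [b2 x, show 0 ≤ A ^ 4 by positivity]
    · refine (abs_add_three _ _ _).trans ?_
      simp only [abs_mul, abs_pow, Nat.abs_ofNat]
      have t1 := mul_le_mul hβ (mul_le_mul (b1 x) (b2 x) (abs_nonneg _) hA0) (by positivity) zero_le_one
      have t2 := mul_le_mul hb2' (q1 3) (by positivity) zero_le_one
      rw [show A * A = A ^ 2 by ring] at t1
      linarith [b3 x, show 0 ≤ A ^ 4 by positivity]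
    · refine (abs_add_le _ _).trans ((add_le_add ((abs_add_three _ _ _)) le_rfl).trans ?_)
      simp only [abs_mul, abs_pow, Nat.abs_ofNat]
      have t0 : |4 * (p1 x * p3 x) + 3 * p2 x ^ 2| ≤ 7 * A ^ 2 := by
        refine (abs_add_le _ _).trans ?_
        simp only [abs_mul, abs_pow, Nat.abs_ofNat]
        nlinarith [mul_le_mul (b1 x) (b3 x) (abs_nonneg _) hA0,
          pow_le_pow_left₀ (abs_nonneg _) (b2 x) 2]
      have t1 := mul_le_mul hβ t0 (abs_nonneg _) zero_le_one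
      have t2 := mul_le_mul hb2' (mul_le_mul (q1 2) (b2 x) (abs_nonneg _) (by positivity))
        (by positivity) zero_le_one
      have t3 := mul_le_mul hb3' (q1 4) (by positivity) zero_le_one
      rw [show A ^ 2 * A = A ^ 3 by ring] at t2
      linarith [b4 x, show 0 ≤ A ^ 4 by positivity]
  have hC : ∀ β : ℝ, |β| ≤ 1 →
      C1b (fun x => Real.exp (β * φ x)) (fun x => β * u1 β x) B ∧
      C1b (fun x => β * u1 β x) (fun x => β * u2 β x) B ∧
      C1b (fun x => β * u2 β x) (fun x => β * u3 β x) B ∧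
      C1b (fun x => β * u3 β x) (fun x => β * u4 β x) B := by
    intro β hβ
    have hmul : ∀ {q : ℝ}, |q| ≤ B → |β * q| ≤ B := fun {q} hq => by
      rw [abs_mul]; exact (mul_le_of_le_one_left (abs_nonneg q) hβ).trans hq
    have de : ∀ x, HasDerivAt (fun x => Real.exp (β * φ x)) (β * p1 x * Real.exp (β * φ x)) x :=
      fun x => ((d1 x).const_mul β).exp.congr_deriv (by ring)
    refine ⟨⟨fun x => (de x).congr_deriv (by simp only [hu1]; ring),
        fun x => by rw [Real.abs_exp]; exact (hbnd β x hβ).1, fun x => hmul (hbnd β x hβ).2.1,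
        by simp only [hu1]; fun_prop⟩,
      ⟨fun x => (((d2 x).mul (de x)).const_mul β).congr_deriv (by simp only [hu2]; ring),
        fun x => hmul (hbnd β x hβ).2.1, fun x => hmul (hbnd β x hβ).2.2.1,
        by simp only [hu2]; fun_prop⟩,
      ⟨fun x => ((((d3 x).add (((d2 x).pow 2).const_mul β)).mul (de x)).const_mul β).congr_deriv
          (by simp only [hu3, Pi.add_apply, Pi.pow_apply, Nat.cast_ofNat, show (2 : ℕ) - 1 = 1 from rfl, pow_one]; ring),
        fun x => hmul (hbnd β x hβ).2.2.1, fun x => hmul (hbnd β x hβ).2.2.2.1,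
        by simp only [hu3]; fun_prop⟩,
      ⟨fun x => (((((d4 x).add (((d2 x).mul (d3 x)).const_mul (3 * β))).add
          (((d2 x).pow 3).const_mul (β ^ 2))).mul (de x)).const_mul β).congr_deriv
          (by simp only [hu4, Pi.add_apply, Pi.pow_apply, Pi.mul_apply, Nat.cast_ofNat,
            show (3 : ℕ) - 1 = 2 from rfl]; ring),
        fun x => hmul (hbnd β x hβ).2.2.2.1, fun x => hmul (hbnd β x hβ).2.2.2.2,
        by simp only [hu4]; fun_prop⟩⟩
  have main : ∀ c : ℝ, 0 ≤ c → ∫ z, p3 z ^ 2 ∂gaussianReal 0 1 < c * (∫ z, p2 z ∂gaussianReal 0 1) ^ 2 →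
      ∃ β₀ > (0 : ℝ), ∀ β : ℝ, |β| ≤ β₀ →
        (∃ K, Usable (fun z => β * φ z) K) ∧ BlockConcave (fun z => β * φ z) ∧
        ∀ r ∈ Set.Icc (-1 : ℝ) 1, ∀ I, r ^ 2 / 2 + c * r ^ 4 / 24 ≤ I →
          Real.log (corrRatio (fun z => β * φ z) r) ≤ curv (fun z => β * φ z) ^ 2 * I := by
    intro c hc0 hc
    have hm2 : 0 < (∫ z, p2 z ∂gaussianReal 0 1) ^ 2 := by
      have h0 : 0 ≤ ∫ z, p3 z ^ 2 ∂gaussianReal 0 1 := integral_nonneg fun z => sq_nonneg _
      by_contra hcon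
      nlinarith [mul_nonneg hc0 (neg_nonneg.2 (not_lt.1 hcon))]
    have hp2 : p2 = deriv (deriv φ) := by
      simp only [p2]; rw [iteratedDeriv_succ, iteratedDeriv_one]
    obtain ⟨β₁, hβ₁, hbc⟩ := blockConcave_smallBeta d1 d2 d3 b0 b1 b2 b3 hA1 fun ρ hρ => by
      have hev2 : ∀ z, p2 (-z) = p2 z := fun z => by rw [hp2]; exact deriv_of_even hev z
      have hm : Measurable p2 := c2.measurable
      rcases le_total 0 ρ with h | h
      · exact hm2.trans_le (corr2_ge_sq_mean hm b2 ⟨h, hρ.2⟩)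
      · rw [← neg_neg ρ, corr2_neg hm hev2]
        exact hm2.trans_le (corr2_ge_sq_mean hm b2 ⟨by linarith, by linarith [hρ.1]⟩)
    have hcont : ContinuousAt (fun β => c * (∫ z, u2 β z ∂gaussianReal 0 1) ^ 2 -
        ∫ z, u3 β z ^ 2 ∂gaussianReal 0 1) 0 := by
      have hnear : ∀ᶠ β in 𝓝 (0 : ℝ), |β| ≤ 1 :=
        (continuous_abs.tendsto' (0 : ℝ) 0 abs_zero).eventually (ge_mem_nhds one_pos)
      refine (((continuousAt_of_dominated (bound := fun _ => B)
        (Eventually.of_forall fun β => (by simp only [hu2]; fun_prop : Continuous (u2 β)).aestronglyMeasurable)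
        (hnear.mono fun β hβ => Eventually.of_forall fun z => (hbnd β z hβ).2.2.1) (integrable_const _)
        (Eventually.of_forall fun z => by simp only [hu2]; fun_prop)).pow 2).const_mul c).sub
        (continuousAt_of_dominated (bound := fun _ => B ^ 2)
        (Eventually.of_forall fun β => (by simp only [hu3]; fun_prop :
          Continuous fun z => u3 β z ^ 2).aestronglyMeasurable)
        (hnear.mono fun β hβ => Eventually.of_forall fun z => ?_) (integrable_const _)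
        (Eventually.of_forall fun z => by simp only [hu3]; fun_prop))
      rw [Real.norm_eq_abs, abs_pow]
      exact pow_le_pow_left₀ (abs_nonneg _) (hbnd β z hβ).2.2.2.1 2
    have hpos0 : 0 < c * (∫ z, u2 0 z ∂gaussianReal 0 1) ^ 2 -
        ∫ z, u3 0 z ^ 2 ∂gaussianReal 0 1 := by
      simp only [hu2, hu3, zero_mul, mul_zero, zero_pow (by norm_num : 2 ≠ 0), add_zero, Real.exp_zero,
        mul_one]
      linarith
    obtain ⟨ε, hε, hev'⟩ := Metric.eventually_nhds_iff.1 (hcont.eventually (lt_mem_nhds hpos0))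
    refine ⟨min (min β₁ 1) (ε / 2), by positivity, fun β hβ => ?_⟩
    have hβ1 : |β| ≤ 1 := hβ.trans ((min_le_left _ _).trans (min_le_right _ _))
    obtain ⟨hu, hcv⟩ := hbc β (hβ.trans ((min_le_left _ _).trans (min_le_left _ _)))
    refine ⟨⟨_, hu⟩, hcv, fun r hr I hI => ?_⟩
    obtain ⟨C0, C1, C2, C3⟩ := hC β hβ1
    refine log_corrRatio_le_of_even hu.meas hu.bound C0 C1 C2 C3 (fun x => by rw [hev]) ?_ hr hI
    have h := hev' (y := β) (by
      rw [Real.dist_eq, sub_zero]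
      linarith [hβ.trans (min_le_right _ _)])
    simp only [mul_pow, integral_const_mul]
    have := mul_le_mul_of_nonneg_left (sub_pos.1 h).le (sq_nonneg β)
    linarith
  refine ⟨fun h2 => ?_, fun h6 => ?_⟩
  · obtain ⟨β₀, hβ₀, h⟩ := main 2 zero_le_two h2
    refine ⟨β₀, hβ₀, fun β hβ α hα => ?_⟩
    obtain ⟨⟨K, hu⟩, hcv, hlog⟩ := h β hβ
    exact sharp_ising hu hcv (fun x => by rw [hev]) (fun r hr => hlog r hr _
      (le_trans (le_of_eq (by ring)) (rateIsing_ge hr))) hα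
  · obtain ⟨β₀, hβ₀, h⟩ := main 6 (by norm_num) h6
    refine ⟨β₀, hβ₀, fun β hβ α hα => ?_⟩
    obtain ⟨⟨K, hu⟩, hcv, hlog⟩ := h β hβ
    exact sharp_sphere hu hcv (fun x => by rw [hev]) (fun r hr => hlog r (Set.Ioo_subset_Icc_self hr) _
      (le_trans (le_of_eq (by ring)) (rateSphere_ge hr))) hα

end Vale.Agent.P157
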